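import Mathlib

/-!
# R227 / ChainRule : chain rule for formal partial derivatives of substituted power series
-/

set_option autoImplicit false

noncomputable section

namespace Crest.Agent.R227

open MvPowerSeries Topology

section chain

variable {R : Type*} [CommRing R] {σ τ : Type*}

theorem pderiv_aeval [Fintype σ] (a : σ → MvPowerSeries τ R) (i : τ) (p : MvPolynomial σ R) :
    MvPowerSeries.pderiv R i (MvPolynomial.aeval a p) =
      ∑ j, MvPolynomial.aeval a (MvPolynomial.pderiv j p) * MvPowerSeries.pderiv R i (a j) := by
  classical
  induction p using MvPolynomial.induction_on with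
  | C r =>
    simp [MvPowerSeries.algebraMap_apply]
  | add p q hp hq =>
    simp only [map_add, hp, hq, add_mul, Finset.sum_add_distrib]
  | mul_X p k hp =>
    simp only [map_mul, MvPolynomial.aeval_X, Derivation.leibniz, smul_eq_mul, hp,
      MvPolynomial.pderiv_X, map_add]
    rw [Finset.mul_sum]
    have : ∀ j, (MvPolynomial.aeval a) p * (MvPolynomial.aeval a)
        (Pi.single (M := fun _ => MvPolynomial σ R) j 1 k) * (pderiv R i) (a j) +
        a k * (MvPolynomial.aeval a) ((MvPolynomial.pderiv j) p) * (pderiv R i) (a j)
        = (if j = k then (MvPolynomial.aeval a) p * (pderiv R i) (a k) else 0) +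
        a k * ((MvPolynomial.aeval a) ((MvPolynomial.pderiv j) p) * (pderiv R i) (a j)) := by
      intro j
      by_cases h : j = k
      · subst h; simp; ring
      · rw [Pi.single_eq_of_ne' h]; simp [h]; ring
    simp only [add_mul]
    rw [Finset.sum_congr rfl (fun j _ => this j), Finset.sum_add_distrib]
    simp

open scoped MvPowerSeries.WithPiTopology in
theorem continuous_pderiv [TopologicalSpace R] [DiscreteTopology R] (i : τ) :
    Continuous (MvPowerSeries.pderiv R i : MvPowerSeries τ R → MvPowerSeries τ R) := by
  refine continuous_pi fun d => ?_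
  have : (fun f : MvPowerSeries τ R => MvPowerSeries.pderiv R i f d) =
      fun f => coeff (d + Finsupp.single i 1) f * ((d i : R) + 1) := by
    funext f
    exact coeff_pderiv f d
  rw [this]
  exact (continuous_of_discreteTopology (f := fun x : R => x * (d i + 1))).comp
    (MvPowerSeries.WithPiTopology.continuous_coeff R _)

open scoped MvPowerSeries.WithPiTopology in
/-- Chain rule. -/
theorem pderiv_subst [Fintype σ] {a : σ → MvPowerSeries τ R} (ha : HasSubst a) (i : τ)
    (f : MvPowerSeries σ R) :
    MvPowerSeries.pderiv R i (MvPowerSeries.subst a f) =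
      ∑ j, MvPowerSeries.subst a (MvPowerSeries.pderiv R j f) *
        MvPowerSeries.pderiv R i (a j) := by
  classical
  let _ : UniformSpace R := ⊥
  have _ : DiscreteTopology R := ⟨rfl⟩
  have _ : DiscreteUniformity R := inferInstance
  have hcont1 : Continuous fun f : MvPowerSeries σ R =>
      MvPowerSeries.pderiv R i (MvPowerSeries.subst a f) :=
    (continuous_pderiv i).comp (MvPowerSeries.continuous_subst ha)
  have hcont2 : Continuous fun f : MvPowerSeries σ R =>
      ∑ j, MvPowerSeries.subst a (MvPowerSeries.pderiv R j f) *
        MvPowerSeries.pderiv R i (a j) := by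
    refine continuous_finsetSum _ fun j _ => ?_
    exact ((MvPowerSeries.continuous_subst ha).comp (continuous_pderiv j)).mul continuous_const
  have hdense : DenseRange (MvPolynomial.toMvPowerSeries (σ := σ) (R := R)) :=
    MvPolynomial.toMvPowerSeries_isDenseInducing.dense
  have := hdense.equalizer hcont1 hcont2 (by
    funext p
    simp only [Function.comp]
    rw [MvPowerSeries.subst_coe, pderiv_aeval]
    refine Finset.sum_congr rfl fun j _ => ?_
    rw [MvPowerSeries.pderiv_coe, MvPowerSeries.subst_coe])
  exact congrFun this f

/-- Chain rule for a one-variable power series. -/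
theorem pderiv_subst_one {a : MvPowerSeries τ R} (ha : PowerSeries.HasSubst a) (i : τ)
    (f : PowerSeries R) :
    MvPowerSeries.pderiv R i (PowerSeries.subst a f) =
      PowerSeries.subst a (PowerSeries.derivative R f) * MvPowerSeries.pderiv R i a := by
  have := pderiv_subst (R := R) (σ := Unit) (a := fun _ => a) ha.const i f
  rw [PowerSeries.subst_def, this]
  simp [PowerSeries.subst_def, PowerSeries.derivative]

end chain

end Crest.Agent.R227
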