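import Crest.Agent.R227.FG1
import Crest.Agent.R227.ChainRule

/-!
# R227 / FG2 : inverse homomorphisms, transport, Frobenius (task FG2)
-/

set_option autoImplicit false

noncomputable section

namespace Crest.Agent.R227

open Crest.LubinTate MvPowerSeries Topology

section formal

variable {R : Type*} [CommRing R] {τ : Type*}

/-- substitution into a one-variable series followed by substitution -/
theorem subst_psubst {υ : Type*} {h : MvPowerSeries τ R} (hh : constantCoeff h = 0)
    {g : τ → MvPowerSeries υ R} (hg : MvPowerSeries.HasSubst g) (φ : PowerSeries R) :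
    MvPowerSeries.subst g (PowerSeries.subst h φ) =
      PowerSeries.subst (MvPowerSeries.subst g h) φ := by
  rw [PowerSeries.subst_def, PowerSeries.subst_def]
  exact MvPowerSeries.subst_comp_subst_apply
    (PowerSeries.HasSubst.of_constantCoeff_zero hh).const hg φ

theorem ccPX : constantCoeff (PowerSeries.X : PowerSeries R) = 0 :=
  PowerSeries.constantCoeff_X

theorem ccX (i : Fin 2) : constantCoeff (X i : MvPowerSeries (Fin 2) R) = 0 := by simp

theorem psubst_psubst' {a : MvPowerSeries τ R} (ha : constantCoeff a = 0)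
    {φ ψ : PowerSeries R} (hφ : PowerSeries.constantCoeff φ = 0) :
    PowerSeries.subst (PowerSeries.subst a φ) ψ = PowerSeries.subst a (PowerSeries.subst φ ψ) := by
  rw [PowerSeries.subst_comp_subst_apply
    (PowerSeries.HasSubst.of_constantCoeff_zero' hφ) (PowerSeries.HasSubst.of_constantCoeff_zero ha)]

/-- A power series with zero constant coefficient and invertible linear coefficient has a
two-sided inverse under substitution. -/
theorem exists_sinv {φ : PowerSeries R} (h0 : PowerSeries.constantCoeff φ = 0)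
    (hu : IsUnit (PowerSeries.coeff 1 φ)) : ∃ ψ : PowerSeries R,
      PowerSeries.constantCoeff ψ = 0 ∧ IsUnit (PowerSeries.coeff 1 ψ) ∧
      PowerSeries.subst φ ψ = PowerSeries.X ∧ PowerSeries.subst ψ φ = PowerSeries.X := by
  refine ⟨φ.substInvOfIsUnit hu, ?_, ?_, ?_, ?_⟩
  · simp
  · simp
  · exact φ.subst_substInvOfIsUnit_left h0 hu
  · exact φ.subst_substInvOfIsUnit_right h0 hu

/-- a homomorphism with invertible linear coefficient is invertible -/
theorem IsFGHom.exists_inv {F G : FormalGroup R} {φ : PowerSeries R} (hφ : IsFGHom F G φ)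
    (hu : IsUnit (PowerSeries.coeff 1 φ)) : ∃ ψ : PowerSeries R, IsFGHom G F ψ ∧
      PowerSeries.subst φ ψ = PowerSeries.X ∧ PowerSeries.subst ψ φ = PowerSeries.X ∧
      IsUnit (PowerSeries.coeff 1 ψ) := by
  have h0 := hφ.1
  obtain ⟨ψ, hψ0, hψu, h1, h2⟩ := exists_sinv h0 hu
  refine ⟨ψ, ?_, h1, h2, hψu⟩
  rw [isFGHom_iff]
  refine ⟨hψ0, ?_⟩
  have e : ∀ a : MvPowerSeries (Fin 2) R, constantCoeff a = 0 →
      PowerSeries.subst (PowerSeries.subst a ψ) φ = a := by
    intro a ha
    rw [psubst_psubst' ha hψ0, h2, psubst_X ha]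
  have e' : ∀ a : MvPowerSeries (Fin 2) R, constantCoeff a = 0 →
      PowerSeries.subst (PowerSeries.subst a φ) ψ = a := by
    intro a ha
    rw [psubst_psubst' ha h0, h1, psubst_X ha]
  have hc := fun i => constantCoeff_psubst (ccX (R := R) i) hψ0
  conv_lhs => rw [← e (X 0) (ccX 0), ← e (X 1) (ccX 1)]
  rw [← IsFGHom.subst_fadd hφ _ _ (hc 0) (hc 1),
    e' _ (constantCoeff_fadd F _ _ (hc 0) (hc 1))]

/-- `f(X, 0)` and `f(0, Y)` see the linear coefficients. -/
theorem coeff_single_zero (f : MvPowerSeries (Fin 2) R) :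
    PowerSeries.coeff 1 (MvPowerSeries.subst ![(PowerSeries.X : PowerSeries R), 0] f :
      PowerSeries R) = MvPowerSeries.coeff (Finsupp.single 0 1) f := by
  rw [PowerSeries.coeff, coeff_subst, finsum_eq_single _ (Finsupp.single 0 1)]
  · simp
  · intro d hd
    by_cases hd₁ : d 1 = 0
    · by_cases hd₀ : d 0 = 0
      · simp [hd₀, hd₁]
      simp [hd₁, PowerSeries.coeff_X_pow]
      grind
    simp [hd₁]
  · exact HasSubst.X_zero

theorem coeff_single_one (f : MvPowerSeries (Fin 2) R) :
    PowerSeries.coeff 1 (MvPowerSeries.subst ![0, (PowerSeries.X : PowerSeries R)] f :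
      PowerSeries R) = MvPowerSeries.coeff (Finsupp.single 1 1) f := by
  rw [PowerSeries.coeff, coeff_subst, finsum_eq_single _ (Finsupp.single 1 1)]
  · simp
  · intro d hd
    by_cases hd₁ : d 0 = 0
    · by_cases hd₀ : d 1 = 0
      · simp [hd₀, hd₁]
      simp [hd₁, PowerSeries.coeff_X_pow]
      grind
    simp [hd₁]
  · exact HasSubst.zero_X

/-- transport of a law along an invertible series: `G(X,Y) = φ(F(φ⁻¹X, φ⁻¹Y))`. -/
theorem exists_conj (F : FormalGroup R) (φ : PowerSeries R)
    (h0 : PowerSeries.constantCoeff φ = 0) (hu : IsUnit (PowerSeries.coeff 1 φ)) :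
    ∃ G : FormalGroup R, IsFGHom F G φ := by
  obtain ⟨ψ, hψ0, hψu, h1, h2⟩ := exists_sinv h0 hu
  have hc := fun i => constantCoeff_psubst (ccX (R := R) i) hψ0
  set g : MvPowerSeries (Fin 2) R :=
    PowerSeries.subst (fadd F (PowerSeries.subst (X 0 : MvPowerSeries (Fin 2) R) ψ)
      (PowerSeries.subst (X 1 : MvPowerSeries (Fin 2) R) ψ)) φ with hg
  have key : ∀ {υ : Type} (a b : MvPowerSeries υ R), constantCoeff a = 0 →
      constantCoeff b = 0 → MvPowerSeries.subst ![a, b] g =
        PowerSeries.subst (fadd F (PowerSeries.subst a ψ) (PowerSeries.subst b ψ)) φ := by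
    intro υ a b ha hb
    have hab := hasSubst_pair ha hb
    rw [hg, subst_psubst (constantCoeff_fadd F _ _ (hc 0) (hc 1)) hab,
      subst_fadd F _ _ (hc 0) (hc 1) _ (by intro i; fin_cases i <;> simpa),
      subst_psubst (ccX 0) hab, subst_psubst (ccX 1) hab, MvPowerSeries.subst_X hab,
      MvPowerSeries.subst_X hab]
    rfl
  have hg0 : constantCoeff g = 0 :=
    constantCoeff_psubst (constantCoeff_fadd F _ _ (hc 0) (hc 1)) h0
  have hψx : ∀ {υ : Type} (a : MvPowerSeries υ R), constantCoeff a = 0 →
      PowerSeries.subst (PowerSeries.subst a φ) ψ = a := by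
    intro υ a ha
    rw [psubst_psubst' ha h0, h1, psubst_X ha]
  have hφx : ∀ {υ : Type} (a : MvPowerSeries υ R), constantCoeff a = 0 →
      PowerSeries.subst (PowerSeries.subst a ψ) φ = a := by
    intro υ a ha
    rw [psubst_psubst' ha hψ0, h2, psubst_X ha]
  have hz : ∀ {υ : Type}, PowerSeries.subst (0 : MvPowerSeries υ R) ψ = 0 := by
    intro υ
    exact PowerSeries.subst_zero_of_constantCoeff_zero hψ0
  let G : FormalGroup R :=
    { toPowerSeries := g
      zero_constantCoeff := hg0
      lin_coeff_X := by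
        rw [← coeff_single_zero, key _ _ ccPX (map_zero _), hz, fadd_zero F _
          (constantCoeff_psubst ccPX hψ0), hφx _ ccPX]
        exact PowerSeries.coeff_one_X
      lin_coeff_Y := by
        rw [← coeff_single_one, key _ _ (map_zero _) ccPX, hz, zero_fadd F _
          (constantCoeff_psubst ccPX hψ0), hφx _ ccPX]
        exact PowerSeries.coeff_one_X
      assoc := by
        have c3 : ∀ i : Fin 3, constantCoeff (X i : MvPowerSeries (Fin 3) R) = 0 := by simp
        have d3 := fun i => constantCoeff_psubst (c3 i) hψ0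
        have a01 := constantCoeff_fadd F _ _ (d3 0) (d3 1)
        have a12 := constantCoeff_fadd F _ _ (d3 1) (d3 2)
        rw [key _ _ (c3 0) (c3 1), key _ _ (c3 1) (c3 2),
          key _ _ (constantCoeff_psubst a01 h0) (c3 2),
          key _ _ (c3 0) (constantCoeff_psubst a12 h0), hψx _ a01, hψx _ a12,
          fadd_assoc F _ _ _ (d3 0) (d3 1) (d3 2)] }
  refine ⟨G, ?_⟩
  rw [isFGHom_iff]
  refine ⟨h0, ?_⟩
  have hc' := fun i => constantCoeff_psubst (ccX (R := R) i) h0
  change _ = MvPowerSeries.subst ![_, _] g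
  rw [key _ _ (hc' 0) (hc' 1), hψx _ (ccX 0), hψx _ (ccX 1)]

/-- the target of an invertible homomorphism is determined by the source -/
theorem IsFGHom.target_unique {F G G' : FormalGroup R} {φ : PowerSeries R}
    (h : IsFGHom F G φ) (h' : IsFGHom F G' φ) (hu : IsUnit (PowerSeries.coeff 1 φ)) :
    G = G' := by
  obtain ⟨ψ, hψ0, hψu, h1, h2⟩ := exists_sinv h.1 hu
  have e : ∀ a : MvPowerSeries (Fin 2) R, constantCoeff a = 0 →
      PowerSeries.subst (PowerSeries.subst a ψ) φ = a := by
    intro a ha
    rw [psubst_psubst' ha hψ0, h2, psubst_X ha]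
  have hc := fun i => constantCoeff_psubst (ccX (R := R) i) hψ0
  apply FormalGroup.ext
  rw [← fadd_X_X G, ← fadd_X_X G', ← e (X 0) (ccX 0), ← e (X 1) (ccX 1),
    ← IsFGHom.subst_fadd h _ _ (hc 0) (hc 1), ← IsFGHom.subst_fadd h' _ _ (hc 0) (hc 1)]

theorem isComm_of {G : FormalGroup R} (h : fadd G (X 0 : MvPowerSeries (Fin 2) R) (X 1) =
    fadd G (X 1) (X 0)) : G.IsComm := by
  constructor
  rw [fadd_X_X] at h
  exact h

theorem IsFGHom.isComm {F G : FormalGroup R} {φ : PowerSeries R} (h : IsFGHom F G φ)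
    (hu : IsUnit (PowerSeries.coeff 1 φ)) [F.IsComm] : G.IsComm := by
  obtain ⟨ψ, hψ0, hψu, h1, h2⟩ := exists_sinv h.1 hu
  have e : ∀ a : MvPowerSeries (Fin 2) R, constantCoeff a = 0 →
      PowerSeries.subst (PowerSeries.subst a ψ) φ = a := by
    intro a ha
    rw [psubst_psubst' ha hψ0, h2, psubst_X ha]
  have hc := fun i => constantCoeff_psubst (ccX (R := R) i) hψ0
  apply isComm_of
  rw [← e (X 0) (ccX 0), ← e (X 1) (ccX 1),
    ← IsFGHom.subst_fadd h _ _ (hc 0) (hc 1), ← IsFGHom.subst_fadd h _ _ (hc 1) (hc 0),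
    fadd_comm F _ _ (hc 0) (hc 1)]

theorem expand_eq_subst (q : ℕ) (hq : q ≠ 0) (f : MvPowerSeries (Fin 2) R) :
    MvPowerSeries.expand q hq f = MvPowerSeries.subst ![X 0 ^ q, X 1 ^ q] f := by
  have : (![X 0 ^ q, X 1 ^ q] : Fin 2 → MvPowerSeries (Fin 2) R) = fun i => X i ^ q := by
    funext i; fin_cases i <;> rfl
  rw [this, MvPowerSeries.expand, MvPowerSeries.substAlgHom_apply]

theorem expand_inj (q : ℕ) (hq : q ≠ 0) {f g : MvPowerSeries τ R}
    (h : MvPowerSeries.expand q hq f = MvPowerSeries.expand q hq g) : f = g := by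
  ext m
  rw [← MvPowerSeries.coeff_expand_smul q hq f m, h, MvPowerSeries.coeff_expand_smul]

/-- Frobenius is a homomorphism -/
theorem isFGHom_frob {p : ℕ} [Fact p.Prime] [CharP R p] (F : FormalGroup R) (k : ℕ) :
    IsFGHom F (F.map (iterateFrobenius R p k)) (PowerSeries.X ^ p ^ k) := by
  have hp : p ≠ 0 := (Fact.out : p.Prime).ne_zero
  have hpk : p ^ k ≠ 0 := pow_ne_zero _ hp
  refine ⟨by rw [map_pow, PowerSeries.constantCoeff_X, zero_pow hpk], ?_⟩
  have hF : PowerSeries.HasSubst F.toPowerSeries :=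
    PowerSeries.HasSubst.of_constantCoeff_zero F.zero_constantCoeff
  rw [PowerSeries.subst_pow hF, PowerSeries.subst_X hF,
    PowerSeries.subst_pow (PowerSeries.HasSubst.of_constantCoeff_zero (ccX 0)),
    PowerSeries.subst_pow (PowerSeries.HasSubst.of_constantCoeff_zero (ccX 1)),
    PowerSeries.subst_X (PowerSeries.HasSubst.of_constantCoeff_zero (ccX 0)),
    PowerSeries.subst_X (PowerSeries.HasSubst.of_constantCoeff_zero (ccX 1)),
    ← expand_eq_subst _ hpk, FormalGroup.map_toPowerSeries, ← MvPowerSeries.map_expand,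
    MvPowerSeries.map_iterateFrobenius_expand p hp]

theorem constantCoeff_subst_eq {σ : Type*} {a : σ → MvPowerSeries τ R}
    (ha : MvPowerSeries.HasSubst a) (ha' : ∀ i, constantCoeff (a i) = 0)
    (f : MvPowerSeries σ R) :
    constantCoeff (MvPowerSeries.subst a f) = constantCoeff f := by
  have h : f = C (constantCoeff f) + (f - C (constantCoeff f)) := by ring
  have h2 : constantCoeff (f - C (constantCoeff f)) = 0 := by simp
  conv_lhs => rw [h]
  rw [MvPowerSeries.subst_add ha, map_add,
    MvPowerSeries.constantCoeff_subst_eq_zero ha ha' h2, MvPowerSeries.subst_C]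
  simp

/-- A homomorphism with zero linear coefficient has zero derivative. -/
theorem IsFGHom.derivative_eq_zero {F G : FormalGroup R}
    {φ : PowerSeries R} (hφ : IsFGHom F G φ) (h1 : PowerSeries.coeff 1 φ = 0) :
    PowerSeries.derivative R φ = 0 := by
  have hF : PowerSeries.HasSubst F.toPowerSeries :=
    PowerSeries.HasSubst.of_constantCoeff_zero F.zero_constantCoeff
  have hX := fun i => PowerSeries.HasSubst.of_constantCoeff_zero (ccX (R := R) i)
  have hc := fun i => constantCoeff_psubst (ccX (R := R) i) hφ.1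
  have hpair := hasSubst_pair (hc 0) (hc 1)
  have e := congrArg (MvPowerSeries.pderiv R (1 : Fin 2)) hφ.2
  rw [pderiv_subst_one hF, pderiv_subst hpair] at e
  simp only [Fin.sum_univ_two, Matrix.cons_val_zero, Matrix.cons_val_one,
    Matrix.cons_val_fin_one, pderiv_subst_one (hX 0), pderiv_subst_one (hX 1),
    MvPowerSeries.pderiv_X_self, mul_one] at e
  rw [MvPowerSeries.pderiv_X_of_ne (by decide), mul_zero, mul_zero, zero_add] at e
  -- put `Y = 0`
  have hX0 : MvPowerSeries.HasSubst ![(PowerSeries.X : PowerSeries R), 0] :=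
    hasSubst_pair ccPX (map_zero _)
  have e2 := congrArg (MvPowerSeries.subst ![(PowerSeries.X : PowerSeries R), 0]) e
  rw [MvPowerSeries.subst_mul hX0, MvPowerSeries.subst_mul hX0,
    subst_psubst F.zero_constantCoeff hX0, subst_psubst (ccX 1) hX0,
    MvPowerSeries.subst_X hX0] at e2
  have hz : PowerSeries.subst ((![(PowerSeries.X : PowerSeries R), 0] : Fin 2 → _) 1)
      (PowerSeries.derivative R φ) = 0 := by
    change PowerSeries.subst (0 : MvPowerSeries Unit R) _ = 0
    have : PowerSeries.constantCoeff (PowerSeries.derivative R φ) = 0 := by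
      rw [← PowerSeries.coeff_zero_eq_constantCoeff_apply, PowerSeries.coeff_derivative]
      simp [h1]
    exact PowerSeries.subst_zero_of_constantCoeff_zero this
  rw [hz, mul_zero] at e2
  have hFX : MvPowerSeries.subst ![(PowerSeries.X : PowerSeries R), 0] F.toPowerSeries =
      PowerSeries.X := F.Xzero_eq_X
  rw [hFX, PowerSeries.X_subst] at e2
  have hunit : IsUnit (MvPowerSeries.subst ![(PowerSeries.X : PowerSeries R), 0]
      (MvPowerSeries.pderiv R 1 F.toPowerSeries) : PowerSeries R) := by
    rw [PowerSeries.isUnit_iff_constantCoeff]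
    have : PowerSeries.constantCoeff (MvPowerSeries.subst ![(PowerSeries.X : PowerSeries R), 0]
      (MvPowerSeries.pderiv R 1 F.toPowerSeries) : PowerSeries R) = 1 := by
      change MvPowerSeries.constantCoeff _ = 1
      rw [constantCoeff_subst_eq hX0 (by intro i; fin_cases i <;> simp [ccPX])]
      rw [← MvPowerSeries.coeff_zero_eq_constantCoeff_apply, MvPowerSeries.coeff_pderiv, zero_add,
        F.lin_coeff_Y]
      simp
    rw [this]
    exact isUnit_one
  exact (hunit.mul_left_eq_zero).1 e2

/-- In characteristic `p` a homomorphism with zero linear coefficient is a series in `X^p`, and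
the quotient is a homomorphism `F^{(p)} → G`. -/
theorem IsFGHom.exists_frob {p : ℕ} [Fact p.Prime] [CharP R p] {F G : FormalGroup R}
    {φ : PowerSeries R} (hφ : IsFGHom F G φ) (h1 : PowerSeries.coeff 1 φ = 0) :
    ∃ ψ : PowerSeries R, IsFGHom (F.map (frobenius R p)) G ψ ∧
      φ = PowerSeries.subst (PowerSeries.X ^ p : PowerSeries R) ψ := by
  have hp : p ≠ 0 := (Fact.out : p.Prime).ne_zero
  have hd := IsFGHom.derivative_eq_zero hφ h1
  set ψ : PowerSeries R := PowerSeries.mk fun n => PowerSeries.coeff (p * n) φ with hψ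
  have hφψ : φ = PowerSeries.subst (PowerSeries.X ^ p : PowerSeries R) ψ := by
    rw [← PowerSeries.expand_apply p hp]
    ext n
    rw [PowerSeries.coeff_expand]
    split_ifs with h
    · obtain ⟨m, rfl⟩ := h
      rw [Nat.mul_div_cancel_left _ (Nat.pos_of_ne_zero hp), hψ, PowerSeries.coeff_mk]
    · rcases n with _ | n
      · exact absurd (dvd_zero p) h
      have := congrArg (PowerSeries.coeff n) hd
      rw [PowerSeries.coeff_derivative, map_zero] at this
      have hu : IsUnit (((n + 1 : ℕ) : R)) :=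
        (CharP.isUnit_natCast_iff (Fact.out : p.Prime)).2 h
      have h2 : (PowerSeries.coeff (n + 1) φ) * ((n + 1 : ℕ) : R) = 0 := by
        push_cast; exact this
      exact (hu.mul_left_eq_zero).1 h2
  have hψ0 : PowerSeries.constantCoeff ψ = 0 := by
    rw [← PowerSeries.coeff_zero_eq_constantCoeff_apply, hψ, PowerSeries.coeff_mk, mul_zero,
      PowerSeries.coeff_zero_eq_constantCoeff_apply, hφ.1]
  refine ⟨ψ, ⟨hψ0, ?_⟩, hφψ⟩
  have hF : PowerSeries.HasSubst F.toPowerSeries :=
    PowerSeries.HasSubst.of_constantCoeff_zero F.zero_constantCoeff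
  have hF' : PowerSeries.HasSubst (F.map (frobenius R p)).toPowerSeries :=
    PowerSeries.HasSubst.of_constantCoeff_zero (F.map (frobenius R p)).zero_constantCoeff
  have hX := fun i => PowerSeries.HasSubst.of_constantCoeff_zero (ccX (R := R) i)
  apply expand_inj p hp
  have hXp : PowerSeries.HasSubst (PowerSeries.X ^ p : PowerSeries R) :=
    PowerSeries.HasSubst.X_pow hp
  have hc := fun i => constantCoeff_psubst (ccX (R := R) i) hψ0
  have key : ∀ i, MvPowerSeries.expand p hp (PowerSeries.subst (X i : MvPowerSeries (Fin 2) R) ψ)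
      = PowerSeries.subst (X i : MvPowerSeries (Fin 2) R) φ := by
    intro i
    have : MvPowerSeries.expand p hp (X i : MvPowerSeries (Fin 2) R) =
        PowerSeries.subst (X i : MvPowerSeries (Fin 2) R) (PowerSeries.X ^ p : PowerSeries R) := by
      rw [MvPowerSeries.expand_X, PowerSeries.subst_pow (hX i), PowerSeries.subst_X (hX i)]
    rw [MvPowerSeries.expand, MvPowerSeries.substAlgHom_apply] at this ⊢
    rw [subst_psubst (ccX i) (HasSubst.X_pow hp), this,
      ← PowerSeries.subst_comp_subst_apply hXp (hX i), ← hφψ]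
  have hL : MvPowerSeries.expand p hp
      (PowerSeries.subst (F.map (frobenius R p)).toPowerSeries ψ) =
      PowerSeries.subst F.toPowerSeries φ := by
    rw [MvPowerSeries.expand, MvPowerSeries.substAlgHom_apply,
      subst_psubst (F.map (frobenius R p)).zero_constantCoeff (HasSubst.X_pow hp)]
    have h3 : MvPowerSeries.subst (fun i => X i ^ p) (F.map (frobenius R p)).toPowerSeries =
        PowerSeries.subst F.toPowerSeries (PowerSeries.X ^ p : PowerSeries R) := by
      rw [PowerSeries.subst_pow hF, PowerSeries.subst_X hF, FormalGroup.map_toPowerSeries,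
        ← MvPowerSeries.map_frobenius_expand p hp, MvPowerSeries.map_expand,
        MvPowerSeries.expand, MvPowerSeries.substAlgHom_apply]
    rw [h3, ← PowerSeries.subst_comp_subst_apply hXp hF, ← hφψ]
  rw [hL, hφ.2, ← key 0, ← key 1, MvPowerSeries.expand_subst p hp
    (hasSubst_pair (hc 0) (hc 1))]
  congr 1
  funext i
  fin_cases i <;> rfl

end formal

end Crest.Agent.R227
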