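import Crest.Agent.R227.Defs

/-!
# R227 / Ball : the unit ball of an ultrametric field (task BALL)
-/

set_option autoImplicit false

noncomputable section

namespace Crest.Agent.R227

open MvPowerSeries Topology

/-! ## The unit ball -/

/-- The unit ball of an ultrametric normed field. -/
def Ob (K : Type*) [NormedField K] [IsUltrametricDist K] : Subring K where
  carrier := {x | ‖x‖ ≤ 1}
  mul_mem' := by
    intro a b ha hb
    simp only [Set.mem_ofPred_eq, norm_mul] at *
    exact mul_le_one₀ ha (norm_nonneg _) hb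
  one_mem' := by simp
  add_mem' := by
    intro a b ha hb
    simp only [Set.mem_ofPred_eq] at *
    exact (IsUltrametricDist.norm_add_le_max a b).trans (max_le ha hb)
  zero_mem' := by simp
  neg_mem' := by intro a ha; simpa using ha

section ball

variable {K : Type*} [NormedField K] [IsUltrametricDist K]

@[simp] theorem mem_Ob (x : K) : x ∈ Ob K ↔ ‖x‖ ≤ 1 := Iff.rfl

/-- the open ball ideal of radius `ε` -/
def ObBall (K : Type*) [NormedField K] [IsUltrametricDist K] (ε : ℝ) (hε : 0 < ε) : Ideal (Ob K) where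
  carrier := {x | ‖(x : K)‖ < ε}
  add_mem' := by
    intro a b ha hb
    simp only [Set.mem_ofPred_eq, Subring.coe_add] at *
    exact (IsUltrametricDist.norm_add_le_max _ _).trans_lt (max_lt ha hb)
  zero_mem' := by simpa using hε
  smul_mem' := by
    intro c x hx
    simp only [Set.mem_ofPred_eq, smul_eq_mul, Subring.coe_mul, norm_mul] at *
    have hc : ‖(c : K)‖ ≤ 1 := c.2
    calc ‖(c : K)‖ * ‖(x : K)‖ ≤ 1 * ‖(x : K)‖ := by gcongr
      _ = ‖(x : K)‖ := one_mul _
      _ < ε := hx

theorem hasBasis_ObBall : (𝓝 (0 : Ob K)).HasBasis (fun ε : ℝ => 0 < ε)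
    (fun ε => {x : Ob K | ‖(x : K)‖ < ε}) := by
  have h := Metric.nhds_basis_ball (x := (0 : Ob K))
  refine h.congr (fun _ => Iff.rfl) ?_
  intro ε hε
  ext x
  rw [Metric.mem_ball, dist_zero_right]
  rfl

instance : IsLinearTopology (Ob K) (Ob K) := by
  refine IsLinearTopology.mk_of_hasBasis (Ob K) (ι := {ε : ℝ // 0 < ε}) (p := fun _ => True)
    (s := fun ε => ObBall K ε.1 ε.2) ?_
  refine hasBasis_ObBall.to_hasBasis ?_ ?_
  · intro ε hε
    exact ⟨⟨ε, hε⟩, trivial, fun x hx => hx⟩
  · intro ε _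
    exact ⟨ε.1, ε.2, fun x hx => hx⟩

theorem isClosed_Ob : IsClosed (Ob K : Set K) := by
  have : (Ob K : Set K) = {x | ‖x‖ ≤ 1} := rfl
  rw [this]
  exact isClosed_le continuous_norm continuous_const

instance [CompleteSpace K] : CompleteSpace (Ob K) :=
  (isClosed_Ob (K := K)).completeSpace_coe

instance (p : ℕ) [CharP K p] : CharP (Ob K) p := inferInstance

instance (p : ℕ) [Fact p.Prime] [CharP K p] [PerfectRing K p] : PerfectRing (Ob K) p where
  bijective_frobenius := by
    have hp : p ≠ 0 := (Fact.out : p.Prime).ne_zero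
    constructor
    · intro a b hab
      apply Subtype.ext
      apply (PerfectRing.bijective_frobenius (R := K) (p := p)).1
      simpa using congrArg (Subtype.val) hab
    · intro b
      obtain ⟨a, ha⟩ := (PerfectRing.bijective_frobenius (R := K) (p := p)).2 (b : K)
      have ha' : a ^ p = (b : K) := ha
      refine ⟨⟨a, ?_⟩, Subtype.ext ?_⟩
      · have h1 : ‖a‖ ^ p ≤ 1 := by
          rw [← norm_pow, ha']; exact b.2
        exact (pow_le_one_iff_of_nonneg (norm_nonneg _) hp).1 h1
      · simpa using ha'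

theorem Ob_isUnit_iff (x : Ob K) : IsUnit x ↔ ‖x‖ = 1 := by
  change IsUnit x ↔ ‖(x : K)‖ = 1
  constructor
  · rintro ⟨u, rfl⟩
    have h1 : ‖((u : Ob K) : K)‖ * ‖((u⁻¹ : (Ob K)ˣ) : Ob K).1‖ = 1 := by
      rw [← norm_mul, ← Subring.coe_mul, Units.mul_inv]; simp
    have h2 : ‖((u : Ob K) : K)‖ ≤ 1 := (u : Ob K).2
    have h3 : ‖((u⁻¹ : (Ob K)ˣ) : Ob K).1‖ ≤ 1 := ((u⁻¹ : (Ob K)ˣ) : Ob K).2
    apply le_antisymm h2
    calc (1 : ℝ) = ‖((u : Ob K) : K)‖ * ‖((u⁻¹ : (Ob K)ˣ) : Ob K).1‖ := h1.symm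
      _ ≤ ‖((u : Ob K) : K)‖ * 1 := by gcongr
      _ = _ := mul_one _
  · intro h
    have hx0 : (x : K) ≠ 0 := by
      intro h0; rw [h0] at h; simp at h
    refine IsUnit.of_mul_eq_one ⟨(x : K)⁻¹, ?_⟩ ?_
    · simp [h]
    · apply Subtype.ext; simp [hx0]

theorem Ob_tn_iff (x : Ob K) : IsTopologicallyNilpotent x ↔ ‖x‖ < 1 := by
  unfold IsTopologicallyNilpotent
  rw [← tendsto_pow_atTop_nhds_zero_iff_norm_lt_one]

/-- over an algebraically closed field, monic polynomials over the ball have roots in the ball -/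
theorem Ob_exists_root [IsAlgClosed K] (P : Polynomial (Ob K)) (hP : P.Monic)
    (hd : P.natDegree ≠ 0) : ∃ x : Ob K, P.eval x = 0 := by
  have hdeg : (P.map (Ob K).subtype).degree ≠ 0 := by
    rw [hP.degree_map]
    intro h
    exact hd (Polynomial.natDegree_eq_of_degree_eq_some h)
  obtain ⟨a, ha⟩ := IsAlgClosed.exists_root (P.map (Ob K).subtype) hdeg
  have ha' : Polynomial.eval₂ (Ob K).subtype a P = 0 := by
    rwa [Polynomial.IsRoot.def, Polynomial.eval_map] at ha
  have hnorm : ‖a‖ ≤ 1 := by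
    by_contra hlt
    push Not at hlt
    have hpow : a ^ P.natDegree = - ∑ i ∈ Finset.range P.natDegree, (P.coeff i : K) * a ^ i := by
      rw [Polynomial.eval₂_eq_sum_range, Finset.sum_range_succ, Polynomial.Monic.coeff_natDegree hP]
        at ha'
      simp only [Subring.subtype_apply, Subring.coe_one, one_mul] at ha'
      rw [eq_neg_iff_add_eq_zero, add_comm]
      exact ha'
    have h1 : ‖a‖ ^ P.natDegree ≤ ‖a‖ ^ (P.natDegree - 1) := by
      rw [← norm_pow, hpow, norm_neg]
      refine IsUltrametricDist.norm_sum_le_of_forall_le_of_nonneg (by positivity) ?_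
      intro i hi
      rw [norm_mul, norm_pow]
      calc ‖(P.coeff i : K)‖ * ‖a‖ ^ i ≤ 1 * ‖a‖ ^ (P.natDegree - 1) := by
            gcongr
            · exact (P.coeff i).2
            · exact hlt.le
            · have := Finset.mem_range.1 hi; omega
        _ = _ := one_mul _
    have h2 : ‖a‖ ^ (P.natDegree - 1) < ‖a‖ ^ P.natDegree :=
      pow_lt_pow_right₀ hlt (by omega)
    exact absurd h1 (not_le.2 h2)
  refine ⟨⟨a, hnorm⟩, Subtype.ext ?_⟩
  have := Polynomial.eval₂_at_apply (p := P) (Ob K).subtype (⟨a, hnorm⟩ : Ob K)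
  simp only [Subring.subtype_apply] at this
  rw [← this]
  exact ha'

end ball

end Crest.Agent.R227
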