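import Crest.Agent.R227.IFT

/-!
# R227 / Newton : division by `X - α`, Newton expansion, linear parts
-/

set_option autoImplicit false

noncomputable section

namespace Crest.Agent.R227

open MvPowerSeries Topology

section newton

variable {S : Type*} [CommRing S] [UniformSpace S] [IsUniformAddGroup S] [IsTopologicalRing S]
  [IsLinearTopology S S] [CompleteSpace S] [T2Space S]

/-- `f(X) = f(α) + (X - α) g(X)` -/
theorem div_step {α : S} (hα : IsTopologicallyNilpotent α) (f : PowerSeries S) :
    ∃ g : PowerSeries S, f = PowerSeries.C (ev₁ α f) + (PowerSeries.X - PowerSeries.C α) * g := by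
  have h1 : ∀ _ : Unit, IsTopologicallyNilpotent α := fun _ => hα
  set sh : ℕ → PowerSeries S := fun m => PowerSeries.mk fun k => PowerSeries.coeff (m + k) f
    with hsh
  have hrec : ∀ m, sh m = PowerSeries.C (PowerSeries.coeff m f) + PowerSeries.X * sh (m + 1) := by
    intro m
    ext k
    rcases k with _ | k
    · simp [hsh]
    · rw [map_add, PowerSeries.coeff_succ_X_mul, PowerSeries.coeff_succ_C, zero_add, hsh]
      simp only [PowerSeries.coeff_mk]
      congr 2
      ring
  have hev : ∀ m, ev₁ α (sh m) = PowerSeries.coeff m f + α * ev₁ α (sh (m + 1)) := by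
    intro m
    conv_lhs => rw [hrec m]
    have e1 := ev_add h1 (PowerSeries.C (PowerSeries.coeff m f) : PowerSeries S)
      (PowerSeries.X * sh (m + 1))
    have e2 := ev_mul h1 (PowerSeries.X : PowerSeries S) (sh (m + 1))
    have e3 : ev (fun _ : Unit => α) (PowerSeries.X : PowerSeries S) = α := ev_X h1 ()
    have e4 : ev (fun _ : Unit => α) (PowerSeries.C (PowerSeries.coeff m f) : PowerSeries S) =
      PowerSeries.coeff m f := ev_C h1 _
    refine e1.trans ?_
    refine congrArg₂ (· + ·) e4 (e2.trans ?_)
    exact congrArg₂ (· * ·) e3 rfl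
  have hsh0 : sh 0 = f := by
    ext k
    simp [hsh]
  refine ⟨PowerSeries.mk fun m => ev₁ α (sh (m + 1)), ?_⟩
  ext m
  rcases m with _ | m
  · have e := hev 0
    rw [hsh0] at e
    rw [map_add, sub_mul, map_sub, PowerSeries.coeff_zero_X_mul, PowerSeries.coeff_C_mul,
      PowerSeries.coeff_mk, PowerSeries.coeff_zero_C, e]
    ring
  · rw [map_add, sub_mul, map_sub, PowerSeries.coeff_succ_X_mul, PowerSeries.coeff_C_mul,
      PowerSeries.coeff_mk, PowerSeries.coeff_mk, PowerSeries.coeff_succ_C, hev (m + 1)]
    ring

/-- **Newton expansion** of a power series at topologically nilpotent nodes. -/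
theorem exists_newton (α : ℕ → S) (hα : ∀ t, IsTopologicallyNilpotent (α t))
    (f : PowerSeries S) : ∃ (c : ℕ → S), ∀ N, ∃ g : PowerSeries S,
      f = ∑ t ∈ Finset.range N, PowerSeries.C (c t) *
          ∏ s ∈ Finset.range t, (PowerSeries.X - PowerSeries.C (α s)) +
        (∏ s ∈ Finset.range N, (PowerSeries.X - PowerSeries.C (α s))) * g := by
  choose! q hq using fun (t : ℕ) (f : PowerSeries S) => div_step (hα t) f
  let G : ℕ → PowerSeries S := fun t => Nat.rec f (fun t g => q t g) t
  refine ⟨fun t => ev₁ (α t) (G t), fun N => ⟨G N, ?_⟩⟩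
  induction N with
  | zero => simp [G]
  | succ N ih =>
    rw [Finset.sum_range_succ, Finset.prod_range_succ]
    have h1 : G N = PowerSeries.C (ev₁ (α N) (G N)) +
      (PowerSeries.X - PowerSeries.C (α N)) * G (N + 1) := hq N (G N)
    conv_lhs => rw [ih, h1]
    ring

/-- the Newton coefficients vanish when the nodes are distinct roots -/
theorem newton_coeff_eq_zero [IsDomain S] (N : ℕ) (b : ℕ → S)
    (hb : ∀ t, IsTopologicallyNilpotent (b t)) (hinj : ∀ s < N, ∀ t < N, b s = b t → s = t)
    (f : PowerSeries S) (c : ℕ → S) (g : PowerSeries S)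
    (hroot : ∀ t < N, ev₁ (b t) f = 0)
    (hf : f = ∑ t ∈ Finset.range N, PowerSeries.C (c t) *
          ∏ s ∈ Finset.range t, (PowerSeries.X - PowerSeries.C (b s)) +
        (∏ s ∈ Finset.range N, (PowerSeries.X - PowerSeries.C (b s))) * g) :
    ∀ t < N, c t = 0 := by
  intro t
  induction t using Nat.strong_induction_on with
  | _ t ih =>
    intro ht
    have h1 : ∀ _ : Unit, IsTopologicallyNilpotent (b t) := fun _ => hb t
    have hprod : ∀ M, evHom h1 (∏ s ∈ Finset.range M, (PowerSeries.X - PowerSeries.C (b s)) :
        PowerSeries S) = ∏ s ∈ Finset.range M, (b t - b s) := by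
      intro M
      have e0 : ∀ s, evHom h1 ((PowerSeries.X - PowerSeries.C (b s) : PowerSeries S)) =
          b t - b s := by
        intro s
        have e1 := map_sub (evHom h1) (PowerSeries.X : PowerSeries S) (PowerSeries.C (b s))
        have e3 : evHom h1 (PowerSeries.X : PowerSeries S) = b t := by
          rw [evHom_apply]; exact ev_X h1 ()
        have e4 : evHom h1 (PowerSeries.C (b s) : PowerSeries S) = b s := by
          rw [evHom_apply]; exact ev_C h1 _
        rw [e3, e4] at e1
        exact e1
      have e2 := map_prod (evHom h1) (fun s => (PowerSeries.X - PowerSeries.C (b s) :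
        PowerSeries S)) (Finset.range M)
      refine e2.trans (Finset.prod_congr rfl fun s _ => e0 s)
    have h0 : evHom h1 f = 0 := by
      rw [evHom_apply]; exact hroot t ht
    have hC : ∀ a : S, evHom h1 (PowerSeries.C a : PowerSeries S) = a := by
      intro a
      rw [evHom_apply]; exact ev_C h1 _
    have h2 : evHom h1 f = ∑ s ∈ Finset.range N, c s * ∏ s' ∈ Finset.range s, (b t - b s') +
        (∏ s ∈ Finset.range N, (b t - b s)) * evHom h1 g := by
      have e := congrArg (evHom h1) hf
      refine e.trans ?_
      have e1 := map_add (evHom h1) (∑ t ∈ Finset.range N, PowerSeries.C (c t) *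
          ∏ s ∈ Finset.range t, (PowerSeries.X - PowerSeries.C (b s)) : PowerSeries S)
          ((∏ s ∈ Finset.range N, (PowerSeries.X - PowerSeries.C (b s))) * g)
      refine e1.trans ?_
      have e2 := map_mul (evHom h1) (∏ s ∈ Finset.range N, (PowerSeries.X - PowerSeries.C (b s)) :
        PowerSeries S) g
      have e3 := map_sum (evHom h1) (fun t => (PowerSeries.C (c t) *
          ∏ s ∈ Finset.range t, (PowerSeries.X - PowerSeries.C (b s)) : PowerSeries S))
          (Finset.range N)
      rw [e2, e3, hprod]
      congr 1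
      refine Finset.sum_congr rfl fun s _ => ?_
      have e4 := map_mul (evHom h1) (PowerSeries.C (c s) : PowerSeries S)
        (∏ s' ∈ Finset.range s, (PowerSeries.X - PowerSeries.C (b s')))
      rw [e4, hC, hprod]
    rw [h0, Finset.prod_eq_zero (Finset.mem_range.2 ht) (sub_self _), zero_mul, add_zero,
      Finset.sum_eq_single t] at h2
    · rcases mul_eq_zero.1 h2.symm with h3 | h3
      · exact h3
      · exfalso
        rw [Finset.prod_eq_zero_iff] at h3
        obtain ⟨s, hs, hs'⟩ := h3
        rw [Finset.mem_range] at hs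
        have := hinj t ht s (by omega) (sub_eq_zero.1 hs')
        omega
    · intro s hs hst
      rw [Finset.mem_range] at hs
      rcases Nat.lt_or_ge s t with h | h
      · rw [ih s h hs, zero_mul]
      · rw [Finset.prod_eq_zero (Finset.mem_range.2 (show t < s by omega)) (sub_self _), mul_zero]
    · intro h
      exact absurd (Finset.mem_range.2 ht) h

end newton

/-- if the nodes are all zero, the Newton coefficients are the coefficients -/
theorem newton_coeff_zero_nodes {S : Type*} [CommRing S] (N : ℕ)
    (f : PowerSeries S) (c : ℕ → S) (g : PowerSeries S)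
    (hf : f = ∑ t ∈ Finset.range N, PowerSeries.C (c t) *
          ∏ _s ∈ Finset.range t, (PowerSeries.X - PowerSeries.C (0 : S)) +
        (∏ _s ∈ Finset.range N, (PowerSeries.X - PowerSeries.C (0 : S))) * g) :
    ∀ t < N, PowerSeries.coeff t f = c t := by
  intro t ht
  simp only [map_zero, sub_zero, Finset.prod_const, Finset.card_range] at hf
  rw [hf, map_add, map_sum, Finset.sum_eq_single t]
  · rw [PowerSeries.coeff_C_mul, PowerSeries.coeff_X_pow_self, mul_one,
      PowerSeries.coeff_X_pow_mul', if_neg (by omega), add_zero]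
  · intro s _ hs
    rw [PowerSeries.coeff_C_mul, PowerSeries.coeff_X_pow, if_neg (by omega), mul_zero]
  · intro h
    exact absurd (Finset.mem_range.2 ht) h

section linear

open scoped MvPowerSeries.WithPiTopology

variable {k : Type*} [CommRing k] {σ τ : Type*} [Finite σ] [Finite τ]

omit [Finite σ] [Finite τ] in
theorem tn_elim_zero [UniformSpace k] [DiscreteUniformity k] :
    ∀ i, IsTopologicallyNilpotent (Sum.elim (X : σ → MvPowerSeries σ k)
      (fun _ : τ => (0 : MvPowerSeries σ k)) i) := by
  rintro (i | i)
  · exact tn_of_const (constantCoeff_X i)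
  · exact tn_of_const (map_zero _)

/-- linear part of the specialisation `Z = 0` -/
theorem evA_elim_zero_sub_mem [UniformSpace k] [DiscreteUniformity k]
    (f : MvPowerSeries (σ ⊕ τ) k) (j : σ) :
    constantCoeff (evA (C : k →+* MvPowerSeries σ k) (tn_elim_zero (k := k) (σ := σ) (τ := τ)) f) =
      constantCoeff f ∧
    coeff (Finsupp.single j 1)
      (evA (C : k →+* MvPowerSeries σ k) (tn_elim_zero (k := k) (σ := σ) (τ := τ)) f) =
      coeff (Finsupp.single (Sum.inl j) 1) f := by
  classical
  have := Fintype.ofFinite σ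
  have := Fintype.ofFinite τ
  set e := evA (C : k →+* MvPowerSeries σ k) (tn_elim_zero (k := k) (σ := σ) (τ := τ)) with he
  have heX : ∀ i : σ, e (X (Sum.inl i)) = X i := fun i => evA_X _ _ _
  have heZ : ∀ i : τ, e (X (Sum.inr i)) = 0 := fun i => evA_X _ _ _
  have heC : ∀ c : k, e (C c) = C c := fun c => evA_C _ _ _
  set f' : MvPowerSeries (σ ⊕ τ) k := f - C (constantCoeff f) -
    ∑ i : σ, C (coeff (Finsupp.single (Sum.inl i) 1) f) * X (Sum.inl i) with hf'
  obtain ⟨A, B, hAB⟩ := exists_decomp_quad f' (by
      simp [hf']) (by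
      intro i
      rw [hf', map_sub, map_sub, map_sum, coeff_C, if_neg (by simp), sub_zero,
        Finset.sum_eq_single i]
      · rw [coeff_C_mul, ift_aux, if_pos rfl, mul_one, sub_self]
      · intro b _ hb
        rw [coeff_C_mul, ift_aux, if_neg (Ne.symm hb), mul_zero]
      · intro h
        exact absurd (Finset.mem_univ _) h)
  have h1 : e f' ∈ ordIdeal σ k 2 := by
    rw [hAB, map_add, map_sum, map_sum]
    refine Ideal.add_mem _ (Ideal.sum_mem _ fun l _ => ?_) (Ideal.sum_mem _ fun q _ => ?_)
    · rw [map_mul, heZ, zero_mul]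
      exact Ideal.zero_mem _
    · rw [map_mul, map_mul]
      refine Ideal.mul_mem_right _ _ ?_
      have hX : ∀ x : σ ⊕ τ, e (X x) ∈ ordIdeal σ k 1 := by
        rintro (i | i)
        · rw [heX]
          exact mem_ordIdeal_one.2 (constantCoeff_X i)
        · rw [heZ]
          exact Ideal.zero_mem _
      exact ordIdeal_mul_mem (hX _) (hX _)
  have h2 : e f = e f' + C (constantCoeff f) +
      ∑ i : σ, C (coeff (Finsupp.single (Sum.inl i) 1) f) * X i := by
    have : f = f' + C (constantCoeff f) +
      ∑ i : σ, C (coeff (Finsupp.single (Sum.inl i) 1) f) * X (Sum.inl i) := by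
      rw [hf']; ring
    conv_lhs => rw [this]
    rw [map_add, map_add, map_sum, heC]
    congr 1
    refine Finset.sum_congr rfl fun i _ => ?_
    rw [map_mul, heC, heX]
  obtain ⟨h3, h4⟩ := mem_ordIdeal_two.1 h1
  constructor
  · rw [h2, map_add, map_add, h3]
    simp
  · rw [h2, map_add, map_add, h4, coeff_C, if_neg (by simp), map_sum, Finset.sum_eq_single j]
    · rw [coeff_C_mul, coeff_X, if_pos rfl]
      ring
    · intro b _ hb
      rw [coeff_C_mul, coeff_X, if_neg, mul_zero]
      intro h
      exact hb (by
        rw [Finsupp.single_left_inj one_ne_zero] at h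
        exact h.symm)
    · intro h
      exact absurd (Finset.mem_univ _) h

end linear

end Crest.Agent.R227
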