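import Crest.Agent.R227.VFacts
import Crest.Agent.R227.Newton

/-! # R227 / Chi : Drinfeld-type coordinates (task CHI) -/

set_option autoImplicit false

noncomputable section

namespace Crest.Agent.R227

open Crest.LubinTate MvPowerSeries Topology Filter

namespace ChiAux

section general

variable (p : ℕ) [Fact p.Prime]

/-- `chiEv` commutes with continuous ring homomorphisms -/
theorem map_chiEv {ι : Type*} [Finite ι] {S S' : Type*} [CommRing S] [UniformSpace S]
    [IsUniformAddGroup S] [IsTopologicalRing S] [IsLinearTopology S S] [CompleteSpace S]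
    [T2Space S] [CommRing S'] [UniformSpace S'] [IsUniformAddGroup S'] [IsTopologicalRing S']
    [IsLinearTopology S' S'] [CompleteSpace S'] [T2Space S'] [CharP S p] [CharP S' p]
    (φ : S →+* S') (hφ : Continuous φ) (χ : MvPowerSeries ι (ZMod p)) {y : ι → S}
    (hy : ∀ i, IsTopologicallyNilpotent (y i)) :
    φ (chiEv p χ y) = chiEv p χ (fun i => φ (y i)) := by
  unfold chiEv
  rw [map_ev hy φ hφ]
  congr 1
  ext d
  simp only [coeff_map]
  rw [← RingHom.comp_apply]
  congr 1
  exact Subsingleton.elim _ _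

theorem chiEv_eq_evA {ι : Type*} [Finite ι] {S : Type*} [CommRing S] [UniformSpace S]
    [IsUniformAddGroup S] [IsTopologicalRing S] [IsLinearTopology S S] [CompleteSpace S]
    [T2Space S] [CharP S p] (χ : MvPowerSeries ι (ZMod p)) {y : ι → S}
    (hy : ∀ i, IsTopologicallyNilpotent (y i)) :
    chiEv p χ y = evA (ZMod.castHom (dvd_refl p) S) hy χ := by
  rw [evA_apply]
  rfl

instance charP_mvps {ι : Type*} {R : Type*} [CommRing R] [CharP R p] :
    CharP (MvPowerSeries ι R) p :=
  charP_of_injective_ringHom (MvPowerSeries.C_injective (σ := ι) (R := R)) p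

end general

/-- the ideal of series without constant term and without linear terms in the first set of
variables -/
def linIdeal (σ τ R : Type*) [CommRing R] : Ideal (MvPowerSeries (σ ⊕ τ) R) where
  carrier := {f | constantCoeff f = 0 ∧ ∀ i : σ, coeff (Finsupp.single (Sum.inl i) 1) f = 0}
  add_mem' := by
    rintro f g ⟨hf, hf'⟩ ⟨hg, hg'⟩
    exact ⟨by rw [map_add, hf, hg, add_zero], fun i => by rw [map_add, hf', hg', add_zero]⟩
  zero_mem' := ⟨map_zero _, fun _ => map_zero _⟩
  smul_mem' := by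
    classical
    rintro c f ⟨hf, hf'⟩
    refine ⟨by rw [smul_eq_mul, map_mul, hf, mul_zero], fun i => ?_⟩
    rw [smul_eq_mul, coeff_mul]
    refine Finset.sum_eq_zero fun x hx => ?_
    have hx' := Finset.HasAntidiagonal.mem_antidiagonal.1 hx
    have h2 : x.2 ≤ Finsupp.single (Sum.inl i) 1 := by
      rw [← hx']
      exact le_add_self
    have h3 : x.2 = 0 ∨ x.2 = Finsupp.single (Sum.inl i) 1 := by
      by_cases h4 : x.2 (Sum.inl i) = 0
      · left
        ext j
        by_cases hj : j = Sum.inl i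
        · rw [hj, h4]; rfl
        · have := h2 j
          rw [Finsupp.single_apply, if_neg (Ne.symm hj)] at this
          simpa using this
      · right
        refine le_antisymm h2 ?_
        rw [Finsupp.single_le_iff]
        omega
    rcases h3 with h3 | h3
    · rw [h3, coeff_zero_eq_constantCoeff_apply, hf, mul_zero]
    · rw [h3, hf' i, mul_zero]

theorem mem_linIdeal {σ τ R : Type*} [CommRing R] {f : MvPowerSeries (σ ⊕ τ) R} :
    f ∈ linIdeal σ τ R ↔ constantCoeff f = 0 ∧
      ∀ i : σ, coeff (Finsupp.single (Sum.inl i) 1) f = 0 := Iff.rfl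

theorem X_inr_mem {σ τ R : Type*} [CommRing R] (l : τ) :
    (X (Sum.inr l) : MvPowerSeries (σ ⊕ τ) R) ∈ linIdeal σ τ R := by
  classical
  refine ⟨constantCoeff_X _, fun i => ?_⟩
  rw [coeff_X, if_neg]
  intro h
  rw [Finsupp.single_left_inj one_ne_zero] at h
  exact absurd h (by simp)

section step

open scoped MvPowerSeries.WithPiTopology

variable (p : ℕ) [Fact p.Prime] (n h : ℕ)

/-- the argument `V_{U^{Q^m}}(Z_l)` -/
def argZ {S : Type*} [CommRing S] [UniformSpace S] (m : ℕ) (u y : Fin (n - h) → S) :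
    Fin (n - h) → S :=
  fun l => ev₁ (y l) (Vz p n h (fun j => u j ^ p ^ (h * m)))

variable {p n h}

section
variable {S S' : Type*} [CommRing S] [UniformSpace S]
    [IsUniformAddGroup S] [IsTopologicalRing S] [IsLinearTopology S S] [CompleteSpace S]
    [T2Space S] [CommRing S'] [UniformSpace S'] [IsUniformAddGroup S'] [IsTopologicalRing S']
    [IsLinearTopology S' S'] [CompleteSpace S'] [T2Space S']

theorem argZ_tn (m : ℕ) (u y : Fin (n - h) → S) (hy : ∀ i, IsTopologicallyNilpotent (y i)) :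
    ∀ i, IsTopologicallyNilpotent (argZ p n h m u y i) := by
  intro i
  refine ev_tn (fun _ => hy i) _ ?_
  have : (MvPowerSeries.constantCoeff (Vz p n h (fun j => u j ^ p ^ (h * m))) : S) = 0 :=
    constantCoeff_Vz p n h _
  rw [this]
  exact IsTopologicallyNilpotent.zero

theorem map_argZ (φ : S →+* S') (hφ : Continuous φ) (m : ℕ) (u y : Fin (n - h) → S)
    (hy : ∀ i, IsTopologicallyNilpotent (y i)) (l : Fin (n - h)) :
    φ (argZ p n h m u y l) = argZ p n h m (fun i => φ (u i)) (fun i => φ (y i)) l := by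
  unfold argZ
  have h1 := map_ev (fun _ : Unit => hy l) φ hφ (Vz p n h (fun j => u j ^ p ^ (h * m)))
  refine h1.trans ?_
  have h2 := Vz_map p n h φ (fun j => u j ^ p ^ (h * m))
  simp only [map_pow] at h2
  exact congrArg (fun f => ev₁ (φ (y l)) f) h2

end

section

variable (k : Type*) [CommRing k] [CharP k p] [UniformSpace k] [DiscreteUniformity k]

/-- the series `χ_i(V_{U^{Q^m}}(Z))`. -/
def PhiT (g : Fin (n - h) → MvPowerSeries (Fin (n - h)) (ZMod p)) (m : ℕ) (i : Fin (n - h)) :
    MvPowerSeries (Fin (n - h) ⊕ Fin (n - h)) k :=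
  chiEv p (g i) (argZ p n h m (fun j => X (Sum.inl j)) (fun l => X (Sum.inr l)))

theorem tn_inr (l : Fin (n - h)) : IsTopologicallyNilpotent
    (X (Sum.inr l) : MvPowerSeries (Fin (n - h) ⊕ Fin (n - h)) k) :=
  tn_of_const (constantCoeff_X _)

theorem tn_elim' {S : Type*} [CommRing S] [UniformSpace S] {u y : Fin (n - h) → S}
    (hu : ∀ i, IsTopologicallyNilpotent (u i)) (hy : ∀ i, IsTopologicallyNilpotent (y i)) :
    ∀ i, IsTopologicallyNilpotent (Sum.elim u y i) := by
  rintro (i | i)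
  · exact hu i
  · exact hy i

theorem evA_PhiT {S : Type*} [CommRing S] [UniformSpace S]
    [IsUniformAddGroup S] [IsTopologicalRing S] [IsLinearTopology S S] [CompleteSpace S]
    [T2Space S] [CharP S p] (φ : k →+* S)
    (g : Fin (n - h) → MvPowerSeries (Fin (n - h)) (ZMod p)) (m : ℕ)
    (i : Fin (n - h)) {u y : Fin (n - h) → S}
    (hu : ∀ i, IsTopologicallyNilpotent (u i)) (hy : ∀ i, IsTopologicallyNilpotent (y i)) :
    evA φ (tn_elim' hu hy) (PhiT k g m i) = chiEv p (g i) (argZ p n h m u y) := by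
  have hc := continuous_evA φ (tn_elim' hu hy)
  have h1 := map_chiEv p (evA φ (tn_elim' hu hy)) hc (g i)
    (argZ_tn (p := p) (n := n) (h := h) m
      (fun j => (X (Sum.inl j) : MvPowerSeries (Fin (n - h) ⊕ Fin (n - h)) k))
      (fun l => X (Sum.inr l)) (tn_inr k))
  refine h1.trans ?_
  congr 1
  funext l
  have h2 := map_argZ (p := p) (n := n) (h := h) (evA φ (tn_elim' hu hy)) hc m
      (fun j => (X (Sum.inl j) : MvPowerSeries (Fin (n - h) ⊕ Fin (n - h)) k))
      (fun l => X (Sum.inr l)) (tn_inr k) l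
  refine h2.trans ?_
  simp only [evA_X, Sum.elim_inl, Sum.elim_inr]

theorem PhiT_mem (g : Fin (n - h) → MvPowerSeries (Fin (n - h)) (ZMod p))
    (hg : ∀ i, constantCoeff (g i) = 0) (m : ℕ) (i : Fin (n - h)) :
    PhiT k g m i ∈ linIdeal (Fin (n - h)) (Fin (n - h)) k := by
  have h1 : ∀ l, argZ p n h m (fun j => (X (Sum.inl j) :
      MvPowerSeries (Fin (n - h) ⊕ Fin (n - h)) k)) (fun l => X (Sum.inr l)) l ∈
      linIdeal (Fin (n - h)) (Fin (n - h)) k := by
    intro l
    exact ev_mem_of_mem (S := MvPowerSeries (Fin (n - h) ⊕ Fin (n - h)) k)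
      (fun _ => tn_inr k l) _ (constantCoeff_Vz p n h _) _ (fun _ => X_inr_mem l)
  have h2 : constantCoeff ((g i).map (ZMod.castHom (dvd_refl p)
      (MvPowerSeries (Fin (n - h) ⊕ Fin (n - h)) k))) = 0 := by
    rw [← coeff_zero_eq_constantCoeff_apply, coeff_map, coeff_zero_eq_constantCoeff_apply,
      hg i, map_zero]
  exact ev_mem_of_mem (S := MvPowerSeries (Fin (n - h) ⊕ Fin (n - h)) k)
    (argZ_tn m _ _ (tn_inr k)) _ h2 _ h1

end

theorem exists_chi_succ_aux (k : Type*) [CommRing k] [CharP k p] [UniformSpace k]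
    [DiscreteUniformity k] (g : Fin (n - h) → MvPowerSeries (Fin (n - h)) (ZMod p))
    (hg : ∀ i, constantCoeff (g i) = 0) (m : ℕ) :
    ∃ g' : Fin (n - h) → MvPowerSeries (Fin (n - h)) k,
      (∀ i, constantCoeff (g' i) = 0) ∧
      (∀ (S : Type) [CommRing S] [UniformSpace S] [IsUniformAddGroup S]
        [IsTopologicalRing S] [IsLinearTopology S S] [CompleteSpace S] [T2Space S] [CharP S p]
        (φ : k →+* S)
        (y : Fin (n - h) → S), (∀ i, IsTopologicallyNilpotent (y i)) → ∀ i,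
        ev y ((g' i).map φ) = chiEv p (g i) (fun l => ev₁ (y l)
          (Vz p n h (fun j => ev y ((g' j).map φ) ^ p ^ (h * m))))) ∧
      (∀ (K : Type) [NontriviallyNormedField K] [IsUltrametricDist K] [CompleteSpace K]
        [CharP K p] (φ : k →+* Ob K)
        (z y : Fin (n - h) → Ob K), (∀ i, ‖z i‖ < 1) → (∀ i, ‖y i‖ < 1) →
        (∀ i, z i = chiEv p (g i) (fun l => ev₁ (y l) (Vz p n h (fun j => z j ^ p ^ (h * m))))) →
        ∀ i, z i = ev y ((g' i).map φ)) := by
  have h0 : ∀ i, constantCoeff (X (Sum.inl i) - PhiT k g m i) = 0 := by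
    intro i
    rw [map_sub, constantCoeff_X, (PhiT_mem k g hg m i).1, sub_zero]
  have h1 : ∀ j i, coeff (Finsupp.single (Sum.inl i) 1) (X (Sum.inl j) - PhiT k g m j) =
      if i = j then 1 else 0 := by
    intro j i
    rw [map_sub, (PhiT_mem k g hg m j).2, sub_zero, ift_aux]
  obtain ⟨g', hg', hΦ⟩ := exists_ift_formal (fun i => X (Sum.inl i) - PhiT k g m i) h0 h1
  refine ⟨g', hg', ?_, ?_⟩
  · intro S _ _ _ _ _ _ _ _ φ y hy i
    have hel : ∀ i, constantCoeff (Sum.elim g' (X : Fin (n - h) →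
        MvPowerSeries (Fin (n - h)) k) i) = 0 := by
      rintro (i | i)
      · exact hg' i
      · exact constantCoeff_X i
    have h2 := evA_ev φ hy hel (X (Sum.inl i) - PhiT k g m i)
    rw [ev_map_C_eq_subst _ hel, hΦ, map_zero] at h2
    have hu : ∀ i, IsTopologicallyNilpotent (evA φ hy (g' i)) := by
      intro i
      rw [evA_apply]
      refine ev_tn hy _ ?_
      rw [← coeff_zero_eq_constantCoeff_apply, coeff_map, coeff_zero_eq_constantCoeff_apply,
        hg' i, map_zero]
      exact IsTopologicallyNilpotent.zero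
    have h3 : (fun i => evA φ hy (Sum.elim g' (X : Fin (n - h) →
        MvPowerSeries (Fin (n - h)) k) i)) = Sum.elim (fun i => evA φ hy (g' i)) y := by
      funext i
      rcases i with i | i
      · rfl
      · exact evA_X _ _ _
    have h4 := evA_PhiT k φ g m i hu hy
    have h5 : evA φ (tn_elim' hu hy) (X (Sum.inl i) - PhiT k g m i) = 0 := by
      rw [evA_apply, ← h3]
      exact h2.symm
    rw [map_sub, evA_X, h4, Sum.elim_inl, sub_eq_zero] at h5
    simp only [evA_apply] at h5
    exact h5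
  · intro K _ _ _ _ φ z y hz hy hzy i
    refine ift_points (fun i => X (Sum.inl i) - PhiT k g m i) h0 h1 g' hg' hΦ φ z y
      hz hy (fun j => ?_) i
    have hzt : ∀ i, IsTopologicallyNilpotent (z i) := fun i => (Ob_tn_iff _).2 (hz i)
    have hyt : ∀ i, IsTopologicallyNilpotent (y i) := fun i => (Ob_tn_iff _).2 (hy i)
    have h2 := evA_PhiT k φ g m j hzt hyt
    have h3 : evA φ (tn_elim' hzt hyt) (X (Sum.inl j) - PhiT k g m j) = 0 := by
      rw [map_sub, evA_X, h2, Sum.elim_inl, sub_eq_zero]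
      exact hzy j
    rwa [evA_apply] at h3

/-- the recursive step -/
theorem exists_chi_succ (g : Fin (n - h) → MvPowerSeries (Fin (n - h)) (ZMod p))
    (hg : ∀ i, constantCoeff (g i) = 0) (m : ℕ) :
    ∃ g' : Fin (n - h) → MvPowerSeries (Fin (n - h)) (ZMod p),
      (∀ i, constantCoeff (g' i) = 0) ∧
      (∀ (S : Type) [CommRing S] [UniformSpace S] [IsUniformAddGroup S]
        [IsTopologicalRing S] [IsLinearTopology S S] [CompleteSpace S] [T2Space S] [CharP S p]
        (y : Fin (n - h) → S), (∀ i, IsTopologicallyNilpotent (y i)) → ∀ i,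
        chiEv p (g' i) y = chiEv p (g i) (fun l => ev₁ (y l)
          (Vz p n h (fun j => chiEv p (g' j) y ^ p ^ (h * m))))) ∧
      (∀ (K : Type) [NontriviallyNormedField K] [IsUltrametricDist K] [CompleteSpace K]
        [CharP K p] (z y : Fin (n - h) → Ob K), (∀ i, ‖z i‖ < 1) → (∀ i, ‖y i‖ < 1) →
        (∀ i, z i = chiEv p (g i) (fun l => ev₁ (y l) (Vz p n h (fun j => z j ^ p ^ (h * m))))) →
        ∀ i, z i = chiEv p (g' i) y) := by
  let _ : UniformSpace (ZMod p) := ⊥
  have : DiscreteUniformity (ZMod p) := ⟨rfl⟩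
  obtain ⟨g', hg', h1, h2⟩ := exists_chi_succ_aux (p := p) (ZMod p) g hg m
  refine ⟨g', hg', ?_, ?_⟩
  · intro S _ _ _ _ _ _ _ _ y hy i
    exact h1 S (ZMod.castHom (dvd_refl p) S) y hy i
  · intro K _ _ _ _ z y hz hy hzy i
    exact h2 K (ZMod.castHom (dvd_refl p) (Ob K)) z y hz hy hzy i

section base

theorem newton_map {S S' : Type*} [CommRing S] [CommRing S'] (e : S →+* S') (N : ℕ)
    (f : PowerSeries S) (c α : ℕ → S) (g : PowerSeries S)
    (hf : f = ∑ t ∈ Finset.range N, PowerSeries.C (c t) *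
          ∏ s ∈ Finset.range t, (PowerSeries.X - PowerSeries.C (α s)) +
        (∏ s ∈ Finset.range N, (PowerSeries.X - PowerSeries.C (α s))) * g) :
    PowerSeries.map e f = ∑ t ∈ Finset.range N, PowerSeries.C (e (c t)) *
          ∏ s ∈ Finset.range t, (PowerSeries.X - PowerSeries.C (e (α s))) +
        (∏ s ∈ Finset.range N, (PowerSeries.X - PowerSeries.C (e (α s)))) *
          PowerSeries.map e g := by
  rw [hf]
  simp only [map_add, map_sum, map_mul, map_prod, map_sub, PowerSeries.map_X, PowerSeries.map_C]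

variable (k : Type*) [CommRing k] [CharP k p] [UniformSpace k] [DiscreteUniformity k]

/-- the universal points `Z_l` on `Hx (U^{Q})` -/
def Zpt (l : Fin (n - h)) : FPt (Hx p n h (fun j : Fin (n - h) =>
    (X (Sum.inl j) : MvPowerSeries (Fin (n - h) ⊕ Fin (n - h)) k) ^ p ^ h)) :=
  ⟨X (Sum.inr l), tn_inr k l⟩

/-- the nodes `∑ a_l Z_l` -/
def node (p : ℕ) [Fact p.Prime] (n h : ℕ) (k : Type*) [CommRing k] [CharP k p] [UniformSpace k]
    [DiscreteUniformity k] (a : Fin (n - h) → Fin p) :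
    MvPowerSeries (Fin (n - h) ⊕ Fin (n - h)) k :=
  (∑ l, (a l : ℕ) • Zpt (p := p) (n := n) (h := h) k l).val

theorem evA_node {S : Type*} [CommRing S] [UniformSpace S]
    [IsUniformAddGroup S] [IsTopologicalRing S] [IsLinearTopology S S] [CompleteSpace S]
    [T2Space S] (φ : k →+* S) {u y : Fin (n - h) → S}
    (hu : ∀ i, IsTopologicallyNilpotent (u i)) (hy : ∀ i, IsTopologicallyNilpotent (y i))
    (a : Fin (n - h) → Fin p) :
    evA φ (tn_elim' hu hy) (node p n h k a) =
      (∑ l, (a l : ℕ) • (⟨y l, hy l⟩ : FPt (Hx p n h (fun j => u j ^ p ^ h)))).val := by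
  have hc := continuous_evA φ (tn_elim' hu hy)
  have hG : (Hx p n h (fun j : Fin (n - h) =>
      (X (Sum.inl j) : MvPowerSeries (Fin (n - h) ⊕ Fin (n - h)) k) ^ p ^ h)).map
      (evA φ (tn_elim' hu hy)) = Hx p n h (fun j => u j ^ p ^ h) := by
    rw [Hx_map]
    congr 1
    simp only [map_pow, evA_X, Sum.elim_inl]
  have h1 := FPt.baseChange_val (evA φ (tn_elim' hu hy)) hc hG
    (∑ l, (a l : ℕ) • Zpt (p := p) (n := n) (h := h) k l)
  rw [map_sum] at h1
  unfold node
  rw [← h1]
  congr 1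
  refine Finset.sum_congr rfl fun l _ => ?_
  rw [map_nsmul]
  congr 1
  apply FPt.ext
  rw [FPt.baseChange_val]
  exact evA_X _ _ _

theorem span_range_sq_le {ι : Type*} (k : Type*) [CommRing k] :
    (Ideal.span (Set.range (X : ι → MvPowerSeries ι k))) ^ 2 ≤ ordIdeal ι k 2 := by
  have h1 : Ideal.span (Set.range (X : ι → MvPowerSeries ι k)) ≤ ordIdeal ι k 1 := by
    rw [Ideal.span_le]
    rintro _ ⟨i, rfl⟩
    exact mem_ordIdeal_one.2 (constantCoeff_X i)
  rw [pow_two]
  refine Ideal.mul_le.2 fun a ha b hb => ?_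
  exact ordIdeal_mul_mem (h1 ha) (h1 hb)

theorem pow_injective_Ob {K : Type*} [NormedField K] [IsUltrametricDist K] [CharP K p] (m : ℕ)
    {a b : Ob K} (hab : a ^ p ^ m = b ^ p ^ m) : a = b := by
  have h1 : iterateFrobenius (Ob K) p m a = iterateFrobenius (Ob K) p m b := by
    rw [iterateFrobenius_def, iterateFrobenius_def]
    exact hab
  exact iterateFrobenius_inj (Ob K) p m h1

/-- `p • P = V_z(P^Q)` -/
theorem val_p_smul {K : Type*} [NontriviallyNormedField K] [IsUltrametricDist K] [CompleteSpace K]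
    [CharP K p] (h1 : 1 ≤ h) (hh : h < n) (z : Fin (n - h) → Ob K) (P : FPt (Hx p n h z)) :
    (p • P).val = ev₁ (P.val ^ p ^ h) (Vz p n h z) := by
  have e2 := FPt.val_nsmul (Hx p n h z) p P
  rw [mulSeries_Hx p n h h1 hh] at e2
  have e3 := ev₁_subst P.tn (PowerSeries.X ^ p ^ h : PowerSeries (Ob K)) (by
    rw [map_pow, PowerSeries.constantCoeff_X, zero_pow
      (pow_ne_zero _ (Fact.out : p.Prime).ne_zero)]) (Vz p n h z)
  rw [e3] at e2
  have e4 : ev₁ P.val (PowerSeries.X ^ p ^ h : PowerSeries (Ob K)) = P.val ^ p ^ h := by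
    have e5 := ev_pow (fun _ : Unit => P.tn) (PowerSeries.X : PowerSeries (Ob K)) (p ^ h)
    refine e5.trans ?_
    congr 1
    exact ev_X (fun _ : Unit => P.tn) ()
  rw [e4] at e2
  exact e2

/-- Frobenius applied to `V_z(a)` -/
theorem ev_Vz_pow {K : Type*} [NontriviallyNormedField K] [IsUltrametricDist K] [CompleteSpace K]
    [CharP K p] (z : Fin (n - h) → Ob K) (m : ℕ) {a : Ob K} (ha : IsTopologicallyNilpotent a) :
    ev₁ a (Vz p n h z) ^ p ^ m = ev₁ (a ^ p ^ m) (Vz p n h (fun j => z j ^ p ^ m)) := by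
  have hc : Continuous (iterateFrobenius (Ob K) p m) := FPtAux.continuous_frob p m
  have h1 := map_ev (fun _ : Unit => ha) (iterateFrobenius (Ob K) p m) hc (Vz p n h z)
  refine h1.trans ?_
  have h2 := Vz_map p n h (iterateFrobenius (Ob K) p m) z
  exact congrArg (fun f => ev₁ (a ^ p ^ m) f) h2

theorem exists_chi_one_aux (hh : h < n) (h1' : 1 ≤ h) :
    ∃ g : Fin (n - h) → MvPowerSeries (Fin (n - h)) k,
      (∀ i, constantCoeff (g i) = 0) ∧
      (∀ (K : Type) [NontriviallyNormedField K] [IsUltrametricDist K] [CompleteSpace K]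
        [CharP K p] (φ : k →+* Ob K)
        (z : Fin (n - h) → Ob K), (∀ i, ‖z i‖ < 1) →
        ∀ w : Fin (n - h) → FPt (Hx p n h z), IsLvl p n h z 1 w →
        ∀ i, z i = ev (fun l => (w l).val ^ p ^ h) ((g i).map φ)) := by
  classical
  set N := p ^ (n - h) with hN
  set α : ℕ → MvPowerSeries (Fin (n - h) ⊕ Fin (n - h)) k := fun t =>
    if ht : t < p ^ (n - h) then node p n h k (finFunctionFinEquiv.symm ⟨t, ht⟩) else 0 with hα
  have hαtn : ∀ t, IsTopologicallyNilpotent (α t) := by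
    intro t
    simp only [hα]
    split_ifs with ht
    · exact FPt.tn _
    · exact IsTopologicallyNilpotent.zero
  obtain ⟨c, hc⟩ := exists_newton α hαtn (Vz p n h (fun j : Fin (n - h) =>
      (X (Sum.inl j) : MvPowerSeries (Fin (n - h) ⊕ Fin (n - h)) k)))
  obtain ⟨G, hG⟩ := hc N
  -- the linear part
  have hX : ∀ i, IsTopologicallyNilpotent ((X : Fin (n - h) → MvPowerSeries (Fin (n - h)) k) i) :=
    fun i => tn_of_const (constantCoeff_X i)
  have h0' : ∀ _ : Fin (n - h), IsTopologicallyNilpotent (0 : MvPowerSeries (Fin (n - h)) k) :=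
    fun _ => IsTopologicallyNilpotent.zero
  have hnode0 : ∀ t, evA (C : k →+* MvPowerSeries (Fin (n - h)) k)
      (tn_elim' (u := X) (y := fun _ => 0) hX h0') (α t) = 0 := by
    intro t
    simp only [hα]
    split_ifs with ht
    · rw [evA_node k (C : k →+* MvPowerSeries (Fin (n - h)) k) hX h0' _]
      have e0 : (∑ l, ((finFunctionFinEquiv.symm ⟨t, ht⟩ : Fin (n - h) → Fin p) l : ℕ) •
          (⟨0, h0' l⟩ : FPt (Hx p n h (fun j : Fin (n - h) =>
            (X j : MvPowerSeries (Fin (n - h)) k) ^ p ^ h)))) = 0 :=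
        Finset.sum_eq_zero fun l _ => nsmul_zero _
      rw [e0]
      rfl
    · exact map_zero _
  have hVmap : PowerSeries.map (evA (C : k →+* MvPowerSeries (Fin (n - h)) k)
      (tn_elim' (u := X) (y := fun _ => 0) hX h0')) (Vz p n h (fun j : Fin (n - h) =>
      (X (Sum.inl j) : MvPowerSeries (Fin (n - h) ⊕ Fin (n - h)) k))) =
      Vz p n h (X : Fin (n - h) → MvPowerSeries (Fin (n - h)) k) := by
    rw [Vz_map]
    congr 1
    funext i
    exact evA_X _ _ _
  have hlin := newton_map (evA (C : k →+* MvPowerSeries (Fin (n - h)) k)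
      (tn_elim' (u := X) (y := fun _ => 0) hX h0')) N _ c α G hG
  simp only [hnode0] at hlin
  rw [hVmap] at hlin
  have hcoef := newton_coeff_zero_nodes N _ _ _ hlin
  have hpj : ∀ j : Fin (n - h), p ^ (j : ℕ) < N := fun j =>
    Nat.pow_lt_pow_right (Fact.out : p.Prime).one_lt j.2
  have hsq : ∀ j : Fin (n - h), evA (C : k →+* MvPowerSeries (Fin (n - h)) k)
      (tn_elim' (u := X) (y := fun _ => 0) hX h0') (c (p ^ (j : ℕ))) - X j ∈
        ordIdeal (Fin (n - h)) k 2 := by
    intro j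
    rw [← hcoef _ (hpj j)]
    exact span_range_sq_le k (coeff_Vz_sub_mem_sq p n h hh X j)
  have hconst : ∀ j : Fin (n - h), constantCoeff (c (p ^ (j : ℕ))) = 0 := by
    intro j
    have e1 := (mem_ordIdeal_two.1 (hsq j)).1
    rw [map_sub, constantCoeff_X, sub_zero] at e1
    rw [← e1]
    exact ((evA_elim_zero_sub_mem (c (p ^ (j : ℕ))) j).1).symm
  have hcoeff : ∀ j i : Fin (n - h), coeff (Finsupp.single (Sum.inl i) 1) (c (p ^ (j : ℕ))) =
      if i = j then 1 else 0 := by
    intro j i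
    have e1 := (mem_ordIdeal_two.1 (hsq j)).2 i
    rw [map_sub, sub_eq_zero] at e1
    rw [← (evA_elim_zero_sub_mem (c (p ^ (j : ℕ))) i).2]
    refine Eq.trans e1 ?_
    rw [coeff_X]
    by_cases hij : i = j
    · rw [if_pos hij, if_pos (by rw [hij])]
    · rw [if_neg hij, if_neg]
      intro h'
      rw [Finsupp.single_left_inj one_ne_zero] at h'
      exact hij h'
  obtain ⟨g, hg, hΦ⟩ := exists_ift_formal (fun j : Fin (n - h) => c (p ^ (j : ℕ))) hconst hcoeff
  refine ⟨g, hg, ?_⟩
  intro K _ _ _ _ φ z hz w hw i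
  have hzt : ∀ i, IsTopologicallyNilpotent (z i) := fun i => (Ob_tn_iff _).2 (hz i)
  have hyt : ∀ i, IsTopologicallyNilpotent ((w i).val ^ p ^ h) := by
    intro i
    rw [Ob_tn_iff]
    have e1 : ‖(w i).val‖ < 1 := (Ob_tn_iff _).1 (w i).tn
    have e2 : ‖(w i).val ^ p ^ h‖ = ‖(w i).val‖ ^ p ^ h := norm_pow ((w i).val : K) _
    rw [e2]
    exact pow_lt_one₀ (norm_nonneg _) e1 (pow_ne_zero _ (Fact.out : p.Prime).ne_zero)
  have hGfr : (Hx p n h z).map (iterateFrobenius (Ob K) p h) =
      Hx p n h (fun j => z j ^ p ^ h) := by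
    rw [Hx_map]
    rfl
  -- the images of the nodes
  have hnode : ∀ a : Fin (n - h) → Fin p, evA φ (tn_elim' hzt hyt) (node p n h k a) =
      (∑ l, (a l : ℕ) • w l).val ^ p ^ h := by
    intro a
    rw [evA_node k φ hzt hyt a]
    have e1 := FPt.frob_val p h hGfr (∑ l, (a l : ℕ) • w l)
    rw [← e1, map_sum]
    congr 1
    refine Finset.sum_congr rfl fun l _ => ?_
    rw [map_nsmul]
    rfl
  have hinj : ∀ s < N, ∀ t < N, evA φ (tn_elim' hzt hyt) (α s) =
      evA φ (tn_elim' hzt hyt) (α t) → s = t := by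
    intro s hs t ht hst
    simp only [hα] at hst
    rw [dif_pos hs, dif_pos ht, hnode, hnode] at hst
    have e1 := pow_injective_Ob h hst
    have e2 := FPt.ext e1
    have e3 : ∀ l, (p : ℤ) ∣ ((finFunctionFinEquiv.symm ⟨s, hs⟩ : Fin (n - h) → Fin p) l : ℤ) -
        ((finFunctionFinEquiv.symm ⟨t, ht⟩ : Fin (n - h) → Fin p) l : ℤ) := by
      refine hw.2 _ ?_
      simp only [Nat.sub_self, pow_zero, one_smul]
      simp only [sub_smul, Finset.sum_sub_distrib, natCast_zsmul]
      exact sub_eq_zero.2 e2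
    have e4 : (finFunctionFinEquiv.symm ⟨s, hs⟩ : Fin (n - h) → Fin p) =
        finFunctionFinEquiv.symm ⟨t, ht⟩ := by
      funext l
      have e5 := e3 l
      have e6 := (finFunctionFinEquiv.symm ⟨s, hs⟩ l : Fin p).2
      have e7 := (finFunctionFinEquiv.symm ⟨t, ht⟩ l : Fin p).2
      apply Fin.ext
      rcases e5 with ⟨q, hq⟩
      have e8 : q = 0 := by
        by_contra hq0
        rcases lt_or_gt_of_ne hq0 with hq1 | hq1
        · have : (p : ℤ) * q ≤ -p := by nlinarith
          omega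
        · have : (p : ℤ) ≤ p * q := by nlinarith
          omega
      rw [e8, mul_zero] at hq
      omega
    have e5 := finFunctionFinEquiv.symm.injective e4
    simpa using e5
  have hroot : ∀ t < N, ev₁ (evA φ (tn_elim' hzt hyt) (α t)) (Vz p n h z) = 0 := by
    intro t ht
    simp only [hα]
    rw [dif_pos ht, hnode]
    set P := ∑ l, ((finFunctionFinEquiv.symm ⟨t, ht⟩ : Fin (n - h) → Fin p) l : ℕ) • w l
    have e1 : p • P = 0 := by
      rw [Finset.smul_sum]
      refine Finset.sum_eq_zero fun l _ => ?_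
      rw [smul_comm]
      have := hw.1 l
      rw [pow_one] at this
      rw [this, nsmul_zero]
    have e2 := val_p_smul h1' hh z P
    rw [e1] at e2
    exact e2.symm
  have hVz : PowerSeries.map (evA φ (tn_elim' hzt hyt)) (Vz p n h (fun j : Fin (n - h) =>
      (X (Sum.inl j) : MvPowerSeries (Fin (n - h) ⊕ Fin (n - h)) k))) = Vz p n h z := by
    rw [Vz_map]
    congr 1
    funext i
    exact evA_X _ _ _
  have hN' := newton_map (evA φ (tn_elim' hzt hyt)) N _ c α G hG
  rw [hVz] at hN'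
  have hzero := newton_coeff_eq_zero N (fun t => evA φ (tn_elim' hzt hyt) (α t))
    (fun t => (hαtn t).map (continuous_evA _ _)) hinj (Vz p n h z) _ _ hroot hN'
  refine ift_points (fun j : Fin (n - h) => c (p ^ (j : ℕ))) hconst hcoeff g hg hΦ φ z
    (fun l => (w l).val ^ p ^ h) hz (fun l => (Ob_tn_iff _).1 (hyt l)) (fun j => ?_) i
  have := hzero _ (hpj j)
  rwa [evA_apply] at this

end base

end step

end ChiAux

variable (p : ℕ) [Fact p.Prime] (n h : ℕ)

theorem ChiAux.exists_chi_one (h1 : 1 ≤ h) (hh : h < n) :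
    ∃ g : Fin (n - h) → MvPowerSeries (Fin (n - h)) (ZMod p),
      (∀ i, constantCoeff (g i) = 0) ∧
      (∀ (K : Type) [NontriviallyNormedField K] [IsUltrametricDist K] [CompleteSpace K]
        [CharP K p]
        (z : Fin (n - h) → Ob K), (∀ i, ‖z i‖ < 1) →
        ∀ w : Fin (n - h) → FPt (Hx p n h z), IsLvl p n h z 1 w →
        ∀ i, z i = chiEv p (g i) (fun l => (w l).val ^ p ^ h)) := by
  let _ : UniformSpace (ZMod p) := ⊥
  have : DiscreteUniformity (ZMod p) := ⟨rfl⟩
  obtain ⟨g, hg, h2⟩ := ChiAux.exists_chi_one_aux (p := p) (ZMod p) hh h1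
  refine ⟨g, hg, ?_⟩
  intro K _ _ _ _ z hz w hw i
  exact h2 K (ZMod.castHom (dvd_refl p) (Ob K)) z hz w hw i

/-- the recursively defined sequence -/
theorem ChiAux.exists_seq (h1 : 1 ≤ h) (hh : h < n) :
    ∃ χ : ℕ → Fin (n - h) → MvPowerSeries (Fin (n - h)) (ZMod p),
      (∀ m i, constantCoeff (χ m i) = 0) ∧
      (∀ (K : Type) [NontriviallyNormedField K] [IsUltrametricDist K] [CompleteSpace K]
        [CharP K p]
        (z : Fin (n - h) → Ob K), (∀ i, ‖z i‖ < 1) →
        ∀ w : Fin (n - h) → FPt (Hx p n h z), IsLvl p n h z 1 w →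
        ∀ i, z i = chiEv p (χ 1 i) (fun l => (w l).val ^ p ^ h)) ∧
      ∀ m, 1 ≤ m →
      (∀ (S : Type) [CommRing S] [UniformSpace S] [IsUniformAddGroup S]
        [IsTopologicalRing S] [IsLinearTopology S S] [CompleteSpace S] [T2Space S] [CharP S p]
        (y : Fin (n - h) → S), (∀ i, IsTopologicallyNilpotent (y i)) → ∀ i,
        chiEv p (χ (m + 1) i) y = chiEv p (χ m i) (fun l => ev₁ (y l)
          (Vz p n h (fun j => chiEv p (χ (m + 1) j) y ^ p ^ (h * m))))) ∧
      (∀ (K : Type) [NontriviallyNormedField K] [IsUltrametricDist K] [CompleteSpace K]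
        [CharP K p] (z y : Fin (n - h) → Ob K), (∀ i, ‖z i‖ < 1) → (∀ i, ‖y i‖ < 1) →
        (∀ i, z i = chiEv p (χ m i)
          (fun l => ev₁ (y l) (Vz p n h (fun j => z j ^ p ^ (h * m))))) →
        ∀ i, z i = chiEv p (χ (m + 1) i) y) := by
  obtain ⟨g1, hg1, hp1⟩ := ChiAux.exists_chi_one p n h h1 hh
  choose! nx hnx1 hnx2 hnx3 using fun (m : ℕ)
    (g : Fin (n - h) → MvPowerSeries (Fin (n - h)) (ZMod p))
    (hg : ∀ i, constantCoeff (g i) = 0) => ChiAux.exists_chi_succ (p := p) (n := n) (h := h) g hg m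
  let χ : ℕ → Fin (n - h) → MvPowerSeries (Fin (n - h)) (ZMod p) := fun m =>
    Nat.rec (fun _ => 0) (fun m g => if m = 0 then g1 else nx m g) m
  have hχ1 : χ 1 = g1 := if_pos rfl
  have hχs : ∀ m, 1 ≤ m → χ (m + 1) = nx m (χ m) := fun m hm => if_neg (by omega)
  have hc : ∀ m i, constantCoeff (χ m i) = 0 := by
    intro m
    induction m with
    | zero => intro i; exact map_zero _
    | succ m ih =>
      rcases Nat.eq_zero_or_pos m with hm | hm
      · subst hm
        rw [zero_add, hχ1]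
        exact hg1
      · rw [hχs m hm]
        exact hnx1 m (χ m) ih
  refine ⟨χ, hc, ?_, ?_⟩
  · rw [hχ1]
    exact hp1
  · intro m hm
    rw [hχs m hm]
    exact ⟨hnx2 m (χ m) (hc m), hnx3 m (χ m) (hc m)⟩

theorem exists_chi (h1 : 1 ≤ h) (hh : h < n) : Nonempty (ChiSys p n h) := by
  obtain ⟨χ, hc, hp1, hs⟩ := ChiAux.exists_seq p n h h1 hh
  refine ⟨⟨χ, hc, ?_, ?_⟩⟩
  · intro S _ _ _ _ _ _ _ _ y hy m hm i
    exact (hs m hm).1 S y hy i
  · intro K _ _ _ _ z hz _ m hm
    induction m, hm using Nat.le_induction with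
    | base =>
      intro w hw i
      rw [mul_one]
      exact hp1 K z hz w hw i
    | succ m hm ih =>
      intro w hw i
      have hw' : IsLvl p n h z m (fun l => p • w l) := by
        refine ⟨fun l => ?_, fun c hcs => hw.2 c ?_⟩
        · have := hw.1 l
          rw [pow_succ, mul_smul] at this
          exact this
        · rw [← hcs]
          refine Finset.sum_congr rfl fun l _ => ?_
          congr 1
          rw [Nat.add_sub_cancel, smul_smul, ← pow_succ, Nat.sub_add_cancel hm]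
      have h2 := ih (fun l => p • w l) hw'
      have hwn : ∀ l, ‖(w l).val‖ < 1 := fun l => (Ob_tn_iff _).1 (w l).tn
      have hyn : ∀ l, ‖(w l).val ^ p ^ (h * (m + 1))‖ < 1 := by
        intro l
        have e2 : ‖(w l).val ^ p ^ (h * (m + 1))‖ = ‖(w l).val‖ ^ p ^ (h * (m + 1)) :=
          norm_pow ((w l).val : K) _
        rw [e2]
        exact pow_lt_one₀ (norm_nonneg _) (hwn l) (pow_ne_zero _ (Fact.out : p.Prime).ne_zero)
      refine (hs m hm).2 K z (fun l => (w l).val ^ p ^ (h * (m + 1))) hz hyn ?_ i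
      intro i
      rw [h2 i]
      congr 1
      funext l
      have e1 := ChiAux.val_p_smul h1 hh z (w l)
      have e2 : IsTopologicallyNilpotent ((w l).val ^ p ^ h) := by
        rw [Ob_tn_iff]
        have e2 : ‖(w l).val ^ p ^ h‖ = ‖(w l).val‖ ^ p ^ h := norm_pow ((w l).val : K) _
        rw [e2]
        exact pow_lt_one₀ (norm_nonneg _) (hwn l) (pow_ne_zero _ (Fact.out : p.Prime).ne_zero)
      have e3 := ChiAux.ev_Vz_pow (p := p) (n := n) (h := h) z (h * m) e2
      have e4 : ((w l).val ^ p ^ h) ^ p ^ (h * m) = (w l).val ^ p ^ (h * (m + 1)) := by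
        rw [← pow_mul, ← pow_add]
        congr 2
        ring
      rw [e4] at e3
      rw [← e3, ← e1]

end Crest.Agent.R227
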