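import Crest.Agent.R227.LTComplete

/-!
Row 227 (S0351): degree one Weierstrass preparation for power series over a field (helper251):
a series in `κ[[X_none, Y]]` without constant term and with nonzero `X_none`-linear coefficient is
`(X_none - A(Y))` times a unit.
-/

set_option autoImplicit false

noncomputable section

namespace Crest.Agent.R227
namespace Circuit

open MvPowerSeries

variable {κ : Type*} [Field κ] {τ : Type*} [Finite τ]

omit [Finite τ] in
theorem optionEquivLeft_rename_some (A : MvPowerSeries τ κ) :
    optionEquivLeft τ κ (rename (Function.Embedding.some : τ ↪ Option τ) A)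
      = PowerSeries.C A := by
  classical
  ext n x
  rw [coeff_coeff_optionEquivLeft, PowerSeries.coeff_C]
  split_ifs with hn
  · subst hn
    have : (x.optionElim 0) = Finsupp.embDomain (Function.Embedding.some : τ ↪ Option τ) x := by
      ext a
      cases a with
      | none =>
        rw [Finsupp.embDomain_notin_range _ _ _ (by simp)]
        simp
      | some a =>
        have := Finsupp.embDomain_apply_self (Function.Embedding.some : τ ↪ Option τ) x a
        rw [Function.Embedding.some_apply] at this
        rw [this]
        simp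
    rw [this, coeff_embDomain_rename]
  · rw [map_zero]
    apply coeff_rename_eq_zero
    intro h
    obtain ⟨y, hy⟩ := h
    apply hn
    have h1 := congrArg (fun f : Option τ →₀ ℕ => f none) hy
    simp only [Finsupp.optionElim_apply_none] at h1
    rw [← h1]
    rw [Finsupp.mapDomain_notin_range]
    simp

theorem weier (G : MvPowerSeries (Option τ) κ) (h0 : constantCoeff G = 0)
    (h1 : coeff (Finsupp.single none 1) G ≠ 0) :
    ∃ A : MvPowerSeries τ κ, constantCoeff A = 0 ∧ ∃ H : MvPowerSeries (Option τ) κ, IsUnit H ∧
      G = (X none - rename (Function.Embedding.some : τ ↪ Option τ) A) * H := by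
  classical
  haveI hκ : IsAdicComplete (IsLocalRing.maximalIdeal κ) κ := by
    rw [IsLocalRing.maximalIdeal_eq_bot]
    infer_instance
  haveI : IsAdicComplete (IsLocalRing.maximalIdeal (MvPowerSeries τ κ)) (MvPowerSeries τ κ) :=
    isAdicComplete_maximalIdeal_mv
  let g := optionEquivLeft τ κ G
  have c0 : PowerSeries.coeff 0 g ∈ IsLocalRing.maximalIdeal (MvPowerSeries τ κ) := by
    rw [IsLocalRing.mem_maximalIdeal, mem_nonunits_iff, MvPowerSeries.isUnit_iff_constantCoeff]
    rw [← coeff_zero_eq_constantCoeff_apply, coeff_coeff_optionEquivLeft]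
    have : (Finsupp.optionElim 0 (0 : τ →₀ ℕ)) = 0 := by
      ext a; cases a <;> simp
    rw [this, coeff_zero_eq_constantCoeff_apply, h0]
    simp
  have c1 : IsUnit (PowerSeries.coeff 1 g) := by
    rw [MvPowerSeries.isUnit_iff_constantCoeff]
    rw [← coeff_zero_eq_constantCoeff_apply, coeff_coeff_optionEquivLeft]
    have : (Finsupp.optionElim 1 (0 : τ →₀ ℕ)) = Finsupp.single none 1 := by
      ext a; cases a <;> simp
    rw [this]
    exact isUnit_iff_ne_zero.2 h1
  have hord : (g.map (IsLocalRing.residue (MvPowerSeries τ κ))).order = 1 := by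
    rw [show (1 : ℕ∞) = ((1 : ℕ) : ℕ∞) from rfl, PowerSeries.order_eq_nat]
    constructor
    · rw [PowerSeries.coeff_map]
      intro h
      exact (IsLocalRing.residue_ne_zero_iff_isUnit _).2 c1 h
    · intro i hi
      have : i = 0 := by omega
      subst this
      rw [PowerSeries.coeff_map]
      exact (IsLocalRing.residue_eq_zero_iff _).2 c0
  have hne : g.map (IsLocalRing.residue (MvPowerSeries τ κ)) ≠ 0 := by
    intro h
    rw [h, PowerSeries.order_zero] at hord
    exact absurd hord (by simp)
  obtain ⟨f, h, H⟩ := PowerSeries.exists_isWeierstrassFactorization hne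
  have hdeg : f.natDegree = 1 := by
    rw [H.natDegree_eq_toNat_order_map, hord]; rfl
  have hmon := H.isDistinguishedAt.monic
  have hf : f = Polynomial.X + Polynomial.C (f.coeff 0) := by
    have h1 := Polynomial.eq_X_add_C_of_natDegree_le_one (p := f) hdeg.le
    have h2 : f.coeff 1 = 1 := by rw [← hdeg]; exact hmon
    rw [h2, Polynomial.C_1, one_mul] at h1
    exact h1
  have hc : f.coeff 0 ∈ IsLocalRing.maximalIdeal (MvPowerSeries τ κ) :=
    H.isDistinguishedAt.mem (by omega)
  refine ⟨- f.coeff 0, ?_, (optionEquivLeft τ κ).symm h, H.isUnit.map _, ?_⟩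
  · rw [IsLocalRing.mem_maximalIdeal, mem_nonunits_iff,
      MvPowerSeries.isUnit_iff_constantCoeff] at hc
    rw [map_neg, neg_eq_zero]
    by_contra h
    exact hc (isUnit_iff_ne_zero.2 h)
  · apply (optionEquivLeft τ κ).injective
    rw [map_mul, map_sub, optionEquivLeft_X_none, optionEquivLeft_rename_some,
      AlgEquiv.apply_symm_apply]
    have := H.eq_mul
    change g = _
    rw [this]
    congr 1
    conv_lhs => rw [hf]
    rw [Polynomial.coe_add, Polynomial.coe_X, Polynomial.coe_C, map_neg, sub_neg_eq_add]

end Circuit
end Crest.Agent.R227
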