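import Crest.Agent.R227.Translate
import Crest.Agent.R227.Weier1

/-!
Row 227 (S0351): the circuit lemma (helper251).  If a group of tuples of points of a formal group
`Γ` over a finite field satisfies a nonzero power series relation over that field, then one
coordinate is a combination of the others with coefficients in `End Γ`.
-/

set_option autoImplicit false

noncomputable section

open Filter Topology

namespace Crest.Agent.R227
namespace Circuit

open Crest.LubinTate MvPowerSeries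
open scoped MvPowerSeries.WithPiTopology

variable {K : Type*} [NormedField K] [IsUltrametricDist K] [CompleteSpace K]
variable {κ : Type*} [Field κ] (ι : κ →+* Ob K)
variable {σ : Type*} [Finite σ]

/-- values of a tuple of points -/
def vals {F : FormalGroup (Ob K)} (e : σ → FPt F) : σ → Ob K := fun l => (e l).val

omit [Finite σ] [CompleteSpace K] in
theorem vals_lt {F : FormalGroup (Ob K)} (e : σ → FPt F) (l : σ) : ‖vals e l‖ < 1 :=
  (Ob_tn_iff _).1 (e l).tn

omit [Finite σ] [CompleteSpace K] in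
theorem vals_tn {F : FormalGroup (Ob K)} (e : σ → FPt F) (l : σ) :
    IsTopologicallyNilpotent (vals e l) := (e l).tn

theorem ev_zero_pt (u : MvPowerSeries σ (Ob K)) : ev (fun _ => (0 : Ob K)) u = constantCoeff u := by
  have h0 : ∀ i : σ, ‖(0 : Ob K)‖ < 1 := fun _ => by simp
  have hc : Continuous (constantCoeff : MvPowerSeries σ (Ob K) →+* Ob K) :=
    WithPiTopology.continuous_constantCoeff (Ob K)
  have h2 := eq_of_eq_on_poly (S := Ob K) (σ := σ) (continuous_ev (a := fun _ : σ => (0 : Ob K))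
    (fun i => (Ob_tn_iff _).2 (h0 i))) hc (fun q => by
      rw [ev_coe (fun i => (Ob_tn_iff _).2 (h0 i))]
      induction q using MvPolynomial.induction_on with
      | C c => simp
      | add p q hp hq => rw [map_add, hp, hq, MvPolynomial.coe_add, map_add]
      | mul_X p i hp => simp)
  exact congrFun h2 u

/-- the ideal of series over `κ` vanishing on a set of points -/
def vanI (EE : Set (σ → Ob K)) (hEE : ∀ e ∈ EE, ∀ l, ‖e l‖ < 1) : Ideal (MvPowerSeries σ κ) where
  carrier := {G | ∀ e ∈ EE, ev e (G.map ι) = 0}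
  add_mem' := by
    intro a b ha hb e he
    have ht : ∀ l, IsTopologicallyNilpotent (e l) := fun l => (Ob_tn_iff _).2 (hEE e he l)
    rw [map_add, ev_add ht, ha e he, hb e he, add_zero]
  zero_mem' := by
    intro e he
    have ht : ∀ l, IsTopologicallyNilpotent (e l) := fun l => (Ob_tn_iff _).2 (hEE e he l)
    rw [map_zero, ev_zero ht]
  smul_mem' := by
    intro c a ha e he
    have ht : ∀ l, IsTopologicallyNilpotent (e l) := fun l => (Ob_tn_iff _).2 (hEE e he l)
    rw [smul_eq_mul, map_mul, ev_mul ht, ha e he, mul_zero]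

theorem mem_vanI {EE : Set (σ → Ob K)} {hEE : ∀ e ∈ EE, ∀ l, ‖e l‖ < 1}
    {G : MvPowerSeries σ κ} : G ∈ vanI ι EE hEE ↔ ∀ e ∈ EE, ev e (G.map ι) = 0 := Iff.rfl

theorem vanI_radical (EE : Set (σ → Ob K)) (hEE : ∀ e ∈ EE, ∀ l, ‖e l‖ < 1) :
    (vanI ι EE hEE).IsRadical := by
  intro a ha
  rw [Ideal.mem_radical_iff] at ha
  obtain ⟨n, hn⟩ := ha
  intro e he
  have ht : ∀ l, IsTopologicallyNilpotent (e l) := fun l => (Ob_tn_iff _).2 (hEE e he l)
  have := hn e he
  rw [map_pow, ev_pow ht] at this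
  exact eq_zero_of_pow_eq_zero this

theorem vanI_ne_top (EE : Set (σ → Ob K)) (hEE : ∀ e ∈ EE, ∀ l, ‖e l‖ < 1) (hne : EE.Nonempty) :
    vanI ι EE hEE ≠ ⊤ := by
  obtain ⟨e, he⟩ := hne
  have ht : ∀ l, IsTopologicallyNilpotent (e l) := fun l => (Ob_tn_iff _).2 (hEE e he l)
  intro h
  have h1 : (1 : MvPowerSeries σ κ) ∈ vanI ι EE hEE := by rw [h]; trivial
  have := h1 e he
  rw [map_one, ev_one ht] at this
  exact one_ne_zero this

omit [CompleteSpace K] [Finite σ] in
theorem map_pderiv (f : MvPowerSeries σ κ) (l : σ) :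
    (pderiv κ l f).map ι = pderiv (Ob K) l (f.map ι) := by
  ext d
  rw [coeff_map, coeff_pderiv, coeff_pderiv, coeff_map, map_mul, map_add, map_natCast, map_one]

section lin

variable [Fintype κ]

/-- existence of a relation with a nonzero linear coefficient -/
theorem exists_lin (Γ : FormalGroup κ) [(Γ.map ι).IsComm]
    (EE : AddSubmonoid (σ → FPt (Γ.map ι)))
    (hfrob : ∀ e ∈ EE, ∃ e' ∈ EE, ∀ l, (e' l).val = (e l).val ^ Fintype.card κ)
    (hG : ∃ G : MvPowerSeries σ κ, G ≠ 0 ∧ ∀ e ∈ EE, ev (vals e) (G.map ι) = 0) :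
    ∃ (G : MvPowerSeries σ κ) (l : σ), coeff (Finsupp.single l 1) G ≠ 0 ∧
      constantCoeff G = 0 ∧ ∀ e ∈ EE, ev (vals e) (G.map ι) = 0 := by
  classical
  let EE' : Set (σ → Ob K) := vals '' (EE : Set (σ → FPt (Γ.map ι)))
  have hEE' : ∀ e ∈ EE', ∀ l, ‖e l‖ < 1 := by
    rintro _ ⟨e, _, rfl⟩ l
    exact vals_lt e l
  have hfrob' : ∀ e ∈ EE', (fun l => e l ^ Fintype.card κ) ∈ EE' := by
    rintro _ ⟨e, he, rfl⟩
    obtain ⟨e', he', h⟩ := hfrob e he
    exact ⟨e', he', funext fun l => h l⟩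
  obtain ⟨G, hG0, hGv⟩ := hG
  have hbot : vanI ι EE' hEE' ≠ ⊥ := by
    intro h
    have h1 : G ∈ vanI ι EE' hEE' := by
      rintro _ ⟨e, he, rfl⟩
      exact hGv e he
    rw [h] at h1
    exact hG0 h1
  have htop : vanI ι EE' hEE' ≠ ⊤ :=
    vanI_ne_top ι EE' hEE' ⟨_, ⟨0, EE.zero_mem, rfl⟩⟩
  obtain ⟨p, hp⟩ := CharP.exists κ
  have : Fact p.Prime := ⟨CharP.char_is_prime κ p⟩
  have : PerfectRing κ p := inferInstance
  obtain ⟨f, hf, l, hl⟩ := PthPower.exists_pderiv_notMem p (vanI_radical ι EE' hEE') hbot htop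
  rw [mem_vanI] at hl
  push Not at hl
  obtain ⟨_, ⟨e₀, he₀, rfl⟩, hne⟩ := hl
  let F := translate (Γ.map ι) (vals e₀) (f.map ι)
  have hF1 : coeff (Finsupp.single l 1) F ≠ 0 := by
    obtain ⟨u, hu, h⟩ := coeff_translate (Γ.map ι) (e₀ := vals e₀) (vals_lt e₀) (f.map ι) l
    change coeff (Finsupp.single l 1) (translate (Γ.map ι) (vals e₀) (f.map ι)) ≠ 0
    rw [h, ← map_pderiv]
    exact mul_ne_zero hne hu
  have hFv : ∀ e ∈ EE', ev e F = 0 := by
    rintro _ ⟨e, he, rfl⟩
    change ev (vals e) (translate (Γ.map ι) (vals e₀) (f.map ι)) = 0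
    rw [ev_translate (Γ.map ι) (vals_lt e₀) (vals_lt e)]
    exact hf _ ⟨e₀ + e, EE.add_mem he₀ he, rfl⟩
  obtain ⟨G1, h1, h2⟩ := Descent.desc_exact ι EE' hEE' hfrob' F (Finsupp.single l 1) hF1 hFv
  refine ⟨G1, l, h1, ?_, fun e he => h2 _ ⟨e, he, rfl⟩⟩
  have h3 := h2 _ ⟨0, EE.zero_mem, rfl⟩
  have h4 : vals (0 : σ → FPt (Γ.map ι)) = fun _ => (0 : Ob K) := rfl
  rw [h4, ev_zero_pt, ← coeff_zero_eq_constantCoeff_apply, coeff_map] at h3
  rw [← coeff_zero_eq_constantCoeff_apply]
  exact (map_eq_zero ι).1 h3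

end lin

theorem ev_rename {τ : Type*} [Finite τ] {a : σ → Ob K} (ha : ∀ i, IsTopologicallyNilpotent (a i))
    (f : τ → σ) [Filter.TendstoCofinite f] (A : MvPowerSeries τ (Ob K)) :
    ev a (rename f A) = ev (fun j => a (f j)) A := by
  rw [rename_eq_subst, ev_subst ha _ (fun i => by simp)]
  congr 1
  funext j
  simp [ev_X ha]

/-- a relation with nonzero linear coefficient is the graph of a power series -/
theorem exists_graph [DecidableEq σ] {l₀ : σ} {G : MvPowerSeries σ κ}
    (h1 : coeff (Finsupp.single l₀ 1) G ≠ 0) (h0 : constantCoeff G = 0) :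
    ∃ A : MvPowerSeries {l // l ≠ l₀} κ, constantCoeff A = 0 ∧
      ∀ a : σ → Ob K, (∀ i, IsTopologicallyNilpotent (a i)) → ev a (G.map ι) = 0 →
        a l₀ = ev (fun l : {l // l ≠ l₀} => a l.1) (A.map ι) := by
  let ε := Equiv.optionSubtypeNe l₀
  let G' : MvPowerSeries (Option {l // l ≠ l₀}) κ := rename ε.symm G
  have hG'0 : constantCoeff G' = 0 := by
    change constantCoeff (rename ε.symm G) = 0
    rw [constantCoeff_rename, h0]
  have hG'1 : coeff (Finsupp.single none 1) G' ≠ 0 := by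
    have := coeff_embDomain_rename ε.symm.toEmbedding G (Finsupp.single l₀ 1)
    rw [Finsupp.embDomain_single] at this
    have h2 : ε.symm.toEmbedding l₀ = none := by
      change ε.symm l₀ = none
      exact Equiv.optionSubtypeNe_symm_self l₀
    rw [h2] at this
    change coeff (Finsupp.single none 1) (rename ε.symm G) ≠ 0
    rw [show (rename ε.symm G) = rename (ε.symm.toEmbedding) G from rfl, this]
    exact h1
  obtain ⟨A, hA0, H, hH, hGA⟩ := weier G' hG'0 hG'1
  refine ⟨A, hA0, fun a ha hv => ?_⟩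
  let b : Option {l // l ≠ l₀} → Ob K := fun i => a (ε i)
  have hb : ∀ i, IsTopologicallyNilpotent (b i) := fun i => ha _
  have e1 : ev b (G'.map ι) = 0 := by
    change ev b ((rename ε.symm G).map ι) = 0
    rw [← rename_map, ev_rename hb]
    have : (fun j => b (ε.symm j)) = a := by
      funext j
      change a (ε (ε.symm j)) = a j
      rw [Equiv.apply_symm_apply]
    rw [this, hv]
  rw [hGA, map_mul, ev_mul hb, map_sub, ev_sub hb, map_X, ev_X hb, ← rename_map,
    ev_rename hb] at e1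
  have e2 : ev b (H.map ι) ≠ 0 := by
    intro h
    have h3 : IsUnit (evHom hb (H.map ι)) := (hH.map (MvPowerSeries.map ι)).map (evHom hb)
    rw [evHom_apply, h] at h3
    exact h3.ne_zero rfl
  have e3 := (mul_eq_zero.1 e1).resolve_right e2
  rw [sub_eq_zero] at e3
  have e4 : b none = a l₀ := by
    change a (ε none) = a l₀
    rw [Equiv.optionSubtypeNe_none]
  rw [← e4, e3]
  rfl

end Circuit
end Crest.Agent.R227
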