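import Crest.Agent.R227.Circuit

/-!
Row 227 (S0351): the circuit lemma, second part (helper251): additivity of the graph and
decomposition into endomorphisms.
-/

set_option autoImplicit false

noncomputable section

open Filter Topology

namespace Crest.Agent.R227
namespace Circuit

open Crest.LubinTate MvPowerSeries
open scoped MvPowerSeries.WithPiTopology

variable {K : Type*} [NormedField K] [IsUltrametricDist K] [CompleteSpace K]
variable {κ : Type*} [Field κ] (ι : κ →+* Ob K)
variable {σ : Type*} [Finite σ] {τ : Type*} [Finite τ]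

/-- the series in `Y` multiplying `X^I` in a series in `X, Y` -/
def pc {σ τ R : Type*} [CommRing R] (I : σ →₀ ℕ) (B : MvPowerSeries (σ ⊕ τ) R) :
    MvPowerSeries τ R := fun J => coeff (Finsupp.sumElim I J) B

omit [Finite σ] [Finite τ] in
theorem coeff_pc {R : Type*} [CommRing R] (I : σ →₀ ℕ) (J : τ →₀ ℕ)
    (B : MvPowerSeries (σ ⊕ τ) R) : coeff J (pc I B) = coeff (Finsupp.sumElim I J) B := rfl

omit [Finite σ] [Finite τ] in
theorem pc_add {R : Type*} [CommRing R] (I : σ →₀ ℕ)
    (B B' : MvPowerSeries (σ ⊕ τ) R) : pc I (B + B') = pc I B + pc I B' := by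
  ext J; rw [map_add, coeff_pc, coeff_pc, coeff_pc, map_add]

omit [Finite σ] [Finite τ] [CompleteSpace K] in
theorem map_pc (I : σ →₀ ℕ) (B : MvPowerSeries (σ ⊕ τ) κ) : (pc I B).map ι = pc I (B.map ι) := by
  ext J; rw [coeff_map, coeff_pc, coeff_pc, coeff_map]

omit [Finite σ] [Finite τ] in
theorem pc_monomial {R : Type*} [CommRing R] [DecidableEq (σ →₀ ℕ)] (I d₁ : σ →₀ ℕ) (d₂ : τ →₀ ℕ)
    (c : R) : pc I (monomial (Finsupp.sumElim d₁ d₂) c) = if I = d₁ then monomial d₂ c else 0 := by
  classical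
  ext J
  rw [coeff_pc, coeff_monomial]
  split_ifs with h1 h2 h2
  · have h3 := congrArg (fun f => Finsupp.sumFinsuppEquivProdFinsupp f) h1
    have h4 : (I, J) = (d₁, d₂) := by
      have := (Finsupp.sumFinsuppEquivProdFinsupp (α := σ) (β := τ) (γ := ℕ)).symm.injective
        (a₁ := (I, J)) (a₂ := (d₁, d₂)) h1
      exact this
    rw [coeff_monomial, if_pos (congrArg Prod.snd h4)]
  · exfalso
    apply h2
    have := (Finsupp.sumFinsuppEquivProdFinsupp (α := σ) (β := τ) (γ := ℕ)).symm.injective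
        (a₁ := (I, J)) (a₂ := (d₁, d₂)) h1
    exact congrArg Prod.fst this
  · rw [coeff_monomial, if_neg]
    intro h3
    apply h1
    rw [h2, h3]
  · rw [map_zero]

/-- coefficients of a partial evaluation -/
theorem coeff_partial {y : τ → Ob K} (hy : ∀ j, ‖y j‖ < 1)
    (B : MvPowerSeries (σ ⊕ τ) (Ob K)) (I : σ →₀ ℕ) :
    coeff I (ev (Sum.elim (fun i => (X i : MvPowerSeries σ (Ob K))) (fun j => C (y j)))
      (B.map (C : Ob K →+* MvPowerSeries σ (Ob K)))) = ev y (pc I B) := by
  classical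
  have hT : ∀ k, IsTopologicallyNilpotent
      ((Sum.elim (fun i => (X i : MvPowerSeries σ (Ob K))) (fun j => C (y j))) k) := by
    rintro (i | j)
    · rw [ps_tn_iff]; simp
    · rw [ps_tn_iff]; simpa using hy j
  have hyt : ∀ j, IsTopologicallyNilpotent (y j) := fun j => (Ob_tn_iff _).2 (hy j)
  have hu : Continuous (fun B : MvPowerSeries (σ ⊕ τ) (Ob K) =>
      coeff I (ev (Sum.elim (fun i => (X i : MvPowerSeries σ (Ob K))) (fun j => C (y j)))
      (B.map (C : Ob K →+* MvPowerSeries σ (Ob K))))) :=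
    (WithPiTopology.continuous_coeff (Ob K) _).comp ((continuous_ev hT).comp continuous_map_C)
  have hpc : Continuous (fun B : MvPowerSeries (σ ⊕ τ) (Ob K) => pc I B) := by
    refine continuous_pi fun J => ?_
    exact WithPiTopology.continuous_coeff (Ob K) _
  have hv : Continuous (fun B : MvPowerSeries (σ ⊕ τ) (Ob K) => ev y (pc I B)) :=
    (continuous_ev hyt).comp hpc
  have h2 := eq_of_eq_on_poly hu hv (fun q => by
    induction q using MvPolynomial.induction_on' with
    | monomial d c =>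
      obtain ⟨⟨d₁, d₂⟩, rfl⟩ := (Finsupp.sumFinsuppEquivProdFinsupp
        (α := σ) (β := τ) (γ := ℕ)).symm.surjective d
      change coeff I (ev _ (((MvPolynomial.monomial (Finsupp.sumElim d₁ d₂) c :
        MvPolynomial (σ ⊕ τ) (Ob K)) : MvPowerSeries (σ ⊕ τ) (Ob K)).map _)) =
        ev y (pc I ((MvPolynomial.monomial (Finsupp.sumElim d₁ d₂) c :
        MvPolynomial (σ ⊕ τ) (Ob K)) : MvPowerSeries (σ ⊕ τ) (Ob K)))
      rw [MvPolynomial.coe_monomial, pc_monomial]
      have e1 : (monomial (Finsupp.sumElim d₁ d₂) c : MvPowerSeries (σ ⊕ τ) (Ob K)).map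
          (C : Ob K →+* MvPowerSeries σ (Ob K))
          = ((MvPolynomial.monomial (Finsupp.sumElim d₁ d₂) (C c) :
            MvPolynomial (σ ⊕ τ) (MvPowerSeries σ (Ob K))) : MvPowerSeries (σ ⊕ τ) _) := by
        rw [MvPolynomial.coe_monomial, map_monomial]
      rw [e1, ev_coe hT, MvPolynomial.eval_monomial, Finsupp.prod_sumElim]
      have e2 : (d₁.prod ((fun n e => Sum.elim (fun i => (X i : MvPowerSeries σ (Ob K)))
          (fun j => C (y j)) n ^ e) ∘ Sum.inl)) = monomial d₁ 1 := by
        rw [monomial_one_eq]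
        rfl
      have e3 : (d₂.prod ((fun n e => Sum.elim (fun i => (X i : MvPowerSeries σ (Ob K)))
          (fun j => C (y j)) n ^ e) ∘ Sum.inr)) = C (d₂.prod fun j e => y j ^ e) := by
        rw [Finsupp.prod, Finsupp.prod, map_prod]
        refine Finset.prod_congr rfl fun j _ => ?_
        simp
      rw [e2, e3, ← mul_assoc, mul_right_comm, ← map_mul, coeff_C_mul, coeff_monomial]
      split_ifs with h
      · have e4 : (monomial d₂ c : MvPowerSeries τ (Ob K))
            = ((MvPolynomial.monomial d₂ c : MvPolynomial τ (Ob K)) : MvPowerSeries τ (Ob K)) := by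
          rw [MvPolynomial.coe_monomial]
        rw [e4, ev_coe hyt, MvPolynomial.eval_monomial, mul_one]
      · rw [ev_zero hyt, mul_zero]
    | add p q hp hq =>
      rw [MvPolynomial.coe_add, map_add, ev_add hT, map_add, hp, hq, pc_add, ev_add hyt])
  exact congrFun h2 B

/-- a series in two groups of variables vanishing on a product of "dense" sets is zero -/
theorem eq_zero_of_vanish (EE1 : Set (σ → Ob K)) (EE2 : Set (τ → Ob K))
    (hE1 : ∀ e ∈ EE1, ∀ l, ‖e l‖ < 1) (hE2 : ∀ e ∈ EE2, ∀ l, ‖e l‖ < 1)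
    (h1 : ∀ F : MvPowerSeries σ (Ob K), (∀ e ∈ EE1, ev e F = 0) → F = 0)
    (h2 : ∀ G : MvPowerSeries τ κ, (∀ e ∈ EE2, ev e (G.map ι) = 0) → G = 0)
    (B : MvPowerSeries (σ ⊕ τ) κ)
    (hB : ∀ x ∈ EE1, ∀ y ∈ EE2, ev (Sum.elim x y) (B.map ι) = 0) : B = 0 := by
  have key : ∀ I : σ →₀ ℕ, pc I B = 0 := by
    intro I
    apply h2
    intro y hy
    rw [map_pc, ← coeff_partial (hE2 y hy)]
    have hF : ev (Sum.elim (fun i => (X i : MvPowerSeries σ (Ob K))) (fun j => C (y j)))
      ((B.map ι).map (C : Ob K →+* MvPowerSeries σ (Ob K))) = 0 := by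
     refine h1 _ (fun x hx => ?_)
     have hg : ∀ i, ‖constantCoeff ((Sum.elim (fun i => (X i : MvPowerSeries σ (Ob K)))
        (fun j => C (y j))) i)‖ < 1 := by
      rintro (i | j)
      · simp
      · simpa using hE2 y hy j
     rw [ev_ev _ hg (hE1 x hx)]
     have hxt : ∀ j, IsTopologicallyNilpotent (x j) := fun j => (Ob_tn_iff _).2 (hE1 x hx j)
     have : (fun i => ev x ((Sum.elim (fun i => (X i : MvPowerSeries σ (Ob K)))
        (fun j => C (y j))) i)) = Sum.elim x y := by
      funext i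
      rcases i with i | j
      · simp [ev_X hxt]
      · simp [ev_C hxt]
     rw [this]
     exact hB x hx y hy
    rw [hF, map_zero]
  ext d
  obtain ⟨⟨d₁, d₂⟩, rfl⟩ := (Finsupp.sumFinsuppEquivProdFinsupp
        (α := σ) (β := τ) (γ := ℕ)).symm.surjective d
  change coeff (Finsupp.sumElim d₁ d₂) B = coeff _ 0
  rw [← coeff_pc, key, map_zero, map_zero]

/-! ### additivity -/

variable (Γ : FormalGroup κ)

/-- `A(X + Y)` -/
def addL (A : MvPowerSeries τ κ) : MvPowerSeries (τ ⊕ τ) κ :=
  subst (fun l => fadd Γ (X (Sum.inl l)) (X (Sum.inr l))) A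

/-- `A(X) + A(Y)` -/
def addR (A : MvPowerSeries τ κ) : MvPowerSeries (τ ⊕ τ) κ :=
  fadd Γ (subst (fun l => (X (Sum.inl l) : MvPowerSeries (τ ⊕ τ) κ)) A)
    (subst (fun l => (X (Sum.inr l) : MvPowerSeries (τ ⊕ τ) κ)) A)

omit [Finite τ] in
theorem cc_fXX (l : τ) : constantCoeff
    (fadd Γ (X (Sum.inl l) : MvPowerSeries (τ ⊕ τ) κ) (X (Sum.inr l))) = 0 :=
  constantCoeff_fadd _ _ _ (by simp) (by simp)

theorem cc_sX {υ : Type*} (f : τ → υ) (A : MvPowerSeries τ κ) (hA : constantCoeff A = 0) :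
    constantCoeff (subst (fun l => (X (f l) : MvPowerSeries υ κ)) A) = 0 := by
  rw [constantCoeff_subst_eq (hasSubst_of_constantCoeff_zero fun i => by simp)
    (fun i => by simp), hA]

theorem ev_addL {x y : τ → Ob K} (hx : ∀ l, IsTopologicallyNilpotent (x l))
    (hy : ∀ l, IsTopologicallyNilpotent (y l)) (A : MvPowerSeries τ κ) :
    ev (Sum.elim x y) ((addL Γ A).map ι)
      = ev (fun l => padd (Γ.map ι) (x l) (y l)) (A.map ι) := by
  have hxy : ∀ k, IsTopologicallyNilpotent (Sum.elim x y k) := by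
    rintro (i | j)
    · exact hx i
    · exact hy j
  unfold addL
  have hc : ∀ l : τ, constantCoeff ((fadd Γ (X (Sum.inl l) : MvPowerSeries (τ ⊕ τ) κ)
      (X (Sum.inr l))).map ι) = 0 := by
    intro l
    rw [← coeff_zero_eq_constantCoeff_apply, coeff_map, coeff_zero_eq_constantCoeff_apply,
      cc_fXX, map_zero]
  rw [map_subst (hasSubst_of_constantCoeff_zero fun l => cc_fXX Γ l),
    ev_subst hxy _ hc]
  congr 1
  funext l
  rw [map_fadd ι Γ _ _ (by simp) (by simp), FPtAux.ev_fadd _ hxy _ _ (by simp) (by simp), map_X,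
    map_X, ev_X hxy, ev_X hxy]
  rfl

theorem ev_addR {x y : τ → Ob K} (hx : ∀ l, IsTopologicallyNilpotent (x l))
    (hy : ∀ l, IsTopologicallyNilpotent (y l)) (A : MvPowerSeries τ κ)
    (hA : constantCoeff A = 0) :
    ev (Sum.elim x y) ((addR Γ A).map ι)
      = padd (Γ.map ι) (ev x (A.map ι)) (ev y (A.map ι)) := by
  have hxy : ∀ k, IsTopologicallyNilpotent (Sum.elim x y k) := by
    rintro (i | j)
    · exact hx i
    · exact hy j
  unfold addR
  have hc : ∀ f : τ → τ ⊕ τ, constantCoeff ((subst (fun l => (X (f l) : MvPowerSeries (τ ⊕ τ) κ))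
      A).map ι) = 0 := by
    intro f
    rw [← coeff_zero_eq_constantCoeff_apply, coeff_map, coeff_zero_eq_constantCoeff_apply,
      cc_sX f A hA, map_zero]
  have he : ∀ f : τ → τ ⊕ τ, ev (Sum.elim x y) ((subst (fun l => (X (f l) :
      MvPowerSeries (τ ⊕ τ) κ)) A).map ι) = ev (fun l => Sum.elim x y (f l)) (A.map ι) := by
    intro f
    rw [map_subst (hasSubst_of_constantCoeff_zero fun l => by simp),
      ev_subst hxy _ (fun l => by simp)]
    congr 1
    funext l
    rw [map_X, ev_X hxy]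
  rw [map_fadd ι Γ _ _ (cc_sX _ A hA) (cc_sX _ A hA),
    FPtAux.ev_fadd _ hxy _ _ (hc _) (hc _), he, he]
  rfl

variable {Γ}

/-- formal additivity can be specialised -/
theorem add_spec {A : MvPowerSeries τ κ} (hA : constantCoeff A = 0) (hadd : addL Γ A = addR Γ A)
    {υ : Type*} (x y : τ → MvPowerSeries υ κ) (hx : ∀ l, constantCoeff (x l) = 0)
    (hy : ∀ l, constantCoeff (y l) = 0) :
    subst (fun l => fadd Γ (x l) (y l)) A = fadd Γ (subst x A) (subst y A) := by
  have hxy : ∀ k, constantCoeff (Sum.elim x y k) = 0 := by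
    rintro (i | j)
    · exact hx i
    · exact hy j
  have hs : HasSubst (Sum.elim x y) := hasSubst_of_constantCoeff_zero hxy
  have h := congrArg (subst (Sum.elim x y)) hadd
  unfold addL addR at h
  rw [subst_comp_subst_apply (hasSubst_of_constantCoeff_zero fun l => cc_fXX Γ l) hs,
    subst_fadd Γ _ _ (cc_sX _ A hA) (cc_sX _ A hA) _ hxy,
    subst_comp_subst_apply (hasSubst_of_constantCoeff_zero fun l => by simp) hs,
    subst_comp_subst_apply (hasSubst_of_constantCoeff_zero fun l => by simp) hs] at h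
  have e1 : (fun l : τ => subst (Sum.elim x y)
      (fadd Γ (X (Sum.inl l) : MvPowerSeries (τ ⊕ τ) κ) (X (Sum.inr l))))
      = fun l => fadd Γ (x l) (y l) := by
    funext l
    rw [subst_fadd Γ _ _ (by simp) (by simp) _ hxy, subst_X hs, subst_X hs]
    rfl
  have e2 : (fun l : τ => subst (Sum.elim x y) (X (Sum.inl l) : MvPowerSeries (τ ⊕ τ) κ)) = x := by
    funext l
    rw [subst_X hs]
    rfl
  have e3 : (fun l : τ => subst (Sum.elim x y) (X (Sum.inr l) : MvPowerSeries (τ ⊕ τ) κ)) = y := by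
    funext l
    rw [subst_X hs]
    rfl
  rw [e1, e2, e3] at h
  exact h

/-- the component of a series along the variable `l` -/
def comp [DecidableEq τ] (A : MvPowerSeries τ κ) (l : τ) : PowerSeries κ :=
  MvPowerSeries.subst (Pi.single l (PowerSeries.X : PowerSeries κ) : τ → MvPowerSeries Unit κ) A

omit [Finite τ] in
theorem cc_single [DecidableEq τ] {υ : Type*} (l : τ) {h : MvPowerSeries υ κ}
    (hh : constantCoeff h = 0) (s : τ) :
    constantCoeff ((Pi.single l h : τ → MvPowerSeries υ κ) s) = 0 := by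
  by_cases hs : s = l
  · subst hs; rw [Pi.single_eq_same]; exact hh
  · rw [Pi.single_eq_of_ne hs, map_zero]

theorem subst_comp [DecidableEq τ] {υ : Type*} (A : MvPowerSeries τ κ) (l : τ)
    {h : MvPowerSeries υ κ} (hh : constantCoeff h = 0) :
    PowerSeries.subst h (comp A l) = subst (Pi.single l h : τ → MvPowerSeries υ κ) A := by
  have hs : HasSubst (fun _ : Unit => h) := hasSubst_of_constantCoeff_zero fun _ => hh
  have h0 : HasSubst (Pi.single l (PowerSeries.X : PowerSeries κ) : τ → MvPowerSeries Unit κ) :=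
    hasSubst_of_constantCoeff_zero fun s => cc_single l (ccPX (R := κ)) s
  unfold comp
  rw [PowerSeries.subst_def, subst_comp_subst_apply h0 hs]
  congr 1
  funext s
  by_cases hsl : s = l
  · subst hsl
    rw [Pi.single_eq_same, Pi.single_eq_same]
    exact subst_X hs ()
  · rw [Pi.single_eq_of_ne hsl, Pi.single_eq_of_ne hsl, ← coe_substAlgHom hs, map_zero]

theorem cc_comp [DecidableEq τ] (A : MvPowerSeries τ κ) (hA : constantCoeff A = 0) (l : τ) :
    PowerSeries.constantCoeff (comp A l) = 0 := by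
  have h0 := fun s => cc_single l (ccPX (R := κ)) s
  have := constantCoeff_subst_eq (hasSubst_of_constantCoeff_zero h0) h0 A
  rw [hA] at this
  exact this

theorem comp_isFGHom [DecidableEq τ] {A : MvPowerSeries τ κ} (hA : constantCoeff A = 0)
    (hadd : addL Γ A = addR Γ A) (l : τ) : IsFGHom Γ Γ (comp A l) := by
  rw [isFGHom_iff]
  refine ⟨cc_comp A hA l, ?_⟩
  rw [subst_comp A l (constantCoeff_fadd _ _ _ (by simp) (by simp)), subst_comp A l (by simp),
    subst_comp A l (by simp), ← add_spec hA hadd _ _ (cc_single l (by simp))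
      (cc_single l (by simp))]
  congr 1
  funext s
  by_cases hsl : s = l
  · subst hsl
    rw [Pi.single_eq_same, Pi.single_eq_same, Pi.single_eq_same]
  · rw [Pi.single_eq_of_ne hsl, Pi.single_eq_of_ne hsl, Pi.single_eq_of_ne hsl]
    exact (zero_fadd Γ _ (by simp)).symm

/-- the additive map on points defined by an additive series -/
def ptHom [Γ.IsComm] [(Γ.map ι).IsComm] {A : MvPowerSeries τ κ} (hA : constantCoeff A = 0)
    (hadd : addL Γ A = addR Γ A) : (τ → FPt (Γ.map ι)) →+ FPt (Γ.map ι) where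
  toFun e := ⟨ev (vals e) (A.map ι), by
    refine ev_tn (vals_tn e) _ ?_
    rw [← coeff_zero_eq_constantCoeff_apply, coeff_map, coeff_zero_eq_constantCoeff_apply, hA,
      map_zero]
    exact IsTopologicallyNilpotent.zero⟩
  map_zero' := by
    apply FPt.ext
    change ev (fun _ => (0 : Ob K)) (A.map ι) = 0
    rw [ev_zero_pt, ← coeff_zero_eq_constantCoeff_apply, coeff_map,
      coeff_zero_eq_constantCoeff_apply, hA, map_zero]
  map_add' x y := by
    apply FPt.ext
    change ev (fun l => padd (Γ.map ι) (vals x l) (vals y l)) (A.map ι)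
      = padd (Γ.map ι) (ev (vals x) (A.map ι)) (ev (vals y) (A.map ι))
    rw [← ev_addL ι Γ (vals_tn x) (vals_tn y), hadd, ev_addR ι Γ (vals_tn x) (vals_tn y) A hA]

theorem ptHom_val [Γ.IsComm] [(Γ.map ι).IsComm] {A : MvPowerSeries τ κ} (hA : constantCoeff A = 0)
    (hadd : addL Γ A = addR Γ A) (e : τ → FPt (Γ.map ι)) :
    (ptHom ι hA hadd e).val = ev (vals e) (A.map ι) := rfl

theorem ptHom_single [DecidableEq τ] [Γ.IsComm] [(Γ.map ι).IsComm] {A : MvPowerSeries τ κ}
    (hA : constantCoeff A = 0) (hadd : addL Γ A = addR Γ A) (l : τ) (x : FPt (Γ.map ι)) :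
    ptHom ι hA hadd (Pi.single l x) = FPt.hom (IsFGHom.map ι (comp_isFGHom hA hadd l)) x := by
  apply FPt.ext
  rw [ptHom_val, FPt.hom_val]
  have hx : ∀ _ : Unit, IsTopologicallyNilpotent x.val := fun _ => x.tn
  have h0 := fun s : τ => cc_single l (ccPX (R := κ)) s
  have e1 : (comp A l).map ι = MvPowerSeries.subst (fun s =>
      ((Pi.single l (PowerSeries.X : PowerSeries κ) : τ → MvPowerSeries Unit κ) s).map ι)
      (A.map ι) := map_subst (hasSubst_of_constantCoeff_zero h0) A
  have e2 : ∀ s : τ, constantCoeff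
      (((Pi.single l (PowerSeries.X : PowerSeries κ) : τ → MvPowerSeries Unit κ) s).map ι) = 0 := by
    intro s
    rw [← coeff_zero_eq_constantCoeff_apply, coeff_map, coeff_zero_eq_constantCoeff_apply, h0,
      map_zero]
  rw [e1]
  have e3 := ev_subst hx _ e2 (A.map ι)
  refine Eq.trans ?_ e3.symm
  congr 1
  funext s
  by_cases hsl : s = l
  · subst hsl
    unfold vals
    rw [Pi.single_eq_same, Pi.single_eq_same]
    have : (PowerSeries.X : PowerSeries κ).map ι = PowerSeries.X := PowerSeries.map_X ι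
    have h4 : MvPowerSeries.map ι (PowerSeries.X : PowerSeries κ) = X () := this
    rw [h4, ev_X hx]
  · unfold vals
    rw [Pi.single_eq_of_ne hsl, Pi.single_eq_of_ne hsl, map_zero, ev_zero hx]
    rfl

theorem ptHom_eq_sum [Fintype τ] [DecidableEq τ] [Γ.IsComm] [(Γ.map ι).IsComm]
    {A : MvPowerSeries τ κ} (hA : constantCoeff A = 0) (hadd : addL Γ A = addR Γ A)
    (e : τ → FPt (Γ.map ι)) :
    ptHom ι hA hadd e = ∑ l, FPt.hom (IsFGHom.map ι (comp_isFGHom hA hadd l)) (e l) := by
  have h : e = ∑ l, Pi.single l (e l) := (Finset.univ_sum_single e).symm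
  conv_lhs => rw [h]
  rw [map_sum]
  refine Finset.sum_congr rfl fun l _ => ?_
  rw [ptHom_single]

end Circuit
end Crest.Agent.R227
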