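import Crest.Agent.R227.Circuit2

/-!
Row 227 (S0351): the circuit lemma, conclusion (helper251).
-/

set_option autoImplicit false

noncomputable section

open Filter Topology

namespace Crest.Agent.R227
namespace Circuit

open Crest.LubinTate MvPowerSeries

universe u

variable {K : Type*} [NormedField K] [IsUltrametricDist K] [CompleteSpace K]
variable {κ : Type*} [Field κ] (ι : κ →+* Ob K)
variable {Γ : FormalGroup κ}

/-- forgetting one coordinate -/
def restr {σ : Type*} {M : Type*} [AddCommMonoid M] (l₀ : σ) :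
    (σ → M) →+ ({l // l ≠ l₀} → M) where
  toFun e l := e l.1
  map_zero' := rfl
  map_add' _ _ := rfl

theorem hom_fneg [Γ.IsComm] [(Γ.map ι).IsComm] (h : IsFGHom Γ Γ (fnegSeries Γ))
    (x : FPt (Γ.map ι)) : FPt.hom (IsFGHom.map ι h) x = -x := by
  apply eq_neg_of_add_eq_zero_left
  apply FPt.ext
  have h2 : ∀ _ : Unit, IsTopologicallyNilpotent x.val := fun _ => x.tn
  have h0 : constantCoeff (fnegSeries Γ : MvPowerSeries Unit κ) = 0 :=
    (exists_fneg Γ).choose_spec.1
  have key : fadd Γ (fnegSeries Γ) (X () : MvPowerSeries Unit κ) = 0 :=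
    (exists_fneg Γ).choose_spec.2.2
  have h0' : constantCoeff (MvPowerSeries.map ι (fnegSeries Γ : MvPowerSeries Unit κ)) = 0 := by
    rw [← coeff_zero_eq_constantCoeff_apply, coeff_map, coeff_zero_eq_constantCoeff_apply, h0,
      map_zero]
  have h1 : ev (fun _ : Unit => x.val) (MvPowerSeries.map ι
      (fadd Γ (fnegSeries Γ) (X () : MvPowerSeries Unit κ)))
      = ev (fun _ : Unit => x.val) (MvPowerSeries.map ι 0) := by rw [key]
  rw [map_fadd ι Γ _ _ h0 (by simp), FPtAux.ev_fadd _ h2 _ _ h0' (by simp), map_X, ev_X h2,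
    map_zero, ev_zero h2] at h1
  exact h1

theorem circuit_aux [Fintype κ] [Γ.IsComm] [(Γ.map ι).IsComm] (n : ℕ) :
    ∀ {σ : Type u} [Fintype σ] [DecidableEq σ] (_ : Fintype.card σ = n)
      (EE : AddSubmonoid (σ → FPt (Γ.map ι)))
      (_ : ∀ e ∈ EE, ∃ e' ∈ EE, ∀ l, (e' l).val = (e l).val ^ Fintype.card κ)
      (_ : ∃ G : MvPowerSeries σ κ, G ≠ 0 ∧ ∀ e ∈ EE, ev (vals e) (G.map ι) = 0),
      ∃ (A : σ → PowerSeries κ) (hA : ∀ l, IsFGHom Γ Γ (A l)), (∃ l₀, A l₀ = fnegSeries Γ) ∧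
        ∀ e ∈ EE, ∑ l, FPt.hom (IsFGHom.map ι (hA l)) (e l) = 0 := by
  classical
  induction n with
  | zero =>
    intro σ _ _ hcard EE hfrob hG
    obtain ⟨_, l, _⟩ := exists_lin ι Γ EE hfrob hG
    rw [Fintype.card_eq_zero_iff] at hcard
    exact (hcard.false l).elim
  | succ n ih =>
    intro σ _ _ hcard EE hfrob hG
    obtain ⟨G, l₀, hG1, hG0, hGv⟩ := exists_lin ι Γ EE hfrob hG
    have hcard' : Fintype.card {l // l ≠ l₀} = n := by
      rw [Fintype.card_subtype_compl, Fintype.card_subtype_eq, hcard]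
      rfl
    let EE' : AddSubmonoid ({l // l ≠ l₀} → FPt (Γ.map ι)) := EE.map (restr l₀)
    have hfrob' : ∀ e ∈ EE', ∃ e' ∈ EE', ∀ l, (e' l).val = (e l).val ^ Fintype.card κ := by
      rintro _ ⟨e, he, rfl⟩
      obtain ⟨e', he', h⟩ := hfrob e he
      exact ⟨restr l₀ e', ⟨e', he', rfl⟩, fun l => h l.1⟩
    by_cases hG' : ∃ G : MvPowerSeries {l // l ≠ l₀} κ, G ≠ 0 ∧
        ∀ e ∈ EE', ev (vals e) (G.map ι) = 0
    · obtain ⟨A', hA', ⟨l₁, hl₁⟩, hrel⟩ := ih hcard' EE' hfrob' hG'
      let A : σ → PowerSeries κ := fun l => if h : l ≠ l₀ then A' ⟨l, h⟩ else 0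
      have hA0 : A l₀ = 0 := by simp [A]
      have hA1 : ∀ l : {l // l ≠ l₀}, A l.1 = A' l := by
        intro l
        simp [A, l.2]
      have hA : ∀ l, IsFGHom Γ Γ (A l) := by
        intro l
        by_cases h : l = l₀
        · subst h; rw [hA0]; exact IsFGHom.zero Γ Γ
        · rw [hA1 ⟨l, h⟩]; exact hA' _
      refine ⟨A, hA, ⟨l₁.1, by rw [hA1, hl₁]⟩, fun e he => ?_⟩
      rw [Fintype.sum_eq_add_sum_subtype_ne _ l₀]
      have e1 : FPt.hom (IsFGHom.map ι (hA l₀)) (e l₀) = 0 := by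
        apply FPt.ext
        rw [FPt.hom_val, hA0, map_zero]
        exact ev_zero (fun _ => (e l₀).tn)
      rw [e1, zero_add, ← hrel (restr l₀ e) ⟨e, he, rfl⟩]
      refine Finset.sum_congr rfl fun l _ => ?_
      apply FPt.ext
      rw [FPt.hom_val, FPt.hom_val, hA1]
      rfl
    · push Not at hG'
      obtain ⟨A, hAc, hgraph⟩ := exists_graph (K := K) ι hG1 hG0
      let ES : Set ({l // l ≠ l₀} → Ob K) := vals '' (EE' : Set ({l // l ≠ l₀} → FPt (Γ.map ι)))
      have hES : ∀ e ∈ ES, ∀ l, ‖e l‖ < 1 := by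
        rintro _ ⟨e, _, rfl⟩ l
        exact vals_lt e l
      have hfrobS : ∀ e ∈ ES, (fun l => e l ^ Fintype.card κ) ∈ ES := by
        rintro _ ⟨e, he, rfl⟩
        obtain ⟨e', he', h⟩ := hfrob' e he
        exact ⟨e', he', funext fun l => h l⟩
      have h2 : ∀ G : MvPowerSeries {l // l ≠ l₀} κ,
          (∀ e ∈ ES, ev e (G.map ι) = 0) → G = 0 := by
        intro G hv
        by_contra hne
        obtain ⟨e, he, h⟩ := hG' G hne
        exact h (hv _ ⟨e, he, rfl⟩)
      have h1 : ∀ F : MvPowerSeries {l // l ≠ l₀} (Ob K), (∀ e ∈ ES, ev e F = 0) → F = 0 := by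
        intro F hv
        by_contra hne
        obtain ⟨I, hI⟩ : ∃ I, coeff I F ≠ 0 := by
          by_contra h
          push Not at h
          exact hne (MvPowerSeries.ext fun I => by rw [h I, map_zero])
        obtain ⟨G, hGI, hGv'⟩ := Descent.desc_exact ι ES hES hfrobS F I hI hv
        rw [h2 G hGv', map_zero] at hGI
        exact hGI rfl
      have hval : ∀ e ∈ EE, (e l₀).val = ev (vals (restr l₀ e)) (A.map ι) := by
        intro e he
        exact hgraph (vals e) (vals_tn e) (hGv e he)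
      have hadd : addL Γ A = addR Γ A := by
        rw [← sub_eq_zero]
        apply eq_zero_of_vanish ι ES ES hES hES h1 h2
        rintro _ ⟨_, ⟨x, hx, rfl⟩, rfl⟩ _ ⟨_, ⟨y, hy, rfl⟩, rfl⟩
        have hxy : ∀ k, IsTopologicallyNilpotent
            (Sum.elim (vals (restr l₀ x)) (vals (restr l₀ y)) k) := by
          rintro (i | j)
          · exact vals_tn _ i
          · exact vals_tn _ j
        rw [map_sub, ev_sub hxy, ev_addL ι Γ (vals_tn _) (vals_tn _),
          ev_addR ι Γ (vals_tn _) (vals_tn _) A hAc, ← hval x hx, ← hval y hy]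
        have h3 := hval (x + y) (EE.add_mem hx hy)
        have h4 : (fun l => padd (Γ.map ι) (vals (restr l₀ x) l) (vals (restr l₀ y) l))
            = vals (restr l₀ (x + y)) := rfl
        rw [h4, ← h3]
        have h5 : ((x + y) l₀).val = padd (Γ.map ι) (x l₀).val (y l₀).val := rfl
        rw [h5, sub_self]
      let B : σ → PowerSeries κ := fun l => if h : l ≠ l₀ then comp A ⟨l, h⟩ else fnegSeries Γ
      have hB0 : B l₀ = fnegSeries Γ := by simp [B]
      have hB1 : ∀ l : {l // l ≠ l₀}, B l.1 = comp A l := by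
        intro l
        simp [B, l.2]
      have hB : ∀ l, IsFGHom Γ Γ (B l) := by
        intro l
        by_cases h : l = l₀
        · subst h; rw [hB0]; exact isFGHom_fnegSeries Γ
        · rw [hB1 ⟨l, h⟩]; exact comp_isFGHom hAc hadd _
      refine ⟨B, hB, ⟨l₀, hB0⟩, fun e he => ?_⟩
      rw [Fintype.sum_eq_add_sum_subtype_ne _ l₀]
      have e1 : FPt.hom (IsFGHom.map ι (hB l₀)) (e l₀) = - e l₀ := by
        rw [← hom_fneg ι (isFGHom_fnegSeries Γ) (e l₀)]
        apply FPt.ext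
        rw [FPt.hom_val, FPt.hom_val, hB0]
      have e2 : ∑ l : {l // l ≠ l₀}, FPt.hom (IsFGHom.map ι (hB l.1)) (e l.1)
          = ptHom ι hAc hadd (restr l₀ e) := by
        rw [ptHom_eq_sum]
        refine Finset.sum_congr rfl fun l _ => ?_
        apply FPt.ext
        rw [FPt.hom_val, FPt.hom_val, hB1]
        rfl
      have e3 : ptHom ι hAc hadd (restr l₀ e) = e l₀ := by
        apply FPt.ext
        rw [ptHom_val, hval e he]
      rw [e1, e2, e3, neg_add_cancel]

end Circuit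

open Crest.LubinTate

/-- **Circuit lemma** (E).  `Γ` a formal group over a finite field `κ`, `EE` a group of tuples of
points of `Γ` with values in the open unit ball of a complete ultrametric field containing `κ`,
stable under `x ↦ x^{|κ|}`.  If `EE` satisfies a nonzero power series relation over `κ`, then there
are endomorphisms `A_l` of `Γ` over `κ`, one of them equal to `-1`, with `∑ A_l(e_l) = 0` on `EE`. -/
theorem circuit_fq {K : Type*} [NormedField K] [IsUltrametricDist K] [CompleteSpace K]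
    {κ : Type*} [Field κ] [Fintype κ] (ι : κ →+* Ob K) (Γ : FormalGroup κ) [Γ.IsComm]
    [(Γ.map ι).IsComm] {σ : Type*} [Fintype σ]
    (EE : AddSubmonoid (σ → FPt (Γ.map ι)))
    (hfrob : ∀ e ∈ EE, ∃ e' ∈ EE, ∀ l, (e' l).val = (e l).val ^ Fintype.card κ)
    (hG : ∃ G : MvPowerSeries σ κ, G ≠ 0 ∧ ∀ e ∈ EE, ev (fun l => (e l).val) (G.map ι) = 0) :
    ∃ (A : σ → PowerSeries κ) (hA : ∀ l, IsFGHom Γ Γ (A l)), (∃ l₀, A l₀ = fnegSeries Γ) ∧
      ∀ e ∈ EE, ∑ l, FPt.hom (IsFGHom.map ι (hA l)) (e l) = 0 := by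
  classical
  exact Circuit.circuit_aux ι (Fintype.card σ) rfl EE hfrob hG

end Crest.Agent.R227
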