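import Crest.Agent.R227.CoBase
import Crest.Agent.R227.CoV

/-! # R227 / CoAct : the action of `𝒟 = End_k(Fn)` on `N` (task COACT) -/

set_option autoImplicit false
set_option linter.unusedSectionVars false

noncomputable section

namespace Crest.Agent.R227

open Crest.LubinTate MvPowerSeries Topology

variable {p : ℕ} [Fact p.Prime] {n h : ℕ}
variable {K : Type} [NontriviallyNormedField K] [IsUltrametricDist K] [CompleteSpace K]
  [IsAlgClosed K] [CharP K p]

variable {ι : GaloisField p n →+* Ob K}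

/-- `Fn` becomes `HO n` through `ι` -/
theorem Fn_map_ι : (Fn p n).map ι = HO p n n (Ob K) := by
  rw [Fn, HO, hz_map]
  congr 1
  funext i
  simp only [sp]
  split_ifs <;> simp

theorem IsFGHom_map_ι {α : PowerSeries (GaloisField p n)} (hα : IsFGHom (Fn p n) (Fn p n) α) :
    IsFGHom (HO p n n (Ob K)) (HO p n n (Ob K)) (α.map ι) := by
  have h1 := IsFGHom.map ι hα
  rwa [Fn_map_ι] at h1

/-- the additive map of an endomorphism -/
def actHom (ι : GaloisField p n →+* Ob K) {α : PowerSeries (GaloisField p n)}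
    (hα : IsFGHom (Fn p n) (Fn p n) α) :
    FPt (HO p n n (Ob K)) →+ FPt (HO p n n (Ob K)) := FPt.hom (IsFGHom_map_ι (ι := ι) hα)

theorem isAct_actHom {α : PowerSeries (GaloisField p n)}
    (hα : IsFGHom (Fn p n) (Fn p n) α) : IsAct ι (actHom ι hα) :=
  ⟨α, hα, fun _ => rfl⟩

theorem IsAct.zero : IsAct ι (0 : FPt (HO p n n (Ob K)) →+ FPt (HO p n n (Ob K))) := by
  refine ⟨0, IsFGHom.zero _ _, fun z => ?_⟩
  rw [map_zero]
  exact (ev_zero (fun _ : Unit => z.tn)).symm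

theorem IsAct.id : IsAct ι (AddMonoidHom.id (FPt (HO p n n (Ob K)))) := by
  refine ⟨PowerSeries.X, IsFGHom.id _, fun z => ?_⟩
  rw [PowerSeries.map_X]
  exact (ev_X (fun _ : Unit => z.tn) ()).symm

theorem IsAct.add {A B : FPt (HO p n n (Ob K)) →+ FPt (HO p n n (Ob K))} (hA : IsAct ι A)
    (hB : IsAct ι B) : IsAct ι (A + B) := by
  obtain ⟨α, hα, hA⟩ := hA
  obtain ⟨β, hβ, hB⟩ := hB
  refine ⟨fadd (Fn p n) α β, IsFGHom.fadd hα hβ, fun z => ?_⟩
  have h1 : PowerSeries.map ι (fadd (Fn p n) α β : PowerSeries _) =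
      fadd (HO p n n (Ob K)) (α.map ι) (β.map ι) := by
    have h2 := map_fadd ι (Fn p n) (τ := Unit) α β hα.1 hβ.1
    rw [Fn_map_ι] at h2
    exact h2
  rw [h1]
  have h3 := FPtAux.ev_fadd (HO p n n (Ob K)) (fun _ : Unit => z.tn)
    (α.map ι) (β.map ι) (IsFGHom_map_ι (ι := ι) hα).1 (IsFGHom_map_ι (ι := ι) hβ).1
  refine Eq.trans ?_ h3.symm
  rw [AddMonoidHom.add_apply]
  change padd _ (A z).val (B z).val = _
  rw [hA, hB]

theorem IsAct.neg {A : FPt (HO p n n (Ob K)) →+ FPt (HO p n n (Ob K))} (hA : IsAct ι A) :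
    IsAct ι (-A) := by
  obtain ⟨α, hα, hA'⟩ := hA
  have hB := isAct_actHom (ι := ι) (K := K) (IsFGHom.fneg hα)
  set B := actHom (K := K) ι (IsFGHom.fneg hα) with hBdef
  have hAB : ∀ z, A z + B z = 0 := by
    intro z
    apply FPt.ext
    have h1 : (fadd (Fn p n) α (fneg (Fn p n) α) : PowerSeries _) = 0 := fadd_fneg (Fn p n) α hα.1
    have h2 := map_fadd ι (Fn p n) (τ := Unit) α (fneg (Fn p n) α) hα.1 (IsFGHom.fneg hα).1
    rw [Fn_map_ι, h1, map_zero] at h2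
    have h3 := FPtAux.ev_fadd (HO p n n (Ob K)) (fun _ : Unit => z.tn)
      (α.map ι) ((fneg (Fn p n) α).map ι) (IsFGHom_map_ι (ι := ι) hα).1
      (IsFGHom_map_ι (ι := ι) (IsFGHom.fneg hα)).1
    have h4 := congrArg (ev (fun _ : Unit => z.val)) h2
    rw [ev_zero (fun _ : Unit => z.tn)] at h4
    rw [FPt.val_zero]
    refine Eq.trans ?_ (h4.trans h3).symm
    change padd _ (A z).val (B z).val = _
    rw [hA']
    rfl
  have h4 : B = -A := by
    ext1 z
    rw [AddMonoidHom.neg_apply]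
    exact (neg_eq_of_add_eq_zero_right (hAB z)).symm
  rw [← h4]
  exact hB

theorem IsAct.comp {A B : FPt (HO p n n (Ob K)) →+ FPt (HO p n n (Ob K))} (hA : IsAct ι A)
    (hB : IsAct ι B) : IsAct ι (A.comp B) := by
  obtain ⟨α, hα, hA⟩ := hA
  obtain ⟨β, hβ, hB⟩ := hB
  refine ⟨PowerSeries.subst β α, IsFGHom.comp hβ hα, fun z => ?_⟩
  rw [CoVAux.psubst_one_eq_map ι hβ.1, ev₁_subst z.tn _ (IsFGHom_map_ι (ι := ι) hβ).1,
    AddMonoidHom.comp_apply, hA, hB]

namespace CoActAux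

theorem hom_frob (k : ℕ) : IsFGHom (Fn p n) (Fn p n) (PowerSeries.X ^ p ^ k) := by
  have h1 := isFGHom_frob (p := p) (Fn p n) k
  have h2 : (Fn p n).map (iterateFrobenius (GaloisField p n) p k) = Fn p n := by
    rw [Fn, hz_map]
    congr 1
    funext i
    simp only [sp]
    split_ifs <;> simp
  rwa [h2] at h1

theorem hom_smul (hn : 1 ≤ n) (a : GaloisField p n) (ha : a ^ p ^ n = a) :
    IsFGHom (Fn p n) (Fn p n) (PowerSeries.C a * PowerSeries.X) := by
  have key : ∀ {τ : Type} (b : MvPowerSeries τ (GaloisField p n)), constantCoeff b = 0 →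
      PowerSeries.subst b (PowerSeries.C a * PowerSeries.X : PowerSeries (GaloisField p n)) =
        C a * b := by
    intro τ b hb
    have hs : PowerSeries.HasSubst b := PowerSeries.HasSubst.of_constantCoeff_zero hb
    rw [PowerSeries.subst_mul hs, PowerSeries.subst_X hs]
    congr 1
    exact PowerSeries.subst_C _
  refine ⟨by simp, ?_⟩
  rw [key _ (Fn p n).zero_constantCoeff, key _ (ccX 0), key _ (ccX 1)]
  exact (hz_sp_smul p n n hn a ha).symm

end CoActAux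

/-- `p`-power Frobenius is an endomorphism -/
theorem isAct_nfr (hn : 1 ≤ n) (k : ℕ) :
    IsAct ι (nfr (k : ℤ) : FPt (HO p n n (Ob K)) →+ FPt (HO p n n (Ob K))) := by
  refine ⟨PowerSeries.X ^ p ^ k, CoActAux.hom_frob k, fun z => ?_⟩
  rw [map_pow, PowerSeries.map_X, CoVAux.ev₁_X_pow (FPt.norm_lt _ z), nfr_val, fz_natCast]

/-- `z ↦ b z^{p^j}`, `b^{p^n} = b`, is an endomorphism -/
theorem exists_isAct_smul (hn : 1 ≤ n) (b : Ob K) (hb : b ^ p ^ n = b) (j : ℕ) :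
    ∃ A : FPt (HO p n n (Ob K)) →+ FPt (HO p n n (Ob K)), IsAct ι A ∧
      ∀ z, (A z).val = b * z.val ^ p ^ j := by
  obtain ⟨a, rfl⟩ := mem_range_ι hn ι b hb
  have ha : a ^ p ^ n = a := ι.injective (by rw [map_pow, hb])
  have h1 := IsFGHom.comp (CoActAux.hom_frob (p := p) (n := n) j) (CoActAux.hom_smul hn a ha)
  have h2 : PowerSeries.subst (PowerSeries.X ^ p ^ j : PowerSeries (GaloisField p n))
      (PowerSeries.C a * PowerSeries.X) = PowerSeries.C a * PowerSeries.X ^ p ^ j := by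
    have hs : PowerSeries.HasSubst (PowerSeries.X ^ p ^ j : PowerSeries (GaloisField p n)) :=
      PowerSeries.HasSubst.X_pow (pow_ne_zero _ (Fact.out : p.Prime).ne_zero)
    rw [PowerSeries.subst_mul hs, PowerSeries.subst_X hs]
    congr 1
    exact PowerSeries.subst_C _
  rw [h2] at h1
  refine ⟨actHom ι h1, isAct_actHom h1, fun z => ?_⟩
  change ev₁ z.val (PowerSeries.map ι _) = _
  have hz := fun _ : Unit => z.tn
  rw [map_mul, map_pow, PowerSeries.map_X, PowerSeries.map_C]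
  refine (ev_mul hz _ _).trans ?_
  congr 1
  · exact ev_C hz _
  · exact CoVAux.ev₁_X_pow (FPt.norm_lt _ z) _

theorem IsAct.norm_le {A : FPt (HO p n n (Ob K)) →+ FPt (HO p n n (Ob K))} (hA : IsAct ι A)
    (z : FPt (HO p n n (Ob K))) : ‖(A z).val‖ ≤ ‖z.val‖ := by
  obtain ⟨α, hα, hA⟩ := hA
  rw [hA]
  exact CoVAux.norm_ev₁_le (IsFGHom_map_ι (ι := ι) hα).1 (FPt.norm_lt _ z)

/-- automorphisms: an inverse acts -/
theorem exists_act_equiv {g : PowerSeries (GaloisField p n)} (hg : IsFGAut (Fn p n) g) :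
    ∃ e : FPt (HO p n n (Ob K)) ≃+ FPt (HO p n n (Ob K)),
      IsAct ι e.toAddMonoidHom ∧ IsAct ι e.symm.toAddMonoidHom ∧
      ∀ z, (e z).val = ev₁ z.val (g.map ι) := by
  obtain ⟨ψ, hψ, h1, h2, -⟩ := IsFGHom.exists_inv hg.1 hg.2
  have key : ∀ {α β : PowerSeries (GaloisField p n)} (hα : IsFGHom (Fn p n) (Fn p n) α)
      (hβ : IsFGHom (Fn p n) (Fn p n) β), PowerSeries.subst β α = PowerSeries.X →
      ∀ z : FPt (HO p n n (Ob K)), actHom ι hα (actHom ι hβ z) = z := by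
    intro α β hα hβ hαβ z
    apply FPt.ext
    change ev₁ (ev₁ z.val (β.map ι)) (α.map ι) = _
    rw [← ev₁_subst z.tn _ (IsFGHom_map_ι (ι := ι) hβ).1, ← CoVAux.psubst_one_eq_map ι hβ.1, hαβ,
      PowerSeries.map_X]
    exact ev_X (fun _ : Unit => z.tn) ()
  refine ⟨{ (actHom (K := K) ι hg.1) with
    invFun := actHom ι hψ
    left_inv := key hψ hg.1 h1
    right_inv := key hg.1 hψ h2 }, ?_, ?_, fun z => rfl⟩
  · exact isAct_actHom hg.1
  · exact isAct_actHom hψ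

/-- `EEset` is an additive subgroup. -/
def EEsub (x : Mk p n h K ι) {ψ : PowerSeries (Ob K)}
    (hψ : IsFGHom x.P.F (HO p n h (Ob K)) ψ) : AddSubgroup (Fin (n - h) → FPt (HO p n h (Ob K))) where
  carrier := EEset x hψ
  add_mem' := by
    rintro a b ⟨A, hA, ha⟩ ⟨B, hB, hb⟩
    refine ⟨A + B, hA.add hB, fun l => ?_⟩
    rw [Pi.add_apply, ha, hb, AddMonoidHom.add_apply, map_add, map_add]
  zero_mem' := ⟨0, IsAct.zero, fun l => by simp⟩
  neg_mem' := by
    rintro a ⟨A, hA, ha⟩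
    refine ⟨-A, hA.neg, fun l => ?_⟩
    rw [Pi.neg_apply, ha, AddMonoidHom.neg_apply, map_neg, map_neg]

/-- the elements of `EEset` are uniformly bounded by a constant `< 1` -/
theorem EEset_bound (h1 : 1 ≤ h) (hh : h < n) (x : Mk p n h K ι) {ψ : PowerSeries (Ob K)}
    (hψ : IsFGHom x.P.F (HO p n h (Ob K)) ψ) :
    ∃ r : ℝ, r < 1 ∧ ∀ e ∈ EEset x hψ, ∀ l, ‖(e l).val‖ ≤ r := by
  have : Nonempty (Fin (n - h)) := ⟨⟨0, by omega⟩⟩
  obtain ⟨l₀, hl₀⟩ := Finite.exists_max (fun l => ‖(x.t l).val‖)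
  refine ⟨max x.P.c ‖(x.t l₀).val‖, max_lt x.P.c_lt_one (FPt.norm_lt _ _), ?_⟩
  rintro e ⟨A, hA, he⟩ l
  rw [he, FPt.hom_val]
  refine (CoVAux.norm_ev₁_le hψ.1 (FPt.norm_lt _ _)).trans ?_
  have h2 := x.hρ.near (A (x.t l))
  have h3 : ‖(A (x.t l)).val‖ ≤ ‖(x.t l₀).val‖ := (hA.norm_le _).trans (hl₀ l)
  calc ‖(x.ρ (A (x.t l))).val‖ = ‖((x.ρ (A (x.t l))).val - (A (x.t l)).val) + (A (x.t l)).val‖ := by
        rw [sub_add_cancel]
    _ ≤ max ‖(x.ρ (A (x.t l))).val - (A (x.t l)).val‖ ‖(A (x.t l)).val‖ :=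
        IsUltrametricDist.norm_add_le_max _ _
    _ ≤ max x.P.c ‖(x.t l₀).val‖ := max_le_max h2 h3

end Crest.Agent.R227
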