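import Crest.Agent.R227.Est

/-! # R227 / CoApproxAux : approximate formal inverses (for task COAPPROX2) -/

set_option autoImplicit false
set_option linter.unusedSectionVars false

noncomputable section

namespace Crest.Agent.R227

open MvPowerSeries Topology

namespace CoApproxAux

/-- a polynomial which is, up to a nonzero constant `b`, an approximate compositional inverse -/
theorem exists_approx_inv {R : Type*} [CommRing R] [IsDomain R] (ψ : PowerSeries R)
    (h0 : PowerSeries.constantCoeff ψ = 0) (h1 : PowerSeries.coeff 1 ψ ≠ 0) (m : ℕ) :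
    ∃ (b : R) (P : Polynomial R), b ≠ 0 ∧ P.coeff 0 = 0 ∧ P.coeff 1 ≠ 0 ∧
      (PowerSeries.X : PowerSeries R) ^ (m + 2) ∣
        Polynomial.aeval ψ P - PowerSeries.C b * PowerSeries.X := by
  obtain ⟨ψ', hψ'⟩ : (PowerSeries.X : PowerSeries R) ∣ ψ := PowerSeries.X_dvd_iff.2 h0
  have ha : PowerSeries.constantCoeff ψ' = PowerSeries.coeff 1 ψ := by
    rw [hψ', show (1 : ℕ) = 0 + 1 from rfl, PowerSeries.coeff_succ_X_mul,
      PowerSeries.coeff_zero_eq_constantCoeff]
  have hpow : ∀ k j : ℕ, j < k → PowerSeries.coeff j (ψ ^ k) = 0 := by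
    intro k j hj
    refine PowerSeries.X_pow_dvd_iff.1 ?_ j hj
    exact pow_dvd_pow_of_dvd ⟨ψ', hψ'⟩ k
  have hpow' : ∀ k : ℕ, PowerSeries.coeff k (ψ ^ k) = PowerSeries.coeff 1 ψ ^ k := by
    intro k
    have h2 : ψ ^ k = ψ' ^ k * PowerSeries.X ^ k := by rw [hψ', mul_pow, mul_comm]
    have h3 := PowerSeries.coeff_mul_X_pow (ψ' ^ k) k 0
    rw [zero_add] at h3
    rw [h2, h3, PowerSeries.coeff_zero_eq_constantCoeff, map_pow, ha]
  induction m with
  | zero =>
    refine ⟨PowerSeries.coeff 1 ψ, Polynomial.X, h1, Polynomial.coeff_X_zero, ?_, ?_⟩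
    · rw [Polynomial.coeff_X_one]; exact one_ne_zero
    · rw [Polynomial.aeval_X, PowerSeries.X_pow_dvd_iff]
      intro j hj
      rw [map_sub, PowerSeries.coeff_C_mul]
      have hj' : j = 0 ∨ j = 1 := by omega
      rcases hj' with rfl | rfl
      · rw [PowerSeries.coeff_zero_X, mul_zero, PowerSeries.coeff_zero_eq_constantCoeff_apply, h0,
          sub_zero]
      · rw [PowerSeries.coeff_one_X, mul_one, sub_self]
  | succ m ih =>
    obtain ⟨b, P, hb, hP0, hP1, hd⟩ := ih
    set a := PowerSeries.coeff 1 ψ with ha'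
    set Δ := Polynomial.aeval ψ P - PowerSeries.C b * PowerSeries.X with hΔ
    set c := PowerSeries.coeff (m + 2) Δ with hc
    have ham : a ^ (m + 2) ≠ 0 := pow_ne_zero _ h1
    refine ⟨a ^ (m + 2) * b, Polynomial.C (a ^ (m + 2)) * P - Polynomial.C c * Polynomial.X ^ (m + 2),
      mul_ne_zero ham hb, ?_, ?_, ?_⟩
    · rw [Polynomial.coeff_sub, Polynomial.coeff_C_mul, Polynomial.coeff_C_mul,
        Polynomial.coeff_X_pow, if_neg (by omega), hP0, mul_zero, mul_zero, sub_zero]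
    · rw [Polynomial.coeff_sub, Polynomial.coeff_C_mul, Polynomial.coeff_C_mul,
        Polynomial.coeff_X_pow, if_neg (by omega), mul_zero, sub_zero]
      exact mul_ne_zero ham hP1
    · have h2 : Polynomial.aeval ψ (Polynomial.C (a ^ (m + 2)) * P -
            Polynomial.C c * Polynomial.X ^ (m + 2)) -
            PowerSeries.C (a ^ (m + 2) * b) * PowerSeries.X =
          PowerSeries.C (a ^ (m + 2)) * Δ - PowerSeries.C c * ψ ^ (m + 2) := by
        have h3 : ∀ r : R, algebraMap R (PowerSeries R) r = PowerSeries.C r := fun r => rfl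
        have h4 : Polynomial.aeval ψ (Polynomial.C (a ^ (m + 2)) * P -
            Polynomial.C c * Polynomial.X ^ (m + 2)) =
            PowerSeries.C (a ^ (m + 2)) * Polynomial.aeval ψ P - PowerSeries.C c * ψ ^ (m + 2) := by
          rw [← h3, ← h3]
          simp only [map_sub, map_mul, Polynomial.aeval_C, Polynomial.aeval_X_pow]
        rw [h4, hΔ, (PowerSeries.C (R := R)).map_mul]
        ring
      rw [h2, PowerSeries.X_pow_dvd_iff]
      intro j hj
      rw [map_sub, PowerSeries.coeff_C_mul, PowerSeries.coeff_C_mul]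
      rcases Nat.lt_or_ge j (m + 2) with hj' | hj'
      · rw [hpow _ _ hj', PowerSeries.X_pow_dvd_iff.1 hd j hj', mul_zero, mul_zero, sub_zero]
      · have hj2 : j = m + 2 := by omega
        subst hj2
        rw [hpow', ← hc, mul_comm, sub_self]

open Classical in
/-- linear coefficients under composition -/
theorem coeff_bind₁ {K : Type*} [Field K] {σ : Type*} (g : σ → MvPolynomial σ K)
    (hg0 : ∀ j, (g j).coeff 0 = 0) (l : σ) (c : K)
    (hg1 : ∀ j, (g j).coeff (Finsupp.single l 1) = if j = l then c else 0)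
    (T : MvPolynomial σ K) :
    (MvPolynomial.bind₁ g T).coeff 0 = T.coeff 0 ∧
    (MvPolynomial.bind₁ g T).coeff (Finsupp.single l 1) = c * T.coeff (Finsupp.single l 1) := by
  have hmul0 : ∀ A B : MvPolynomial σ K, (A * B).coeff 0 = A.coeff 0 * B.coeff 0 := by
    intro A B
    simp only [← MvPolynomial.constantCoeff_eq, map_mul]
  have hmul1 : ∀ A B : MvPolynomial σ K, (A * B).coeff (Finsupp.single l 1) =
      A.coeff 0 * B.coeff (Finsupp.single l 1) + A.coeff (Finsupp.single l 1) * B.coeff 0 := by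
    intro A B
    rw [MvPolynomial.coeff_mul, Finsupp.antidiagonal_single]
    rw [Finset.sum_map]
    simp [Finset.Nat.antidiagonal_succ]
  induction T using MvPolynomial.induction_on with
  | C a =>
    rw [MvPolynomial.bind₁_C_right]
    refine ⟨rfl, ?_⟩
    rw [MvPolynomial.coeff_C, if_neg, mul_zero]
    intro h
    have := congrArg (fun f => f l) h
    simp at this
  | add p q hp hq =>
    rw [map_add, MvPolynomial.coeff_add, MvPolynomial.coeff_add, MvPolynomial.coeff_add,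
      MvPolynomial.coeff_add, hp.1, hp.2, hq.1, hq.2]
    exact ⟨rfl, by ring⟩
  | mul_X p j hp =>
    rw [map_mul, MvPolynomial.bind₁_X_right, hmul0, hmul0, hmul1, hmul1, hg0, hg1, hp.1, hp.2]
    have hX0 : (MvPolynomial.X j : MvPolynomial σ K).coeff 0 = 0 := by
      rw [← MvPolynomial.constantCoeff_eq, MvPolynomial.constantCoeff_X]
    rw [hX0]
    refine ⟨by ring, ?_⟩
    rw [MvPolynomial.coeff_X]
    by_cases hjl : j = l
    · subst hjl; rw [if_pos rfl, if_pos rfl]; ring
    · rw [if_neg hjl, if_neg (fun h => hjl ((Finsupp.single_left_inj one_ne_zero).1 h))]; ring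

section analysis

variable {K : Type*} [NormedField K] [IsUltrametricDist K] [CompleteSpace K]

theorem Ob_norm_mul (a b : Ob K) : ‖a * b‖ = ‖a‖ * ‖b‖ := by
  change ‖((a * b : Ob K) : K)‖ = ‖(a : K)‖ * ‖(b : K)‖
  rw [Subring.coe_mul, norm_mul]

theorem Ob_norm_pow (a : Ob K) (k : ℕ) : ‖a ^ k‖ = ‖a‖ ^ k := by
  change ‖((a ^ k : Ob K) : K)‖ = ‖(a : K)‖ ^ k
  rw [Subring.coe_pow, norm_pow]

theorem Ob_add_le (a b : Ob K) : ‖a + b‖ ≤ max ‖a‖ ‖b‖ := by
  change ‖((a + b : Ob K) : K)‖ ≤ max ‖(a : K)‖ ‖(b : K)‖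
  rw [Subring.coe_add]
  exact IsUltrametricDist.norm_add_le_max _ _

/-- a power series divisible by `X ^ k` -/
theorem norm_ev₁_le_pow {x : Ob K} (hx : ‖x‖ < 1) (k : ℕ) (f : PowerSeries (Ob K))
    (hf : (PowerSeries.X : PowerSeries (Ob K)) ^ k ∣ f) : ‖ev₁ x f‖ ≤ ‖x‖ ^ k := by
  obtain ⟨g, rfl⟩ := hf
  have hxt : ∀ _ : Unit, IsTopologicallyNilpotent x := fun _ => (Ob_tn_iff x).2 hx
  have h1 : ev₁ x ((PowerSeries.X : PowerSeries (Ob K)) ^ k * g) = x ^ k * ev₁ x g := by
    have h2 := ev_mul hxt ((PowerSeries.X : PowerSeries (Ob K)) ^ k) g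
    have h3 := ev_pow hxt (PowerSeries.X : PowerSeries (Ob K)) k
    have h4 : ev (fun _ : Unit => x) (PowerSeries.X : PowerSeries (Ob K)) = x := ev_X hxt ()
    rw [h4] at h3
    rw [h3] at h2
    exact h2
  rw [h1, Ob_norm_mul, Ob_norm_pow]
  exact mul_le_of_le_one_right (pow_nonneg (norm_nonneg _) _) (Ob_norm_le_one _)

theorem ev₁_aeval {x : Ob K} (hx : ‖x‖ < 1) (ψ : PowerSeries (Ob K)) (P : Polynomial (Ob K)) :
    ev₁ x (Polynomial.aeval ψ P) = P.eval (ev₁ x ψ) := by
  have hxt : ∀ _ : Unit, IsTopologicallyNilpotent x := fun _ => (Ob_tn_iff x).2 hx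
  rw [ev₁, ← evHom_apply hxt, Polynomial.aeval_def]
  have h1 := Polynomial.hom_eval₂ P (algebraMap (Ob K) (PowerSeries (Ob K))) (evHom hxt) ψ
  refine h1.trans ?_
  rw [Polynomial.eval, evHom_apply hxt]
  congr 1
  refine RingHom.ext fun r => ?_
  rw [RingHom.comp_apply, evHom_apply hxt]
  exact ev_C hxt r

theorem norm_ev₁_sub_le {x : Ob K} (hx : ‖x‖ < 1) (ψ : PowerSeries (Ob K))
    (P : Polynomial (Ob K)) (b : Ob K) (k : ℕ)
    (hf : (PowerSeries.X : PowerSeries (Ob K)) ^ k ∣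
      Polynomial.aeval ψ P - PowerSeries.C b * PowerSeries.X) :
    ‖P.eval (ev₁ x ψ) - b * x‖ ≤ ‖x‖ ^ k := by
  have hxt : ∀ _ : Unit, IsTopologicallyNilpotent x := fun _ => (Ob_tn_iff x).2 hx
  have h1 := norm_ev₁_le_pow hx k _ hf
  have h2 : ev₁ x (Polynomial.aeval ψ P - PowerSeries.C b * PowerSeries.X) =
      P.eval (ev₁ x ψ) - b * x := by
    have h3 := ev_sub hxt (Polynomial.aeval ψ P) (PowerSeries.C b * PowerSeries.X)
    have h4 := ev_mul hxt (PowerSeries.C b) (PowerSeries.X : PowerSeries (Ob K))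
    have h5 : ev (fun _ : Unit => x) (PowerSeries.X : PowerSeries (Ob K)) = x := ev_X hxt ()
    have h6 : ev (fun _ : Unit => x) (PowerSeries.C b : PowerSeries (Ob K)) = b := ev_C hxt b
    rw [h5, h6] at h4
    rw [h4] at h3
    refine h3.trans ?_
    rw [← ev₁_aeval hx]
  rwa [h2] at h1

/-- near `0`, `ψ` scales the norm by `‖coeff 1 ψ‖` -/
theorem le_norm_ev₁ {ψ : PowerSeries (Ob K)} (h0 : PowerSeries.constantCoeff ψ = 0)
    {x : Ob K} (hx : ‖x‖ < ‖PowerSeries.coeff 1 ψ‖) :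
    ‖x‖ * ‖PowerSeries.coeff 1 ψ‖ ≤ ‖ev₁ x ψ‖ := by
  have hx1 : ‖x‖ < 1 := hx.trans_le (Ob_norm_le_one _)
  by_contra hlt
  push Not at hlt
  have hxpos : 0 < ‖x‖ := by
    rcases (norm_nonneg x).eq_or_lt with h | h
    · rw [← h, zero_mul] at hlt
      exact absurd hlt (not_lt.2 (norm_nonneg _))
    · exact h
  have h1 := norm_ev₁_sub_le hx1 ψ Polynomial.X (PowerSeries.coeff 1 ψ) 2 (by
    rw [Polynomial.aeval_X, PowerSeries.X_pow_dvd_iff]
    intro j hj
    rw [map_sub, PowerSeries.coeff_C_mul]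
    have hj' : j = 0 ∨ j = 1 := by omega
    rcases hj' with rfl | rfl
    · rw [PowerSeries.coeff_zero_X, mul_zero, PowerSeries.coeff_zero_eq_constantCoeff_apply, h0,
        sub_zero]
    · rw [PowerSeries.coeff_one_X, mul_one, sub_self])
  rw [Polynomial.eval_X] at h1
  have h2 : PowerSeries.coeff 1 ψ * x = ev₁ x ψ + -(ev₁ x ψ - PowerSeries.coeff 1 ψ * x) := by ring
  have h3 : ‖PowerSeries.coeff 1 ψ * x‖ < ‖x‖ * ‖PowerSeries.coeff 1 ψ‖ := by
    conv_lhs => rw [h2]
    refine (Ob_add_le _ _).trans_lt (max_lt hlt ?_)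
    rw [norm_neg]
    refine h1.trans_lt ?_
    rw [pow_two]
    exact mul_lt_mul_of_pos_left hx hxpos
  rw [Ob_norm_mul, mul_comm] at h3
  exact lt_irrefl _ h3

open Classical in
/-- transport of `Φ` along an approximate inverse of `ψ` -/
theorem exists_trunc {σ : Type*} [Finite σ] {ψ : PowerSeries (Ob K)}
    (h0 : PowerSeries.constantCoeff ψ = 0) (h1 : PowerSeries.coeff 1 ψ ≠ 0) (D : ℕ)
    (Φ : MvPowerSeries σ (Ob K)) (hΦ : ∃ l, coeff (Finsupp.single l 1) Φ ≠ 0) :
    ∃ (Ψ : MvPolynomial σ K) (ε : ℝ), (∃ l, Ψ.coeff (Finsupp.single l 1) ≠ 0) ∧ 0 < ε ∧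
      ∀ (η : σ → Ob K) (r : ℝ), r < 1 → (∀ l, ‖η l‖ < ε) → (∀ l, ‖η l‖ ≤ r) →
        ‖ev η Φ‖ ≤ r ^ D →
        ‖MvPolynomial.eval (fun l => ((ev₁ (η l) ψ : Ob K) : K)) Ψ‖ ≤ r ^ D := by
  obtain ⟨b, P, hb, hP0, hP1, hd⟩ := exists_approx_inv ψ h0 h1 D
  set T : MvPolynomial σ (Ob K) := truncTotal (D + 2) Φ with hT
  have hTc : ∀ d : σ →₀ ℕ, MvPolynomial.coeff d T = if d.degree < D + 2 then coeff d Φ else 0 :=
    fun d => coeff_truncTotal_eq_ite Φ
  have hbK : (b : K) ≠ 0 := fun h => hb (Subtype.ext h)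
  have hP1K : ((P.coeff 1 : Ob K) : K) ≠ 0 := fun h => hP1 (Subtype.ext h)
  let g : σ → MvPolynomial σ K := fun l => MvPolynomial.C ((b : K)⁻¹) *
    Polynomial.aeval (MvPolynomial.X l) (P.map (Ob K).subtype)
  have hg0 : ∀ j, (g j).coeff 0 = 0 := by
    intro j
    change (MvPolynomial.C ((b : K)⁻¹) *
      Polynomial.aeval (MvPolynomial.X j) (P.map (Ob K).subtype) : MvPolynomial σ K).coeff 0 = 0
    rw [MvPolynomial.coeff_C_mul, ← MvPolynomial.constantCoeff_eq, Polynomial.aeval_def,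
      Polynomial.hom_eval₂, MvPolynomial.constantCoeff_X, Polynomial.eval₂_at_zero,
      Polynomial.coeff_map, hP0, map_zero, map_zero, mul_zero]
  have hg1 : ∀ l j, (g j).coeff (Finsupp.single l 1) =
      if j = l then ((b : K)⁻¹ * ((P.coeff 1 : Ob K) : K)) else 0 := by
    intro l j
    change (MvPolynomial.C ((b : K)⁻¹) *
      Polynomial.aeval (MvPolynomial.X j) (P.map (Ob K).subtype) : MvPolynomial σ K).coeff _ = _
    rw [MvPolynomial.coeff_C_mul, Polynomial.aeval_eq_sum_range, MvPolynomial.coeff_sum]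
    have h2 : ∀ i, MvPolynomial.coeff (Finsupp.single l 1)
        ((P.map (Ob K).subtype).coeff i • (MvPolynomial.X j : MvPolynomial σ K) ^ i) =
        if i = 1 ∧ j = l then ((P.coeff 1 : Ob K) : K) else 0 := by
      intro i
      rw [MvPolynomial.coeff_smul, MvPolynomial.coeff_X_pow, Polynomial.coeff_map]
      by_cases hi : i = 1 ∧ j = l
      · obtain ⟨rfl, rfl⟩ := hi
        rw [if_pos rfl, if_pos ⟨rfl, rfl⟩]
        simp
      · rw [if_neg hi, if_neg, smul_zero]
        intro h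
        rw [Finsupp.single_eq_single_iff] at h
        rcases h with h | h
        · exact hi ⟨h.2, h.1⟩
        · exact one_ne_zero h.2
    simp only [h2]
    by_cases hjl : j = l
    · rw [if_pos hjl, Finset.sum_eq_single 1]
      · rw [if_pos ⟨rfl, hjl⟩]
      · intro i _ hi
        rw [if_neg fun h => hi h.1]
      · intro h
        exfalso
        apply h
        rw [Finset.mem_range, Nat.lt_succ_iff]
        apply Polynomial.le_natDegree_of_ne_zero
        rw [Polynomial.coeff_map]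
        exact hP1K
    · rw [if_neg hjl, Finset.sum_eq_zero, mul_zero]
      intro i _
      rw [if_neg fun h => hjl h.2]
  refine ⟨MvPolynomial.bind₁ g (MvPolynomial.map (Ob K).subtype T), ‖b‖, ?_, ?_, ?_⟩
  · obtain ⟨l, hl⟩ := hΦ
    refine ⟨l, ?_⟩
    rw [(coeff_bind₁ g hg0 l _ (hg1 l) _).2, MvPolynomial.coeff_map, hTc, if_pos]
    · exact mul_ne_zero (mul_ne_zero (inv_ne_zero hbK) hP1K) fun h => hl (Subtype.ext h)
    · rw [Finsupp.degree_single]; omega
  · exact norm_pos_iff.2 hb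
  · intro η r hr hηb hηr hev
    have hη1 : ∀ l, ‖η l‖ < 1 := fun l => (hηr l).trans_lt hr
    have hbpos : 0 < ‖(b : K)‖ := norm_pos_iff.2 hbK
    obtain ⟨l₀, _⟩ := hΦ
    have hr0 : 0 ≤ r := (norm_nonneg _).trans (hηr l₀)
    let w : σ → K := fun l => (b : K)⁻¹ * ((P.eval (ev₁ (η l) ψ) : Ob K) : K)
    have hw : ∀ l, ‖w l - (η l : K)‖ ≤ ‖η l‖ ^ (D + 1) := by
      intro l
      have h2 := norm_ev₁_sub_le (hη1 l) ψ P b (D + 2) hd
      have h3 : w l - (η l : K) =
          (b : K)⁻¹ * ((P.eval (ev₁ (η l) ψ) - b * η l : Ob K) : K) := by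
        change (b : K)⁻¹ * ((P.eval (ev₁ (η l) ψ) : Ob K) : K) - (η l : K) = _
        rw [AddSubgroupClass.coe_sub, Subring.coe_mul, mul_sub, inv_mul_cancel_left₀ hbK]
      have h4 : ‖((P.eval (ev₁ (η l) ψ) - b * η l : Ob K) : K)‖ ≤ ‖η l‖ ^ (D + 2) := h2
      rw [h3, norm_mul, norm_inv, inv_mul_le_iff₀ hbpos]
      refine h4.trans ?_
      rw [pow_succ, mul_comm]
      exact mul_le_mul_of_nonneg_right (hηb l).le (pow_nonneg (norm_nonneg _) _)
    have hw2 : ∀ l, ‖w l‖ ≤ ‖η l‖ := by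
      intro l
      have h2 : w l = (w l - (η l : K)) + (η l : K) := by ring
      rw [h2]
      refine (IsUltrametricDist.norm_add_le_max _ _).trans (max_le ?_ le_rfl)
      refine (hw l).trans ?_
      exact pow_le_of_le_one (norm_nonneg _) (hη1 l).le (Nat.succ_ne_zero _)
    let w' : σ → Ob K := fun l => ⟨w l, (hw2 l).trans (hη1 l).le⟩
    have hw'1 : ∀ l, ‖w' l‖ < 1 := fun l => (hw2 l).trans_lt (hη1 l)
    have hw'r : ∀ l, ‖w' l‖ ≤ r := fun l => (hw2 l).trans (hηr l)
    have hw't : ∀ l, IsTopologicallyNilpotent (w' l) := fun l => (Ob_tn_iff _).2 (hw'1 l)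
    have key : MvPolynomial.eval (fun l => ((ev₁ (η l) ψ : Ob K) : K))
        (MvPolynomial.bind₁ g (MvPolynomial.map (Ob K).subtype T)) =
        ((MvPolynomial.eval w' T : Ob K) : K) := by
      have h2 : ∀ (y : σ → K) (F : MvPolynomial σ K), MvPolynomial.eval y (MvPolynomial.bind₁ g F) =
          MvPolynomial.eval (fun l => MvPolynomial.eval y (g l)) F := by
        intro y F
        induction F using MvPolynomial.induction_on with
        | C a => rw [MvPolynomial.bind₁_C_right, MvPolynomial.eval_C, MvPolynomial.eval_C]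
        | add p q hp hq => rw [map_add, map_add, map_add, hp, hq]
        | mul_X p j hp => rw [map_mul, map_mul, map_mul, hp, MvPolynomial.bind₁_X_right,
            MvPolynomial.eval_X]
      rw [h2]
      have h3 : (fun l => MvPolynomial.eval (fun l => ((ev₁ (η l) ψ : Ob K) : K)) (g l)) = w := by
        funext l
        change MvPolynomial.eval _ (MvPolynomial.C ((b : K)⁻¹) *
          Polynomial.aeval (MvPolynomial.X l) (P.map (Ob K).subtype)) = _
        rw [map_mul, MvPolynomial.eval_C, Polynomial.aeval_def, Polynomial.hom_eval₂,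
          MvPolynomial.eval_X, Polynomial.eval₂_map]
        change _ = (b : K)⁻¹ * ((P.eval (ev₁ (η l) ψ) : Ob K) : K)
        congr 1
        have h5 := Polynomial.hom_eval₂ P (RingHom.id (Ob K)) (Ob K).subtype (ev₁ (η l) ψ)
        rw [Polynomial.eval]
        refine Eq.trans ?_ h5.symm
        congr 1
        refine RingHom.ext fun x => ?_
        simp
      rw [h3, MvPolynomial.eval_map]
      have h4 := MvPolynomial.eval₂_comp_left (Ob K).subtype (RingHom.id (Ob K)) w' T
      rw [MvPolynomial.eval₂_id] at h4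
      refine Eq.trans ?_ h4.symm
      rw [RingHom.comp_id]
      rfl
    rw [key]
    change ‖(MvPolynomial.eval w' T : Ob K)‖ ≤ r ^ D
    rw [← ev_coe hw't]
    have hdec : ev w' (T : MvPowerSeries σ (Ob K)) =
        (ev η Φ + (ev w' Φ - ev η Φ)) + -(ev w' (Φ - (T : MvPowerSeries σ (Ob K)))) := by
      rw [ev_sub hw't]; ring
    rw [hdec]
    have hrD : r ^ (D + 1) ≤ r ^ D := pow_le_pow_of_le_one hr0 hr.le (Nat.le_succ _)
    have hrD2 : r ^ (D + 2) ≤ r ^ D := pow_le_pow_of_le_one hr0 hr.le (by omega)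
    refine (Ob_add_le _ _).trans (max_le ((Ob_add_le _ _).trans (max_le hev ?_)) ?_)
    · refine (norm_ev_sub_le hw'1 hη1 (r ^ (D + 1)) (pow_nonneg hr0 _) ?_ Φ).trans hrD
      intro l
      refine (hw l).trans (pow_le_pow_left₀ (norm_nonneg _) (hηr l) _)
    · rw [norm_neg]
      refine (norm_ev_le_pow hw'1 r hr0 hw'r (D + 2) _ ?_).trans hrD2
      intro d hd'
      rw [map_sub, MvPolynomial.coeff_coe, hTc, if_pos hd', sub_self]

end analysis

end CoApproxAux

end Crest.Agent.R227
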