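import Crest.Agent.R227.CoAct

/-! # R227 / CoApproxOrb : `EEset` at orbit points (task COAPPROX1) -/

set_option autoImplicit false
set_option linter.unusedSectionVars false

noncomputable section

namespace Crest.Agent.R227.CoApproxAux

open Crest.LubinTate MvPowerSeries Topology

variable {p : ℕ} [Fact p.Prime] {n h : ℕ}
variable {K : Type} [NontriviallyNormedField K] [IsUltrametricDist K] [CompleteSpace K]
  [IsAlgClosed K] [CharP K p]

variable {ι : GaloisField p n →+* Ob K} {M : ℕ}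

/-- the action of a composition -/
theorem hom_comp {F G H : FormalGroup (Ob K)} [F.IsComm] [G.IsComm] [H.IsComm]
    {φ ψ : PowerSeries (Ob K)} (hφ : IsFGHom F G φ) (hψ : IsFGHom G H ψ)
    (hφψ : IsFGHom F H (PowerSeries.subst φ ψ)) (a : FPt F) :
    FPt.hom hφψ a = FPt.hom hψ (FPt.hom hφ a) := by
  apply FPt.ext
  rw [FPt.hom_val, FPt.hom_val, FPt.hom_val, ev₁_subst a.tn _ hφ.1]

/-- `EEset` is the same at all orbit points (`ψ' = ψ ∘ lam`, `θ'(α g⁻¹ t) = θ(g α g⁻¹ t)`). -/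
theorem EEset_orb {x y : Mk p n h K ι} (hxy : Orb M x y) {ψ : PowerSeries (Ob K)}
    (hψ : IsFGHom x.P.F (HO p n h (Ob K)) ψ) (hψ1 : PowerSeries.coeff 1 ψ ≠ 0) :
    ∃ (ψ' : PowerSeries (Ob K)) (hψ' : IsFGHom y.P.F (HO p n h (Ob K)) ψ'),
      PowerSeries.coeff 1 ψ' ≠ 0 ∧ EEset y hψ' = EEset x hψ := by
  obtain ⟨g, H⟩ := hxy
  obtain ⟨φ, hφ, hX, lam, hl, hlu, hcong, hcomm⟩ := H.map
  have hψ' := IsFGHom.comp hl hψ
  refine ⟨PowerSeries.subst lam ψ, hψ', ?_, ?_⟩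
  · rw [CoVAux.coeff_one_subst hl.1]
    exact mul_ne_zero hlu.ne_zero hψ1
  obtain ⟨e, he, he', hev⟩ := exists_act_equiv (K := K) (ι := ι) H.aut
  have het : ∀ l, e (y.t l) = x.t l := fun l => FPt.ext ((hev _).trans (H.basis l).symm)
  have het' : ∀ l, e.symm (x.t l) = y.t l := fun l => by rw [← het, e.symm_apply_apply]
  have hc : ∀ z, x.ρ (e z) = FPt.hom hl (y.ρ z) := fun z => hcomm z (e z) (hev z)
  ext a
  constructor
  · rintro ⟨A, hA, ha⟩
    refine ⟨(e.toAddMonoidHom.comp A).comp e.symm.toAddMonoidHom, (he.comp hA).comp he', ?_⟩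
    intro l
    rw [ha, hom_comp hl hψ hψ', ← hc]
    change _ = FPt.hom hψ (x.ρ (e (A (e.symm (x.t l)))))
    rw [het']
  · rintro ⟨A, hA, ha⟩
    refine ⟨(e.symm.toAddMonoidHom.comp A).comp e.toAddMonoidHom, (he'.comp hA).comp he, ?_⟩
    intro l
    rw [ha, hom_comp hl hψ hψ', ← hc]
    change _ = FPt.hom hψ (x.ρ (e (e.symm (A (e (y.t l))))))
    rw [het, e.apply_symm_apply]

end Crest.Agent.R227.CoApproxAux
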