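import Crest.Agent.R227.LazardAux

/-!
# Row 227 (S0351): two formal group laws with `[p](X) = X^(p^h)` over a field with `c^(p^h) = c`
are strictly isomorphic.
-/

set_option autoImplicit false

open Finset Crest.LubinTate

namespace Crest.Agent.R227.Laz

section linear

variable {R : Type*} [CommRing R]

lemma lin_pow_mul (x y : R) (i j : ℕ) :
    lin x ^ i * lin y ^ j = PowerSeries.C (x ^ i * y ^ j) * PowerSeries.X ^ (i + j) := by
  unfold lin
  rw [mul_pow, mul_pow, pow_add, map_mul, map_pow, map_pow]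
  ring

lemma coeff_ap_lin (f : MvPowerSeries (Fin 2) R) (x y : R) (k : ℕ) :
    PowerSeries.coeff k (ap f (lin x) (lin y)) =
      ∑ q ∈ antidiagonal k, MvPowerSeries.coeff (ex q.1 q.2) f * (x ^ q.1 * y ^ q.2) := by
  classical
  rw [coeff_ap f (cc_lin x) (cc_lin y), ← Finset.sum_product']
  have hsub : antidiagonal k ⊆ range (k + 1) ×ˢ range (k + 1) := by
    intro q hq
    rw [Finset.HasAntidiagonal.mem_antidiagonal] at hq
    rw [Finset.mem_product, mem_range, mem_range]
    constructor <;> omega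
  rw [← Finset.sum_subset hsub]
  · refine Finset.sum_congr rfl fun q hq => ?_
    rw [Finset.HasAntidiagonal.mem_antidiagonal] at hq
    rw [lin_pow_mul, PowerSeries.coeff_C_mul, PowerSeries.coeff_X_pow, if_pos hq.symm, mul_one]
  · intro q _ hq
    rw [Finset.HasAntidiagonal.mem_antidiagonal] at hq
    rw [lin_pow_mul, PowerSeries.coeff_C_mul, PowerSeries.coeff_X_pow, if_neg (Ne.symm hq),
      mul_zero, mul_zero]

end linear

section basechange

variable {R S : Type*} [CommRing R] [CommRing S] (ι : R →+* S)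

lemma isComm_map (F : FormalGroup R) [hF : F.IsComm] : (F.map ι).IsComm := by
  constructor
  have h := congrArg (MvPowerSeries.map ι) hF.comm
  change MvPowerSeries.map ι F.toPowerSeries = _
  rw [h, MvPowerSeries.map_subst MvPowerSeries.HasSubst.X_X]
  change MvPowerSeries.subst _ (MvPowerSeries.map ι F.toPowerSeries) =
    MvPowerSeries.subst _ (MvPowerSeries.map ι F.toPowerSeries)
  congr 1
  funext s
  fin_cases s
  · exact MvPowerSeries.map_X _ _
  · exact MvPowerSeries.map_X _ _

lemma Del_map (F G : FormalGroup R) {φ : PowerSeries R}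
    (hφ : PowerSeries.constantCoeff φ = 0) :
    Del (F.map ι) (G.map ι) (PowerSeries.map ι φ) = MvPowerSeries.map ι (Del F G φ) := by
  have hF : PowerSeries.HasSubst F.toPowerSeries :=
    PowerSeries.HasSubst.of_constantCoeff_zero F.zero_constantCoeff
  unfold Del
  rw [map_sub]
  congr 1
  · exact (MvPowerSeries.map_subst hF.const (h := ι) φ).symm
  · rw [MvPowerSeries.map_subst
      (hasSubst_pair (hasSubst_psubst_X hφ 0) (hasSubst_psubst_X hφ 1))]
    change MvPowerSeries.subst _ (MvPowerSeries.map ι G.toPowerSeries) =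
      MvPowerSeries.subst _ (MvPowerSeries.map ι G.toPowerSeries)
    congr 1
    funext s
    have hX : ∀ i : Fin 2, MvPowerSeries.map ι
        (PowerSeries.subst (MvPowerSeries.X i : MvPowerSeries (Fin 2) R) φ)
        = PowerSeries.subst (MvPowerSeries.X i : MvPowerSeries (Fin 2) S)
          (PowerSeries.map ι φ) := by
      intro i
      have h := MvPowerSeries.map_subst (PowerSeries.HasSubst.X (S := R) i).const (h := ι) φ
      refine h.trans ?_
      change MvPowerSeries.subst _ _ = MvPowerSeries.subst _ _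
      congr 1
      funext _
      exact MvPowerSeries.map_X _ _
    fin_cases s
    · exact (hX 0).symm
    · exact (hX 1).symm

end basechange

section extraction

variable {κ : Type*} [CommRing κ]

/-- the test ring -/
abbrev TP (κ : Type*) [CommRing κ] := Polynomial (Polynomial κ)

/-- the inclusion of constants -/
noncomputable def io (κ : Type*) [CommRing κ] : κ →+* TP κ := Polynomial.C.comp Polynomial.C

/-- inner variable -/
noncomputable def px (κ : Type*) [CommRing κ] : TP κ := Polynomial.C Polynomial.X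

/-- outer variable -/
noncomputable def py (κ : Type*) [CommRing κ] : TP κ := Polynomial.X

/-- coefficient extraction -/
noncomputable def cf (i j : ℕ) (f : TP κ) : κ := (f.coeff j).coeff i

lemma cf_add (i j : ℕ) (f g : TP κ) : cf i j (f + g) = cf i j f + cf i j g := by
  simp [cf]

lemma cf_sub (i j : ℕ) (f g : TP κ) : cf i j (f - g) = cf i j f - cf i j g := by
  simp [cf]

lemma cf_sum {α : Type*} (i j : ℕ) (s : Finset α) (f : α → TP κ) :
    cf i j (∑ a ∈ s, f a) = ∑ a ∈ s, cf i j (f a) := by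
  simp [cf]

lemma cf_io_mul (i j : ℕ) (c : κ) (f : TP κ) : cf i j (io κ c * f) = c * cf i j f := by
  simp [cf, io]

lemma cf_xy (i j a b : ℕ) : cf i j (px κ ^ a * py κ ^ b) = if a = i ∧ b = j then 1 else 0 := by
  simp only [cf, px, py]
  rw [← Polynomial.C_pow, Polynomial.coeff_C_mul, Polynomial.coeff_X_pow]
  split_ifs with h1 h2 h2
  · rw [mul_one, Polynomial.coeff_X_pow, if_pos h2.1.symm]
  · rw [mul_one, Polynomial.coeff_X_pow, if_neg (fun h => h2 ⟨h.symm, h1.symm⟩)]
  · exact absurd h2.2.symm h1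
  · rw [mul_zero, Polynomial.coeff_zero]

lemma cf_add_pow (i j a : ℕ) :
    cf i j ((px κ + py κ) ^ a) = if a = i + j then (a.choose j : κ) else 0 := by
  simp only [cf, px, py]
  rw [add_comm (Polynomial.C Polynomial.X) Polynomial.X, Polynomial.coeff_X_add_C_pow,
    ← Polynomial.C_eq_natCast, Polynomial.coeff_mul_C, Polynomial.coeff_X_pow]
  split_ifs with h1 h2 h2
  · rw [one_mul]
  · rcases Nat.lt_or_ge a j with h | h
    · rw [Nat.choose_eq_zero_of_lt h, Nat.cast_zero, mul_zero]
    · exfalso; apply h2; omega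
  · exfalso; apply h1; omega
  · rw [zero_mul]

lemma cf_x_add_one_pow (i j a b : ℕ) :
    cf i j (px κ ^ a * (py κ + 1) ^ b) = if a = i then (b.choose j : κ) else 0 := by
  simp only [cf, px, py]
  rw [← Polynomial.C_pow, Polynomial.coeff_C_mul, Polynomial.coeff_X_add_one_pow,
    ← Polynomial.C_eq_natCast, Polynomial.coeff_mul_C, Polynomial.coeff_X_pow]
  split_ifs with h1 h2 h2
  · rw [one_mul]
  · exact absurd h1.symm h2
  · exact absurd h2.symm h1
  · rw [zero_mul]

end extraction

section main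

variable {κ : Type*} [Field κ]

/-- coefficients of the defect -/
noncomputable def de (F G : FormalGroup κ) (φ : PowerSeries κ) (i j : ℕ) : κ :=
  MvPowerSeries.coeff (ex i j) (Del F G φ)

lemma V_map {F G : FormalGroup κ} {φ : PowerSeries κ} (hφ : PowerSeries.constantCoeff φ = 0)
    {m : ℕ} (hV : V F G φ m) :
    V (F.map (io κ)) (G.map (io κ)) (PowerSeries.map (io κ) φ) m := by
  intro i j hij
  rw [Del_map (io κ) F G hφ, MvPowerSeries.coeff_map, hV i j hij, map_zero]

lemma E_map {F G : FormalGroup κ} {φ : PowerSeries κ} (hφ : PowerSeries.constantCoeff φ = 0)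
    (N : ℕ) (x y : TP κ) :
    E (F.map (io κ)) (G.map (io κ)) (PowerSeries.map (io κ) φ) N x y
      = ∑ q ∈ antidiagonal N, io κ (de F G φ q.1 q.2) * (x ^ q.1 * y ^ q.2) := by
  unfold E
  refine Finset.sum_congr rfl fun q _ => ?_
  rw [Del_map (io κ) F G hφ, MvPowerSeries.coeff_map]
  rfl

lemma cc_map {φ : PowerSeries κ} (hφ : PowerSeries.constantCoeff φ = 0) :
    PowerSeries.constantCoeff (PowerSeries.map (io κ) φ) = 0 := by
  rw [← PowerSeries.coeff_zero_eq_constantCoeff_apply, PowerSeries.coeff_map,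
    PowerSeries.coeff_zero_eq_constantCoeff_apply, hφ, map_zero]

/-- the sum over the antidiagonal picks one term -/
lemma sum_anti (N : ℕ) (f : ℕ → ℕ → κ) (i j : ℕ) (hij : i + j = N) (g : κ) :
    ∑ q ∈ antidiagonal N, f q.1 q.2 * (if q.1 = i ∧ q.2 = j then g else 0) = f i j * g := by
  classical
  rw [Finset.sum_eq_single (i, j)]
  · simp
  · rintro ⟨a, b⟩ _ hne
    rw [if_neg, mul_zero]
    rintro ⟨h1, h2⟩
    exact hne (by simp only at h1 h2; rw [h1, h2])
  · intro h
    exact absurd (Finset.HasAntidiagonal.mem_antidiagonal.mpr hij) h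

lemma de_symm {F G : FormalGroup κ} [F.IsComm] [G.IsComm] {φ : PowerSeries κ}
    (hφ : PowerSeries.constantCoeff φ = 0) {m : ℕ} (hV : V F G φ m) (i j : ℕ)
    (hij : i + j = m + 1) : de F G φ i j = de F G φ j i := by
  have := isComm_map (io κ) F
  have := isComm_map (io κ) G
  have h := E_symm (F.map (io κ)) (G.map (io κ)) (cc_map hφ) (V_map hφ hV) (px κ) (py κ)
  rw [E_map hφ, E_map hφ] at h
  have h2 := congrArg (cf i j) h
  rw [cf_sum, cf_sum] at h2
  simp only [cf_io_mul, cf_xy] at h2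
  rw [sum_anti _ _ _ _ hij, mul_one] at h2
  rw [h2]
  have h3 : ∀ q : ℕ × ℕ, cf i j (py κ ^ q.1 * px κ ^ q.2) = if q.1 = j ∧ q.2 = i then 1 else 0 := by
    intro q
    rw [mul_comm, cf_xy]
    simp only [and_comm]
  simp only [h3]
  rw [sum_anti _ _ _ _ (by omega), mul_one]

lemma de_zero_left {F G : FormalGroup κ} {φ : PowerSeries κ}
    (hφ : PowerSeries.constantCoeff φ = 0) {m : ℕ} (hV : V F G φ m) :
    de F G φ 0 (m + 1) = 0 := by
  have h := E_zero F G hφ hV 1
  unfold E at h
  have h1 : ∀ q ∈ antidiagonal (m + 1), MvPowerSeries.coeff (ex q.1 q.2) (Del F G φ) *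
      ((0 : κ) ^ q.1 * 1 ^ q.2) = de F G φ q.1 q.2 * (if q.1 = 0 ∧ q.2 = m + 1 then 1 else 0) := by
    intro q hq
    rw [Finset.HasAntidiagonal.mem_antidiagonal] at hq
    rw [one_pow, mul_one]
    by_cases h0 : q.1 = 0
    · rw [h0, pow_zero, if_pos ⟨rfl, by omega⟩]
      simp only [de]
    · rw [zero_pow h0, mul_zero, if_neg (fun h => h0 h.1), mul_zero]
  rw [Finset.sum_congr rfl h1, sum_anti _ _ _ _ (by omega), mul_one] at h
  exact h

lemma de_cocycle {F G : FormalGroup κ} [G.IsComm] {φ : PowerSeries κ}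
    (hφ : PowerSeries.constantCoeff φ = 0) {m : ℕ} (hV : V F G φ m) (i j k : ℕ)
    (hi : 1 ≤ i) (hj : 1 ≤ j) (hk : 1 ≤ k) (hijk : i + j + k = m + 1) :
    ((i + j).choose i : κ) * de F G φ (i + j) k = ((j + k).choose j : κ) * de F G φ i (j + k) := by
  have := isComm_map (io κ) G
  have h := E_cocycle (F.map (io κ)) (G.map (io κ)) (cc_map hφ) (V_map hφ hV) (px κ) (py κ) 1
  rw [E_map hφ, E_map hφ, E_map hφ, E_map hφ] at h
  have h2 := congrArg (cf i j) h
  rw [cf_add, cf_add, cf_sum, cf_sum, cf_sum, cf_sum] at h2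
  simp only [cf_io_mul, one_pow, mul_one, cf_xy, cf_add_pow, cf_x_add_one_pow] at h2
  have e1 : ∑ q ∈ antidiagonal (m + 1), de F G φ q.1 q.2 *
      (if q.1 = i ∧ q.2 = j then (1 : κ) else 0) = 0 := by
    refine Finset.sum_eq_zero fun q hq => ?_
    rw [Finset.HasAntidiagonal.mem_antidiagonal] at hq
    rw [if_neg, mul_zero]
    rintro ⟨h1, h2⟩
    omega
  have e2 : ∑ q ∈ antidiagonal (m + 1), de F G φ q.1 q.2 *
      (if q.1 = i + j then (q.1.choose j : κ) else 0)
      = de F G φ (i + j) k * ((i + j).choose j : κ) := by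
    have : ∀ q ∈ antidiagonal (m + 1), de F G φ q.1 q.2 *
        (if q.1 = i + j then (q.1.choose j : κ) else 0) = de F G φ q.1 q.2 *
        (if q.1 = i + j ∧ q.2 = k then ((i + j).choose j : κ) else 0) := by
      intro q hq
      rw [Finset.HasAntidiagonal.mem_antidiagonal] at hq
      by_cases h1 : q.1 = i + j
      · rw [if_pos h1, if_pos ⟨h1, by omega⟩, h1]
      · rw [if_neg h1, if_neg (fun h => h1 h.1)]
    rw [Finset.sum_congr rfl this, sum_anti _ _ _ _ (by omega)]
  have e3 : ∑ q ∈ antidiagonal (m + 1), de F G φ q.1 q.2 * cf i j (py κ ^ q.1) = 0 := by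
    refine Finset.sum_eq_zero fun q hq => ?_
    have := cf_xy (κ := κ) i j 0 q.1
    rw [pow_zero, one_mul] at this
    rw [this, if_neg, mul_zero]
    rintro ⟨h1, h2⟩
    omega
  have e4 : ∑ q ∈ antidiagonal (m + 1), de F G φ q.1 q.2 *
      (if q.1 = i then (q.2.choose j : κ) else 0)
      = de F G φ i (j + k) * ((j + k).choose j : κ) := by
    have : ∀ q ∈ antidiagonal (m + 1), de F G φ q.1 q.2 *
        (if q.1 = i then (q.2.choose j : κ) else 0) = de F G φ q.1 q.2 *
        (if q.1 = i ∧ q.2 = j + k then ((j + k).choose j : κ) else 0) := by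
      intro q hq
      rw [Finset.HasAntidiagonal.mem_antidiagonal] at hq
      by_cases h1 : q.1 = i
      · have h3 : q.2 = j + k := by omega
        rw [if_pos h1, if_pos ⟨h1, h3⟩, h3]
      · rw [if_neg h1, if_neg (fun h => h1 h.1)]
    rw [Finset.sum_congr rfl this, sum_anti _ _ _ _ (by omega)]
  rw [e1, e2, e3, e4] at h2
  have h5 : (i + j).choose i = (i + j).choose j := by
    rw [← Nat.choose_symm (by omega : i ≤ i + j), Nat.add_sub_cancel_left]
  rw [h5]
  linear_combination h2

variable (p : ℕ) [Fact p.Prime] [CharP κ p] {h : ℕ}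

/-- a power series whose coefficients are fixed by `c ↦ c^(p^h)` -/
lemma subst_X_pow_eq_pow (hκ : ∀ c : κ, c ^ p ^ h = c) (φ : PowerSeries κ) :
    PowerSeries.subst (PowerSeries.X ^ p ^ h : PowerSeries κ) φ = φ ^ p ^ h := by
  have hp : p.Prime := Fact.out
  have h1 := MvPowerSeries.map_iterateFrobenius_expand (p := p) hp.ne_zero
    (φ : MvPowerSeries Unit κ) h
  have h2 : iterateFrobenius κ p h = RingHom.id κ := by
    ext c
    rw [iterateFrobenius_def, RingHom.id_apply, hκ c]
  rw [h2, MvPowerSeries.map_id] at h1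
  have h3 : (MvPowerSeries.expand (p ^ h) (pow_ne_zero h hp.ne_zero)) (φ : MvPowerSeries Unit κ)
      = PowerSeries.subst (PowerSeries.X ^ p ^ h : PowerSeries κ) φ := by
    rw [MvPowerSeries.expand, MvPowerSeries.coe_substAlgHom]
    rfl
  rw [← h3]
  exact h1

lemma pcond (hκ : ∀ c : κ, c ^ p ^ h = c) {F G : FormalGroup κ}
    (hF : mulSeries F p = PowerSeries.X ^ p ^ h) (hG : mulSeries G p = PowerSeries.X ^ p ^ h)
    {φ : PowerSeries κ} (hφ : PowerSeries.constantCoeff φ = 0) {m : ℕ} (hV : V F G φ m) :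
    ∑ s ∈ range p, E F G φ (m + 1) ((s : ℕ) : κ) 1 = 0 := by
  obtain ⟨_, _, _, _, h5⟩ := mulSeries_defect F G hφ hV p
  rw [← h5, hF, hG, subst_X_pow_eq_pow p hκ]
  have h6 : PowerSeries.subst φ (PowerSeries.X ^ p ^ h : PowerSeries κ) = φ ^ p ^ h := by
    rw [PowerSeries.subst_pow (hs1 hφ), PowerSeries.subst_X (hs1 hφ)]
  rw [h6, sub_self, map_zero]

/-- one step of the construction -/
theorem step (hκ : ∀ c : κ, c ^ p ^ h = c) {F G : FormalGroup κ} [F.IsComm] [G.IsComm]
    (hF : mulSeries F p = PowerSeries.X ^ p ^ h) (hG : mulSeries G p = PowerSeries.X ^ p ^ h)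
    {φ : PowerSeries κ} (hφ : PowerSeries.constantCoeff φ = 0) {m : ℕ} (hm : 1 ≤ m)
    (hV : V F G φ m) :
    ∃ c : κ, V F G (φ + PowerSeries.C c * PowerSeries.X ^ (m + 1)) (m + 1) := by
  classical
  -- the combinatorial lemma
  have hsum : ∀ s : κ, E F G φ (m + 1) s 1
      = ∑ i ∈ Ico 1 (m + 1), de F G φ i (m + 1 - i) * s ^ i := by
    intro s
    unfold E
    rw [Finset.Nat.sum_antidiagonal_eq_sum_range_succ_mk, Finset.range_eq_Ico,
      Finset.sum_Ico_succ_top (by omega), Finset.sum_eq_sum_Ico_succ_bot (by omega)]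
    have z1 : MvPowerSeries.coeff (ex 0 (m + 1 - 0)) (Del F G φ) = 0 := de_zero_left hφ hV
    have z2 : MvPowerSeries.coeff (ex (m + 1) (m + 1 - (m + 1))) (Del F G φ) = 0 := by
      rw [Nat.sub_self]
      have := de_symm hφ hV (m + 1) 0 (by omega)
      rw [de_zero_left hφ hV] at this
      exact this
    simp only [z1, z2, zero_mul, zero_add, add_zero, one_pow, mul_one]
    rfl
  obtain ⟨b, hb⟩ := cocycle_comb (κ := κ) p (m + 1) (by omega) (fun i => de F G φ i (m + 1 - i))
    (by
      intro i h1 h2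
      have := de_symm hφ hV i (m + 1 - i) (by omega)
      rw [this]
      congr 1
      omega)
    (by
      intro i j k h1 h2 h3 h4
      have := de_cocycle hφ hV i j k h1 h2 h3 h4
      have e1 : m + 1 - (i + j) = k := by omega
      have e2 : m + 1 - i = j + k := by omega
      rw [e1, e2]
      exact this)
    (by
      have := pcond p hκ hF hG hφ hV
      simp only [hsum] at this
      exact this)
  refine ⟨-b, ?_⟩
  set c : κ := -b with hc
  set φ' : PowerSeries κ := φ + PowerSeries.C c * PowerSeries.X ^ (m + 1) with hφ'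
  have hφ'0 : PowerSeries.constantCoeff φ' = 0 := by
    rw [hφ', map_add, hφ, map_mul, map_pow, PowerSeries.constantCoeff_X, zero_pow (by omega),
      mul_zero, add_zero]
  have := isComm_map (io κ) F
  have := isComm_map (io κ) G
  -- the test computation over the polynomial ring
  set F₁ := F.map (io κ) with hF1
  set G₁ := G.map (io κ) with hG1
  set ψ := PowerSeries.map (io κ) φ with hψ
  set ψ' := PowerSeries.map (io κ) φ' with hψ'
  have hψ0 : PowerSeries.constantCoeff ψ = 0 := cc_map hφ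
  have hψ'0 : PowerSeries.constantCoeff ψ' = 0 := cc_map hφ'0
  have hψeq : ψ' = ψ + PowerSeries.C (io κ c) * PowerSeries.X ^ (m + 1) := by
    rw [hψ', hφ', map_add, map_mul, map_pow, PowerSeries.map_C, PowerSeries.map_X]
  have ha0 := cc_lin (px κ)
  have hb0 := cc_lin (py κ)
  have hk := key F₁ G₁ hψ0 ha0 hb0
  have hk' := key F₁ G₁ hψ'0 ha0 hb0
  have hsub : ∀ u : PowerSeries (TP κ), PowerSeries.constantCoeff u = 0 →
      PowerSeries.subst u ψ' = PowerSeries.subst u ψ + PowerSeries.C (io κ c) * u ^ (m + 1) := by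
    intro u hu
    rw [hψeq, PowerSeries.subst_add (hs1 hu), PowerSeries.subst_mul (hs1 hu),
      PowerSeries.subst_pow (hs1 hu), PowerSeries.subst_X (hs1 hu), PowerSeries.subst_C]
    rfl
  have hab0 := cc_ap F₁ ha0 hb0
  rw [hsub _ hab0, hsub _ ha0, hsub _ hb0] at hk'
  have hXdvd : ∀ u : PowerSeries (TP κ), PowerSeries.constantCoeff u = 0 →
      (PowerSeries.X : PowerSeries (TP κ)) ^ (m + 1) ∣ PowerSeries.C (io κ c) * u ^ (m + 1) :=
    fun u hu => (pow_dvd_pow_of_dvd (dvd_of_cc hu) _).mul_left _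
  have hcc2 : ∀ u : PowerSeries (TP κ), PowerSeries.constantCoeff u = 0 →
      PowerSeries.constantCoeff (PowerSeries.C (io κ c) * u ^ (m + 1)) = 0 := by
    intro u hu
    rw [map_mul, map_pow, hu, zero_pow (by omega), mul_zero]
  have hψa := cc_sub hψ0 ha0
  have hψb := cc_sub hψ0 hb0
  -- perturbation in both arguments
  have p1 := ap_perturb G₁.toPowerSeries (by omega : 1 ≤ m + 1) hψa
    (by rw [map_add, hψb, hcc2 _ hb0, add_zero] :
      PowerSeries.constantCoeff (PowerSeries.subst (lin (py κ)) ψ +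
        PowerSeries.C (io κ c) * lin (py κ) ^ (m + 1)) = 0) (hXdvd _ ha0)
  have p2 := ap_perturb G₁.toPowerSeries (by omega : 1 ≤ m + 1) hψb hψa (hXdvd _ hb0)
  rw [coeff_ex_one_zero, map_one, one_mul] at p1 p2
  rw [ap_comm G₁ (by rw [map_add, hψb, hcc2 _ hb0, add_zero]) hψa, ap_comm G₁ hψb hψa] at p2
  have p3 := dvd_add p1 p2
  -- compare coefficients
  have hcoef : ∀ k ≤ m + 1, PowerSeries.coeff k (ap (Del F₁ G₁ ψ') (lin (px κ)) (lin (py κ))) =
      PowerSeries.coeff k (ap (Del F₁ G₁ ψ) (lin (px κ)) (lin (py κ))) +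
        io κ c * (PowerSeries.coeff k (ap F₁.toPowerSeries (lin (px κ)) (lin (py κ)) ^ (m + 1))
          - PowerSeries.coeff k (lin (px κ) ^ (m + 1)) -
            PowerSeries.coeff k (lin (py κ) ^ (m + 1))) := by
    intro k hk2
    have e1 := coeff_eq_zero_of_dvd p3 (Nat.lt_succ_of_le hk2)
    have e2 := congrArg (PowerSeries.coeff k) hk
    have e3 := congrArg (PowerSeries.coeff k) hk'
    simp only [map_add, map_sub, PowerSeries.coeff_C_mul] at e1 e2 e3
    linear_combination (-1 : TP κ) * e3 + e2 - e1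
  -- extraction
  have hDel : ∀ (θ : PowerSeries κ), PowerSeries.constantCoeff θ = 0 → ∀ i j k, i + j = k →
      cf i j (PowerSeries.coeff k (ap (Del F₁ G₁ (PowerSeries.map (io κ) θ))
        (lin (px κ)) (lin (py κ)))) = de F G θ i j := by
    intro θ hθ i j k hijk
    rw [coeff_ap_lin, cf_sum]
    have : ∀ q : ℕ × ℕ, cf i j (MvPowerSeries.coeff (ex q.1 q.2)
        (Del F₁ G₁ (PowerSeries.map (io κ) θ)) * (px κ ^ q.1 * py κ ^ q.2))
        = de F G θ q.1 q.2 * (if q.1 = i ∧ q.2 = j then 1 else 0) := by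
      intro q
      rw [hF1, hG1, Del_map (io κ) F G hθ, MvPowerSeries.coeff_map, cf_io_mul, cf_xy]
      rfl
    simp only [this]
    rw [sum_anti _ _ _ _ hijk, mul_one]
  intro i j hij
  change de F G φ' i j = 0
  rw [← hDel φ' hφ'0 i j (i + j) rfl]
  change cf i j (PowerSeries.coeff (i + j) (ap (Del F₁ G₁ ψ') (lin (px κ)) (lin (py κ)))) = 0
  rw [hcoef _ hij, cf_add, cf_io_mul, cf_sub, cf_sub]
  have hd := hDel φ hφ i j (i + j) rfl
  change cf i j (PowerSeries.coeff (i + j) (ap (Del F₁ G₁ ψ) (lin (px κ)) (lin (py κ)))) = _ at hd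
  rw [hd]
  -- powers
  rcases Nat.lt_or_ge (i + j) (m + 1) with hlt | hge
  · have z1 := coeff_eq_zero_of_dvd (pow_dvd_pow_of_dvd (dvd_of_cc hab0) (m + 1)) hlt
    have z2 := coeff_eq_zero_of_dvd (pow_dvd_pow_of_dvd (dvd_of_cc ha0) (m + 1)) hlt
    have z3 := coeff_eq_zero_of_dvd (pow_dvd_pow_of_dvd (dvd_of_cc hb0) (m + 1)) hlt
    rw [z1, z2, z3]
    have z4 : de F G φ i j = 0 := hV i j (by omega)
    rw [z4]
    simp [cf]
  · have heq : i + j = m + 1 := by omega
    have hpow : ∀ u : PowerSeries (TP κ), PowerSeries.constantCoeff u = 0 →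
        PowerSeries.coeff (i + j) (u ^ (m + 1)) = PowerSeries.coeff 1 u ^ (m + 1) := by
      intro u hu
      have := coeff_mul_pow_low hu hu (m + 1) 0
      rw [pow_zero, mul_one, pow_zero, mul_one, add_zero] at this
      rw [heq, this]
    rw [hpow _ hab0, hpow _ ha0, hpow _ hb0, coeff_one_ap F₁ ha0 hb0, coeff_one_lin, coeff_one_lin,
      cf_add_pow, if_pos heq.symm]
    have x1 := cf_xy (κ := κ) i j (m + 1) 0
    rw [pow_zero, mul_one] at x1
    have x2 := cf_xy (κ := κ) i j 0 (m + 1)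
    rw [pow_zero, one_mul] at x2
    rw [x1, x2]
    rcases Nat.eq_zero_or_pos i with hi | hi
    · subst hi
      have hj : j = m + 1 := by omega
      subst hj
      rw [de_zero_left hφ hV, Nat.choose_self, if_neg (fun h => by omega), if_pos ⟨rfl, rfl⟩]
      simp
    · rcases Nat.eq_zero_or_pos j with hj | hj
      · subst hj
        have hi' : i = m + 1 := by omega
        subst hi'
        rw [de_symm hφ hV (m + 1) 0 (by omega), de_zero_left hφ hV, Nat.choose_zero_right,
          if_pos ⟨rfl, rfl⟩, if_neg (fun h => by omega)]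
        simp
      · rw [if_neg (fun h => by omega), if_neg (fun h => by omega)]
        have h7 := hb i hi (by omega)
        have h8 : m + 1 - i = j := by omega
        rw [h8] at h7
        have h9 : (m + 1).choose i = (m + 1).choose j := by
          rw [← Nat.choose_symm (by omega : i ≤ m + 1), h8]
        rw [h7, h9, hc]
        ring

/-- extraction of the defect from the test ring -/
lemma cf_Del {F G : FormalGroup κ} {θ : PowerSeries κ} (hθ : PowerSeries.constantCoeff θ = 0)
    (i j k : ℕ) (hijk : i + j = k) :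
    cf i j (PowerSeries.coeff k (ap (Del (F.map (io κ)) (G.map (io κ))
      (PowerSeries.map (io κ) θ)) (lin (px κ)) (lin (py κ)))) = de F G θ i j := by
  rw [coeff_ap_lin, cf_sum]
  have : ∀ q : ℕ × ℕ, cf i j (MvPowerSeries.coeff (ex q.1 q.2)
      (Del (F.map (io κ)) (G.map (io κ)) (PowerSeries.map (io κ) θ)) * (px κ ^ q.1 * py κ ^ q.2))
      = de F G θ q.1 q.2 * (if q.1 = i ∧ q.2 = j then 1 else 0) := by
    intro q
    rw [Del_map (io κ) F G hθ, MvPowerSeries.coeff_map, cf_io_mul, cf_xy]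
    rfl
  simp only [this]
  rw [sum_anti _ _ _ _ hijk, mul_one]

/-- the defect in low degrees depends only on the low coefficients -/
theorem V_congr {F G : FormalGroup κ} [G.IsComm] {φ φ' : PowerSeries κ}
    (hφ : PowerSeries.constantCoeff φ = 0) {M : ℕ}
    (hd : (PowerSeries.X : PowerSeries κ) ^ (M + 1) ∣ φ' - φ) (hV : V F G φ M) :
    V F G φ' M := by
  obtain ⟨r, hr⟩ := hd
  have hφ'eq : φ' = φ + PowerSeries.X ^ (M + 1) * r := by rw [← hr]; ring
  have hφ'0 : PowerSeries.constantCoeff φ' = 0 := by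
    rw [hφ'eq, map_add, hφ, map_mul, map_pow, PowerSeries.constantCoeff_X, zero_pow (by omega),
      zero_mul, add_zero]
  have := isComm_map (io κ) G
  set F₁ := F.map (io κ) with hF1
  set G₁ := G.map (io κ) with hG1
  set ψ := PowerSeries.map (io κ) φ with hψ
  set ψ' := PowerSeries.map (io κ) φ' with hψ'
  have hψ0 : PowerSeries.constantCoeff ψ = 0 := cc_map hφ
  have hψ'0 : PowerSeries.constantCoeff ψ' = 0 := cc_map hφ'0
  have hψeq : ψ' = ψ + PowerSeries.X ^ (M + 1) * PowerSeries.map (io κ) r := by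
    rw [hψ', hφ'eq, map_add, map_mul, map_pow, PowerSeries.map_X]
  have ha0 := cc_lin (px κ)
  have hb0 := cc_lin (py κ)
  have hk := key F₁ G₁ hψ0 ha0 hb0
  have hk' := key F₁ G₁ hψ'0 ha0 hb0
  have hsub : ∀ u : PowerSeries (TP κ), PowerSeries.constantCoeff u = 0 →
      ∃ e : PowerSeries (TP κ), (PowerSeries.X : PowerSeries (TP κ)) ^ (M + 1) ∣ e ∧
      PowerSeries.subst u ψ' = PowerSeries.subst u ψ + e := by
    intro u hu
    refine ⟨u ^ (M + 1) * PowerSeries.subst u (PowerSeries.map (io κ) r),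
      (pow_dvd_pow_of_dvd (dvd_of_cc hu) _).mul_right _, ?_⟩
    rw [hψeq, PowerSeries.subst_add (hs1 hu), PowerSeries.subst_mul (hs1 hu),
      PowerSeries.subst_pow (hs1 hu), PowerSeries.subst_X (hs1 hu)]
  have hab0 := cc_ap F₁ ha0 hb0
  obtain ⟨e1, d1, h1⟩ := hsub _ hab0
  obtain ⟨e2, d2, h2⟩ := hsub _ ha0
  obtain ⟨e3, d3, h3⟩ := hsub _ hb0
  rw [h1, h2, h3] at hk'
  have hψa := cc_sub hψ0 ha0
  have hψb := cc_sub hψ0 hb0
  have hcce : ∀ {e : PowerSeries (TP κ)}, (PowerSeries.X : PowerSeries (TP κ)) ^ (M + 1) ∣ e →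
      PowerSeries.constantCoeff e = 0 := fun hd =>
    PowerSeries.X_dvd_iff.mp ((dvd_pow_self _ (by omega)).trans hd)
  have hb' : PowerSeries.constantCoeff (PowerSeries.subst (lin (py κ)) ψ + e3) = 0 := by
    rw [map_add, hψb, hcce d3, add_zero]
  have p1 := ap_perturb_weak G₁.toPowerSeries (by omega : 1 ≤ M + 1) hψa hb' d2
  have p2 := ap_perturb_weak G₁.toPowerSeries (by omega : 1 ≤ M + 1) hψb hψa d3
  rw [ap_comm G₁ hb' hψa, ap_comm G₁ hψb hψa] at p2
  have p3 := dvd_sub d1 (dvd_add p1 p2)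
  intro i j hij
  change de F G φ' i j = 0
  rw [← cf_Del hφ'0 i j (i + j) rfl]
  have hd := cf_Del (F := F) (G := G) hφ i j (i + j) rfl
  have z : de F G φ i j = 0 := hV i j hij
  rw [z] at hd
  have e4 := coeff_eq_zero_of_dvd p3 (Nat.lt_succ_of_le hij)
  have e5 := congrArg (PowerSeries.coeff (i + j)) hk
  have e6 := congrArg (PowerSeries.coeff (i + j)) hk'
  simp only [map_add, map_sub] at e4 e5 e6
  have e7 : PowerSeries.coeff (i + j) (ap (Del F₁ G₁ ψ') (lin (px κ)) (lin (py κ))) =
      PowerSeries.coeff (i + j) (ap (Del F₁ G₁ ψ) (lin (px κ)) (lin (py κ))) := by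
    linear_combination (-1 : TP κ) * e6 + e5 + e4
  change cf i j (PowerSeries.coeff (i + j) (ap (Del F₁ G₁ ψ') (lin (px κ)) (lin (py κ)))) = 0
  rw [e7]
  exact hd

/-- `X` is a homomorphism up to degree one -/
lemma V_X (F G : FormalGroup κ) : V F G PowerSeries.X 1 := by
  have hF : PowerSeries.HasSubst F.toPowerSeries :=
    PowerSeries.HasSubst.of_constantCoeff_zero F.zero_constantCoeff
  have h1 : Del F G (PowerSeries.X : PowerSeries κ) = F.toPowerSeries - G.toPowerSeries := by
    unfold Del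
    rw [PowerSeries.subst_X hF, PowerSeries.subst_X (PowerSeries.HasSubst.X 0),
      PowerSeries.subst_X (PowerSeries.HasSubst.X 1)]
    congr 1
    have e : (![MvPowerSeries.X 0, MvPowerSeries.X 1] : Fin 2 → MvPowerSeries (Fin 2) κ)
        = MvPowerSeries.X := by
      ext1 i; fin_cases i <;> rfl
    rw [e, MvPowerSeries.subst_self]
    rfl
  intro i j hij
  rw [h1, map_sub]
  have hcases : (i = 0 ∧ j = 0) ∨ (i = 1 ∧ j = 0) ∨ (i = 0 ∧ j = 1) := by omega
  rcases hcases with ⟨rfl, rfl⟩ | ⟨rfl, rfl⟩ | ⟨rfl, rfl⟩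
  · rw [coeff_ex_zero_zero, coeff_ex_zero_zero, sub_self]
  · rw [coeff_ex_one_zero, coeff_ex_one_zero, sub_self]
  · rw [coeff_ex_zero_one, coeff_ex_zero_one, sub_self]

/-- **Classification**: over a field `κ` of characteristic `p` with `c^(p^h) = c`, two commutative
formal group laws with `[p](X) = X^(p^h)` are strictly isomorphic. -/
theorem exists_strict_iso (hκ : ∀ c : κ, c ^ p ^ h = c) (F G : FormalGroup κ) [F.IsComm]
    [G.IsComm] (hF : mulSeries F p = PowerSeries.X ^ p ^ h)
    (hG : mulSeries G p = PowerSeries.X ^ p ^ h) :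
    ∃ φ : PowerSeries κ, IsFGHom F G φ ∧ PowerSeries.coeff 1 φ = 1 := by
  classical
  let St : ℕ → Type _ := fun m => {φ : PowerSeries κ // PowerSeries.constantCoeff φ = 0 ∧
    PowerSeries.coeff 1 φ = 1 ∧ V F G φ (m + 1)}
  have hnext : ∀ (m : ℕ) (s : St m), ∃ t : St (m + 1),
      (PowerSeries.X : PowerSeries κ) ^ (m + 2) ∣ t.1 - s.1 := by
    rintro m ⟨φ, h0, h1, hV⟩
    obtain ⟨c, hc⟩ := step p hκ hF hG h0 (by omega : 1 ≤ m + 1) hV
    refine ⟨⟨φ + PowerSeries.C c * PowerSeries.X ^ (m + 1 + 1), ?_, ?_, hc⟩, ?_⟩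
    · rw [map_add, h0, map_mul, map_pow, PowerSeries.constantCoeff_X, zero_pow (by omega),
        mul_zero, add_zero]
    · rw [map_add, h1, PowerSeries.coeff_C_mul, PowerSeries.coeff_X_pow, if_neg (by omega),
        mul_zero, add_zero]
    · simp only [add_sub_cancel_left]
      exact dvd_mul_left _ _
  choose nx hnx using hnext
  let S : ∀ m : ℕ, St m := fun m => Nat.rec (motive := fun m => St m)
    ⟨PowerSeries.X, PowerSeries.constantCoeff_X, PowerSeries.coeff_one_X, V_X F G⟩
    (fun m s => nx m s) m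
  have hS : ∀ m, S (m + 1) = nx m (S m) := fun m => rfl
  have hSd : ∀ m j, m ≤ j → (PowerSeries.X : PowerSeries κ) ^ (m + 2) ∣ (S j).1 - (S m).1 := by
    intro m j hmj
    induction j, hmj using Nat.le_induction with
    | base => rw [sub_self]; exact dvd_zero _
    | succ j hj ih =>
      have h1 : (S (j + 1)).1 - (S m).1 = ((S (j + 1)).1 - (S j).1) + ((S j).1 - (S m).1) := by ring
      rw [h1]
      refine dvd_add ?_ ih
      rw [hS]
      exact (pow_dvd_pow _ (by omega)).trans (hnx j (S j))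
  set φ : PowerSeries κ := PowerSeries.mk fun k => PowerSeries.coeff k (S k).1 with hφ
  have hφd : ∀ m, (PowerSeries.X : PowerSeries κ) ^ (m + 1 + 1) ∣ φ - (S m).1 := by
    intro m
    rw [PowerSeries.X_pow_dvd_iff]
    intro k hk
    rw [map_sub, hφ, PowerSeries.coeff_mk, sub_eq_zero]
    rcases Nat.lt_or_ge m k with h | h
    · have hk' : k = m + 1 := by omega
      subst hk'
      have := coeff_eq_zero_of_dvd (hSd m (m + 1) (by omega)) (show m + 1 < m + 2 by omega)
      rwa [map_sub, sub_eq_zero] at this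
    · have := coeff_eq_zero_of_dvd (hSd k m h) (show k < k + 2 by omega)
      rw [map_sub, sub_eq_zero] at this
      exact this.symm
  have hcc : PowerSeries.constantCoeff φ = 0 := by
    have := coeff_eq_zero_of_dvd (hφd 0) (show 0 < 0 + 1 + 1 by omega)
    rw [map_sub, sub_eq_zero, PowerSeries.coeff_zero_eq_constantCoeff_apply,
      PowerSeries.coeff_zero_eq_constantCoeff_apply] at this
    rw [this]
    exact (S 0).2.1
  have hc1 : PowerSeries.coeff 1 φ = 1 := by
    have := coeff_eq_zero_of_dvd (hφd 0) (show 1 < 0 + 1 + 1 by omega)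
    rw [map_sub, sub_eq_zero] at this
    rw [this]
    exact (S 0).2.2.1
  have hVall : ∀ m, V F G φ (m + 1) := fun m => V_congr (S m).2.1 (hφd m) (S m).2.2.2
  refine ⟨φ, ⟨hcc, ?_⟩, hc1⟩
  have hDel : Del F G φ = 0 := by
    apply MvPowerSeries.ext
    intro d
    have h3 := hVall (d 0 + d 1) (d 0) (d 1) (by omega)
    rw [ex_eta d] at h3
    rw [h3]
    exact (map_zero _).symm
  unfold Del at hDel
  exact sub_eq_zero.mp hDel

end main

end Crest.Agent.R227.Laz
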