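import Crest.Agent.R227.FG2
import Crest.Agent.R227.Ball

/-!
# R227 / Psi : the normal form `ψ ∘ V = ψ^{(Q)}` (first half of (D))
-/

set_option autoImplicit false

noncomputable section

namespace Crest.Agent.R227

open Crest.LubinTate MvPowerSeries Topology

/-! ## sequences defined by strong recursion -/

/-- sequence defined by a step function -/
def seqOf {α : Type*} (step : (m : ℕ) → (Fin m → α) → α) : ℕ → α
  | m => step m (fun i => seqOf step i.1)
decreasing_by exact i.2

theorem seqOf_eq {α : Type*} (step : (m : ℕ) → (Fin m → α) → α) (m : ℕ) :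
    seqOf step m = step m (fun i => seqOf step i.1) := by
  rw [seqOf]

theorem exists_seq {α : Type*} (P : (m : ℕ) → (Fin m → α) → α → Prop)
    (h : ∀ m f, ∃ x, P m f x) : ∃ a : ℕ → α, ∀ m, P m (fun i : Fin m => a i.1) (a m) := by
  choose step hstep using h
  refine ⟨seqOf step, fun m => ?_⟩
  rw [seqOf_eq step m]
  exact hstep m _

/-! ## coefficients of a substitution -/

theorem coeff_pow_eq_zero_of_lt {R : Type*} [CommRing R] (V : PowerSeries R)
    (hV : PowerSeries.constantCoeff V = 0) {m d : ℕ} (h : m < d) :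
    PowerSeries.coeff m (V ^ d) = 0 := by
  have hd : PowerSeries.X ^ d ∣ V ^ d := pow_dvd_pow_of_dvd (PowerSeries.X_dvd_iff.2 hV) d
  exact (PowerSeries.X_pow_dvd_iff.1 hd) m h

theorem coeff_pow_self {R : Type*} [CommRing R] (V : PowerSeries R)
    (hV : PowerSeries.constantCoeff V = 0) (m : ℕ) :
    PowerSeries.coeff m (V ^ m) = (PowerSeries.coeff 1 V) ^ m := by
  obtain ⟨W, rfl⟩ := PowerSeries.X_dvd_iff.2 hV
  rw [mul_pow, PowerSeries.coeff_X_pow_mul', if_pos le_rfl, Nat.sub_self,
    PowerSeries.coeff_zero_eq_constantCoeff, map_pow]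
  have : PowerSeries.coeff 1 (PowerSeries.X * W) = PowerSeries.constantCoeff W := by
    simp
  rw [this]

theorem coeff_subst_sum {R : Type*} [CommRing R] (V f : PowerSeries R)
    (hV : PowerSeries.constantCoeff V = 0) (m : ℕ) :
    PowerSeries.coeff m (PowerSeries.subst V f) =
      ∑ d ∈ Finset.range (m + 1), PowerSeries.coeff d f * PowerSeries.coeff m (V ^ d) := by
  rw [PowerSeries.coeff_subst' (PowerSeries.HasSubst.of_constantCoeff_zero' hV)]
  rw [finsum_eq_sum_of_support_subset]
  · rfl
  · intro d hd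
    by_contra hlt
    simp only [Finset.coe_range, Set.mem_Iio, not_lt] at hlt
    apply hd
    simp only [smul_eq_mul]
    rw [coeff_pow_eq_zero_of_lt V hV (by omega), mul_zero]

section psi

variable {K : Type*} [NormedField K] [IsUltrametricDist K] [IsAlgClosed K]
  (p : ℕ) [Fact p.Prime] [CharP K p]

/-- the equation `x ^ Q - w x = b` is solvable in the ball -/
theorem exists_root_AS (Q : ℕ) (hQ : 2 ≤ Q) (w b : Ob K) : ∃ x : Ob K, x ^ Q = w * x + b := by
  have hdeg : (Polynomial.C w * Polynomial.X + Polynomial.C b : Polynomial (Ob K)).degree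
      < (Q : WithBot ℕ) := by
    refine lt_of_le_of_lt (Polynomial.degree_linear_le) ?_
    exact_mod_cast (by omega : 1 < Q)
  have hm : (Polynomial.X ^ Q - (Polynomial.C w * Polynomial.X + Polynomial.C b) :
      Polynomial (Ob K)).Monic := Polynomial.monic_X_pow_sub hdeg
  have hnd : (Polynomial.X ^ Q - (Polynomial.C w * Polynomial.X + Polynomial.C b) :
      Polynomial (Ob K)).natDegree = Q := by
    apply Polynomial.natDegree_eq_of_degree_eq_some
    rw [Polynomial.degree_sub_eq_left_of_degree_lt]
    · exact Polynomial.degree_X_pow Q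
    · rwa [Polynomial.degree_X_pow]
  obtain ⟨x, hx⟩ := Ob_exists_root _ hm (by rw [hnd]; omega)
  refine ⟨x, ?_⟩
  simp only [Polynomial.eval_sub, Polynomial.eval_pow, Polynomial.eval_X, Polynomial.eval_add,
    Polynomial.eval_mul, Polynomial.eval_C] at hx
  exact sub_eq_zero.1 hx

/-- a nonzero solution of `x ^ Q = w x` for `w ≠ 0` -/
theorem exists_root_ne (Q : ℕ) (hQ : 2 ≤ Q) (w : Ob K) (hw : w ≠ 0) :
    ∃ x : Ob K, x ≠ 0 ∧ x ^ Q = w * x := by
  have hm : (Polynomial.X ^ (Q - 1) - Polynomial.C w : Polynomial (Ob K)).Monic :=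
    Polynomial.monic_X_pow_sub_C w (by omega)
  obtain ⟨x, hx⟩ := Ob_exists_root _ hm (by rw [Polynomial.natDegree_X_pow_sub_C]; omega)
  simp only [Polynomial.eval_sub, Polynomial.eval_pow, Polynomial.eval_X, Polynomial.eval_C] at hx
  have hx' : x ^ (Q - 1) = w := sub_eq_zero.1 hx
  refine ⟨x, ?_, ?_⟩
  · rintro rfl
    apply hw
    rw [← hx', zero_pow (by omega)]
  · rw [← hx', ← pow_succ]
    congr 1
    omega

/-- existence of `ψ` with `ψ ∘ V = ψ^{(Q)}` -/
theorem exists_psi_series (h : ℕ) (h1 : 1 ≤ h) (V : PowerSeries (Ob K))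
    (hV0 : PowerSeries.constantCoeff V = 0) (hv : PowerSeries.coeff 1 V ≠ 0) :
    ∃ ψ : PowerSeries (Ob K), PowerSeries.constantCoeff ψ = 0 ∧ PowerSeries.coeff 1 ψ ≠ 0 ∧
      PowerSeries.subst V ψ = PowerSeries.map (iterateFrobenius (Ob K) p h) ψ := by
  classical
  have hQ : 2 ≤ p ^ h := by
    calc 2 ≤ p := (Fact.out : p.Prime).two_le
      _ = p ^ 1 := (pow_one p).symm
      _ ≤ p ^ h := Nat.pow_le_pow_right (Fact.out : p.Prime).pos h1
  obtain ⟨a, ha⟩ := exists_seq (α := Ob K)
    (fun m f x => (m = 0 → x = 0) ∧ (m = 1 → x ≠ 0) ∧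
      (1 ≤ m → (∀ hm : 1 ≤ m, f ⟨0, hm⟩ = 0) →
        x ^ p ^ h = (PowerSeries.coeff 1 V) ^ m * x +
          ∑ i : Fin m, f i * PowerSeries.coeff m (V ^ (i : ℕ))))
    (by
      intro m f
      rcases Nat.lt_trichotomy m 1 with hm | hm | hm
      · exact ⟨0, fun _ => rfl, fun h => by omega, fun h => by omega⟩
      · subst hm
        obtain ⟨x, hx0, hx⟩ := exists_root_ne (p ^ h) hQ _ hv
        refine ⟨x, fun h => by omega, fun _ => hx0, fun _ hf => ?_⟩
        rw [hx, pow_one, Finset.univ_unique, Finset.sum_singleton]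
        have : f default = 0 := hf le_rfl
        rw [this, zero_mul, add_zero]
      · obtain ⟨x, hx⟩ := exists_root_AS (p ^ h) hQ ((PowerSeries.coeff 1 V) ^ m)
          (∑ i : Fin m, f i * PowerSeries.coeff m (V ^ (i : ℕ)))
        exact ⟨x, fun h => by omega, fun h => by omega, fun _ _ => hx⟩)
  have ha0 : a 0 = 0 := (ha 0).1 rfl
  refine ⟨PowerSeries.mk a, ?_, ?_, ?_⟩
  · rw [← PowerSeries.coeff_zero_eq_constantCoeff_apply, PowerSeries.coeff_mk, ha0]
  · rw [PowerSeries.coeff_mk]
    exact (ha 1).2.1 rfl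
  · ext m
    rw [coeff_subst_sum V _ hV0, PowerSeries.coeff_map, PowerSeries.coeff_mk,
      iterateFrobenius_def]
    simp only [PowerSeries.coeff_mk]
    rcases Nat.eq_zero_or_pos m with rfl | hm
    · simp [ha0, zero_pow (by omega : p ^ h ≠ 0)]
    · have := (ha m).2.2 hm (fun _ => ha0)
      rw [this, Finset.sum_range_succ, coeff_pow_self V hV0, Finset.sum_range, mul_comm (a m),
        add_comm]

end psi

/-! ## descent along injective ring homomorphisms -/

section descent

variable {R S : Type*} [CommRing R] [CommRing S]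

theorem fgmap_map {T : Type*} [CommRing T] (F : FormalGroup R) (f : R →+* S) (g : S →+* T) :
    (F.map f).map g = F.map (g.comp f) := by
  apply FormalGroup.ext
  simp only [FormalGroup.map_toPowerSeries]
  ext d
  simp [MvPowerSeries.coeff_map]

theorem mvmap_injective {τ : Type*} (f : R →+* S) (hf : Function.Injective f) :
    Function.Injective (MvPowerSeries.map (σ := τ) f) := by
  intro a b hab
  ext d
  apply hf
  have := congrArg (MvPowerSeries.coeff d) hab
  simpa [MvPowerSeries.coeff_map] using this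

/-- a law all of whose coefficients come from a subring is defined over the subring -/
theorem exists_fg_of_coeff (f : R →+* S) (hf : Function.Injective f) (G : FormalGroup S)
    (hG : ∀ d, ∃ x : R, f x = MvPowerSeries.coeff d G.toPowerSeries) :
    ∃ G' : FormalGroup R, G'.map f = G := by
  obtain ⟨c, hc⟩ : ∃ c : MvPowerSeries (Fin 2) R,
      ∀ d, f (MvPowerSeries.coeff d c) = MvPowerSeries.coeff d G.toPowerSeries := by
    choose c hc using hG
    exact ⟨fun d => c d, hc⟩
  have hmap : MvPowerSeries.map f c = G.toPowerSeries := by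
    ext d
    rw [MvPowerSeries.coeff_map, hc d]
  have h0 : MvPowerSeries.constantCoeff c = 0 := by
    apply hf
    rw [← MvPowerSeries.constantCoeff_map, hmap, G.zero_constantCoeff, map_zero]
  refine ⟨⟨c, h0, ?_, ?_, ?_⟩, ?_⟩
  · apply hf
    rw [← MvPowerSeries.coeff_map, hmap, G.lin_coeff_X, map_one]
  · apply hf
    rw [← MvPowerSeries.coeff_map, hmap, G.lin_coeff_Y, map_one]
  · apply mvmap_injective f hf
    have this (g₁ g₂ : MvPowerSeries (Fin 3) R) : (fun i => (![g₁, g₂] i).map f) =
      ![g₁.map f, g₂.map f] := by ext1 i; fin_cases i <;> simp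
    rw [MvPowerSeries.map_subst (HasSubst.cons_subst_zero_left (0 : Fin 3) 1 2 h0),
      MvPowerSeries.map_subst (HasSubst.cons_subst_zero_right (0 : Fin 3) 1 2 h0),
      this, this, MvPowerSeries.map_subst HasSubst.X_X, MvPowerSeries.map_subst HasSubst.X_X,
      this, this, hmap]
    simp only [MvPowerSeries.map_X]
    exact G.assoc
  · apply FormalGroup.ext
    simpa using hmap

theorem map_isComm (F : FormalGroup R) [F.IsComm] (f : R →+* S) : (F.map f).IsComm := by
  constructor
  have h := FormalGroup.IsComm.comm (F := F)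
  have this (g₁ g₂ : MvPowerSeries (Fin 2) R) : (fun i => (![g₁, g₂] i).map f) =
      ![g₁.map f, g₂.map f] := by ext1 i; fin_cases i <;> simp
  rw [FormalGroup.map_toPowerSeries]
  conv_lhs => rw [h]
  rw [MvPowerSeries.map_subst HasSubst.X_X, this]
  simp only [MvPowerSeries.map_X]

theorem isComm_of_map (F : FormalGroup R) (f : R →+* S) (hf : Function.Injective f)
    (h : (F.map f).IsComm) : F.IsComm := by
  constructor
  apply mvmap_injective f hf
  have h := h.comm
  have this (g₁ g₂ : MvPowerSeries (Fin 2) R) : (fun i => (![g₁, g₂] i).map f) =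
      ![g₁.map f, g₂.map f] := by ext1 i; fin_cases i <;> simp
  rw [FormalGroup.map_toPowerSeries] at h
  rw [MvPowerSeries.map_subst HasSubst.X_X, this]
  simpa only [MvPowerSeries.map_X] using h

theorem isFGHom_of_map (f : R →+* S) (hf : Function.Injective f) {F G : FormalGroup R}
    {φ : PowerSeries R} (h : IsFGHom (F.map f) (G.map f) (PowerSeries.map f φ)) :
    IsFGHom F G φ := by
  obtain ⟨h0, h1⟩ := h
  have h0' : PowerSeries.constantCoeff φ = 0 := by
    apply hf
    rw [map_zero, ← h0]
    rfl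
  refine ⟨h0', ?_⟩
  apply mvmap_injective f hf
  have this (g₁ g₂ : MvPowerSeries (Fin 2) R) : (fun i => (![g₁, g₂] i).map f) =
      ![g₁.map f, g₂.map f] := by ext1 i; fin_cases i <;> simp
  have hX : ∀ i : Fin 2, PowerSeries.HasSubst (MvPowerSeries.X i : MvPowerSeries (Fin 2) R) :=
    fun i => PowerSeries.HasSubst.X i
  have hs : MvPowerSeries.HasSubst ![PowerSeries.subst (X 0 : MvPowerSeries (Fin 2) R) φ,
      PowerSeries.subst (X 1 : MvPowerSeries (Fin 2) R) φ] := by
    apply MvPowerSeries.hasSubst_of_constantCoeff_zero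
    intro i
    fin_cases i
    · exact PowerSeries.constantCoeff_subst_eq_zero (by simp) φ h0'
    · exact PowerSeries.constantCoeff_subst_eq_zero (by simp) φ h0'
  rw [PowerSeries.map_subst (PowerSeries.HasSubst.of_constantCoeff_zero F.zero_constantCoeff),
    MvPowerSeries.map_subst hs, this, PowerSeries.map_subst (hX 0), PowerSeries.map_subst (hX 1)]
  simpa only [MvPowerSeries.map_X, FormalGroup.map_toPowerSeries] using h1

theorem psmap_injective (f : R →+* S) (hf : Function.Injective f) :
    Function.Injective (PowerSeries.map f) := mvmap_injective f hf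

end descent

/-! ## the subfield `F_Q` -/

theorem exists_galoisField_embedding {K : Type*} [Field K] [IsAlgClosed K] (p : ℕ)
    [Fact p.Prime] [CharP K p] (h : ℕ) (h1 : 1 ≤ h) :
    ∃ ι : GaloisField p h →+* K, (∀ y, (ι y) ^ p ^ h = ι y) ∧
      ∀ x : K, x ^ p ^ h = x → ∃ y, ι y = x := by
  classical
  let _ : Algebra (ZMod p) K := ZMod.algebra K p
  let ι : GaloisField p h →ₐ[ZMod p] K := IsAlgClosed.lift
  have hcard : Nat.card (GaloisField p h) = p ^ h := GaloisField.card p h (by omega)
  let _ : Fintype (GaloisField p h) := Fintype.ofFinite _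
  have hpow : ∀ y : GaloisField p h, y ^ p ^ h = y := by
    intro y
    rw [← hcard, Nat.card_eq_fintype_card]
    exact FiniteField.pow_card y
  have hQ : 1 < p ^ h := Nat.one_lt_pow (by omega) (Fact.out : p.Prime).one_lt
  refine ⟨ι.toRingHom, fun y => ?_, fun x hx => ?_⟩
  · change (ι y) ^ p ^ h = ι y
    rw [← map_pow, hpow]
  · have hne : (Polynomial.X ^ p ^ h - Polynomial.X : Polynomial K) ≠ 0 :=
      FiniteField.X_pow_card_sub_X_ne_zero K hQ
    have hroots : Finset.univ.image ι ⊆
        (Polynomial.X ^ p ^ h - Polynomial.X : Polynomial K).roots.toFinset := by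
      intro z hz
      obtain ⟨y, -, rfl⟩ := Finset.mem_image.1 hz
      rw [Multiset.mem_toFinset, Polynomial.mem_roots hne]
      simp only [Polynomial.IsRoot.def, Polynomial.eval_sub, Polynomial.eval_pow,
        Polynomial.eval_X]
      rw [← map_pow, hpow, sub_self]
    have hle : (Polynomial.X ^ p ^ h - Polynomial.X : Polynomial K).roots.toFinset.card ≤
        (Finset.univ.image ι).card := by
      rw [Finset.card_image_of_injective _ (show Function.Injective ι from ι.toRingHom.injective),
        Finset.card_univ,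
        ← Nat.card_eq_fintype_card, hcard]
      calc _ ≤ Multiset.card (Polynomial.X ^ p ^ h - Polynomial.X : Polynomial K).roots :=
            Multiset.toFinset_card_le _
        _ ≤ (Polynomial.X ^ p ^ h - Polynomial.X : Polynomial K).natDegree :=
            Polynomial.card_roots' _
        _ = p ^ h := FiniteField.X_pow_card_sub_X_natDegree_eq K hQ
    have heq := Finset.eq_of_subset_of_card_le hroots hle
    have hx' : x ∈ (Polynomial.X ^ p ^ h - Polynomial.X : Polynomial K).roots.toFinset := by
      rw [Multiset.mem_toFinset, Polynomial.mem_roots hne]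
      simp [hx]
    rw [← heq] at hx'
    obtain ⟨y, -, hy⟩ := Finset.mem_image.1 hx'
    exact ⟨y, hy⟩

/-! ## main statement -/

theorem subst_X_pow_map_frob {K : Type*} [Field K] (p : ℕ) [Fact p.Prime] [CharP K p] (h : ℕ)
    (f : PowerSeries K) :
    PowerSeries.subst (PowerSeries.X ^ p ^ h : PowerSeries K)
      (PowerSeries.map (iterateFrobenius K p h) f) = f ^ p ^ h := by
  have hp0 : p ^ h ≠ 0 := (pow_pos (Fact.out : p.Prime).pos h).ne'
  rw [← PowerSeries.expand_apply (p ^ h) hp0, ← PowerSeries.map_expand]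
  have := MvPowerSeries.map_iterateFrobenius_expand p (Fact.out : p.Prime).ne_zero f h
  exact this

/-- **Normal form.** If `[p]_F = V(X^Q)` with `V : F^{(Q)} → F` and `V'(0) ≠ 0`, then there is a
homomorphism `ψ : F → G` over the ball with `G` defined over `F_Q`, `[p]_G = X^Q`,
`ψ ∘ V = ψ^{(Q)}` and `ψ'(0) ≠ 0`. -/
theorem exists_psi {K : Type*} [NormedField K] [IsUltrametricDist K] [IsAlgClosed K]
    (p : ℕ) [Fact p.Prime] [CharP K p] (h : ℕ) (h1 : 1 ≤ h) (F : FormalGroup (Ob K)) [F.IsComm]
    (V : PowerSeries (Ob K)) (hV : IsFGHom (F.map (iterateFrobenius (Ob K) p h)) F V)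
    (hpV : mulSeries F p = PowerSeries.subst (PowerSeries.X ^ p ^ h : PowerSeries (Ob K)) V)
    (hv : PowerSeries.coeff 1 V ≠ 0) :
    ∃ (G : FormalGroup (GaloisField p h)) (ι : GaloisField p h →+* Ob K)
      (ψ : PowerSeries (Ob K)), G.IsComm ∧ PowerSeries.constantCoeff ψ = 0 ∧
      PowerSeries.coeff 1 ψ ≠ 0 ∧ IsFGHom F (G.map ι) ψ ∧
      PowerSeries.subst V ψ = PowerSeries.map (iterateFrobenius (Ob K) p h) ψ ∧
      mulSeries G p = PowerSeries.X ^ p ^ h := by
  classical
  obtain ⟨ψ, hψ0, hψ1, hψV⟩ := exists_psi_series p h h1 V hV.1 hv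
  obtain ⟨ι, hι1, hι2⟩ := exists_galoisField_embedding (K := K) p h h1
  have hp0 : p ^ h ≠ 0 := (pow_pos (Fact.out : p.Prime).pos h).ne'
  -- the map to `K`
  let s : Ob K →+* K := (Ob K).subtype
  have hs : Function.Injective s := Subtype.val_injective
  have hcomp : s.comp (iterateFrobenius (Ob K) p h) = (iterateFrobenius K p h).comp s := by
    ext x
    simp [iterateFrobenius_def, s]
  have : (F.map s).IsComm := map_isComm F s
  have hψK0 : PowerSeries.constantCoeff (PowerSeries.map s ψ) = 0 := by
    rw [← PowerSeries.coeff_zero_eq_constantCoeff_apply, PowerSeries.coeff_map,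
      PowerSeries.coeff_zero_eq_constantCoeff_apply, hψ0, map_zero]
  have hψK1 : IsUnit (PowerSeries.coeff 1 (PowerSeries.map s ψ)) := by
    rw [PowerSeries.coeff_map, isUnit_iff_ne_zero]
    intro h0
    exact hψ1 (hs (by rw [h0, map_zero]))
  obtain ⟨GK, hGK⟩ := exists_conj (F.map s) (PowerSeries.map s ψ) hψK0 hψK1
  have hGKc : GK.IsComm := IsFGHom.isComm hGK hψK1
  -- two homomorphisms out of `F^{(Q)}`
  have e1 := IsFGHom.map (iterateFrobenius K p h) hGK
  have hmm : PowerSeries.subst (PowerSeries.map s V) (PowerSeries.map s ψ) =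
      PowerSeries.map (iterateFrobenius K p h) (PowerSeries.map s ψ) := by
    have := congrArg (PowerSeries.map s) hψV
    rw [show PowerSeries.map s (PowerSeries.subst V ψ) =
      PowerSeries.subst (PowerSeries.map s V) (PowerSeries.map s ψ) from
      PowerSeries.map_subst (PowerSeries.HasSubst.of_constantCoeff_zero' hV.1) ψ] at this
    rw [this]
    ext m
    have := RingHom.congr_fun hcomp (PowerSeries.coeff m ψ)
    simpa [PowerSeries.coeff_map] using this
  have e2 := IsFGHom.comp (IsFGHom.map s hV) hGK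
  rw [hmm, fgmap_map, hcomp, ← fgmap_map] at e2
  have hu : IsUnit (PowerSeries.coeff 1
      (PowerSeries.map (iterateFrobenius K p h) (PowerSeries.map s ψ))) := by
    rw [PowerSeries.coeff_map]
    exact hψK1.map _
  have hfix : GK.map (iterateFrobenius K p h) = GK := IsFGHom.target_unique e1 e2 hu
  obtain ⟨G, hG⟩ := exists_fg_of_coeff ι ι.injective GK (by
    intro d
    apply hι2
    have := congrArg (fun H : FormalGroup K => MvPowerSeries.coeff d H.toPowerSeries) hfix
    simpa [MvPowerSeries.coeff_map, iterateFrobenius_def] using this)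
  -- the embedding into the ball
  have hnorm : ∀ y, ‖ι y‖ ≤ 1 := by
    intro y
    by_contra hlt
    push Not at hlt
    have h2 : 1 < p ^ h := Nat.one_lt_pow (by omega) (Fact.out : p.Prime).one_lt
    have h3 : ‖ι y‖ ^ 1 < ‖ι y‖ ^ p ^ h := pow_lt_pow_right₀ hlt h2
    rw [pow_one, ← norm_pow, hι1] at h3
    exact lt_irrefl _ h3
  let ιO : GaloisField p h →+* Ob K := ι.codRestrict (Ob K) (fun y => hnorm y)
  have hιO : s.comp ιO = ι := by ext y; rfl
  have hGc : G.IsComm := isComm_of_map G ι ι.injective (by rw [hG]; exact hGKc)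
  refine ⟨G, ιO, ψ, hGc, hψ0, hψ1, ?_, hψV, ?_⟩
  · apply isFGHom_of_map s hs
    rw [fgmap_map, hιO, hG]
    exact hGK
  · apply psmap_injective ι ι.injective
    rw [mulSeries_map, hG, map_pow, PowerSeries.map_X]
    have hc := IsFGHom.comm_mulSeries hGK p
    rw [← mulSeries_map, hpV, show PowerSeries.map s (PowerSeries.subst
      (PowerSeries.X ^ p ^ h : PowerSeries (Ob K)) V) =
      PowerSeries.subst (PowerSeries.map s (PowerSeries.X ^ p ^ h : PowerSeries (Ob K)))
        (PowerSeries.map s V) from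
      PowerSeries.map_subst (PowerSeries.HasSubst.X_pow hp0) V, map_pow, PowerSeries.map_X] at hc
    have hVK0 : PowerSeries.constantCoeff (PowerSeries.map s V) = 0 := (IsFGHom.map s hV).1
    rw [← PowerSeries.subst_comp_subst_apply (PowerSeries.HasSubst.of_constantCoeff_zero' hVK0)
      (PowerSeries.HasSubst.X_pow hp0), hmm, subst_X_pow_map_frob] at hc
    obtain ⟨χ, hχ, -, hχ2, -⟩ := IsFGHom.exists_inv hGK hψK1
    have hsψ := PowerSeries.HasSubst.of_constantCoeff_zero' hψK0
    have hsχ := PowerSeries.HasSubst.of_constantCoeff_zero' hχ.1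
    have h4 : PowerSeries.subst (PowerSeries.map s ψ) (mulSeries GK p) =
        PowerSeries.subst (PowerSeries.map s ψ) (PowerSeries.X ^ p ^ h : PowerSeries K) := by
      rw [← hc, PowerSeries.subst_pow hsψ, PowerSeries.subst_X hsψ]
    have h5 := congrArg (PowerSeries.subst χ) h4
    rw [PowerSeries.subst_comp_subst_apply hsψ hsχ, PowerSeries.subst_comp_subst_apply hsψ hsχ,
      hχ2, PowerSeries.X_subst, PowerSeries.X_subst] at h5
    exact h5

end Crest.Agent.R227
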