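import Crest.Agent.R227.CoTate
import Crest.Agent.R227.Psi
import Crest.Agent.R227.Lazard

/-! # R227 / CoPsi : the homomorphism `ψ : F → HO h` (task COPSI)

`Psi.lean` (helper621) + `Lazard.lean` (helper357) give `exists_psi_point`. -/

set_option autoImplicit false
set_option linter.unusedSectionVars false

noncomputable section

namespace Crest.Agent.R227

open Crest.LubinTate MvPowerSeries Topology

variable {p : ℕ} [Fact p.Prime] {n h : ℕ}
variable {K : Type} [NontriviallyNormedField K] [IsUltrametricDist K] [CompleteSpace K]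
  [IsAlgClosed K] [CharP K p]

theorem exists_psi_point (h1 : 1 ≤ h) (hh : h < n) (P : HPoint p n h K) :
    ∃ ψ : PowerSeries (Ob K), IsFGHom P.F (HO p n h (Ob K)) ψ ∧ PowerSeries.coeff 1 ψ ≠ 0 := by
  obtain ⟨hV1, hV2, hV3, -⟩ := V1_props h1 hh P
  obtain ⟨G, ι, ψ, hGc, -, hψ1, hψ, -, hGp⟩ := exists_psi p h h1 P.F _ hV2 hV1 hV3
  have : G.IsComm := hGc
  have hκ : ∀ c : GaloisField p h, c ^ p ^ h = c := by
    intro c
    have := Fintype.ofFinite (GaloisField p h)
    have hcard : Fintype.card (GaloisField p h) = p ^ h := by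
      rw [← Nat.card_eq_fintype_card, GaloisField.card p h (by omega)]
    rw [← hcard]
    exact FiniteField.pow_card c
  obtain ⟨φ, hφ, hφ1⟩ := Laz.exists_strict_iso p hκ G (HO p n h (GaloisField p h)) hGp
    (mulSeries_Fh p n h h1 hh.le)
  have hφ' := IsFGHom.map ι hφ
  have hmap : (HO p n h (GaloisField p h)).map ι = HO p n h (Ob K) := Fh_map p n h ι
  rw [hmap] at hφ'
  refine ⟨PowerSeries.subst ψ (PowerSeries.map ι φ), IsFGHom.comp hψ hφ', ?_⟩
  rw [CoVAux.coeff_one_subst hψ.1, PowerSeries.coeff_map, hφ1, map_one, mul_one]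
  exact hψ1

theorem mulSeries_HO_pow {R : Type*} [CommRing R] [CharP R p] (h1 : 1 ≤ h) (hh : h ≤ n) (i : ℕ) :
    mulSeries (HO p n h R) (p ^ i) = PowerSeries.X ^ p ^ (h * i) := by
  have hp : p ≠ 0 := (Fact.out : p.Prime).ne_zero
  induction i with
  | zero =>
    rw [pow_zero, mul_zero, pow_zero, pow_one]
    rw [show (1 : ℕ) = 0 + 1 from rfl, mulSeries_succ]
    exact zero_fadd _ _ ccPX
  | succ i ih =>
    have h2 : mulSeries (HO p n h R) p = PowerSeries.X ^ p ^ h := mulSeries_Fh p n h h1 hh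
    rw [pow_succ, mulSeries_mul, ih, h2]
    have hs : PowerSeries.HasSubst (PowerSeries.X ^ p ^ h : PowerSeries R) :=
      PowerSeries.HasSubst.of_constantCoeff_zero' (by
        rw [map_pow, PowerSeries.constantCoeff_X, zero_pow (pow_ne_zero _ hp)])
    rw [PowerSeries.subst_pow hs, PowerSeries.subst_X hs, ← pow_mul, ← pow_add]
    congr 2
    ring

variable {P : HPoint p n h K} {ψ : PowerSeries (Ob K)}

/-- `ψ ∘ V_i = ψ^{(Q^i)}` (cancel `X^{Q^i}` in `ψ ∘ [p^i] = [p^i] ∘ ψ`) -/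
theorem psi_V (h1 : 1 ≤ h) (hh : h < n) (hψ : IsFGHom P.F (HO p n h (Ob K)) ψ) (i : ℕ)
    {V : PowerSeries (Ob K)} (hV : IsVi P i V) :
    PowerSeries.subst V ψ = ψ.map (iterateFrobenius (Ob K) p (h * i)) := by
  have hp : p ≠ 0 := (Fact.out : p.Prime).ne_zero
  have hpi : p ^ (h * i) ≠ 0 := pow_ne_zero _ hp
  have hX0 : PowerSeries.constantCoeff (PowerSeries.X ^ p ^ (h * i) : PowerSeries (Ob K)) = 0 := by
    rw [map_pow, PowerSeries.constantCoeff_X, zero_pow hpi]
  have e := IsFGHom.comm_mulSeries hψ (p ^ i)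
  have hs : PowerSeries.HasSubst ψ := PowerSeries.HasSubst.of_constantCoeff_zero' hψ.1
  rw [hV.eq, mulSeries_HO_pow h1 hh.le, PowerSeries.subst_pow hs, PowerSeries.subst_X hs,
    CoVAux.pow_eq_subst (p := p) (h * i) ψ] at e
  have e2 : PowerSeries.subst (PowerSeries.X ^ p ^ (h * i) : PowerSeries (Ob K))
      (PowerSeries.subst V ψ) = PowerSeries.subst
        (PowerSeries.X ^ p ^ (h * i) : PowerSeries (Ob K))
        (PowerSeries.map (iterateFrobenius (Ob K) p (h * i)) ψ) := by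
    rw [← e]
    exact psubst_psubst hV.hom.1 hX0 ψ
  rw [← PowerSeries.expand_apply _ hpi, ← PowerSeries.expand_apply _ hpi] at e2
  refine PowerSeries.ext fun m => ?_
  have := congrArg (PowerSeries.coeff (p ^ (h * i) * m)) e2
  rwa [PowerSeries.coeff_expand_mul, PowerSeries.coeff_expand_mul] at this

/-- one step of the estimate: the coefficients of `ψ` at `m` is controlled by `ψ^{(Q)}` -/
theorem psi_step (h1 : 1 ≤ h) (hh : h < n) (hψ : IsFGHom P.F (HO p n h (Ob K)) ψ)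
    {R : ℝ} (hR0 : 0 ≤ R) (hR : ∀ m, ‖PowerSeries.coeff m ψ‖ ≤ R) (m : ℕ) :
    ‖PowerSeries.coeff m ψ‖ ≤ max (R ^ p ^ h) (P.c * R) := by
  have hp : p ≠ 0 := (Fact.out : p.Prime).ne_zero
  obtain ⟨V, hV⟩ := exists_Vi h1 hh P 1
  have e := psi_V h1 hh hψ 1 hV
  rw [mul_one] at e
  set N := p ^ (n - h) with hN
  have hN0 : N ≠ 0 := pow_ne_zero _ hp
  have hVs : PowerSeries.HasSubst V := PowerSeries.HasSubst.of_constantCoeff_zero' hV.hom.1
  have hXs : PowerSeries.HasSubst (PowerSeries.X ^ N : PowerSeries (Ob K)) :=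
    PowerSeries.HasSubst.of_constantCoeff_zero' (by
      rw [map_pow, PowerSeries.constantCoeff_X, zero_pow hN0])
  -- the coefficient of `X^{N m}` in `ψ(X^N)` is `a_m`
  have e1 : PowerSeries.coeff (N * m) (PowerSeries.subst (PowerSeries.X ^ N : PowerSeries (Ob K)) ψ)
      = PowerSeries.coeff m ψ := by
    rw [← PowerSeries.expand_apply _ hN0, PowerSeries.coeff_expand_mul]
  -- difference with `ψ(V)`
  have hcR : 0 ≤ P.c * R := mul_nonneg P.c_nonneg hR0
  have e2 : ‖PowerSeries.coeff (N * m) (PowerSeries.subst V ψ) -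
      PowerSeries.coeff (N * m) (PowerSeries.subst (PowerSeries.X ^ N : PowerSeries (Ob K)) ψ)‖
        ≤ P.c * R := by
    rw [PowerSeries.coeff_subst' hVs, PowerSeries.coeff_subst' hXs,
      ← finsum_sub_distrib (PowerSeries.coeff_subst_finite' hVs ψ _)
        (PowerSeries.coeff_subst_finite' hXs ψ _), ← mem_normIdeal _ hcR]
    refine finsum_induction (fun x => x ∈ normIdeal K (P.c * R) hcR) (Ideal.zero_mem _)
      (fun x y hx hy => Ideal.add_mem _ hx hy) (fun d => ?_)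
    rw [mem_normIdeal, smul_eq_mul, smul_eq_mul, ← mul_sub, CoRootAux.norm_mul', mul_comm]
    refine mul_le_mul ?_ (hR d) (norm_nonneg _) P.c_nonneg
    have h3 : PowerSeries.map (Ideal.Quotient.mk (normIdeal K P.c P.c_nonneg)) (V ^ d) =
        PowerSeries.X ^ (N * d) := by
      have h4 := (CoVAux.near_iff P.c P.c_nonneg V (p ^ ((n - h) * 1))).1 hV.near
      rw [map_pow, h4, mul_one, ← pow_mul]
    have h5 := (CoVAux.near_iff P.c P.c_nonneg (V ^ d) (N * d)).2 h3 (N * m)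
    rw [← pow_mul, PowerSeries.coeff_X_pow]
    exact h5
  rw [e1, e, PowerSeries.coeff_map, iterateFrobenius_def] at e2
  have e3 : ‖PowerSeries.coeff (N * m) ψ ^ p ^ h‖ ≤ R ^ p ^ h := by
    rw [CoRootAux.norm_pow']
    exact pow_le_pow_left₀ (norm_nonneg _) (hR _) _
  have e4 : PowerSeries.coeff m ψ = PowerSeries.coeff (N * m) ψ ^ p ^ h -
      (PowerSeries.coeff (N * m) ψ ^ p ^ h - PowerSeries.coeff m ψ) := by ring
  rw [e4]
  rw [sub_eq_add_neg]
  refine (IsUltrametricDist.norm_add_le_max _ _).trans ?_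
  rw [norm_neg]
  exact max_le_max e3 e2

/-- the coefficients of `ψ` have norms arbitrarily close to `1` -/
theorem psi_sup (h1 : 1 ≤ h) (hh : h < n) (hψ : IsFGHom P.F (HO p n h (Ob K)) ψ)
    (hψ1 : PowerSeries.coeff 1 ψ ≠ 0) (r : ℝ) (hr : r < 1) :
    ∃ m, 1 ≤ m ∧ r < ‖PowerSeries.coeff m ψ‖ := by
  by_contra hcon
  push Not at hcon
  -- all coefficients are bounded by `r`
  have hc0 : PowerSeries.coeff 0 ψ = 0 := by
    rw [PowerSeries.coeff_zero_eq_constantCoeff_apply]; exact hψ.1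
  have hr0 : 0 ≤ r := (norm_nonneg _).trans (hcon 1 le_rfl)
  have hall : ∀ m, ‖PowerSeries.coeff m ψ‖ ≤ r := by
    intro m
    rcases Nat.eq_zero_or_pos m with rfl | hm
    · rw [hc0, norm_zero]; exact hr0
    · exact hcon m hm
  set θ := max r P.c with hθ
  have hθ1 : θ < 1 := max_lt hr P.c_lt_one
  have hθ0 : 0 ≤ θ := hr0.trans (le_max_left _ _)
  have key : ∀ k : ℕ, ∀ m, ‖PowerSeries.coeff m ψ‖ ≤ θ ^ k * r := by
    intro k
    induction k with
    | zero => intro m; rw [pow_zero, one_mul]; exact hall m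
    | succ k ih =>
      intro m
      have hR0 : 0 ≤ θ ^ k * r := by positivity
      refine (psi_step h1 hh hψ hR0 ih m).trans (max_le ?_ ?_)
      · have hQ : 2 ≤ p ^ h := by
          calc 2 ≤ p := (Fact.out : p.Prime).two_le
            _ = p ^ 1 := (pow_one p).symm
            _ ≤ p ^ h := Nat.pow_le_pow_right (Fact.out : p.Prime).pos h1
        have hR1 : θ ^ k * r ≤ 1 :=
          mul_le_one₀ (pow_le_one₀ hθ0 hθ1.le) hr0 hr.le
        calc (θ ^ k * r) ^ p ^ h ≤ (θ ^ k * r) ^ 2 := pow_le_pow_of_le_one hR0 hR1 hQ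
          _ = (θ ^ k * r) * (θ ^ k * r) := sq _
          _ ≤ θ * (θ ^ k * r) := by
              refine mul_le_mul_of_nonneg_right ?_ hR0
              calc θ ^ k * r ≤ 1 * r := mul_le_mul_of_nonneg_right (pow_le_one₀ hθ0 hθ1.le) hr0
                _ = r := one_mul _
                _ ≤ θ := le_max_left _ _
          _ = θ ^ (k + 1) * r := by ring
      · calc P.c * (θ ^ k * r) ≤ θ * (θ ^ k * r) :=
              mul_le_mul_of_nonneg_right (le_max_right _ _) hR0
          _ = θ ^ (k + 1) * r := by ring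
  have hlim : Filter.Tendsto (fun k : ℕ => θ ^ k * r) Filter.atTop (𝓝 0) := by
    have := (tendsto_pow_atTop_nhds_zero_of_lt_one hθ0 hθ1).mul_const r
    rwa [zero_mul] at this
  have h0 : ‖PowerSeries.coeff 1 ψ‖ ≤ 0 :=
    ge_of_tendsto hlim (Filter.Eventually.of_forall fun k => key k 1)
  exact hψ1 (norm_le_zero_iff.1 h0)

theorem psi_surjective (h1 : 1 ≤ h) (hh : h < n) (hψ : IsFGHom P.F (HO p n h (Ob K)) ψ)
    (hψ1 : PowerSeries.coeff 1 ψ ≠ 0) : Function.Surjective (FPt.hom hψ) := by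
  intro y
  obtain ⟨m, hm, hmy⟩ := psi_sup h1 hh hψ hψ1 ‖y.val‖ (FPt.norm_lt _ y)
  obtain ⟨x, hx, hxy⟩ := exists_ev_eq ψ hψ.1 m hm y.val hmy
  refine ⟨mkPt P.F x hx, FPt.ext ?_⟩
  rw [FPt.hom_val, mkPt_val]
  exact hxy

end Crest.Agent.R227
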