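import Crest.Agent.R227.CoPhi
import Crest.Agent.R227.CoApproxOrb
import Crest.Agent.R227.CoApproxAux
import Crest.Agent.R227.CoPsi

/-! # R227 / CoApprox : the approximation property of `EEset` (task COAPPROX) -/

set_option autoImplicit false
set_option linter.unusedSectionVars false

noncomputable section

namespace Crest.Agent.R227

open Crest.LubinTate MvPowerSeries Topology

variable {p : ℕ} [Fact p.Prime] {n h : ℕ}
variable {K : Type} [NontriviallyNormedField K] [IsUltrametricDist K] [CompleteSpace K]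
  [IsAlgClosed K] [CharP K p]

variable {ι : GaloisField p n →+* Ob K} {M : ℕ}

/-- `EEset` is the same at all orbit points (`ψ' = ψ ∘ lam`, `θ'(α g⁻¹ t) = θ(g α g⁻¹ t)`). -/
theorem EEset_orb {x y : Mk p n h K ι} (hxy : Orb M x y) {ψ : PowerSeries (Ob K)}
    (hψ : IsFGHom x.P.F (HO p n h (Ob K)) ψ) (hψ1 : PowerSeries.coeff 1 ψ ≠ 0) :
    ∃ (ψ' : PowerSeries (Ob K)) (hψ' : IsFGHom y.P.F (HO p n h (Ob K)) ψ'),
      PowerSeries.coeff 1 ψ' ≠ 0 ∧ EEset y hψ' = EEset x hψ :=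
  CoApproxAux.EEset_orb hxy hψ hψ1

theorem CoApproxAux.isAct_nsmul {A : FPt (HO p n n (Ob K)) →+ FPt (HO p n n (Ob K))} (hA : IsAct ι A)
    (m : ℕ) : IsAct ι (m • A) := by
  induction m with
  | zero => rw [zero_smul]; exact IsAct.zero
  | succ m ih => rw [succ_nsmul]; exact ih.add hA

/-- one point: transport of `Φ` along the formal inverse of `ψ` over `K`, truncated. For
`e = θ(A t)`, `e^{Q^s} = θ(p^s A t) = ψ(η)`, `η = ρ(p^s A t)`, `‖η‖ < ‖coeff 1 ψ‖` for `s` large,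
`‖ψ η‖ = ‖coeff 1 ψ‖ ‖η‖`. -/
theorem approx_of_phi (h1 : 1 ≤ h) (hh : h < n) (x : Mk p n h K ι) {ψ : PowerSeries (Ob K)}
    (hψ : IsFGHom x.P.F (HO p n h (Ob K)) ψ) (hψ1 : PowerSeries.coeff 1 ψ ≠ 0) (D : ℕ)
    (Φ : MvPowerSeries (Fin (n - h)) (Ob K)) (hΦ : ∃ l, coeff (Finsupp.single l 1) Φ ≠ 0)
    (hb : ∀ A, IsAct ι A → ∀ δ : ℝ, (∀ l, ‖(x.ρ (A (x.t l))).val‖ ≤ δ) →
        ‖ev (fun l => (x.ρ (A (x.t l))).val) Φ‖ ≤ δ ^ D) :
    ∃ Ψ : MvPolynomial (Fin (n - h)) K, (∃ l, Ψ.coeff (Finsupp.single l 1) ≠ 0) ∧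
      ∀ e ∈ EEset x hψ, ∀ δ : ℝ, (∀ l, ‖(e l).val‖ ≤ δ) → ∃ B : ℝ, 0 ≤ B ∧
        ∃ s₀ : ℕ, ∀ s, s₀ ≤ s →
          ‖MvPolynomial.eval (fun l => (((e l).val : Ob K) : K) ^ (p ^ h) ^ s) Ψ‖
            ≤ B * (δ ^ D) ^ (p ^ h) ^ s := by
  obtain ⟨Ψ, ε, hΨ, hε, hest⟩ := CoApproxAux.exists_trunc hψ.1 hψ1 D Φ hΦ
  refine ⟨Ψ, hΨ, ?_⟩
  rintro e ⟨A, hA, he⟩ δ hδ
  set a := ‖PowerSeries.coeff 1 ψ‖ with ha
  have hapos : 0 < a := norm_pos_iff.2 hψ1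
  have hne : Nonempty (Fin (n - h)) := ⟨⟨0, by omega⟩⟩
  refine ⟨a⁻¹ ^ D, by positivity, ?_⟩
  have hlim : ∀ l, Filter.Tendsto (fun s : ℕ => ‖((p ^ s) • x.ρ (A (x.t l))).val‖)
      Filter.atTop (𝓝 0) := fun l =>
    squeeze_zero (fun _ => norm_nonneg _) (fun s => norm_pow_smul_le h1 hh x.P s _)
      (tendsto_pow_tower h1 (norm_nonneg _) (FPt.norm_lt _ _))
  have hev : ∀ᶠ s : ℕ in Filter.atTop, ∀ l, ‖((p ^ s) • x.ρ (A (x.t l))).val‖ < min ε a :=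
    Filter.eventually_all.2 fun l => (hlim l).eventually (gt_mem_nhds (lt_min hε hapos))
  obtain ⟨s₀, hs₀⟩ := Filter.eventually_atTop.1 hev
  refine ⟨s₀, fun s hs => ?_⟩
  have hs' := hs₀ s hs
  set η : Fin (n - h) → Ob K := fun l => ((p ^ s) • x.ρ (A (x.t l))).val with hη
  have hρA : ∀ l, x.ρ (((p ^ s) • A) (x.t l)) = (p ^ s) • x.ρ (A (x.t l)) := by
    intro l
    rw [AddMonoidHom.nsmul_apply, map_nsmul]
  have hψη : ∀ l, ev₁ (η l) ψ = (e l).val ^ (p ^ h) ^ s := by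
    intro l
    have h2 : FPt.hom hψ ((p ^ s) • x.ρ (A (x.t l))) = (p ^ s) • e l := by
      rw [map_nsmul, he]
    have h3 := congrArg FPt.val h2
    rw [FPt.hom_val, HO_pow_smul h1 hh.le, nfr_val, fz_natCast, pow_mul] at h3
    exact h3
  have hη1 : ∀ l, ‖η l‖ < 1 := fun l => FPt.norm_lt _ _
  set r : ℝ := ⨆ l, ‖η l‖ with hr
  have hηr : ∀ l, ‖η l‖ ≤ r := fun l =>
    le_ciSup (f := fun l => ‖η l‖) (Set.finite_range _).bddAbove l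
  have hr1 : r < 1 := by
    obtain ⟨l, hl⟩ := exists_eq_ciSup_of_finite (f := fun l => ‖η l‖)
    rw [hr, ← hl]
    exact hη1 l
  have hr0 : 0 ≤ r := (norm_nonneg _).trans (hηr hne.some)
  have hrδ : r ≤ a⁻¹ * δ ^ (p ^ h) ^ s := by
    refine ciSup_le fun l => ?_
    rw [le_inv_mul_iff₀ hapos, mul_comm]
    have h2 := CoApproxAux.le_norm_ev₁ (ψ := ψ) hψ.1 ((hs' l).trans_le (min_le_right _ _))
    refine h2.trans ?_
    change ‖ev₁ (η l) ψ‖ ≤ _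
    rw [hψη, CoApproxAux.Ob_norm_pow]
    exact pow_le_pow_left₀ (norm_nonneg _) (hδ l) _
  have h2 : ‖ev η Φ‖ ≤ r ^ D := by
    have h3 := hb ((p ^ s) • A) (CoApproxAux.isAct_nsmul hA _) r (fun l => by rw [hρA]; exact hηr l)
    simp only [hρA] at h3
    exact h3
  have h3 := hest η r hr1 (fun l => (hs' l).trans_le (min_le_left _ _)) hηr h2
  have h4 : (fun l => ((ev₁ (η l) ψ : Ob K) : K)) =
      fun l => (((e l).val : Ob K) : K) ^ (p ^ h) ^ s := by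
    funext l
    rw [hψη, Subring.coe_pow]
  rw [h4] at h3
  refine h3.trans ?_
  calc r ^ D ≤ (a⁻¹ * δ ^ (p ^ h) ^ s) ^ D := pow_le_pow_left₀ hr0 hrδ _
    _ = a⁻¹ ^ D * (δ ^ D) ^ (p ^ h) ^ s := by rw [mul_pow, pow_right_comm]

theorem approxPoly (hn : 1 ≤ n) (hU : IsUniversalDeformation p n (Fn p n) (H1 p n))
    (h1 : 1 ≤ h) (hh : h < n) (hM : 1 ≤ M) (x : Mk p n h K ι) {ψ : PowerSeries (Ob K)}
    (hψ : IsFGHom x.P.F (HO p n h (Ob K)) ψ) (hψ1 : PowerSeries.coeff 1 ψ ≠ 0)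
    (f : LTRing p n) (hf : f ∉ II p n h)
    (hkill : ∀ φ, IsStab p n M φ → x.P.X (φ f) = 0) :
    ApproxPoly p h (EEset x hψ) := by
  intro N
  obtain ⟨i, hi1, hiM, hiN⟩ : ∃ i : ℕ, 1 ≤ i ∧ M ≤ p ^ (n * i) ∧ N ≤ p ^ (h * i) := by
    have hp : 1 < p := (Fact.out : p.Prime).one_lt
    refine ⟨max 1 (max M N), le_max_left _ _, ?_, ?_⟩
    · calc M ≤ max 1 (max M N) := le_max_of_le_right (le_max_left _ _)
        _ ≤ n * max 1 (max M N) := Nat.le_mul_of_pos_left _ hn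
        _ ≤ p ^ (n * max 1 (max M N)) := (Nat.lt_pow_self hp).le
    · calc N ≤ max 1 (max M N) := le_max_of_le_right (le_max_right _ _)
        _ ≤ h * max 1 (max M N) := Nat.le_mul_of_pos_left _ h1
        _ ≤ p ^ (h * max 1 (max M N)) := (Nat.lt_pow_self hp).le
  obtain ⟨y, hxy, Φ, hΦ, hb⟩ := exists_phi hn hU h1 hh hM x i hi1 hiM f hf hkill
  obtain ⟨ψ', hψ', hψ'1, hEE⟩ := EEset_orb hxy hψ hψ1
  refine ⟨p ^ (h * i), hiN, ?_⟩
  rw [← hEE]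
  exact approx_of_phi h1 hh y hψ' hψ'1 _ Φ hΦ hb

end Crest.Agent.R227
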