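import Crest.Agent.R227.CoDefs

/-! # R227 / CoBase : basic estimates at a point (task COBASE) -/

set_option autoImplicit false
set_option linter.unusedSectionVars false

noncomputable section

namespace Crest.Agent.R227

open Crest.LubinTate MvPowerSeries Topology

variable {p : ℕ} [Fact p.Prime] {n h : ℕ}
variable {K : Type} [NontriviallyNormedField K] [IsUltrametricDist K] [CompleteSpace K]
  [IsAlgClosed K] [CharP K p]

namespace CoBase

/-- congruent points give congruent laws -/
theorem coeff_hz_sub_mem {R : Type*} [CommRing R] (x y : ℕ → R) (I : Ideal R)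
    (hxy : ∀ i, x i - y i ∈ I) (d : Fin 2 →₀ ℕ) :
    coeff d (hz p n x).toPowerSeries - coeff d (hz p n y).toPowerSeries ∈ I := by
  rw [← Ideal.Quotient.mk_eq_mk_iff_sub_mem]
  have h1 : (hz p n x).map (Ideal.Quotient.mk I) = (hz p n y).map (Ideal.Quotient.mk I) := by
    rw [hz_map, hz_map]
    congr 1
    funext i
    exact Ideal.Quotient.mk_eq_mk_iff_sub_mem _ _ |>.2 (hxy i)
  have h2 := congrArg (fun H : FormalGroup (R ⧸ I) => coeff d H.toPowerSeries) h1
  simpa only [FormalGroup.map_toPowerSeries, coeff_map] using h2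

theorem upt_of_lt {i : ℕ} (h1 : 1 ≤ i) (h2 : i < n) :
    upt p n i = MvPowerSeries.X ⟨i - 1, by omega⟩ := by
  unfold upt
  rw [dif_pos ⟨h1, h2⟩]

theorem upt_self : upt p n n = 1 := by
  unfold upt
  rw [dif_neg (by omega), if_pos rfl]

theorem upt_of_not {i : ℕ} (h1 : ¬ (1 ≤ i ∧ i < n)) (h2 : i ≠ n) : upt p n i = 0 := by
  unfold upt
  rw [dif_neg h1, if_neg h2]

theorem residue_upt {i : ℕ} (h1 : 1 ≤ i) (h2 : i < n) : LTRing.residue p n (upt p n i) = 0 := by
  rw [upt_of_lt h1 h2]
  simp [LTRing.residue]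

theorem uu_eq_upt {i : ℕ} (h1 : 1 ≤ i) : uu p n i = upt p n i := by
  unfold uu
  rw [if_neg (by omega)]

end CoBase

open CoBase

theorem CoBase.norm_sub_le_max' (a b : Ob K) : ‖a - b‖ ≤ max ‖a‖ ‖b‖ := by
  rw [sub_eq_add_neg]
  refine (IsUltrametricDist.norm_add_le_max _ _).trans ?_
  rw [norm_neg]

/-- The induced embedding of the residue field (`P.X p = 0`, `constantCoeff : W(k) → k` is
surjective with kernel `(p)`). -/
theorem exists_iota (P : HPoint p n h K) : ∃ ι : GaloisField p n →+* Ob K, IsIota P ι := by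
  have hs : Function.Surjective
      (WittVector.constantCoeff : WittVector p (GaloisField p n) →+* GaloisField p n) := by
    intro a
    refine ⟨WittVector.teichmuller p a, ?_⟩
    exact WittVector.teichmuller_coeff_zero p a
  let g : WittVector p (GaloisField p n) →+* Ob K :=
    P.X.comp (MvPowerSeries.C : WittVector p (GaloisField p n) →+* LTRing p n)
  have hker : RingHom.ker
      (WittVector.constantCoeff : WittVector p (GaloisField p n) →+* GaloisField p n) ≤
      RingHom.ker g := by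
    intro w hw
    have h1 : w ∈ Ideal.span {(p : WittVector p (GaloisField p n))} := by
      rw [WittVector.mem_span_p_iff_coeff_zero_eq_zero]
      exact hw
    obtain ⟨v, rfl⟩ := Ideal.mem_span_singleton.1 h1
    rw [RingHom.mem_ker, map_mul, map_natCast, CharP.cast_eq_zero, zero_mul]
  refine ⟨RingHom.liftOfSurjective _ hs ⟨g, hker⟩, fun w => ?_⟩
  exact (RingHom.liftOfRightInverse_comp_apply _ _ (Function.rightInverse_surjInv hs)
    ⟨g, hker⟩ w).symm

/-- Frobenius inverse on the finite field commutes with `ι` -/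
theorem ι_root (hn : 1 ≤ n) (ι : GaloisField p n →+* Ob K) (k : ℕ) (a : GaloisField p n) :
    ∃ b, b ^ p ^ k = a ∧ ι b = fz p (-(k : ℤ)) (ι a) := by
  obtain ⟨b, hb⟩ : ∃ b : GaloisField p n, b ^ p ^ k = a := by
    have h1 := (iterateFrobeniusEquiv (GaloisField p n) p k).surjective a
    obtain ⟨b, hb⟩ := h1
    exact ⟨b, hb⟩
  refine ⟨b, hb, ?_⟩
  rw [← hb, map_pow, ← fz_natCast, ← fz_add, neg_add_cancel, fz_zero]
  rfl

namespace CoBase

theorem pow_card_of_nat {k : Type*} [Field k] [Finite k] {q : ℕ} (hq : Nat.card k = q) (a : k) :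
    a ^ q = a := by
  have : Fintype k := Fintype.ofFinite k
  rw [← hq, Nat.card_eq_fintype_card]
  exact FiniteField.pow_card a

theorem mem_range_of_pow {k D : Type*} [Field k] [Finite k] [CommRing D] [IsDomain D] {q : ℕ}
    (hq : Nat.card k = q) (hq1 : 1 < q) (f : k →+* D) (b : D) (hb : b ^ q = b) :
    ∃ a, f a = b := by
  classical
  have : Fintype k := Fintype.ofFinite k
  by_contra hne
  push Not at hne
  let S : Finset D := Finset.univ.image f
  have hS : S.card = q := by
    rw [Finset.card_image_of_injective _ f.injective, Finset.card_univ, ← Nat.card_eq_fintype_card,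
      hq]
  have hbS : b ∉ S := by
    intro h
    obtain ⟨a, _, ha⟩ := Finset.mem_image.1 h
    exact hne a ha
  have hX : (Polynomial.X ^ q - Polynomial.X : Polynomial D).natDegree = q := by
    rw [Polynomial.natDegree_sub_eq_left_of_natDegree_lt]
    · exact Polynomial.natDegree_X_pow q
    · rw [Polynomial.natDegree_X_pow, Polynomial.natDegree_X]
      exact hq1
  have hX0 : (Polynomial.X ^ q - Polynomial.X : Polynomial D) ≠ 0 := by
    intro h0
    rw [h0, Polynomial.natDegree_zero] at hX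
    omega
  have hsub : insert b S ⊆ (Polynomial.X ^ q - Polynomial.X : Polynomial D).roots.toFinset := by
    intro x hx
    rw [Multiset.mem_toFinset, Polynomial.mem_roots hX0, Polynomial.IsRoot.def]
    simp only [Polynomial.eval_sub, Polynomial.eval_pow, Polynomial.eval_X]
    rw [sub_eq_zero]
    rcases Finset.mem_insert.1 hx with rfl | hx
    · exact hb
    · obtain ⟨a, _, rfl⟩ := Finset.mem_image.1 hx
      rw [← map_pow, pow_card_of_nat hq a]
  have h1 := Finset.card_le_card hsub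
  rw [Finset.card_insert_of_notMem hbS, hS] at h1
  have h2 := (Multiset.toFinset_card_le
    (Polynomial.X ^ q - Polynomial.X : Polynomial D).roots).trans
    (Polynomial.card_roots' _)
  rw [hX] at h2
  omega

end CoBase

theorem ι_pow (hn : 1 ≤ n) (ι : GaloisField p n →+* Ob K) (a : GaloisField p n) :
    ι a ^ p ^ n = ι a := by
  have h1 : a ^ p ^ n = a := pow_card_of_nat (GaloisField.card p n (by omega)) a
  rw [← map_pow, h1]

/-- every solution of `b^{p^n} = b` is in the image of `ι` -/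
theorem mem_range_ι (hn : 1 ≤ n) (ι : GaloisField p n →+* Ob K) (b : Ob K) (hb : b ^ p ^ n = b) :
    ∃ a, ι a = b :=
  mem_range_of_pow (GaloisField.card p n (by omega))
    (Nat.one_lt_pow (by omega) (Fact.out : p.Prime).one_lt) ι b hb

namespace HPoint

variable (P P' : HPoint p n h K)

theorem c_nonneg : 0 ≤ P.c := by
  unfold c
  refine Real.iSup_nonneg fun j => ?_
  split_ifs
  · exact norm_nonneg _
  · exact le_rfl

theorem norm_upt_lt_one (i : ℕ) (h1 : 1 ≤ i) (h2 : i < n) : ‖P.X (upt p n i)‖ < 1 :=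
  P.small _ (residue_upt h1 h2)

theorem c_lt_one : P.c < 1 := by
  unfold c
  obtain ⟨j, hj⟩ := exists_eq_ciSup_of_finite (f := fun j : Fin (n + 1) =>
    if (1 ≤ (j : ℕ) ∧ (j : ℕ) < n) then ‖P.X (upt p n j)‖ else (0 : ℝ))
  rw [← hj]
  split_ifs with h1
  · exact P.norm_upt_lt_one _ h1.1 h1.2
  · exact one_pos

theorem norm_upt_le (i : ℕ) (h1 : 1 ≤ i) (h2 : i < n) : ‖P.X (upt p n i)‖ ≤ P.c := by
  unfold c
  have h3 := le_ciSup (f := fun j : Fin (n + 1) =>
    if (1 ≤ (j : ℕ) ∧ (j : ℕ) < n) then ‖P.X (upt p n j)‖ else (0 : ℝ))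
    (Set.finite_range _).bddAbove ⟨i, by omega⟩
  simpa only [h1, h2, and_self, if_true] using h3

theorem c_pos (h1 : 1 ≤ h) (hh : h < n) : 0 < P.c := by
  have h2 : 0 < ‖P.X (upt p n h)‖ := by
    have h3 := P.ne
    rw [uu_eq_upt h1] at h3
    exact norm_pos_iff.2 h3
  exact h2.trans_le (P.norm_upt_le h h1 hh)

theorem norm_uu_le (i : ℕ) (h2 : i < n) : ‖P.X (uu p n i)‖ ≤ P.c := by
  rcases Nat.eq_zero_or_pos i with rfl | h1
  · have h3 : uu p n 0 = (p : LTRing p n) := by simp [uu]
    rw [h3, map_natCast, CharP.cast_eq_zero, norm_zero]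
    exact P.c_nonneg
  · rw [uu_eq_upt h1]
    exact P.norm_upt_le i h1 h2

/-- the maximal ideal is generated by `p, u_1, …, u_{n-1}` -/
theorem norm_X_le_c (hn : 1 ≤ n) (a : LTRing p n) (ha : LTRing.residue p n a = 0) :
    ‖P.X a‖ ≤ P.c := by
  have h1 : a ∈ II p n n := (mem_II_n p n hn a).2 ha
  have h2 : II p n n ≤ (normIdeal K P.c P.c_nonneg).comap P.X := by
    rw [II, Ideal.span_le]
    rintro _ ⟨i, hi, rfl⟩
    exact P.norm_uu_le i hi
  exact h2 h1

/-- the coordinates of the point -/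
def z (i : Fin (n - h)) : Ob K := P.X (upt p n (h + i))

theorem norm_z_le (h1 : 1 ≤ h) (i : Fin (n - h)) : ‖P.z i‖ ≤ P.c :=
  P.norm_upt_le _ (by omega) (by omega)

theorem z_zero_ne (h1 : 1 ≤ h) (hh : h < n) : P.z ⟨0, by omega⟩ ≠ 0 := by
  have h3 := P.ne
  rw [uu_eq_upt h1] at h3
  exact h3

theorem X_upt_of_lt {i : ℕ} (h1 : 1 ≤ i) (h2 : i < h) : P.X (upt p n i) = 0 := by
  rw [← uu_eq_upt h1]
  exact P.kill _ (Ideal.subset_span ⟨i, h2, rfl⟩)

theorem F_eq_Hx (h1 : 1 ≤ h) (hh : h < n) : P.F = Hx p n h P.z := by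
  rw [F_eq]
  refine hz_congr p n _ _ fun i hi1 hi2 => ?_
  unfold pt
  split_ifs with h2 h3
  · change _ = P.X (upt p n (h + (i - h)))
    rw [Nat.add_sub_cancel' h2.1]
  · rw [h3, upt_self, map_one]
  · exact P.X_upt_of_lt hi1 (by omega)

/-- `P.F` is close to the Honda law of height `n`. -/
theorem coeff_F_sub (d : Fin 2 →₀ ℕ) :
    ‖coeff d P.F.toPowerSeries - coeff d (HO p n n (Ob K)).toPowerSeries‖ ≤ P.c := by
  rw [← mem_normIdeal P.c P.c_nonneg, F_eq]
  refine coeff_hz_sub_mem _ _ _ (fun i => ?_) d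
  rw [mem_normIdeal]
  by_cases h1 : 1 ≤ i ∧ i < n
  · rw [sp, if_neg (by omega), sub_zero]
    exact P.norm_upt_le i h1.1 h1.2
  · by_cases h2 : i = n
    · rw [h2, upt_self, sp, if_pos rfl, map_one, sub_self, norm_zero]
      exact P.c_nonneg
    · rw [upt_of_not h1 h2, sp, if_neg h2, map_zero, sub_self, norm_zero]
      exact P.c_nonneg

/-- distance of two points -/
def pdist : ℝ := ⨆ i : Fin (n + 1), ‖P.X (upt p n i) - P'.X (upt p n i)‖

theorem pdist_nonneg : 0 ≤ pdist P P' := Real.iSup_nonneg fun _ => norm_nonneg _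

theorem X_upt_sub_of_not {i : ℕ} (h1 : ¬ (1 ≤ i ∧ i < n)) :
    P.X (upt p n i) - P'.X (upt p n i) = 0 := by
  by_cases h2 : i = n
  · rw [h2, upt_self, map_one, map_one, sub_self]
  · rw [upt_of_not h1 h2, map_zero, map_zero, sub_self]

theorem le_pdist (i : ℕ) : ‖P.X (upt p n i) - P'.X (upt p n i)‖ ≤ pdist P P' := by
  by_cases h1 : 1 ≤ i ∧ i < n
  · exact le_ciSup (f := fun i : Fin (n + 1) => ‖P.X (upt p n i) - P'.X (upt p n i)‖)
      (Set.finite_range _).bddAbove ⟨i, by omega⟩
  · rw [X_upt_sub_of_not P P' h1, norm_zero]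
    exact pdist_nonneg P P'

theorem pdist_le (r : ℝ) (hr : 0 ≤ r)
    (hi : ∀ i, h ≤ i → i < n → ‖P.X (upt p n i) - P'.X (upt p n i)‖ ≤ r) : pdist P P' ≤ r := by
  unfold pdist
  refine ciSup_le fun i => ?_
  by_cases h1 : 1 ≤ (i : ℕ) ∧ (i : ℕ) < n
  · rcases lt_or_ge (i : ℕ) h with h2 | h2
    · rw [P.X_upt_of_lt h1.1 h2, P'.X_upt_of_lt h1.1 h2, sub_self, norm_zero]
      exact hr
    · exact hi _ h2 h1.2
  · rw [X_upt_sub_of_not P P' h1, norm_zero]
    exact hr

theorem pdist_lt_one : pdist P P' < 1 := by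
  unfold pdist
  obtain ⟨j, hj⟩ := exists_eq_ciSup_of_finite (f := fun i : Fin (n + 1) =>
    ‖P.X (upt p n i) - P'.X (upt p n i)‖)
  rw [← hj]
  by_cases h1 : 1 ≤ (j : ℕ) ∧ (j : ℕ) < n
  · have h2 : ‖P.X (upt p n j) - P'.X (upt p n j)‖ ≤
        max ‖P.X (upt p n j)‖ ‖P'.X (upt p n j)‖ := norm_sub_le_max' _ _
    exact h2.trans_lt (max_lt (P.norm_upt_lt_one _ h1.1 h1.2) (P'.norm_upt_lt_one _ h1.1 h1.2))
  · rw [X_upt_sub_of_not P P' h1, norm_zero]
    exact one_pos

theorem pdist_comm : pdist P P' = pdist P' P := by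
  unfold pdist
  simp only [norm_sub_rev]

theorem coeff_F_sub_F (d : Fin 2 →₀ ℕ) :
    ‖coeff d P.F.toPowerSeries - coeff d P'.F.toPowerSeries‖ ≤ pdist P P' := by
  rw [← mem_normIdeal _ (pdist_nonneg P P'), F_eq, F_eq]
  exact coeff_hz_sub_mem _ _ _ (fun i => le_pdist P P' i) d

/-- the ideal `(u_1,…,u_{n-1})^N` is sent to `‖·‖ ≤ c^N` -/
theorem norm_X_le_pow (N : ℕ) (a : LTRing p n)
    (ha : a ∈ idX (Fin (n - 1)) (WittVector p (GaloisField p n)) ^ N) : ‖P.X a‖ ≤ P.c ^ N := by
  have h1 : idX (Fin (n - 1)) (WittVector p (GaloisField p n)) ≤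
      (normIdeal K P.c P.c_nonneg).comap P.X := by
    rw [Ideal.span_le]
    rintro _ ⟨i, rfl⟩
    have h2 : (MvPowerSeries.X i : LTRing p n) = upt p n (i + 1) := by
      rw [upt_of_lt (by omega) (by omega)]
      rfl
    change ‖P.X (MvPowerSeries.X i)‖ ≤ P.c
    rw [h2]
    exact P.norm_upt_le _ (by omega) (by omega)
  have h3 : ∀ N, normIdeal K P.c P.c_nonneg ^ N ≤
      normIdeal K (P.c ^ N) (pow_nonneg P.c_nonneg N) := by
    intro N
    induction N with
    | zero =>
      intro x _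
      rw [mem_normIdeal, pow_zero]
      exact Ob_norm_le_one x
    | succ N ih =>
      rw [pow_succ, Ideal.mul_le]
      intro x hx y hy
      have hx' : ‖(x : K)‖ ≤ P.c ^ N := ih hx
      have hy' : ‖(y : K)‖ ≤ P.c := hy
      change ‖((x * y : Ob K) : K)‖ ≤ P.c ^ (N + 1)
      rw [Subring.coe_mul, norm_mul, pow_succ]
      exact mul_le_mul hx' hy' (norm_nonneg _) (pow_nonneg P.c_nonneg N)
  have h4 : a ∈ ((normIdeal K P.c P.c_nonneg) ^ N).comap P.X :=
    Ideal.le_comap_pow P.X N (Ideal.pow_right_mono h1 N ha)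
  exact h3 N h4

/-- all values of the points are close. (`P.X` is continuous: it sends the `N`-th power of the
maximal ideal to `‖·‖ ≤ c^N`.) -/
theorem norm_X_sub_le (hn : 1 ≤ n) {ι : GaloisField p n →+* Ob K} (hι : IsIota P ι)
    (hι' : IsIota P' ι) (a : LTRing p n) : ‖P.X a - P'.X a‖ ≤ pdist P P' := by
  classical
  set r := pdist P P' with hr
  have hr0 : 0 ≤ r := pdist_nonneg P P'
  -- monomials
  have hmon : ∀ (t : Fin (n - 1) →₀ ℕ) (w : WittVector p (GaloisField p n)),
      P.X (monomial t w) - P'.X (monomial t w) ∈ normIdeal K r hr0 := by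
    intro t w
    rw [← Ideal.Quotient.mk_eq_mk_iff_sub_mem]
    have h1 : (monomial t w : LTRing p n) =
        C w * t.prod fun i e => (MvPowerSeries.X i : LTRing p n) ^ e := by
      rw [← monomial_zero_eq_C_apply]
      have h2 : (t.prod fun i e => (MvPowerSeries.X i : LTRing p n) ^ e) = monomial t 1 := by
        rw [monomial_one_eq]
      rw [h2, monomial_mul_monomial, zero_add, mul_one]
    rw [h1, map_mul, map_mul, map_mul, map_mul, hι, hι']
    congr 1
    rw [Finsupp.prod, map_prod, map_prod, map_prod, map_prod]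
    refine Finset.prod_congr rfl fun i _ => ?_
    rw [map_pow, map_pow, map_pow, map_pow]
    congr 1
    rw [Ideal.Quotient.mk_eq_mk_iff_sub_mem, mem_normIdeal]
    have h2 : (MvPowerSeries.X i : LTRing p n) = upt p n (i + 1) := by
      rw [upt_of_lt (by omega) (by omega)]
      rfl
    rw [h2]
    exact le_pdist P P' _
  -- approximation
  have hN : ∀ N : ℕ, ‖P.X a - P'.X a‖ ≤ max r (max (P.c ^ N) (P'.c ^ N)) := by
    intro N
    let S : Finset (Fin (n - 1) →₀ ℕ) := (Finsupp.finite_of_degree_lt (σ := Fin (n - 1)) N).toFinset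
    have hS : ∀ t : Fin (n - 1) →₀ ℕ, t ∈ S ↔ t.degree < N := by
      intro t; simp [S]
    set b : LTRing p n := ∑ t ∈ S, monomial t (coeff t a) with hb
    have hab : a - b ∈ idX (Fin (n - 1)) (WittVector p (GaloisField p n)) ^ N := by
      apply mem_powX_of_coeff
      intro e he
      rw [hb, map_sub, map_sum, Finset.sum_eq_single e]
      · rw [coeff_monomial_same, sub_self]
      · intro t _ hte
        rw [coeff_monomial_ne (Ne.symm hte)]
      · intro hne
        exact absurd ((hS e).2 he) hne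
    have h1 : P.X b - P'.X b ∈ normIdeal K r hr0 := by
      rw [hb, map_sum, map_sum, ← Finset.sum_sub_distrib]
      exact Ideal.sum_mem _ fun t _ => hmon t _
    have h2 := P.norm_X_le_pow N _ hab
    have h3 := P'.norm_X_le_pow N _ hab
    have h4 : P.X a - P'.X a = (P.X b - P'.X b) + (P.X (a - b) - P'.X (a - b)) := by
      rw [map_sub, map_sub]; ring
    rw [h4]
    refine (IsUltrametricDist.norm_add_le_max _ _).trans (max_le_max h1 ?_)
    exact (norm_sub_le_max' _ _).trans (max_le_max h2 h3)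
  have hlim : Filter.Tendsto (fun N : ℕ => max r (max (P.c ^ N) (P'.c ^ N))) Filter.atTop
      (𝓝 (max r (max 0 0))) :=
    tendsto_const_nhds.max
      ((tendsto_pow_atTop_nhds_zero_of_lt_one P.c_nonneg P.c_lt_one).max
        (tendsto_pow_atTop_nhds_zero_of_lt_one P'.c_nonneg P'.c_lt_one))
  have := ge_of_tendsto' hlim hN
  rwa [max_self, max_eq_left hr0] at this

end HPoint

end Crest.Agent.R227
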