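import Crest.Agent.R227.EasyAux3

/-!
# R227 / Easy (task EASY)
-/

set_option autoImplicit false

noncomputable section

namespace Crest.Agent.R227

open Crest.LubinTate MvPowerSeries Topology

variable (p : ℕ) [Fact p.Prime] (n : ℕ)

/-! ### Task EASY -/

/-- The height ideals of `H1`. -/
theorem heightIdeal_H1 (hn : 1 ≤ n) (h : ℕ) (hh : h ≤ n) :
    heightIdeal p n (H1 p n) h = II p n h :=
  heightIdeal_H1' p n hn h hh

theorem II_isPrime (hn : 1 ≤ n) (h : ℕ) (hh : h ≤ n) : (II p n h).IsPrime :=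
  II_isPrime' p n hn h hh

/-- `II n` is the kernel of the residue map. -/
theorem mem_II_n (hn : 1 ≤ n) (a : LTRing p n) : a ∈ II p n n ↔ LTRing.residue p n a = 0 :=
  mem_II_n' p n hn a

theorem II_stable (hn : 1 ≤ n) (h : ℕ) (hh : h ≤ n) (M : ℕ) (hM : 1 ≤ M) :
    IsStableIdeal p n (Fn p n) (H1 p n) M (II p n h) :=
  II_stable' p n hn h hh M hM

end Crest.Agent.R227
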