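import Crest.Agent.R227.Defs

/-!
# R227 / FG1 : formal groups, power-series level: addition, inverse, homomorphisms (task FG1)
-/

set_option autoImplicit false

noncomputable section

namespace Crest.Agent.R227

open Crest.LubinTate MvPowerSeries Topology

/-! ## Formal (power series) level -/

section formal

variable {R : Type*} [CommRing R] {τ : Type*}

theorem hasSubst_pair {υ : Type*} {a b : MvPowerSeries υ R}
    (ha : constantCoeff a = 0) (hb : constantCoeff b = 0) : HasSubst ![a, b] :=
  hasSubst_of_constantCoeff_zero (by intro s; fin_cases s <;> simp [ha, hb])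

theorem hasSubst_triple {υ : Type*} {a b c : MvPowerSeries υ R}
    (ha : constantCoeff a = 0) (hb : constantCoeff b = 0) (hc : constantCoeff c = 0) :
    HasSubst ![a, b, c] :=
  hasSubst_of_constantCoeff_zero (by intro s; fin_cases s <;> simp [ha, hb, hc])

theorem fadd_zero (F : FormalGroup R) (a : MvPowerSeries τ R) (ha : constantCoeff a = 0) :
    fadd F a 0 = a :=
  FormalGroup.add_zero F (PowerSeries.HasSubst.of_constantCoeff_zero ha)

theorem zero_fadd (F : FormalGroup R) (a : MvPowerSeries τ R) (ha : constantCoeff a = 0) :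
    fadd F 0 a = a :=
  FormalGroup.zero_add F (PowerSeries.HasSubst.of_constantCoeff_zero ha)

theorem constantCoeff_fadd (F : FormalGroup R) (a b : MvPowerSeries τ R)
    (ha : constantCoeff a = 0) (hb : constantCoeff b = 0) : constantCoeff (fadd F a b) = 0 :=
  constantCoeff_subst_eq_zero (hasSubst_pair ha hb)
    (by intro s; fin_cases s <;> simp [ha, hb]) F.zero_constantCoeff

theorem fadd_assoc (F : FormalGroup R) (a b c : MvPowerSeries τ R)
    (ha : constantCoeff a = 0) (hb : constantCoeff b = 0) (hc : constantCoeff c = 0) :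
    fadd F (fadd F a b) c = fadd F a (fadd F b c) :=
  F.assoc' (PowerSeries.HasSubst.of_constantCoeff_zero ha)
    (PowerSeries.HasSubst.of_constantCoeff_zero hb) (PowerSeries.HasSubst.of_constantCoeff_zero hc)

theorem fadd_comm (F : FormalGroup R) [F.IsComm] (a b : MvPowerSeries τ R)
    (ha : constantCoeff a = 0) (hb : constantCoeff b = 0) : fadd F a b = fadd F b a :=
  F.comm' (PowerSeries.HasSubst.of_constantCoeff_zero ha)
    (PowerSeries.HasSubst.of_constantCoeff_zero hb)

theorem map_fadd {S : Type*} [CommRing S] (f : R →+* S) (F : FormalGroup R)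
    (a b : MvPowerSeries τ R) (ha : constantCoeff a = 0) (hb : constantCoeff b = 0) :
    (fadd F a b).map f = fadd (F.map f) (a.map f) (b.map f) := by
  unfold fadd
  rw [map_subst (hasSubst_pair ha hb)]
  congr 1
  ext i : 1
  fin_cases i <;> simp

/-- substitution in a formal sum (general version) -/
theorem subst_fadd' {υ : Type*} (F : FormalGroup R) (a b : MvPowerSeries τ R)
    (ha : constantCoeff a = 0) (hb : constantCoeff b = 0) (g : τ → MvPowerSeries υ R)
    (hg : HasSubst g) :
    MvPowerSeries.subst g (fadd F a b) =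
      fadd F (MvPowerSeries.subst g a) (MvPowerSeries.subst g b) := by
  unfold fadd
  rw [subst_comp_subst_apply (hasSubst_pair ha hb) hg]
  congr 1
  ext i : 1
  fin_cases i <;> simp

/-- substitution in a formal sum -/
theorem subst_fadd {υ : Type*} [Finite τ] (F : FormalGroup R) (a b : MvPowerSeries τ R)
    (ha : constantCoeff a = 0) (hb : constantCoeff b = 0) (g : τ → MvPowerSeries υ R)
    (hg : ∀ i, constantCoeff (g i) = 0) :
    MvPowerSeries.subst g (fadd F a b) =
      fadd F (MvPowerSeries.subst g a) (MvPowerSeries.subst g b) :=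
  subst_fadd' F a b ha hb g (hasSubst_of_constantCoeff_zero hg)

/-- The difference quotient of a two-variable power series in its second variable. -/
def dquot (f : MvPowerSeries (Fin 2) R) : MvPowerSeries (Fin 3) R :=
  fun d => coeff (Finsupp.single 0 (d 0) + Finsupp.single 1 (d 1 + d 2 + 1)) f

theorem coeff_dquot (f : MvPowerSeries (Fin 2) R) (d : Fin 3 →₀ ℕ) :
    coeff d (dquot f) = coeff (Finsupp.single 0 (d 0) + Finsupp.single 1 (d 1 + d 2 + 1)) f := rfl

theorem constantCoeff_dquot (f : MvPowerSeries (Fin 2) R) :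
    constantCoeff (dquot f) = coeff (Finsupp.single 1 1) f := by
  rw [← coeff_zero_eq_constantCoeff_apply, coeff_dquot]
  simp

theorem coeff_subst_X_pair (f : MvPowerSeries (Fin 2) R) (j : Fin 3) (hj : j ≠ 0)
    (d : Fin 3 →₀ ℕ) :
    coeff d (f.subst ![(X 0 : MvPowerSeries (Fin 3) R), X j]) =
      if (∀ i, i ≠ 0 → i ≠ j → d i = 0) then
        coeff (Finsupp.single 0 (d 0) + Finsupp.single 1 (d j)) f else 0 := by
  classical
  rw [coeff_subst HasSubst.X_X]
  have key : ∀ e : Fin 2 →₀ ℕ, (e.prod fun s m => (![(X 0 : MvPowerSeries (Fin 3) R), X j] s) ^ m)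
      = monomial (Finsupp.single 0 (e 0) + Finsupp.single j (e 1)) (1 : R) := by
    intro e
    rw [Finsupp.prod_fintype _ _ (by simp), Fin.prod_univ_two]
    simp [X_pow_eq, monomial_mul_monomial]
  simp_rw [key]
  rw [finsum_eq_single _ (Finsupp.single 0 (d 0) + Finsupp.single 1 (d j))]
  · rw [coeff_monomial]
    simp only [Finsupp.coe_add, Pi.add_apply]
    by_cases h : ∀ i, i ≠ 0 → i ≠ j → d i = 0
    · rw [if_pos h]
      have h2 : d = Finsupp.single 0 (d 0) + Finsupp.single j (d j) := by
        ext i
        by_cases hi0 : i = 0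
        · subst hi0; simp [hj]
        · by_cases hij : i = j
          · subst hij; simp [Ne.symm hi0]
          · simp [Ne.symm hi0, Ne.symm hij, h i hi0 hij]
      simp [← h2]
    · rw [if_neg h]
      have h2 : d ≠ Finsupp.single 0 (d 0) + Finsupp.single j (d j) := by
        intro hd
        apply h
        intro i hi0 hij
        rw [hd]
        simp [Ne.symm hi0, Ne.symm hij]
      simp [h2]
  · intro e he
    rw [coeff_monomial, if_neg, smul_zero]
    intro hd
    apply he
    ext i
    fin_cases i
    · rw [hd]; simp [hj]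
    · rw [hd]; simp [Ne.symm hj]

theorem dquot_mul (f : MvPowerSeries (Fin 2) R) :
    f.subst ![(X 0 : MvPowerSeries (Fin 3) R), X 1] - f.subst ![(X 0 : MvPowerSeries (Fin 3) R), X 2]
      = (X 1 - X 2) * dquot f := by
  classical
  ext d
  rw [map_sub, coeff_subst_X_pair f 1 (by decide), coeff_subst_X_pair f 2 (by decide), sub_mul,
    map_sub, X_def, X_def, coeff_monomial_mul, coeff_monomial_mul]
  simp only [one_mul]
  have hle : ∀ j : Fin 3, (Finsupp.single j 1 ≤ d) ↔ 1 ≤ d j := by
    intro j
    simp [Finsupp.single_le_iff]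
  simp only [hle]
  have h1 : (∀ i : Fin 3, i ≠ 0 → i ≠ 1 → d i = 0) ↔ d 2 = 0 := by
    constructor
    · intro h; exact h 2 (by decide) (by decide)
    · intro h i h0 h1
      fin_cases i <;> simp_all
  have h2 : (∀ i : Fin 3, i ≠ 0 → i ≠ 2 → d i = 0) ↔ d 1 = 0 := by
    constructor
    · intro h; exact h 1 (by decide) (by decide)
    · intro h i h0 h1
      fin_cases i <;> simp_all
  simp only [h1, h2, coeff_dquot]
  have e1 : ∀ _ : 1 ≤ d 1, (d - Finsupp.single 1 1 : Fin 3 →₀ ℕ) 1 +
      (d - Finsupp.single 1 1 : Fin 3 →₀ ℕ) 2 + 1 = d 1 + d 2 := by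
    intro h; simp [Finsupp.single_apply]; omega
  have e2 : ∀ _ : 1 ≤ d 2, (d - Finsupp.single 2 1 : Fin 3 →₀ ℕ) 1 +
      (d - Finsupp.single 2 1 : Fin 3 →₀ ℕ) 2 + 1 = d 1 + d 2 := by
    intro h; simp [Finsupp.single_apply]; omega
  have e3 : (d - Finsupp.single 1 1 : Fin 3 →₀ ℕ) 0 = d 0 := by simp [Finsupp.single_apply]
  have e4 : (d - Finsupp.single 2 1 : Fin 3 →₀ ℕ) 0 = d 0 := by simp [Finsupp.single_apply]
  by_cases hd1 : 1 ≤ d 1 <;> by_cases hd2 : 1 ≤ d 2
  · rw [if_neg (by omega), if_neg (by omega), if_pos hd1, if_pos hd2, e1 hd1, e2 hd2, e3, e4]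
    simp
  · rw [if_pos (by omega), if_neg (by omega), if_pos hd1, if_neg hd2, e1 hd1, e3]
    simp [show d 2 = 0 by omega]
  · rw [if_neg (by omega), if_pos (by omega), if_neg hd1, if_pos hd2, e2 hd2, e4]
    simp [show d 1 = 0 by omega]
  · rw [if_pos (by omega), if_pos (by omega), if_neg hd1, if_neg hd2]
    simp [show d 1 = 0 by omega, show d 2 = 0 by omega]

/-- difference quotient formula after substitution -/
theorem subst_sub_subst (f : MvPowerSeries (Fin 2) R) (z a b : MvPowerSeries τ R)
    (hz : constantCoeff z = 0) (ha : constantCoeff a = 0) (hb : constantCoeff b = 0) :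
    f.subst ![z, a] - f.subst ![z, b] = (a - b) * (dquot f).subst ![z, a, b] := by
  have h3 := hasSubst_triple hz ha hb
  have := congrArg (MvPowerSeries.subst ![z, a, b]) (dquot_mul f)
  rw [subst_sub h3, subst_mul h3, subst_sub h3, subst_X h3, subst_X h3,
    subst_comp_subst_apply HasSubst.X_X h3, subst_comp_subst_apply HasSubst.X_X h3] at this
  have e1 : (fun s => MvPowerSeries.subst ![z, a, b] (![(X 0 : MvPowerSeries (Fin 3) R), X 1] s))
      = ![z, a] := by
    ext i : 1
    fin_cases i <;> simp [subst_X h3]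
  have e2 : (fun s => MvPowerSeries.subst ![z, a, b] (![(X 0 : MvPowerSeries (Fin 3) R), X 2] s))
      = ![z, b] := by
    ext i : 1
    fin_cases i <;> simp [subst_X h3]
  rw [e1, e2] at this
  simpa using this

theorem constantCoeff_subst_of_zero {σ : Type*} {a : σ → MvPowerSeries τ R} (ha : HasSubst a)
    (ha' : ∀ i, constantCoeff (a i) = 0) (f : MvPowerSeries σ R) :
    constantCoeff (f.subst a) = constantCoeff f := by
  have := constantCoeff_subst_eq_zero ha ha' (f := f - C (constantCoeff f)) (by simp)
  rw [subst_sub ha, subst_C, map_sub, constantCoeff_C, sub_eq_zero] at this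
  exact this

/-- `F(z,a) - F(z,b) = (a-b) * (1 + ...)`. -/
theorem fadd_sub_fadd (F : FormalGroup R) (z a b : MvPowerSeries τ R)
    (hz : constantCoeff z = 0) (ha : constantCoeff a = 0) (hb : constantCoeff b = 0) :
    ∃ w : MvPowerSeries τ R, constantCoeff w = 1 ∧ fadd F z a - fadd F z b = (a - b) * w := by
  refine ⟨(dquot F.toPowerSeries).subst ![z, a, b], ?_, subst_sub_subst _ z a b hz ha hb⟩
  rw [constantCoeff_subst_of_zero (hasSubst_triple hz ha hb)
    (by intro s; fin_cases s <;> simp [hz, ha, hb]), constantCoeff_dquot, F.lin_coeff_Y]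

/-- univariate substitution in a formal sum -/
theorem psubst_fadd (F : FormalGroup R) (b c : PowerSeries R)
    (hb : PowerSeries.constantCoeff b = 0) (hc : PowerSeries.constantCoeff c = 0)
    (a : MvPowerSeries τ R) (ha : constantCoeff a = 0) :
    PowerSeries.subst a (fadd F b c : PowerSeries R) =
      fadd F (PowerSeries.subst a b) (PowerSeries.subst a c) :=
  subst_fadd' F b c hb hc (fun _ => a) (PowerSeries.HasSubst.of_constantCoeff_zero ha).const

theorem left_inv_of_right_inv (F : FormalGroup R) (a b c : MvPowerSeries τ R)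
    (ha : constantCoeff a = 0) (hb : constantCoeff b = 0) (hc : constantCoeff c = 0)
    (hab : fadd F a b = 0) (hbc : fadd F b c = 0) : fadd F b a = 0 := by
  have : a = c := by
    rw [← fadd_zero F a ha, ← hbc, ← fadd_assoc F a b c ha hb hc, hab, zero_fadd F c hc]
  rw [this, hbc]

/-- approximations of the inverse series -/
def negApprox (F : FormalGroup R) : ℕ → PowerSeries R
  | 0 => 0
  | n + 1 => negApprox F n - fadd F (PowerSeries.X : PowerSeries R) (negApprox F n)

theorem mvConstantCoeff_X : MvPowerSeries.constantCoeff (PowerSeries.X : PowerSeries R) = 0 :=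
  PowerSeries.constantCoeff_X

theorem constantCoeff_negApprox (F : FormalGroup R) (n : ℕ) :
    MvPowerSeries.constantCoeff (negApprox F n : MvPowerSeries Unit R) = 0 := by
  induction n with
  | zero => simp [negApprox]
  | succ n ih =>
    rw [negApprox]
    rw [map_sub (MvPowerSeries.constantCoeff (σ := Unit) (R := R)), ih,
      constantCoeff_fadd F _ _ mvConstantCoeff_X ih, sub_zero]

theorem X_pow_dvd_negApprox (F : FormalGroup R) (n : ℕ) :
    (PowerSeries.X : PowerSeries R) ^ (n + 1) ∣
      (fadd F (PowerSeries.X : PowerSeries R) (negApprox F n) : PowerSeries R) := by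
  induction n with
  | zero =>
    rw [negApprox, fadd_zero F _ mvConstantCoeff_X, zero_add, pow_one]
  | succ n ih =>
    obtain ⟨w, hw, he⟩ := fadd_sub_fadd F (PowerSeries.X : PowerSeries R) (negApprox F (n + 1))
      (negApprox F n) mvConstantCoeff_X (constantCoeff_negApprox F _) (constantCoeff_negApprox F _)
    have h1 : (negApprox F (n + 1) - negApprox F n : PowerSeries R) =
        - fadd F (PowerSeries.X : PowerSeries R) (negApprox F n) := by
      rw [negApprox]; ring
    have h2 : (fadd F (PowerSeries.X : PowerSeries R) (negApprox F (n + 1)) : PowerSeries R) =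
        (fadd F (PowerSeries.X : PowerSeries R) (negApprox F n) : PowerSeries R) * (1 - w) := by
      have h3 : (fadd F (PowerSeries.X : PowerSeries R) (negApprox F (n + 1)) : PowerSeries R) =
        fadd F (PowerSeries.X : PowerSeries R) (negApprox F n) +
          (negApprox F (n + 1) - negApprox F n : PowerSeries R) * w := by
        rw [← sub_eq_iff_eq_add']; exact he
      rw [h3, h1]; ring
    rw [h2, pow_succ]
    refine mul_dvd_mul ih ?_
    rw [PowerSeries.X_dvd_iff, map_sub, map_one]
    rw [show PowerSeries.constantCoeff (R := R) w = 1 from hw, sub_self]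

theorem coeff_negApprox (F : FormalGroup R) (j m : ℕ) (h : j ≤ m) :
    PowerSeries.coeff j (negApprox F m) = PowerSeries.coeff j (negApprox F j) := by
  induction m, h using Nat.le_induction with
  | base => rfl
  | succ m hm ih =>
    rw [negApprox, map_sub, ih]
    have := X_pow_dvd_negApprox F m
    rw [PowerSeries.X_pow_dvd_iff] at this
    rw [this j (by omega), sub_zero]

/-- the inverse series -/
theorem exists_fneg (F : FormalGroup R) : ∃ i : PowerSeries R,
    PowerSeries.constantCoeff i = 0 ∧ fadd F PowerSeries.X i = 0 ∧ fadd F i PowerSeries.X = 0 := by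
  have hright : ∃ i : PowerSeries R,
      PowerSeries.constantCoeff i = 0 ∧ fadd F PowerSeries.X i = 0 := by
    refine ⟨PowerSeries.mk fun n => PowerSeries.coeff n (negApprox F n), ?_, ?_⟩
    · rw [← PowerSeries.coeff_zero_eq_constantCoeff_apply, PowerSeries.coeff_mk]
      simp [negApprox]
    · set a : PowerSeries R := PowerSeries.mk fun n => PowerSeries.coeff n (negApprox F n) with ha
      have ha0 : MvPowerSeries.constantCoeff (a : MvPowerSeries Unit R) = 0 := by
        change PowerSeries.constantCoeff a = 0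
        rw [← PowerSeries.coeff_zero_eq_constantCoeff_apply, ha, PowerSeries.coeff_mk]
        simp [negApprox]
      have hd : ∀ n : ℕ, (PowerSeries.X : PowerSeries R) ^ (n + 1) ∣
          (fadd F (PowerSeries.X : PowerSeries R) a : PowerSeries R) := by
        intro n
        obtain ⟨w, hw, he⟩ := fadd_sub_fadd F (PowerSeries.X : PowerSeries R) a
          (negApprox F n) mvConstantCoeff_X ha0 (constantCoeff_negApprox F _)
        have h3 : (fadd F (PowerSeries.X : PowerSeries R) a : PowerSeries R) =
          fadd F (PowerSeries.X : PowerSeries R) (negApprox F n) +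
            (a - negApprox F n : PowerSeries R) * w := by
          rw [← sub_eq_iff_eq_add']; exact he
        rw [h3]
        refine dvd_add (X_pow_dvd_negApprox F n) (Dvd.dvd.mul_right ?_ _)
        rw [PowerSeries.X_pow_dvd_iff]
        intro m hm
        rw [map_sub, ha, PowerSeries.coeff_mk, coeff_negApprox F m n (by omega), sub_self]
      change (fadd F (PowerSeries.X : PowerSeries R) a : PowerSeries R) = 0
      ext n
      have := hd n
      rw [PowerSeries.X_pow_dvd_iff] at this
      rw [this n (by omega), map_zero]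
  obtain ⟨i, hi, hi2⟩ := hright
  refine ⟨i, hi, hi2, ?_⟩
  have hi' : MvPowerSeries.constantCoeff (i : MvPowerSeries Unit R) = 0 := hi
  -- `i + i(i) = 0`
  set c : PowerSeries R := PowerSeries.subst i i with hc
  have hc0 : MvPowerSeries.constantCoeff (c : MvPowerSeries Unit R) = 0 :=
    PowerSeries.constantCoeff_subst_eq_zero hi' _ hi
  have h4 : fadd F i c = 0 := by
    have := congrArg (PowerSeries.subst i) hi2
    rw [psubst_fadd F _ _ PowerSeries.constantCoeff_X hi i hi',
      PowerSeries.subst_X (PowerSeries.HasSubst.of_constantCoeff_zero hi')] at this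
    rw [hc, this, ← PowerSeries.coe_substAlgHom (PowerSeries.HasSubst.of_constantCoeff_zero hi'),
      map_zero]
  exact left_inv_of_right_inv F _ i c mvConstantCoeff_X hi' hc0 hi2 h4

def fnegSeries (F : FormalGroup R) : PowerSeries R := (exists_fneg F).choose

theorem constantCoeff_fnegSeries (F : FormalGroup R) :
    PowerSeries.constantCoeff (fnegSeries F) = 0 := (exists_fneg F).choose_spec.1

def fneg (F : FormalGroup R) (a : MvPowerSeries τ R) : MvPowerSeries τ R :=
  PowerSeries.subst a (fnegSeries F)

theorem psubst_zero (a : MvPowerSeries τ R) (ha : constantCoeff a = 0) :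
    PowerSeries.subst a (0 : PowerSeries R) = 0 := by
  rw [← PowerSeries.coe_substAlgHom (PowerSeries.HasSubst.of_constantCoeff_zero ha), map_zero]

theorem fadd_fneg (F : FormalGroup R) (a : MvPowerSeries τ R) (ha : constantCoeff a = 0) :
    fadd F a (fneg F a) = 0 := by
  have := congrArg (PowerSeries.subst a) (exists_fneg F).choose_spec.2.1
  rw [psubst_zero a ha] at this
  erw [psubst_fadd F _ _ PowerSeries.constantCoeff_X (constantCoeff_fnegSeries F) a ha] at this
  rwa [PowerSeries.subst_X (PowerSeries.HasSubst.of_constantCoeff_zero ha)] at this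

theorem fneg_fadd (F : FormalGroup R) (a : MvPowerSeries τ R) (ha : constantCoeff a = 0) :
    fadd F (fneg F a) a = 0 := by
  have := congrArg (PowerSeries.subst a) (exists_fneg F).choose_spec.2.2
  rw [psubst_zero a ha] at this
  erw [psubst_fadd F _ _ (constantCoeff_fnegSeries F) PowerSeries.constantCoeff_X a ha] at this
  rwa [PowerSeries.subst_X (PowerSeries.HasSubst.of_constantCoeff_zero ha)] at this

theorem constantCoeff_fneg (F : FormalGroup R) (a : MvPowerSeries τ R)
    (ha : constantCoeff a = 0) : constantCoeff (fneg F a) = 0 :=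
  PowerSeries.constantCoeff_subst_eq_zero ha _ (constantCoeff_fnegSeries F)

/-- power series all of whose coefficients lie in an ideal -/
theorem coeff_mul_mem (I : Ideal R) (a b : MvPowerSeries τ R) (ha : ∀ d, coeff d a ∈ I) :
    ∀ d, coeff d (a * b) ∈ I := by
  classical
  intro d
  rw [coeff_mul]
  exact Ideal.sum_mem _ fun x _ => Ideal.mul_mem_right _ _ (ha _)

/-- `a -_F b = (a - b) * unit`, in the form: if `a - b` has all coefficients in an ideal then so
does `a -_F b`, and conversely. -/
theorem fsub_mem_iff (F : FormalGroup R) [F.IsComm] (a b : MvPowerSeries τ R)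
    (ha : constantCoeff a = 0) (hb : constantCoeff b = 0) (I : Ideal R) :
    (∀ d, coeff d (fadd F a (fneg F b)) ∈ I) ↔ (∀ d, coeff d (a - b) ∈ I) := by
  have hnb := constantCoeff_fneg F b hb
  have hs := constantCoeff_fadd F a _ ha hnb
  set s := fadd F a (fneg F b) with hsdef
  have h1 : fadd F b s = a := by
    rw [fadd_comm F b s hb hs, hsdef, fadd_assoc F a _ b ha hnb hb, fneg_fadd F b hb,
      fadd_zero F a ha]
  obtain ⟨w, hw, he⟩ := fadd_sub_fadd F b s 0 hb hs (map_zero _)
  rw [h1, fadd_zero F b hb, sub_zero] at he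
  rw [he]
  constructor
  · intro h
    exact coeff_mul_mem I _ _ h
  · intro h
    have hu : IsUnit w := by
      rw [MvPowerSeries.isUnit_iff_constantCoeff, hw]; exact isUnit_one
    obtain ⟨u, rfl⟩ := hu
    have := coeff_mul_mem I _ (↑u⁻¹ : MvPowerSeries τ R) h
    simpa [mul_assoc] using this

/-- homomorphisms are additive on power series -/
theorem IsFGHom.subst_fadd {F G : FormalGroup R} {φ : PowerSeries R} (h : IsFGHom F G φ)
    (a b : MvPowerSeries τ R) (ha : constantCoeff a = 0) (hb : constantCoeff b = 0) :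
    PowerSeries.subst (fadd F a b) φ = fadd G (PowerSeries.subst a φ) (PowerSeries.subst b φ) := by
  have hab := hasSubst_pair ha hb
  have h2 := congrArg (MvPowerSeries.subst ![a, b]) h.2
  rw [PowerSeries.subst, subst_comp_subst_apply
    (PowerSeries.HasSubst.of_constantCoeff_zero F.zero_constantCoeff).const hab] at h2
  have hX : ∀ i : Fin 2, constantCoeff (PowerSeries.subst (X i : MvPowerSeries (Fin 2) R) φ) = 0 :=
    fun i => PowerSeries.constantCoeff_subst_eq_zero (constantCoeff_X i) _ h.1
  have h3 : ∀ i : Fin 2, MvPowerSeries.subst ![a, b]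
      (PowerSeries.subst (X i : MvPowerSeries (Fin 2) R) φ) = PowerSeries.subst (![a, b] i) φ := by
    intro i
    rw [PowerSeries.subst, subst_comp_subst_apply (PowerSeries.HasSubst.X i).const hab,
      PowerSeries.subst]
    simp [subst_X hab]
  rw [subst_comp_subst_apply (hasSubst_pair (hX 0) (hX 1)) hab] at h2
  unfold Crest.Agent.R227.fadd
  rw [PowerSeries.subst, h2]
  congr 1
  ext i : 1
  fin_cases i
  · simpa using h3 0
  · simpa using h3 1

theorem fadd_X_X (F : FormalGroup R) :
    fadd F (X 0 : MvPowerSeries (Fin 2) R) (X 1) = F.toPowerSeries := by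
  unfold fadd
  have : ![(X 0 : MvPowerSeries (Fin 2) R), X 1] = X := by
    ext i : 1
    fin_cases i <;> rfl
  rw [this, subst_self, id]

/-- the second condition of `IsFGHom` in terms of `fadd`. -/
theorem isFGHom_iff {F G : FormalGroup R} {φ : PowerSeries R} :
    IsFGHom F G φ ↔ PowerSeries.constantCoeff φ = 0 ∧
      PowerSeries.subst (fadd F (X 0 : MvPowerSeries (Fin 2) R) (X 1)) φ =
        fadd G (PowerSeries.subst (X 0 : MvPowerSeries (Fin 2) R) φ)
          (PowerSeries.subst (X 1 : MvPowerSeries (Fin 2) R) φ) := by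
  rw [fadd_X_X]; rfl

theorem psubst_psubst {b : MvPowerSeries τ R} {a : PowerSeries R}
    (ha : PowerSeries.constantCoeff a = 0) (hb : constantCoeff b = 0) (f : PowerSeries R) :
    PowerSeries.subst b (PowerSeries.subst a f) = PowerSeries.subst (PowerSeries.subst b a) f :=
  PowerSeries.subst_comp_subst_apply (PowerSeries.HasSubst.of_constantCoeff_zero' ha)
    (PowerSeries.HasSubst.of_constantCoeff_zero hb) f

theorem psubst_X {b : MvPowerSeries τ R} (hb : constantCoeff b = 0) :
    PowerSeries.subst b (PowerSeries.X : PowerSeries R) = b :=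
  PowerSeries.subst_X (PowerSeries.HasSubst.of_constantCoeff_zero hb)

theorem constantCoeff_psubst {a : MvPowerSeries τ R} (ha : constantCoeff a = 0)
    {φ : PowerSeries R} (hφ : PowerSeries.constantCoeff φ = 0) :
    constantCoeff (PowerSeries.subst a φ) = 0 :=
  PowerSeries.constantCoeff_subst_eq_zero ha _ hφ

theorem fadd_fadd_fadd_comm (F : FormalGroup R) [F.IsComm] (a b c d : MvPowerSeries τ R)
    (ha : constantCoeff a = 0) (hb : constantCoeff b = 0) (hc : constantCoeff c = 0)
    (hd : constantCoeff d = 0) :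
    fadd F (fadd F a b) (fadd F c d) = fadd F (fadd F a c) (fadd F b d) := by
  have hcd := constantCoeff_fadd F c d hc hd
  have hbd := constantCoeff_fadd F b d hb hd
  rw [fadd_assoc F a b _ ha hb hcd, ← fadd_assoc F b c d hb hc hd, fadd_comm F b c hb hc,
    fadd_assoc F c b d hc hb hd, ← fadd_assoc F a c _ ha hc hbd]

theorem fadd_left_cancel (F : FormalGroup R) (a b c : MvPowerSeries τ R)
    (ha : constantCoeff a = 0) (hb : constantCoeff b = 0) (hc : constantCoeff c = 0)
    (h : fadd F a b = fadd F a c) : b = c := by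
  have hn := constantCoeff_fneg F a ha
  have := congrArg (fadd F (fneg F a)) h
  rwa [← fadd_assoc F _ a b hn ha hb, ← fadd_assoc F _ a c hn ha hc, fneg_fadd F a ha,
    zero_fadd F b hb, zero_fadd F c hc] at this

theorem fneg_fadd_distrib (F : FormalGroup R) [F.IsComm] (a b : MvPowerSeries τ R)
    (ha : constantCoeff a = 0) (hb : constantCoeff b = 0) :
    fneg F (fadd F a b) = fadd F (fneg F a) (fneg F b) := by
  have hna := constantCoeff_fneg F a ha
  have hnb := constantCoeff_fneg F b hb
  have hab := constantCoeff_fadd F a b ha hb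
  refine fadd_left_cancel F (fadd F a b) _ _ hab (constantCoeff_fneg F _ hab)
    (constantCoeff_fadd F _ _ hna hnb) ?_
  rw [fadd_fneg F _ hab, fadd_fadd_fadd_comm F a b _ _ ha hb hna hnb, fadd_fneg F a ha,
    fadd_fneg F b hb, fadd_zero F 0 (map_zero _)]

theorem IsFGHom.id (F : FormalGroup R) : IsFGHom F F PowerSeries.X := by
  rw [isFGHom_iff]
  refine ⟨PowerSeries.constantCoeff_X, ?_⟩
  rw [psubst_X (constantCoeff_X 0), psubst_X (constantCoeff_X 1), psubst_X]
  exact constantCoeff_fadd F _ _ (constantCoeff_X 0) (constantCoeff_X 1)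

theorem IsFGHom.zero (F G : FormalGroup R) : IsFGHom F G 0 := by
  rw [isFGHom_iff]
  refine ⟨map_zero _, ?_⟩
  rw [psubst_zero _ (constantCoeff_X 0), psubst_zero _ (constantCoeff_X 1), psubst_zero,
    fadd_zero G 0 (map_zero _)]
  exact constantCoeff_fadd F _ _ (constantCoeff_X 0) (constantCoeff_X 1)

theorem IsFGHom.comp {F G H : FormalGroup R} {φ ψ : PowerSeries R} (hφ : IsFGHom F G φ)
    (hψ : IsFGHom G H ψ) : IsFGHom F H (PowerSeries.subst φ ψ) := by
  have hF := constantCoeff_fadd F _ _ (constantCoeff_X (R := R) (0 : Fin 2))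
    (constantCoeff_X (R := R) (1 : Fin 2))
  have hφ2 := (isFGHom_iff.1 hφ).2
  rw [isFGHom_iff]
  refine ⟨constantCoeff_psubst hφ.1 hψ.1, ?_⟩
  rw [psubst_psubst hφ.1 hF, psubst_psubst hφ.1 (constantCoeff_X 0),
    psubst_psubst hφ.1 (constantCoeff_X 1), hφ2]
  exact IsFGHom.subst_fadd hψ _ _ (constantCoeff_psubst (constantCoeff_X 0) hφ.1)
    (constantCoeff_psubst (constantCoeff_X 1) hφ.1)

theorem IsFGHom.fadd {F G : FormalGroup R} [G.IsComm] {φ ψ : PowerSeries R}
    (hφ : IsFGHom F G φ) (hψ : IsFGHom F G ψ) : IsFGHom F G (fadd G φ ψ) := by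
  have h0 := constantCoeff_X (R := R) (0 : Fin 2)
  have h1 := constantCoeff_X (R := R) (1 : Fin 2)
  have hF := constantCoeff_fadd F _ _ h0 h1
  rw [isFGHom_iff]
  refine ⟨constantCoeff_fadd G _ _ hφ.1 hψ.1, ?_⟩
  rw [psubst_fadd G φ ψ hφ.1 hψ.1 _ hF, psubst_fadd G φ ψ hφ.1 hψ.1 _ h0,
    psubst_fadd G φ ψ hφ.1 hψ.1 _ h1, (isFGHom_iff.1 hφ).2, (isFGHom_iff.1 hψ).2]
  exact fadd_fadd_fadd_comm G _ _ _ _ (constantCoeff_psubst h0 hφ.1)
    (constantCoeff_psubst h1 hφ.1) (constantCoeff_psubst h0 hψ.1) (constantCoeff_psubst h1 hψ.1)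

theorem isFGHom_fnegSeries (G : FormalGroup R) [G.IsComm] : IsFGHom G G (fnegSeries G) := by
  rw [isFGHom_iff]
  exact ⟨constantCoeff_fnegSeries G,
    fneg_fadd_distrib G _ _ (constantCoeff_X (0 : Fin 2)) (constantCoeff_X (1 : Fin 2))⟩

theorem IsFGHom.fneg {F G : FormalGroup R} [G.IsComm] {φ : PowerSeries R}
    (hφ : IsFGHom F G φ) : IsFGHom F G (fneg G φ) :=
  IsFGHom.comp hφ (isFGHom_fnegSeries G)

theorem IsFGHom.map {S : Type*} [CommRing S] (f : R →+* S) {F G : FormalGroup R}
    {φ : PowerSeries R} (hφ : IsFGHom F G φ) :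
    IsFGHom (F.map f) (G.map f) (PowerSeries.map f φ) := by
  have h0 := constantCoeff_X (R := R) (0 : Fin 2)
  have h1 := constantCoeff_X (R := R) (1 : Fin 2)
  have hF := constantCoeff_fadd F _ _ h0 h1
  have h := congrArg (MvPowerSeries.map f) (isFGHom_iff.1 hφ).2
  rw [isFGHom_iff]
  refine ⟨?_, ?_⟩
  · rw [← PowerSeries.coeff_zero_eq_constantCoeff_apply, PowerSeries.coeff_map,
      PowerSeries.coeff_zero_eq_constantCoeff_apply, hφ.1, map_zero]
  rw [PowerSeries.map_subst (PowerSeries.HasSubst.of_constantCoeff_zero hF),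
    map_fadd f G _ _ (constantCoeff_psubst h0 hφ.1) (constantCoeff_psubst h1 hφ.1),
    PowerSeries.map_subst (PowerSeries.HasSubst.X 0),
    PowerSeries.map_subst (PowerSeries.HasSubst.X 1), map_fadd f F _ _ h0 h1] at h
  simpa using h

theorem constantCoeff_mulSeries (F : FormalGroup R) (m : ℕ) :
    PowerSeries.constantCoeff (Crest.LubinTate.mulSeries F m) = 0 := by
  induction m with
  | zero => simp [Crest.LubinTate.mulSeries]
  | succ m ih => exact constantCoeff_fadd F _ _ ih mvConstantCoeff_X

theorem mulSeries_succ (F : FormalGroup R) (m : ℕ) :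
    Crest.LubinTate.mulSeries F (m + 1) =
      Crest.Agent.R227.fadd F (Crest.LubinTate.mulSeries F m) (PowerSeries.X : PowerSeries R) := rfl

theorem IsFGHom.mulSeries (F : FormalGroup R) [F.IsComm] (m : ℕ) :
    IsFGHom F F (mulSeries F m) := by
  induction m with
  | zero => exact IsFGHom.zero F F
  | succ m ih => exact IsFGHom.fadd ih (IsFGHom.id F)

theorem mulSeries_map {S : Type*} [CommRing S] (f : R →+* S) (F : FormalGroup R) (m : ℕ) :
    PowerSeries.map f (Crest.LubinTate.mulSeries F m) =
      Crest.LubinTate.mulSeries (F.map f) m := by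
  induction m with
  | zero => simp [Crest.LubinTate.mulSeries]
  | succ m ih =>
    rw [mulSeries_succ, mulSeries_succ, ← ih]
    have := map_fadd f F (Crest.LubinTate.mulSeries F m) (PowerSeries.X : PowerSeries R)
      (constantCoeff_mulSeries F m) mvConstantCoeff_X
    rw [show (MvPowerSeries.map f (PowerSeries.X : PowerSeries R) : MvPowerSeries Unit S) =
      (PowerSeries.X : PowerSeries S) from PowerSeries.map_X f] at this
    exact this

theorem coeff_one_fadd (F : FormalGroup R) (a b : PowerSeries R)
    (ha : PowerSeries.constantCoeff a = 0) (hb : PowerSeries.constantCoeff b = 0) :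
    PowerSeries.coeff 1 (fadd F a b : PowerSeries R) =
      PowerSeries.coeff 1 a + PowerSeries.coeff 1 b := by
  obtain ⟨w, hw, he⟩ := fadd_sub_fadd F a b 0 ha hb (map_zero _)
  rw [fadd_zero F a ha, sub_zero, sub_eq_iff_eq_add'] at he
  have he' : (fadd F a b : PowerSeries R) = a + b * w := he
  rw [he', map_add, PowerSeries.coeff_mul, Finset.Nat.antidiagonal_succ]
  have hw' : PowerSeries.constantCoeff (R := R) w = 1 := hw
  simp [hw', hb]

theorem coeff_one_mulSeries (F : FormalGroup R) (m : ℕ) :
    PowerSeries.coeff 1 (Crest.LubinTate.mulSeries F m) = m := by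
  induction m with
  | zero => simp [Crest.LubinTate.mulSeries]
  | succ m ih =>
    rw [mulSeries_succ, coeff_one_fadd F _ _ (constantCoeff_mulSeries F m)
      PowerSeries.constantCoeff_X, ih]
    simp

theorem mulSeries_add (F : FormalGroup R) (m k : ℕ) :
    Crest.LubinTate.mulSeries F (m + k) =
      Crest.Agent.R227.fadd F (Crest.LubinTate.mulSeries F m) (Crest.LubinTate.mulSeries F k) := by
  induction k with
  | zero =>
    rw [Nat.add_zero]
    exact (fadd_zero F _ (constantCoeff_mulSeries F m)).symm
  | succ k ih =>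
    rw [← Nat.add_assoc, mulSeries_succ, ih, mulSeries_succ]
    exact fadd_assoc F _ _ _ (constantCoeff_mulSeries F m) (constantCoeff_mulSeries F k)
      mvConstantCoeff_X

theorem mulSeries_mul (F : FormalGroup R) [F.IsComm] (m k : ℕ) :
    Crest.LubinTate.mulSeries F (m * k) =
      PowerSeries.subst (Crest.LubinTate.mulSeries F k) (Crest.LubinTate.mulSeries F m) := by
  induction m with
  | zero =>
    rw [Nat.zero_mul]
    exact (psubst_zero _ (constantCoeff_mulSeries F k)).symm
  | succ m ih =>
    rw [Nat.succ_mul, mulSeries_add, ih, mulSeries_succ]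
    have := psubst_fadd F (Crest.LubinTate.mulSeries F m) (PowerSeries.X : PowerSeries R)
      (constantCoeff_mulSeries F m) PowerSeries.constantCoeff_X
      (Crest.LubinTate.mulSeries F k) (constantCoeff_mulSeries F k)
    rw [this]
    congr 1
    exact (psubst_X (constantCoeff_mulSeries F k)).symm

/-- homomorphisms commute with `[m]` -/
theorem IsFGHom.comm_mulSeries {F G : FormalGroup R} {φ : PowerSeries R} (hφ : IsFGHom F G φ)
    (m : ℕ) : PowerSeries.subst (Crest.LubinTate.mulSeries F m) φ =
      PowerSeries.subst φ (Crest.LubinTate.mulSeries G m) := by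
  induction m with
  | zero =>
    refine Eq.trans ?_ (psubst_zero (τ := Unit) φ hφ.1).symm
    exact PowerSeries.subst_zero_of_constantCoeff_zero hφ.1
  | succ m ih =>
    rw [mulSeries_succ, mulSeries_succ]
    have h1 := IsFGHom.subst_fadd hφ (Crest.LubinTate.mulSeries F m) (PowerSeries.X : PowerSeries R)
      (constantCoeff_mulSeries F m) mvConstantCoeff_X
    have h2 := psubst_fadd G (Crest.LubinTate.mulSeries G m) (PowerSeries.X : PowerSeries R)
      (constantCoeff_mulSeries G m) PowerSeries.constantCoeff_X φ hφ.1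
    rw [h1, h2, ih]
    congr 1
    rw [psubst_X hφ.1]
    exact PowerSeries.X_subst φ

end formal

end Crest.Agent.R227
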