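import Crest.Agent.R227.Eval

/-!
# R227 / IFT : decomposition of power series, contraction, implicit function theorem

`exists_ift`: for `Φ j ∈ k[[U, Z]]` (`j : σ`) with `Φ j = U_j + (terms in Z) + (order ≥ 2)` there
are unique `g j ∈ k[[Z]]` without constant term with `u = g(z)` at every point `(u,z)` of the open
unit polydisc of an ultrametric field at which all `Φ j` vanish.
-/

set_option autoImplicit false

noncomputable section

namespace Crest.Agent.R227

open MvPowerSeries Topology

section decomp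

variable {σ R : Type*} [CommRing R]

/-- power series with given coefficients -/
def mkI (g : (σ →₀ ℕ) → R) : MvPowerSeries σ R := g

theorem coeff_mkI (g : (σ →₀ ℕ) → R) (d : σ →₀ ℕ) : coeff d (mkI g) = g d := rfl

/-- a power series all of whose exponents dominate one of finitely many monomials is a
combination of these monomials. -/
theorem exists_decomp {ι : Type*} [Fintype ι] (E : ι → (σ →₀ ℕ)) (f : MvPowerSeries σ R)
    (hf : ∀ d, coeff d f ≠ 0 → ∃ i, E i ≤ d) :
    ∃ F : ι → MvPowerSeries σ R, f = ∑ i, monomial (E i) 1 * F i := by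
  classical
  by_cases hne : Nonempty ι
  swap
  · refine ⟨fun i => (hne ⟨i⟩).elim, ?_⟩
    have : IsEmpty ι := not_nonempty_iff.1 hne
    rw [Finset.univ_eq_empty, Finset.sum_empty]
    ext d
    by_contra h
    exact hne ⟨(hf d (by simpa using h)).choose⟩
  choose! g hg using hf
  refine ⟨fun i => mkI (fun e => if coeff (e + E i) f ≠ 0 ∧ g (e + E i) = i then
    coeff (e + E i) f else 0), ?_⟩
  have key : ∀ (i : ι) (d : σ →₀ ℕ), E i ≤ d →
      coeff (d - E i) (mkI (fun e => if coeff (e + E i) f ≠ 0 ∧ g (e + E i) = i then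
        coeff (e + E i) f else 0)) =
      if coeff d f ≠ 0 ∧ g d = i then coeff d f else 0 := by
    intro i d hi
    rw [coeff_mkI, tsub_add_cancel_of_le hi]
  ext d
  rw [map_sum]
  by_cases hd : coeff d f = 0
  · rw [hd]
    symm
    apply Finset.sum_eq_zero
    intro i _
    rw [coeff_monomial_mul]
    split_ifs with h
    · rw [key i d h, if_neg (by simp [hd]), mul_zero]
    · rfl
  · symm
    rw [Finset.sum_eq_single (g d)]
    · rw [coeff_monomial_mul, if_pos (hg d hd), key _ d (hg d hd), if_pos ⟨hd, rfl⟩, one_mul]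
    · intro i _ hi
      rw [coeff_monomial_mul]
      split_ifs with h
      · rw [key i d h, if_neg (fun h' => hi h'.2.symm), mul_zero]
      · rfl
    · intro h
      exact absurd (Finset.mem_univ _) h

/-- the ideal of series of order `≥ D` -/
def ordIdeal (σ R : Type*) [CommRing R] (D : ℕ) : Ideal (MvPowerSeries σ R) where
  carrier := {f | ∀ d : σ →₀ ℕ, d.degree < D → coeff d f = 0}
  add_mem' := by
    intro f g hf hg d hd
    rw [map_add, hf d hd, hg d hd, add_zero]
  zero_mem' := by
    intro d _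
    exact map_zero _
  smul_mem' := by
    classical
    intro c f hf d hd
    rw [smul_eq_mul, coeff_mul]
    refine Finset.sum_eq_zero fun x hx => ?_
    replace hx := Finset.HasAntidiagonal.mem_antidiagonal.1 hx
    have : x.2.degree < D := by
      have h1 : x.1.degree + x.2.degree = d.degree := by rw [← hx, map_add]
      omega
    rw [hf _ this, mul_zero]

theorem mem_ordIdeal {D : ℕ} {f : MvPowerSeries σ R} :
    f ∈ ordIdeal σ R D ↔ ∀ d : σ →₀ ℕ, d.degree < D → coeff d f = 0 := Iff.rfl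

theorem ordIdeal_mul_mem {a b : ℕ} {f g : MvPowerSeries σ R} (hf : f ∈ ordIdeal σ R a)
    (hg : g ∈ ordIdeal σ R b) : f * g ∈ ordIdeal σ R (a + b) := by
  classical
  intro d hd
  rw [coeff_mul]
  refine Finset.sum_eq_zero fun x hx => ?_
  replace hx := Finset.HasAntidiagonal.mem_antidiagonal.1 hx
  have h1 : x.1.degree + x.2.degree = d.degree := by rw [← hx, map_add]
  by_cases h2 : x.1.degree < a
  · rw [hf _ h2, zero_mul]
  · rw [hg _ (by omega), mul_zero]

theorem mem_ordIdeal_one {f : MvPowerSeries σ R} :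
    f ∈ ordIdeal σ R 1 ↔ constantCoeff f = 0 := by
  constructor
  · intro h
    have := h 0 (by simp)
    simpa using this
  · intro h d hd
    have : d = 0 := by
      have h1 : d.degree = 0 := by omega
      exact (Finsupp.degree_eq_zero_iff d).1 h1
    rw [this]
    simpa using h

theorem mem_ordIdeal_two {f : MvPowerSeries σ R} :
    f ∈ ordIdeal σ R 2 ↔ constantCoeff f = 0 ∧ ∀ i, coeff (Finsupp.single i 1) f = 0 := by
  constructor
  · intro h
    refine ⟨by simpa using h 0 (by simp), fun i => h _ (by simp)⟩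
  · rintro ⟨h0, h1⟩ d hd
    rcases Nat.lt_or_ge d.degree 1 with h | h
    · exact mem_ordIdeal_one.2 h0 d h
    · have hd1 : d.degree = 1 := by omega
      have hd0 : d ≠ 0 := by
        rintro rfl
        simp at hd1
      obtain ⟨x, hx⟩ : ∃ x, d x ≠ 0 := by
        by_contra h
        push Not at h
        exact hd0 (Finsupp.ext h)
      have hx1 : Finsupp.single x 1 ≤ d := by
        rw [Finsupp.single_le_iff]
        omega
      have h3 : Finsupp.single x 1 + (d - Finsupp.single x 1) = d := add_tsub_cancel_of_le hx1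
      have h4 : (d - Finsupp.single x 1 : σ →₀ ℕ).degree = 0 := by
        have := congrArg Finsupp.degree h3
        rw [map_add, Finsupp.degree_single] at this
        omega
      rw [(Finsupp.degree_eq_zero_iff _).1 h4, add_zero] at h3
      rw [← h3]
      exact h1 x

theorem ordIdeal_anti {a b : ℕ} (h : a ≤ b) : ordIdeal σ R b ≤ ordIdeal σ R a :=
  fun _ hf d hd => hf d (by omega)

theorem eq_zero_of_mem_ordIdeal {f : MvPowerSeries σ R} (h : ∀ D, f ∈ ordIdeal σ R D) : f = 0 := by
  ext d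
  rw [h (d.degree + 1) d (by omega), map_zero]

open scoped MvPowerSeries.WithPiTopology in
theorem isClosed_ordIdeal [TopologicalSpace R] [T1Space R] (D : ℕ) :
    IsClosed (ordIdeal σ R D : Set (MvPowerSeries σ R)) := by
  have : (ordIdeal σ R D : Set (MvPowerSeries σ R)) =
      ⋂ (d : σ →₀ ℕ) (_ : d.degree < D), (fun f => coeff d f) ⁻¹' {0} := by
    ext f
    simp only [SetLike.mem_coe, mem_ordIdeal, Set.mem_iInter, Set.mem_preimage,
      Set.mem_singleton_iff]
  rw [this]
  refine isClosed_iInter fun d => isClosed_iInter fun _ => ?_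
  exact isClosed_singleton.preimage (WithPiTopology.continuous_coeff R d)

/-- decomposition of series of order `≥ 2`, up to linear terms in the second set of variables -/
theorem exists_decomp_quad {σ τ : Type*} [Fintype σ] [Fintype τ] (f : MvPowerSeries (σ ⊕ τ) R)
    (h0 : constantCoeff f = 0) (h1 : ∀ i : σ, coeff (Finsupp.single (Sum.inl i) 1) f = 0) :
    ∃ (A : τ → MvPowerSeries (σ ⊕ τ) R) (B : (σ ⊕ τ) × (σ ⊕ τ) → MvPowerSeries (σ ⊕ τ) R),
      f = ∑ l, X (Sum.inr l) * A l + ∑ q, X q.1 * X q.2 * B q := by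
  classical
  obtain ⟨F, hF⟩ := exists_decomp (ι := τ ⊕ ((σ ⊕ τ) × (σ ⊕ τ)))
    (Sum.elim (fun l => Finsupp.single (Sum.inr l) 1)
      (fun q => Finsupp.single q.1 1 + Finsupp.single q.2 1)) f (by
    intro d hd
    have hd0 : d ≠ 0 := by
      rintro rfl
      exact hd (by simpa using h0)
    obtain ⟨x, hx⟩ : ∃ x, d x ≠ 0 := by
      by_contra h
      push Not at h
      exact hd0 (Finsupp.ext h)
    have hx1 : Finsupp.single x 1 ≤ d := by
      rw [Finsupp.single_le_iff]
      omega
    by_cases h2 : d - Finsupp.single x 1 = 0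
    · have h3 : d = Finsupp.single x 1 := le_antisymm (tsub_eq_zero_iff_le.1 h2) hx1
      rcases x with i | l
      · exact absurd (by rw [h3]; exact h1 i) hd
      · exact ⟨Sum.inl l, by simpa using hx1⟩
    · obtain ⟨y, hy⟩ : ∃ y, (d - Finsupp.single x 1 : (σ ⊕ τ) →₀ ℕ) y ≠ 0 := by
        by_contra h
        push Not at h
        exact h2 (Finsupp.ext h)
      refine ⟨Sum.inr (x, y), ?_⟩
      have hy1 : Finsupp.single y 1 ≤ d - Finsupp.single x 1 := by
        rw [Finsupp.single_le_iff]
        omega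
      simp only [Sum.elim_inr]
      calc Finsupp.single x 1 + Finsupp.single y 1
          ≤ Finsupp.single x 1 + (d - Finsupp.single x 1) := by gcongr
        _ = d := add_tsub_cancel_of_le hx1)
  refine ⟨fun l => F (Sum.inl l), fun q => F (Sum.inr q), ?_⟩
  conv_lhs => rw [hF]
  rw [Fintype.sum_sum_type]
  congr 1
  refine Finset.sum_congr rfl fun q _ => ?_
  congr 1
  simp only [Sum.elim_inr, X]
  rw [monomial_mul_monomial, one_mul]

end decomp

section contraction

variable {S : Type*} [CommRing S] [UniformSpace S] [IsUniformAddGroup S] [IsTopologicalRing S]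
  [IsLinearTopology S S] [CompleteSpace S] [T2Space S]

theorem ev_sum {σ ι : Type*} [Finite σ] {a : σ → S} (ha : ∀ i, IsTopologicallyNilpotent (a i))
    (s : Finset ι) (f : ι → MvPowerSeries σ S) :
    ev a (∑ i ∈ s, f i) = ∑ i ∈ s, ev a (f i) := by
  simp only [← evHom_apply ha, map_sum]

/-- contraction estimate -/
theorem ev_contraction {σ τ : Type*} [Finite σ] [Finite τ] (f : MvPowerSeries (σ ⊕ τ) S)
    (h0 : constantCoeff f = 0) (h1 : ∀ i : σ, coeff (Finsupp.single (Sum.inl i) 1) f = 0)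
    {a b : σ → S} {c : τ → S} (ha : ∀ i, IsTopologicallyNilpotent (a i))
    (hb : ∀ i, IsTopologicallyNilpotent (b i)) (hc : ∀ i, IsTopologicallyNilpotent (c i))
    (m I I' : Ideal S) (hI : IsClosed (I : Set S)) (hmI : ∀ x ∈ m, ∀ y ∈ I, x * y ∈ I')
    (ham : ∀ i, a i ∈ m) (hbm : ∀ i, b i ∈ m) (hcm : ∀ i, c i ∈ m) (hab : ∀ i, a i - b i ∈ I) :
    ev (Sum.elim a c) f - ev (Sum.elim b c) f ∈ I' := by
  classical
  have := Fintype.ofFinite σ
  have := Fintype.ofFinite τ
  obtain ⟨A, B, hf⟩ := exists_decomp_quad f h0 h1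
  have hac : ∀ i, IsTopologicallyNilpotent (Sum.elim a c i) := by
    rintro (i | i)
    · exact ha i
    · exact hc i
  have hbc : ∀ i, IsTopologicallyNilpotent (Sum.elim b c i) := by
    rintro (i | i)
    · exact hb i
    · exact hc i
  have hd : ∀ i, Sum.elim a c i - Sum.elim b c i ∈ I := by
    rintro (i | i)
    · exact hab i
    · simp
  have hacm : ∀ i, Sum.elim a c i ∈ m := by
    rintro (i | i)
    · exact ham i
    · exact hcm i
  have hbcm : ∀ i, Sum.elim b c i ∈ m := by
    rintro (i | i)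
    · exact hbm i
    · exact hcm i
  have hdiff : ∀ g : MvPowerSeries (σ ⊕ τ) S,
      ev (Sum.elim a c) g - ev (Sum.elim b c) g ∈ I := fun g =>
    ev_sub_ev_mem hac hbc I hI hd g
  rw [hf, ev_add hac, ev_add hbc, ev_sum hac, ev_sum hbc, ev_sum hac, ev_sum hbc,
    add_sub_add_comm, ← Finset.sum_sub_distrib, ← Finset.sum_sub_distrib]
  refine I'.add_mem (I'.sum_mem fun l _ => ?_) (I'.sum_mem fun q _ => ?_)
  · rw [ev_mul hac, ev_mul hbc, ev_X hac, ev_X hbc, Sum.elim_inr, Sum.elim_inr, ← mul_sub]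
    exact hmI _ (hcm l) _ (hdiff _)
  · rw [ev_mul hac, ev_mul hbc, ev_mul hac, ev_mul hbc, ev_X hac, ev_X hbc, ev_X hac, ev_X hbc]
    have e : Sum.elim a c q.1 * Sum.elim a c q.2 * ev (Sum.elim a c) (B q) -
        Sum.elim b c q.1 * Sum.elim b c q.2 * ev (Sum.elim b c) (B q) =
        Sum.elim a c q.1 * (Sum.elim a c q.2 *
          (ev (Sum.elim a c) (B q) - ev (Sum.elim b c) (B q))) +
        ((Sum.elim a c q.2 * (Sum.elim a c q.1 - Sum.elim b c q.1)) +
          (Sum.elim b c q.1 * (Sum.elim a c q.2 - Sum.elim b c q.2))) *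
          ev (Sum.elim b c) (B q) := by ring
    rw [e]
    refine I'.add_mem (hmI _ (hacm _) _ (I.mul_mem_left _ (hdiff _)))
      (I'.mul_mem_right _ (I'.add_mem (hmI _ (hacm _) _ (hd _)) (hmI _ (hbcm _) _ (hd _))))

/-- the value of a series without constant term lies in every ideal containing the arguments -/
theorem ev_mem_of_mem {σ : Type*} [Finite σ] {a : σ → S} (ha : ∀ i, IsTopologicallyNilpotent (a i))
    (f : MvPowerSeries σ S) (h0 : constantCoeff f = 0) (m : Ideal S) (ham : ∀ i, a i ∈ m) :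
    ev a f ∈ m := by
  classical
  have := Fintype.ofFinite σ
  obtain ⟨F, hF⟩ := exists_decomp (fun i : σ => Finsupp.single i 1) f (by
    intro d hd
    have hd0 : d ≠ 0 := by
      rintro rfl
      exact hd (by simpa using h0)
    obtain ⟨x, hx⟩ : ∃ x, d x ≠ 0 := by
      by_contra h
      push Not at h
      exact hd0 (Finsupp.ext h)
    refine ⟨x, ?_⟩
    rw [Finsupp.single_le_iff]
    omega)
  rw [hF, ev_sum ha]
  refine m.sum_mem fun i _ => ?_
  rw [ev_mul ha]
  refine m.mul_mem_right _ ?_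
  have : (monomial (Finsupp.single i 1) 1 : MvPowerSeries σ S) = X i := rfl
  rw [this, ev_X ha]
  exact ham i

end contraction

section ift

variable {k : Type*} [CommRing k] {σ τ : Type*} [Finite σ] [Finite τ]

open scoped MvPowerSeries.WithPiTopology

omit [Finite τ] in
theorem tn_of_const [UniformSpace k] [DiscreteUniformity k] {f : MvPowerSeries τ k}
    (hf : constantCoeff f = 0) : IsTopologicallyNilpotent f :=
  WithPiTopology.isTopologicallyNilpotent_of_constantCoeff_zero hf

omit [Finite σ] [Finite τ] in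
theorem tn_elim [UniformSpace k] [DiscreteUniformity k] {g : σ → MvPowerSeries τ k}
    (hg : ∀ j, constantCoeff (g j) = 0) :
    ∀ i, IsTopologicallyNilpotent (Sum.elim g (X : τ → MvPowerSeries τ k) i) := by
  rintro (i | i)
  · exact tn_of_const (hg i)
  · exact tn_of_const (by simp)

/-- existence of a fixed point of a contracting system of power series -/
theorem exists_fixedpoint [UniformSpace k] [DiscreteUniformity k]
    (Ψ : σ → MvPowerSeries (σ ⊕ τ) k) (h0 : ∀ j, constantCoeff (Ψ j) = 0)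
    (h1 : ∀ j i, coeff (Finsupp.single (Sum.inl i) 1) (Ψ j) = 0) :
    ∃ g : σ → MvPowerSeries τ k, (∀ j, constantCoeff (g j) = 0) ∧
      ∀ j, ev (Sum.elim g X) ((Ψ j).map (C : k →+* MvPowerSeries τ k)) = g j := by
  set Ψ' : σ → MvPowerSeries (σ ⊕ τ) (MvPowerSeries τ k) := fun j => (Ψ j).map C with hΨ'
  have h0' : ∀ j, constantCoeff (Ψ' j) = 0 := by
    intro j
    rw [hΨ', ← coeff_zero_eq_constantCoeff_apply, coeff_map, coeff_zero_eq_constantCoeff_apply,
      h0 j, map_zero]
  have h1' : ∀ j i, coeff (Finsupp.single (Sum.inl i) 1) (Ψ' j) = 0 := by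
    intro j i
    rw [hΨ', coeff_map, h1, map_zero]
  set T : (σ → MvPowerSeries τ k) → (σ → MvPowerSeries τ k) :=
    fun g j => ev (Sum.elim g X) (Ψ' j) with hT
  have hTc : ∀ g : σ → MvPowerSeries τ k, (∀ j, constantCoeff (g j) = 0) →
      ∀ j, constantCoeff (T g j) = 0 := by
    intro g hg j
    rw [← mem_ordIdeal_one]
    have hm : ∀ i, Sum.elim g (X : τ → MvPowerSeries τ k) i ∈ ordIdeal τ k 1 := by
      rintro (i | i)
      · exact mem_ordIdeal_one.2 (hg i)
      · exact mem_ordIdeal_one.2 (constantCoeff_X i)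
    change ev (Sum.elim g X) (Ψ' j) ∈ ordIdeal τ k 1
    exact ev_mem_of_mem (S := MvPowerSeries τ k) (a := Sum.elim g X) (tn_elim hg) (Ψ' j) (h0' j)
      (ordIdeal τ k 1) hm
  have hcontr : ∀ (t : ℕ) (g g' : σ → MvPowerSeries τ k), (∀ j, constantCoeff (g j) = 0) →
      (∀ j, constantCoeff (g' j) = 0) → (∀ j, g j - g' j ∈ ordIdeal τ k t) →
      ∀ j, T g j - T g' j ∈ ordIdeal τ k (t + 1) := by
    intro t g g' hg hg' hgg j
    have hXc : ∀ i, IsTopologicallyNilpotent ((X : τ → MvPowerSeries τ k) i) :=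
      fun i => tn_of_const (constantCoeff_X i)
    have hXm : ∀ i, (X : τ → MvPowerSeries τ k) i ∈ ordIdeal τ k 1 :=
      fun i => mem_ordIdeal_one.2 (constantCoeff_X i)
    have hmul : ∀ x ∈ ordIdeal τ k 1, ∀ y ∈ ordIdeal τ k t, x * y ∈ ordIdeal τ k (t + 1) := by
      intro x hx y hy
      have := ordIdeal_mul_mem hx hy
      rwa [add_comm] at this
    exact ev_contraction (S := MvPowerSeries τ k) (a := g) (b := g') (c := X) (Ψ' j) (h0' j)
      (h1' j) (fun i => tn_of_const (hg i))
      (fun i => tn_of_const (hg' i)) hXc (ordIdeal τ k 1)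
      (ordIdeal τ k t) (ordIdeal τ k (t + 1)) (isClosed_ordIdeal t) hmul
      (fun i => mem_ordIdeal_one.2 (hg i))
      (fun i => mem_ordIdeal_one.2 (hg' i)) hXm hgg
  let G : ℕ → σ → MvPowerSeries τ k := fun t => T^[t] 0
  have hG : ∀ t, G (t + 1) = T (G t) := fun t => Function.iterate_succ_apply' _ _ _
  have hGc : ∀ t j, constantCoeff (G t j) = 0 := by
    intro t
    induction t with
    | zero => intro j; simp [G]
    | succ t ih =>
      rw [hG]
      exact hTc _ ih
  have hstep : ∀ t j, G (t + 1) j - G t j ∈ ordIdeal τ k (t + 1) := by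
    intro t
    induction t with
    | zero =>
      intro j
      rw [zero_add, mem_ordIdeal_one, map_sub, hGc, hGc, sub_zero]
    | succ t ih =>
      intro j
      have := hcontr (t + 1) (G (t + 1)) (G t) (hGc _) (hGc _) ih j
      rwa [← hG, ← hG] at this
  have hstab : ∀ (e : τ →₀ ℕ) (j : σ) (t : ℕ), e.degree ≤ t →
      coeff e (G t j) = coeff e (G e.degree j) := by
    intro e j t ht
    induction t, ht using Nat.le_induction with
    | base => rfl
    | succ t ht ih =>
      have := hstep t j e (by omega)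
      rw [map_sub, sub_eq_zero] at this
      rw [this, ih]
  let g : σ → MvPowerSeries τ k := fun j => mkI fun e => coeff e (G e.degree j)
  have hgG : ∀ t j, g j - G t j ∈ ordIdeal τ k (t + 1) := by
    intro t j e he
    rw [map_sub, coeff_mkI, hstab e j t (by omega), sub_self]
  have hgc : ∀ j, constantCoeff (g j) = 0 := by
    intro j
    rw [← mem_ordIdeal_one]
    simpa [G] using hgG 0 j
  refine ⟨g, hgc, fun j => ?_⟩
  change T g j = g j
  rw [← sub_eq_zero]
  refine eq_zero_of_mem_ordIdeal fun D => ?_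
  have e1 : T g j - g j = (T g j - T (G D) j) - (g j - G (D + 1) j) := by
    rw [hG]; ring
  rw [e1]
  refine Ideal.sub_mem _ ?_ (ordIdeal_anti (by omega) (hgG (D + 1) j))
  exact ordIdeal_anti (by omega) (hcontr D _ _ hgc (hGc D)
    (fun i => ordIdeal_anti (by omega) (hgG D i)) j)

section evA

variable {S : Type*} [CommRing S] [UniformSpace S] [IsUniformAddGroup S] [IsTopologicalRing S]
  [IsLinearTopology S S] [CompleteSpace S] [T2Space S]

/-- evaluation `k[[τ]] → S` at topologically nilpotent elements, along `φ : k → S` -/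
def evA (φ : k →+* S) {a : τ → S} (ha : ∀ i, IsTopologicallyNilpotent (a i)) :
    MvPowerSeries τ k →+* S :=
  (evHom ha).comp (MvPowerSeries.map φ)

theorem evA_apply (φ : k →+* S) {a : τ → S} (ha : ∀ i, IsTopologicallyNilpotent (a i))
    (f : MvPowerSeries τ k) : evA φ ha f = ev a (f.map φ) := by
  rw [evA, RingHom.comp_apply, evHom_apply]

theorem evA_X (φ : k →+* S) {a : τ → S} (ha : ∀ i, IsTopologicallyNilpotent (a i))
    (i : τ) : evA φ ha (X i) = a i := by
  rw [evA_apply, map_X, ev_X ha]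

theorem evA_C (φ : k →+* S) {a : τ → S} (ha : ∀ i, IsTopologicallyNilpotent (a i))
    (c : k) : evA φ ha (C c) = φ c := by
  rw [evA_apply, map_C, ev_C ha]

theorem continuous_evA [UniformSpace k] [DiscreteUniformity k] (φ : k →+* S) {a : τ → S}
    (ha : ∀ i, IsTopologicallyNilpotent (a i)) : Continuous (evA φ ha) := by
  have h1 : Continuous (fun f : MvPowerSeries τ k => f.map φ) := by
    refine continuous_pi fun e => ?_
    have : (fun f : MvPowerSeries τ k => coeff e (f.map φ)) =
        fun f : MvPowerSeries τ k => φ (coeff e f) := by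
      funext f; rw [coeff_map]
    change Continuous (fun f : MvPowerSeries τ k => coeff e (f.map φ))
    rw [this]
    exact continuous_of_discreteTopology.comp (WithPiTopology.continuous_coeff k e)
  have h2 := (continuous_ev ha).comp h1
  have h3 : ⇑(evA φ ha) = (fun f => ev a f) ∘ (fun f : MvPowerSeries τ k => f.map φ) := by
    funext f
    exact evA_apply φ ha f
  rw [h3]
  exact h2

/-- evaluation of `k[[τ]]` applied to a value of a series with coefficients in `k`. -/
theorem evA_ev [UniformSpace k] [DiscreteUniformity k] {υ : Type*} [Finite υ] (φ : k →+* S)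
    {a : τ → S} (ha : ∀ i, IsTopologicallyNilpotent (a i)) {g : υ → MvPowerSeries τ k}
    (hg : ∀ i, constantCoeff (g i) = 0) (f : MvPowerSeries υ k) :
    evA φ ha (ev g (f.map (C : k →+* MvPowerSeries τ k))) =
      ev (fun i => evA φ ha (g i)) (f.map φ) := by
  have h := map_ev (S := MvPowerSeries τ k) (a := g) (fun i => tn_of_const (hg i)) (evA φ ha)
    (continuous_evA φ ha) (f.map (C : k →+* MvPowerSeries τ k))
  rw [h]
  congr 1
  ext d
  rw [coeff_map, coeff_map, coeff_map, evA_C]

end evA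

omit [Finite τ] in
/-- `ev` over the discretely topologised base is substitution. -/
theorem ev_map_C_eq_subst [UniformSpace k] [DiscreteUniformity k] {υ : Type*} [Finite υ]
    (g : υ → MvPowerSeries τ k)
    (hg : ∀ i, constantCoeff (g i) = 0) (f : MvPowerSeries υ k) :
    ev g (f.map (C : k →+* MvPowerSeries τ k)) = MvPowerSeries.subst g f := by
  have hgt : ∀ i, IsTopologicallyNilpotent (g i) := fun i => tn_of_const (hg i)
  have hs : HasSubst g := hasSubst_of_constantCoeff_zero hg
  have h1 := hasSum_eval₂ (φ := RingHom.id (MvPowerSeries τ k)) continuous_id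
    (hasEval_of_tn hgt) (f.map (C : k →+* MvPowerSeries τ k))
  ext e : 1
  rw [coeff_subst hs, ← tsum_eq_finsum (L := SummationFilter.unconditional _)
    (coeff_subst_finite hs f e)]
  have h2 := (WithPiTopology.hasSum_iff_hasSum_coeff.1 h1) e
  have h3 : HasSum (fun d : υ →₀ ℕ => coeff d f • coeff e (d.prod fun s e => g s ^ e))
      (coeff e (ev g (f.map (C : k →+* MvPowerSeries τ k)))) := by
    have heq : (fun d : υ →₀ ℕ => coeff d f • coeff e (d.prod fun s e => g s ^ e)) =
        fun d : υ →₀ ℕ => coeff e ((RingHom.id (MvPowerSeries τ k))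
          (coeff d (f.map (C : k →+* MvPowerSeries τ k))) * d.prod fun s e => g s ^ e) := by
      funext d
      rw [RingHom.id_apply, coeff_map, coeff_C_mul, smul_eq_mul]
    rw [heq]
    exact h2
  exact h3.tsum_eq.symm

theorem ift_aux {k : Type*} [CommRing k] {σ τ : Type*} [DecidableEq σ] (i j : σ) :
    coeff (Finsupp.single (Sum.inl i) 1) (X (Sum.inl j) : MvPowerSeries (σ ⊕ τ) k) =
      if i = j then 1 else 0 := by
  classical
  rw [coeff_X]
  by_cases h : i = j
  · rw [if_pos h, if_pos (by rw [h])]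
  · rw [if_neg h, if_neg]
    intro h'
    rw [Finsupp.single_left_inj one_ne_zero, Sum.inl.injEq] at h'
    exact h h'

theorem exists_ift_formal_aux [UniformSpace k] [DiscreteUniformity k] [DecidableEq σ]
    (Φ : σ → MvPowerSeries (σ ⊕ τ) k)
    (h0 : ∀ j, constantCoeff (Φ j) = 0)
    (h1 : ∀ j i, coeff (Finsupp.single (Sum.inl i) 1) (Φ j) = if i = j then 1 else 0) :
    ∃ g : σ → MvPowerSeries τ k, (∀ j, constantCoeff (g j) = 0) ∧
      ∀ j, ev (Sum.elim g X) ((Φ j).map (C : k →+* MvPowerSeries τ k)) = 0 := by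
  obtain ⟨g, hg, hfix⟩ := exists_fixedpoint (fun j => X (Sum.inl j) - Φ j)
    (fun j => by rw [map_sub, constantCoeff_X, h0, sub_zero]) (fun j i => by
      rw [map_sub, h1, ift_aux, sub_self])
  refine ⟨g, hg, fun j => ?_⟩
  have h2 := hfix j
  have h3 := ev_sub (S := MvPowerSeries τ k) (tn_elim hg)
    ((X (Sum.inl j) : MvPowerSeries (σ ⊕ τ) k).map (C : k →+* MvPowerSeries τ k))
    ((Φ j).map (C : k →+* MvPowerSeries τ k))
  have h4 := ev_X (S := MvPowerSeries τ k) (tn_elim hg) (Sum.inl j)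
  rw [map_sub, h3, map_X, h4, Sum.elim_inl] at h2
  exact sub_eq_self.1 h2

/-- **Implicit function theorem**, existence: if `Φ j = U_j + (linear in Z) + (order ≥ 2)` there
are `g j ∈ k[[Z]]` without constant term such that `Φ j (g, Z) = 0`. -/
theorem exists_ift_formal [DecidableEq σ] (Φ : σ → MvPowerSeries (σ ⊕ τ) k)
    (h0 : ∀ j, constantCoeff (Φ j) = 0)
    (h1 : ∀ j i, coeff (Finsupp.single (Sum.inl i) 1) (Φ j) = if i = j then 1 else 0) :
    ∃ g : σ → MvPowerSeries τ k, (∀ j, constantCoeff (g j) = 0) ∧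
      ∀ j, MvPowerSeries.subst (Sum.elim g X) (Φ j) = 0 := by
  let _ : UniformSpace k := ⊥
  have : DiscreteUniformity k := ⟨rfl⟩
  obtain ⟨g, hg, hfix⟩ := exists_ift_formal_aux Φ h0 h1
  refine ⟨g, hg, fun j => ?_⟩
  have hel : ∀ i, constantCoeff (Sum.elim g (X : τ → MvPowerSeries τ k) i) = 0 := by
    rintro (i | i)
    · exact hg i
    · exact constantCoeff_X i
  rw [← ev_map_C_eq_subst _ hel]
  exact hfix j

theorem exists_bound_lt_one {α : Type*} [Finite α] (f : α → ℝ) (hf : ∀ i, f i < 1) :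
    ∃ ρ : ℝ, 0 ≤ ρ ∧ ρ < 1 ∧ ∀ i, f i ≤ ρ := by
  by_cases hα : Nonempty α
  · obtain ⟨i0, hi0⟩ := Finite.exists_max f
    exact ⟨max 0 (f i0), le_max_left _ _, max_lt zero_lt_one (hf i0),
      fun i => (hi0 i).trans (le_max_right _ _)⟩
  · exact ⟨0, le_rfl, zero_lt_one, fun i => (hα ⟨i⟩).elim⟩

/-- uniqueness of the solution of the system at points of an ultrametric field -/
theorem ift_unique {K : Type*} [NormedField K] [IsUltrametricDist K] [CompleteSpace K]
    [DecidableEq σ] (Φ : σ → MvPowerSeries (σ ⊕ τ) (Ob K))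
    (h0 : ∀ j, constantCoeff (Φ j) = 0)
    (h1 : ∀ j i, coeff (Finsupp.single (Sum.inl i) 1) (Φ j) = if i = j then 1 else 0)
    {u v : σ → Ob K} {z : τ → Ob K} (hu : ∀ j, ‖u j‖ < 1) (hv : ∀ j, ‖v j‖ < 1)
    (hz : ∀ l, ‖z l‖ < 1) (hΦu : ∀ j, ev (Sum.elim u z) (Φ j) = 0)
    (hΦv : ∀ j, ev (Sum.elim v z) (Φ j) = 0) : u = v := by
  classical
  have := Fintype.ofFinite σ
  have := Fintype.ofFinite τ
  by_cases hne : Nonempty σ
  swap
  · funext j
    exact (hne ⟨j⟩).elim
  -- common bound
  obtain ⟨ρ, hρ0, hρ1, hρu, hρv, hρz⟩ : ∃ ρ : ℝ, 0 ≤ ρ ∧ ρ < 1 ∧ (∀ j, ‖u j‖ ≤ ρ) ∧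
      (∀ j, ‖v j‖ ≤ ρ) ∧ ∀ l, ‖z l‖ ≤ ρ := by
    obtain ⟨ρ1, a1, b1, c1⟩ := exists_bound_lt_one (fun j => ‖u j‖) hu
    obtain ⟨ρ2, a2, b2, c2⟩ := exists_bound_lt_one (fun j => ‖v j‖) hv
    obtain ⟨ρ3, a3, b3, c3⟩ := exists_bound_lt_one (fun j => ‖z j‖) hz
    exact ⟨max ρ1 (max ρ2 ρ3), le_max_of_le_left a1, max_lt b1 (max_lt b2 b3),
      fun j => (c1 j).trans (le_max_left _ _),
      fun j => (c2 j).trans ((le_max_left _ _).trans (le_max_right _ _)),
      fun j => (c3 j).trans ((le_max_right _ _).trans (le_max_right _ _))⟩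
  obtain ⟨j0, hj0⟩ := Finite.exists_max (fun j => ‖u j - v j‖)
  set δ := ‖u j0 - v j0‖ with hδ
  have hδ0 : 0 ≤ δ := norm_nonneg _
  have hut : ∀ i, IsTopologicallyNilpotent (u i) := fun i => (Ob_tn_iff _).2 (hu i)
  have hvt : ∀ i, IsTopologicallyNilpotent (v i) := fun i => (Ob_tn_iff _).2 (hv i)
  have hzt : ∀ i, IsTopologicallyNilpotent (z i) := fun i => (Ob_tn_iff _).2 (hz i)
  have hut' : ∀ i, IsTopologicallyNilpotent (Sum.elim u z i) := by
    rintro (i | i)
    · exact hut i
    · exact hzt i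
  have hvt' : ∀ i, IsTopologicallyNilpotent (Sum.elim v z i) := by
    rintro (i | i)
    · exact hvt i
    · exact hzt i
  have key : ∀ j, u j - v j ∈ normIdeal K (ρ * δ) (mul_nonneg hρ0 hδ0) := by
    intro j
    have h := ev_contraction (X (Sum.inl j) - Φ j)
      (by rw [map_sub, constantCoeff_X, h0, sub_zero]) (by
        intro i
        rw [map_sub, h1, ift_aux, sub_self]) hut hvt hzt (normIdeal K ρ hρ0) (normIdeal K δ hδ0)
        (normIdeal K (ρ * δ) (mul_nonneg hρ0 hδ0)) (isClosed_normIdeal δ hδ0) (by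
          intro x hx y hy
          rw [mem_normIdeal] at *
          calc ‖x * y‖ = ‖x‖ * ‖y‖ := norm_mul (x : K) (y : K)
            _ ≤ ρ * δ := mul_le_mul hx hy (norm_nonneg _) hρ0)
        (fun i => (mem_normIdeal _ hρ0 _).2 (hρu i)) (fun i => (mem_normIdeal _ hρ0 _).2 (hρv i))
        (fun i => (mem_normIdeal _ hρ0 _).2 (hρz i)) (fun i => (mem_normIdeal _ hδ0 _).2 (hj0 i))
    rwa [ev_sub hut', ev_sub hvt', ev_X hut', ev_X hvt', hΦu, hΦv, sub_zero, sub_zero,
      Sum.elim_inl, Sum.elim_inl] at h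
  have h2 : δ ≤ ρ * δ := (mem_normIdeal _ _ _).1 (key j0)
  have h3 : δ = 0 := by
    by_contra h
    have hpos : 0 < δ := lt_of_le_of_ne hδ0 (Ne.symm h)
    nlinarith
  funext j
  have h4 : ‖u j - v j‖ ≤ 0 := by
    rw [← h3]; exact hj0 j
  exact sub_eq_zero.1 (norm_le_zero_iff.1 h4)

/-- **Implicit function theorem** at points of the unit polydisc: a formal solution `g` gives the
solution at every point. -/
theorem ift_points {K : Type*} [NormedField K] [IsUltrametricDist K] [CompleteSpace K]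
    [DecidableEq σ] (Φ : σ → MvPowerSeries (σ ⊕ τ) k)
    (h0 : ∀ j, constantCoeff (Φ j) = 0)
    (h1 : ∀ j i, coeff (Finsupp.single (Sum.inl i) 1) (Φ j) = if i = j then 1 else 0)
    (g : σ → MvPowerSeries τ k) (hg : ∀ j, constantCoeff (g j) = 0)
    (hgΦ : ∀ j, MvPowerSeries.subst (Sum.elim g X) (Φ j) = 0) (φ : k →+* Ob K)
    (u : σ → Ob K) (z : τ → Ob K) (hu : ∀ j, ‖u j‖ < 1) (hz : ∀ l, ‖z l‖ < 1)
    (hΦ : ∀ j, ev (Sum.elim u z) ((Φ j).map φ) = 0) (j : σ) : u j = ev z ((g j).map φ) := by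
  let _ : UniformSpace k := ⊥
  have : DiscreteUniformity k := ⟨rfl⟩
  have hzt : ∀ i, IsTopologicallyNilpotent (z i) := fun i => (Ob_tn_iff _).2 (hz i)
  have hel : ∀ i, constantCoeff (Sum.elim g (X : τ → MvPowerSeries τ k) i) = 0 := by
    rintro (i | i)
    · exact hg i
    · exact constantCoeff_X i
  have hgc : ∀ j, constantCoeff ((g j).map φ) = 0 := by
    intro j
    rw [← coeff_zero_eq_constantCoeff_apply, coeff_map, coeff_zero_eq_constantCoeff_apply,
      hg j, map_zero]
  have hv : ∀ j, ‖ev z ((g j).map φ)‖ < 1 := fun j =>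
    (Ob_tn_iff _).1 (ev_tn hzt _ (by rw [hgc j]; exact IsTopologicallyNilpotent.zero))
  refine congrFun (ift_unique (fun j => (Φ j).map φ) (fun j => ?_) (fun j i => ?_) hu hv hz hΦ
    (fun j => ?_)) j
  · rw [← coeff_zero_eq_constantCoeff_apply, coeff_map, coeff_zero_eq_constantCoeff_apply,
      h0 j, map_zero]
  · rw [coeff_map, h1]
    split_ifs <;> simp
  · have h2 := evA_ev φ hzt hel (Φ j)
    rw [ev_map_C_eq_subst _ hel, hgΦ, map_zero] at h2
    rw [h2]
    congr 1
    funext i
    rcases i with i | i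
    · rw [Sum.elim_inl, Sum.elim_inl, evA_apply]
    · rw [Sum.elim_inr, Sum.elim_inr, evA_X]

end ift

end Crest.Agent.R227
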