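import Crest.Agent.R227.DhDefs
import Crest.Agent.R227.IFT

/-! # R227 / VFactsA : the coefficients of `V` modulo the (square of the) ideal of the `z` -/

set_option autoImplicit false

noncomputable section

namespace Crest.Agent.R227.VFactsAux

open Crest.LubinTate MvPowerSeries Topology Filter Crest.Agent.R227

section general

variable {R : Type*} [CommRing R]

/-- `g(a) = g(0) + ∑ a_i g_i(a)`. -/
theorem subst_eq_add {m : ℕ} {τ : Type*} (g : MvPowerSeries (Fin m) R)
    (a : Fin m → MvPowerSeries τ R) (ha : ∀ i, constantCoeff (a i) = 0) :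
    ∃ G : Fin m → MvPowerSeries τ R, g.subst a = C (constantCoeff g) + ∑ i, a i * G i := by
  have hs : HasSubst a := hasSubst_of_constantCoeff_zero ha
  obtain ⟨F, hF⟩ := exists_decomp (ι := Fin m) (fun i => Finsupp.single i 1)
    (g - C (constantCoeff g)) (by
      intro d hd
      have hd0 : d ≠ 0 := by
        rintro rfl
        simp at hd
      obtain ⟨i, hi⟩ := Finsupp.ne_iff.1 hd0
      refine ⟨i, ?_⟩
      rw [Finsupp.single_le_iff]
      have : d i ≠ 0 := hi
      omega)
  refine ⟨fun i => (F i).subst a, ?_⟩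
  rw [sub_eq_iff_eq_add'] at hF
  conv_lhs => rw [hF]
  have hC : (C (constantCoeff g) : MvPowerSeries (Fin m) R).subst a = C (constantCoeff g) :=
    subst_C _
  rw [← coe_substAlgHom hs, map_add, map_sum, coe_substAlgHom hs, hC]
  congr 1
  refine Finset.sum_congr rfl fun i _ => ?_
  rw [← coe_substAlgHom hs, map_mul, coe_substAlgHom hs]
  congr 1
  exact subst_X hs i

/-- `F(a, s) = s + a (1 + s g + a g')`. -/
theorem fadd_eq (F : FormalGroup R) [F.IsComm] (a s : PowerSeries R)
    (ha : PowerSeries.constantCoeff a = 0) (hs : PowerSeries.constantCoeff s = 0) :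
    ∃ g g' : PowerSeries R, (fadd F a s : PowerSeries R) = s + a * (1 + s * g + a * g') := by
  have h1 := subst_sub_subst F.toPowerSeries s a 0 hs ha (map_zero _)
  obtain ⟨G, hG⟩ := subst_eq_add (τ := Unit) (dquot F.toPowerSeries) ![s, a, 0] (by
    intro i
    fin_cases i
    · exact hs
    · exact ha
    · exact map_zero _)
  rw [hG, constantCoeff_dquot, F.lin_coeff_Y, Fin.sum_univ_three] at h1
  refine ⟨G 0, G 1, ?_⟩
  rw [fadd_comm F a s ha hs]
  have h2 : (fadd F s 0 : PowerSeries R) = s := fadd_zero F s hs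
  have h3 : fadd F s a - fadd F s 0 = (a - 0) * (C 1 + (s * G 0 + a * G 1 + 0 * G 2)) := by
    exact h1
  rw [h2, sub_eq_iff_eq_add', map_one, zero_mul, add_zero, sub_zero, ← add_assoc] at h3
  exact h3

end general

section list

variable {p : ℕ} [Fact p.Prime] {R : Type*} [CommRing R]

theorem cc_term (c : R) (j : ℕ) :
    PowerSeries.constantCoeff (PowerSeries.C c * PowerSeries.X ^ p ^ j : PowerSeries R) = 0 := by
  rw [map_mul, map_pow, PowerSeries.constantCoeff_X, zero_pow
    (pow_ne_zero _ (Fact.out : p.Prime).ne_zero), mul_zero]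

theorem cc_fsum_terms (F : FormalGroup R) (y : ℕ → R) (l : List ℕ) (b : PowerSeries R)
    (hb : PowerSeries.constantCoeff b = 0) :
    PowerSeries.constantCoeff (fsum F ((l.map fun j =>
      (PowerSeries.C (y j) * PowerSeries.X ^ p ^ j : PowerSeries R)) ++ [b]) : PowerSeries R) =
      0 := by
  refine FEAux.cc_fsum F _ fun a ha => ?_
  rw [List.mem_append, List.mem_map] at ha
  rcases ha with ⟨j, _, rfl⟩ | ha
  · exact cc_term _ _
  · rw [List.mem_singleton] at ha
    rw [ha]
    exact hb

omit [Fact p.Prime] in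
theorem coeff_term (c : R) (j m : ℕ) (w : PowerSeries R) :
    PowerSeries.coeff m ((PowerSeries.C c * PowerSeries.X ^ p ^ j) * w) =
      c * (if p ^ j ≤ m then PowerSeries.coeff (m - p ^ j) w else 0) := by
  rw [mul_assoc, PowerSeries.coeff_C_mul]
  congr 1
  rw [mul_comm, PowerSeries.coeff_mul_X_pow']

/-- coefficients of index `< N` in `J` is stable by multiplication -/
theorem coeff_mul_mem' (J : Ideal R) (N : ℕ) (f g : PowerSeries R)
    (hf : ∀ m < N, PowerSeries.coeff m f ∈ J) : ∀ m < N, PowerSeries.coeff m (f * g) ∈ J := by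
  intro m hm
  rw [PowerSeries.coeff_mul]
  refine Ideal.sum_mem _ fun x hx => ?_
  replace hx := Finset.HasAntidiagonal.mem_antidiagonal.1 hx
  exact Ideal.mul_mem_right _ _ (hf _ (by omega))

theorem fsum_terms_mem (F : FormalGroup R) [F.IsComm] (y : ℕ → R) (J : Ideal R) (N : ℕ)
    (hN : N ≠ 0)
    (l : List ℕ) (hl : ∀ j ∈ l, y j ∈ J) :
    ∀ m < N, PowerSeries.coeff m (fsum F ((l.map fun j =>
      (PowerSeries.C (y j) * PowerSeries.X ^ p ^ j : PowerSeries R)) ++ [PowerSeries.X ^ N]) :
        PowerSeries R) - (l.map fun j => if p ^ j = m then y j else 0).sum ∈ J ^ 2 := by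
  have hX : PowerSeries.constantCoeff (PowerSeries.X ^ N : PowerSeries R) = 0 := by
    rw [map_pow, PowerSeries.constantCoeff_X, zero_pow hN]
  induction l with
  | nil =>
    intro m hm
    have h1 : (fsum F [(PowerSeries.X ^ N : PowerSeries R)] : PowerSeries R) =
        PowerSeries.X ^ N := fadd_zero F _ hX
    have h2 : PowerSeries.coeff m (PowerSeries.X ^ N : PowerSeries R) = 0 := by
      rw [PowerSeries.coeff_X_pow, if_neg (by omega)]
    simp only [List.map_nil, List.nil_append, List.sum_nil, sub_zero]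
    rw [h1, h2]
    exact Ideal.zero_mem _
  | cons j l ih =>
    intro m hm
    have hyj : y j ∈ J := hl j (by simp)
    have ih' := ih fun j hj => hl j (by simp [hj])
    set s : PowerSeries R := fsum F ((l.map fun j =>
      (PowerSeries.C (y j) * PowerSeries.X ^ p ^ j : PowerSeries R)) ++ [PowerSeries.X ^ N]) with hs
    have hsJ : ∀ m < N, PowerSeries.coeff m s ∈ J := by
      intro m hm
      have h1 : (l.map fun j => if p ^ j = m then y j else 0).sum ∈ J := by
        refine list_sum_mem ?_
        intro a ha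
        rw [List.mem_map] at ha
        obtain ⟨i, hi, rfl⟩ := ha
        split_ifs
        · exact hl i (by simp [hi])
        · exact J.zero_mem
      have h2 := Ideal.pow_le_self (I := J) (n := 2) two_ne_zero (ih' m hm)
      have h3 := J.add_mem h2 h1
      rwa [sub_add_cancel] at h3
    obtain ⟨g, g', hg⟩ := fadd_eq F (PowerSeries.C (y j) * PowerSeries.X ^ p ^ j : PowerSeries R) s
      (cc_term _ _) (cc_fsum_terms F y l _ hX)
    have h1 : (fsum F (((j :: l).map fun j =>
      (PowerSeries.C (y j) * PowerSeries.X ^ p ^ j : PowerSeries R)) ++ [PowerSeries.X ^ N]) :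
        PowerSeries R) = fadd F (PowerSeries.C (y j) * PowerSeries.X ^ p ^ j : PowerSeries R) s :=
      rfl
    rw [h1, hg, List.map_cons, List.sum_cons]
    have h2 : PowerSeries.coeff m (PowerSeries.C (y j) * PowerSeries.X ^ p ^ j : PowerSeries R) =
        if p ^ j = m then y j else 0 := by
      rw [PowerSeries.coeff_C_mul, PowerSeries.coeff_X_pow]
      simp only [eq_comm (a := m), mul_ite, mul_one, mul_zero]
    have h3 : s + (PowerSeries.C (y j) * PowerSeries.X ^ p ^ j) * (1 + s * g +
        (PowerSeries.C (y j) * PowerSeries.X ^ p ^ j) * g') =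
        s + PowerSeries.C (y j) * PowerSeries.X ^ p ^ j +
        (PowerSeries.C (y j) * PowerSeries.X ^ p ^ j) * (s * g +
        (PowerSeries.C (y j) * PowerSeries.X ^ p ^ j) * g') := by ring
    rw [h3, map_add, map_add, h2, coeff_term]
    have h4 : PowerSeries.coeff m s + (if p ^ j = m then y j else 0) +
        y j * (if p ^ j ≤ m then PowerSeries.coeff (m - p ^ j) (s * g +
        (PowerSeries.C (y j) * PowerSeries.X ^ p ^ j) * g') else 0) -
        ((if p ^ j = m then y j else 0) + (l.map fun j => if p ^ j = m then y j else 0).sum) =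
        (PowerSeries.coeff m s - (l.map fun j => if p ^ j = m then y j else 0).sum) +
        y j * (if p ^ j ≤ m then PowerSeries.coeff (m - p ^ j) (s * g +
        (PowerSeries.C (y j) * PowerSeries.X ^ p ^ j) * g') else 0) := by ring
    rw [h4]
    refine Ideal.add_mem _ (ih' m hm) ?_
    rw [pow_two]
    refine Ideal.mul_mem_mul hyj ?_
    split_ifs with hjm
    · rw [map_add]
      refine J.add_mem (coeff_mul_mem' J N s g hsJ _ (by omega)) ?_
      rw [coeff_term]
      exact J.mul_mem_right _ hyj
    · exact J.zero_mem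

/-- modulo an ideal containing all `y j`, the sum is the last term -/
theorem fsum_terms_sub_mem (F : FormalGroup R) [F.IsComm] (y : ℕ → R) (J : Ideal R)
    (b : PowerSeries R) (hb : PowerSeries.constantCoeff b = 0)
    (l : List ℕ) (hl : ∀ j ∈ l, y j ∈ J) (m : ℕ) :
    PowerSeries.coeff m ((fsum F ((l.map fun j =>
      (PowerSeries.C (y j) * PowerSeries.X ^ p ^ j : PowerSeries R)) ++ [b]) :
        PowerSeries R) - b) ∈ J := by
  induction l generalizing m with
  | nil =>
    have h1 : (fsum F [b] : PowerSeries R) = b := fadd_zero F _ hb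
    simp only [List.map_nil, List.nil_append]
    rw [h1, sub_self, map_zero]
    exact J.zero_mem
  | cons j l ih =>
    have hyj : y j ∈ J := hl j (by simp)
    have ih' := ih fun j hj => hl j (by simp [hj])
    set s : PowerSeries R := fsum F ((l.map fun j =>
      (PowerSeries.C (y j) * PowerSeries.X ^ p ^ j : PowerSeries R)) ++ [b]) with hs
    obtain ⟨g, g', hg⟩ := fadd_eq F (PowerSeries.C (y j) * PowerSeries.X ^ p ^ j : PowerSeries R) s
      (cc_term _ _) (cc_fsum_terms F y l _ hb)
    have h1 : (fsum F (((j :: l).map fun j =>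
      (PowerSeries.C (y j) * PowerSeries.X ^ p ^ j : PowerSeries R)) ++ [b]) :
        PowerSeries R) = fadd F (PowerSeries.C (y j) * PowerSeries.X ^ p ^ j : PowerSeries R) s :=
      rfl
    rw [h1, hg, add_sub_right_comm, map_add]
    refine J.add_mem (ih' m) ?_
    rw [coeff_term]
    exact J.mul_mem_right _ hyj

theorem coeff_one_fsum_terms (F : FormalGroup R) (y : ℕ → R)
    (b : PowerSeries R) (hb : PowerSeries.constantCoeff b = 0) (l : List ℕ) :
    PowerSeries.coeff 1 (fsum F ((l.map fun j =>
      (PowerSeries.C (y j) * PowerSeries.X ^ p ^ j : PowerSeries R)) ++ [b]) :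
        PowerSeries R) = (l.map fun j => if j = 0 then y j else 0).sum + PowerSeries.coeff 1 b := by
  have hp : p.Prime := Fact.out
  induction l with
  | nil =>
    have h1 : (fsum F [b] : PowerSeries R) = b := fadd_zero F _ hb
    simp only [List.map_nil, List.nil_append, List.sum_nil, zero_add]
    rw [h1]
  | cons j l ih =>
    have h1 : (fsum F (((j :: l).map fun j =>
      (PowerSeries.C (y j) * PowerSeries.X ^ p ^ j : PowerSeries R)) ++ [b]) :
        PowerSeries R) = fadd F (PowerSeries.C (y j) * PowerSeries.X ^ p ^ j : PowerSeries R)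
          (fsum F ((l.map fun j =>
      (PowerSeries.C (y j) * PowerSeries.X ^ p ^ j : PowerSeries R)) ++ [b])) :=
      rfl
    rw [h1, coeff_one_fadd F _ _ (cc_term _ _) (cc_fsum_terms F y l _ hb), ih, List.map_cons,
      List.sum_cons, add_assoc]
    congr 1
    rw [PowerSeries.coeff_C_mul, PowerSeries.coeff_X_pow]
    rcases Nat.eq_zero_or_pos j with rfl | hj
    · simp
    · have : 1 < p ^ j := Nat.one_lt_pow hj.ne' hp.one_lt
      rw [if_neg (by omega), if_neg (by omega), mul_zero]

end list

variable (p : ℕ) [Fact p.Prime] (n h : ℕ)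

theorem Vz_eq {R : Type*} [CommRing R] (hh : h < n) (z : Fin (n - h) → R) :
    Vz p n h z = fsum (Hx p n h z) (((List.range (n - h)).map fun j =>
      (PowerSeries.C (pt n h z (h + j)) * PowerSeries.X ^ p ^ j : PowerSeries R)) ++
        [PowerSeries.X ^ p ^ (n - h)]) := by
  rw [Vz, Vs, List.range_succ, List.map_append, List.map_singleton]
  congr 3
  have h1 : pt n h z (h + (n - h)) = 1 := by
    rw [pt, dif_neg (by omega), if_pos (by omega)]
  rw [h1, map_one, one_mul]

theorem pt_mem {R : Type*} [CommRing R] (z : Fin (n - h) → R) (I : Ideal R)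
    (hz : ∀ i, z i ∈ I) (j : ℕ) (hj : j < n - h) : pt n h z (h + j) ∈ I := by
  rw [pt, dif_pos ⟨by omega, by omega⟩]
  exact hz _

/-- `V ≡ X^{p^{n-h}}` modulo any ideal containing the `z i`. -/
theorem coeff_Vz_sub_mem (hh : h < n) {R : Type*} [CommRing R] (z : Fin (n - h) → R)
    (I : Ideal R) (hz : ∀ i, z i ∈ I) (k : ℕ) :
    PowerSeries.coeff k (Vz p n h z - PowerSeries.X ^ p ^ (n - h)) ∈ I := by
  have hp : p.Prime := Fact.out
  rw [Vz_eq p n h hh z]
  refine fsum_terms_sub_mem _ (fun j => pt n h z (h + j)) I _ ?_ _ ?_ k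
  · rw [map_pow, PowerSeries.constantCoeff_X, zero_pow (pow_ne_zero _ hp.ne_zero)]
  · intro j hj
    rw [List.mem_range] at hj
    exact pt_mem n h z I hz j hj

/-- `coeff (p^i) V ≡ z i` modulo the square of the ideal generated by the `z`. -/
theorem coeff_Vz_sub_mem_sq (hh : h < n) {R : Type*} [CommRing R] (z : Fin (n - h) → R)
    (i : Fin (n - h)) :
    PowerSeries.coeff (p ^ (i : ℕ)) (Vz p n h z) - z i ∈ (Ideal.span (Set.range z)) ^ 2 := by
  have hp : p.Prime := Fact.out
  rw [Vz_eq p n h hh z]
  have h1 := fsum_terms_mem (p := p) (Hx p n h z) (fun j => pt n h z (h + j))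
    (Ideal.span (Set.range z)) (p ^ (n - h)) (pow_ne_zero _ hp.ne_zero) (List.range (n - h))
    (by
      intro j hj
      rw [List.mem_range] at hj
      exact pt_mem n h z _ (fun i => Ideal.subset_span (Set.mem_range_self i)) j hj)
    (p ^ (i : ℕ)) (Nat.pow_lt_pow_right hp.one_lt i.2)
  have h2 : ((List.range (n - h)).map fun j => if p ^ j = p ^ (i : ℕ) then pt n h z (h + j)
      else 0).sum = z i := by
    rw [FEAux.list_sum_range (fun j => if p ^ j = p ^ (i : ℕ) then pt n h z (h + j) else 0) (n - h),
      Finset.sum_eq_single (i : ℕ)]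
    · rw [if_pos rfl, pt, dif_pos ⟨by omega, by omega⟩]
      congr 1
      ext
      simp
    · intro j _ hj
      rw [if_neg]
      intro h
      exact hj (Nat.pow_right_injective hp.two_le h)
    · intro h
      exact absurd (Finset.mem_range.2 i.2) h
  rw [h2] at h1
  exact h1

theorem coeff_one_Vz {R : Type*} [CommRing R] (hh : h < n) (z : Fin (n - h) → R) :
    PowerSeries.coeff 1 (Vz p n h z) = z ⟨0, by omega⟩ := by
  have hp : p.Prime := Fact.out
  have hN : 1 < p ^ (n - h) := Nat.one_lt_pow (by omega) hp.one_lt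
  rw [Vz_eq p n h hh z, coeff_one_fsum_terms (p := p) _ (fun j => pt n h z (h + j)) _ (by
    rw [map_pow, PowerSeries.constantCoeff_X, zero_pow (pow_ne_zero _ hp.ne_zero)]),
    PowerSeries.coeff_X_pow, if_neg (by omega), add_zero,
    FEAux.list_sum_range (fun j => if j = 0 then pt n h z (h + j) else 0) (n - h),
    Finset.sum_eq_single 0]
  · rw [if_pos rfl, pt, dif_pos ⟨by omega, by omega⟩]
    congr 1
    ext
    simp
  · intro j _ hj
    rw [if_neg hj]
  · intro h
    exact absurd (Finset.mem_range.2 (by omega)) h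

end Crest.Agent.R227.VFactsAux
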