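import Crest.Agent.R227.DhDefs
import Crest.Agent.R227.Typical
import Crest.Agent.R227.EasyAux2
import Crest.Agent.R227.VFactsA

/-! # R227 / VFacts : properties of `V` and `Hx` (task VFACTS) -/

set_option autoImplicit false

noncomputable section

namespace Crest.Agent.R227

open Crest.LubinTate MvPowerSeries Topology Filter

variable (p : ℕ) [Fact p.Prime] (n h : ℕ)

theorem pt_pow {R : Type*} [CommRing R] (h1 : 1 ≤ h) (hh : h < n) (z : Fin (n - h) → R)
    (k : ℕ) (hk : k ≠ 0) : (fun i => pt n h z i ^ k) = pt n h (fun i => z i ^ k) := by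
  funext i
  unfold pt
  split_ifs <;> simp [hk]

theorem vf_pt_map {R S : Type*} [CommRing R] [CommRing S] (f : R →+* S) (z : Fin (n - h) → R) :
    (fun i => f (pt n h z i)) = pt n h (fun i => f (z i)) := by
  funext i
  unfold pt
  split_ifs <;> simp

theorem Hx_map {R S : Type*} [CommRing R] [CommRing S] (f : R →+* S) (z : Fin (n - h) → R) :
    (Hx p n h z).map f = Hx p n h (fun i => f (z i)) := by
  rw [Hx, hz_map, vf_pt_map]

theorem vf_cc_mon {R : Type*} [CommRing R] (a : R) (k : ℕ) :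
    MvPowerSeries.constantCoeff (PowerSeries.C a * PowerSeries.X ^ p ^ k : PowerSeries R) = 0 := by
  have hp : p ^ k ≠ 0 := pow_ne_zero _ (Fact.out : p.Prime).ne_zero
  change PowerSeries.constantCoeff (PowerSeries.C a * PowerSeries.X ^ p ^ k : PowerSeries R) = 0
  rw [map_mul, map_pow, PowerSeries.constantCoeff_X, zero_pow hp, mul_zero]

theorem Vz_map {R S : Type*} [CommRing R] [CommRing S] (f : R →+* S) (z : Fin (n - h) → R) :
    PowerSeries.map f (Vz p n h z) = Vz p n h (fun i => f (z i)) := by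
  unfold Vz Vs
  have h1 := Typical.map_fsum f (hz p n (pt n h z)) ((List.range (n - h + 1)).map fun i =>
    (PowerSeries.C (pt n h z (h + i)) * PowerSeries.X ^ p ^ i : PowerSeries R)) (by
      intro a ha
      obtain ⟨i, -, rfl⟩ := List.mem_map.1 ha
      exact vf_cc_mon p _ _)
  refine h1.trans ?_
  rw [hz_map, List.map_map, ← vf_pt_map n h f z]
  congr 1
  apply List.map_congr_left
  intro i _
  change PowerSeries.map f _ = _
  rw [map_mul, map_pow, PowerSeries.map_C, PowerSeries.map_X]

theorem Fn_map_Hx_zero {R : Type*} [CommRing R] (hh : h < n) :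
    Hx p n h (fun _ => (0 : R)) = hz p n (sp n) := by
  rw [Hx]
  congr 1
  funext i
  unfold pt sp
  split_ifs with h1 h2 h2
  · omega
  · rfl
  · rfl
  · rfl

theorem constantCoeff_Vz {R : Type*} [CommRing R] (z : Fin (n - h) → R) :
    PowerSeries.constantCoeff (Vz p n h z) = 0 := by
  refine Typical.constantCoeff_fsum _ _ ?_
  intro a ha
  obtain ⟨i, -, rfl⟩ := List.mem_map.1 ha
  exact vf_cc_mon p _ _

theorem coeff_one_Vz {R : Type*} [CommRing R] (hh : h < n) (z : Fin (n - h) → R) :
    PowerSeries.coeff 1 (Vz p n h z) = z ⟨0, by omega⟩ := by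
  have hp := (Fact.out : p.Prime)
  unfold Vz Vs
  rw [coeff_fsum_low _ 1 le_rfl _ _ 1 le_rfl, List.map_map]
  · rw [List.range_succ_eq_map, List.map_cons, List.sum_cons, List.map_map]
    have h0 : ((List.range (n - h)).map
        (((PowerSeries.coeff 1 : PowerSeries R →ₗ[R] R) ∘ fun i =>
          (PowerSeries.C (pt n h z (h + i)) * PowerSeries.X ^ p ^ i : PowerSeries R)) ∘
          Nat.succ)).sum = 0 := by
      apply List.sum_eq_zero
      intro a ha
      obtain ⟨i, -, rfl⟩ := List.mem_map.1 ha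
      simp only [Function.comp_apply]
      rw [PowerSeries.coeff_C_mul, PowerSeries.coeff_X_pow, if_neg, mul_zero]
      have : 1 < p ^ (i + 1) := Nat.one_lt_pow (by omega) hp.one_lt
      exact this.ne
    rw [h0, add_zero]
    simp only [Function.comp_apply]
    rw [PowerSeries.coeff_C_mul, PowerSeries.coeff_X_pow, pow_zero, if_pos rfl, mul_one]
    unfold pt
    rw [dif_pos (by omega)]
    congr 1
    exact Fin.ext (by simp)
  · intro a ha i hi
    obtain ⟨j, -, rfl⟩ := List.mem_map.1 ha
    have : i = 0 := by omega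
    subst this
    rw [PowerSeries.coeff_zero_eq_constantCoeff_apply]
    exact vf_cc_mon p _ _


theorem vf_mon_X_pow {R : Type*} [CommRing R] (a : R) (k m : ℕ) (hm : m ≠ 0) :
    PowerSeries.subst (PowerSeries.X ^ m : PowerSeries R)
      (PowerSeries.C a * PowerSeries.X ^ k : PowerSeries R) =
      PowerSeries.C a * PowerSeries.X ^ (m * k) := by
  have hs : PowerSeries.HasSubst (PowerSeries.X ^ m : PowerSeries R) :=
    PowerSeries.HasSubst.X_pow hm
  rw [← PowerSeries.smul_eq_C_mul, PowerSeries.subst_smul hs, PowerSeries.subst_pow hs,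
    PowerSeries.subst_X hs, ← pow_mul, PowerSeries.smul_eq_C_mul]

theorem vf_fsum_append_zero {R : Type*} [CommRing R] {τ : Type*} (F : FormalGroup R)
    (l l' : List (MvPowerSeries τ R)) (hl : ∀ a ∈ l, a = 0)
    (hl' : ∀ a ∈ l', constantCoeff a = 0) : fsum F (l ++ l') = fsum F l' := by
  induction l with
  | nil => rfl
  | cons a l ih =>
    rw [List.cons_append, Typical.fsum_cons, ih fun b hb => hl b (List.mem_cons_of_mem _ hb),
      hl a List.mem_cons_self, zero_fadd]
    exact Typical.constantCoeff_fsum _ _ hl'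

/-- `[p](X) = V(X^{p^h})`. -/
theorem mulSeries_Hx (h1 : 1 ≤ h) (hh : h < n) {R : Type*} [CommRing R] [CharP R p]
    (z : Fin (n - h) → R) :
    mulSeries (Hx p n h z) p =
      PowerSeries.subst (PowerSeries.X ^ p ^ h : PowerSeries R) (Vz p n h z) := by
  have hp := (Fact.out : p.Prime)
  have hp0 : p ^ h ≠ 0 := pow_ne_zero _ hp.ne_zero
  unfold Vz Vs
  rw [Typical.subst_fsum_ps]
  · rw [mulSeries_hz, List.map_map]
    have e1 : List.range n = List.range ((h - 1) + (n - h + 1)) := by congr 1; omega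
    rw [e1, List.range_add, List.map_append, vf_fsum_append_zero, List.map_map]
    · congr 1
      apply List.map_congr_left
      intro i _
      simp only [Function.comp_apply]
      rw [vf_mon_X_pow _ _ _ hp0, ← pow_add]
      have : h - 1 + i + 1 = h + i := by omega
      rw [this]
    · intro a ha
      obtain ⟨i, hi, rfl⟩ := List.mem_map.1 ha
      rw [List.mem_range] at hi
      have : pt n h z (i + 1) = 0 := by
        unfold pt
        rw [dif_neg (by omega), if_neg (by omega)]
      rw [this, map_zero, zero_mul]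
    · intro a ha
      obtain ⟨i, -, rfl⟩ := List.mem_map.1 ha
      exact vf_cc_mon p _ _
  · change PowerSeries.constantCoeff (PowerSeries.X ^ p ^ h : PowerSeries R) = 0
    rw [map_pow, PowerSeries.constantCoeff_X, zero_pow hp0]
  · intro a ha
    obtain ⟨i, -, rfl⟩ := List.mem_map.1 ha
    exact vf_cc_mon p _ _

/-- `V : Hx(z^{p^h}) → Hx(z)` is a homomorphism. -/
theorem Vz_hom (h1 : 1 ≤ h) (hh : h < n) {R : Type*} [CommRing R] [CharP R p]
    (z : Fin (n - h) → R) :
    IsFGHom (Hx p n h (fun i => z i ^ p ^ h)) (Hx p n h z) (Vz p n h z) := by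
  have hp := (Fact.out : p.Prime)
  have hp0 : p ^ h ≠ 0 := pow_ne_zero _ hp.ne_zero
  have hV0 : MvPowerSeries.constantCoeff (Vz p n h z) = 0 := constantCoeff_Vz p n h z
  have hF : (Hx p n h z).map (iterateFrobenius R p h) = Hx p n h (fun i => z i ^ p ^ h) := by
    rw [Hx_map]
    rfl
  have hfrob : IsFGHom (Hx p n h z) (Hx p n h (fun i => z i ^ p ^ h))
      (PowerSeries.X ^ p ^ h) := by
    have := isFGHom_frob (Hx p n h z) h
    rwa [hF] at this
  set Q := p ^ h with hQ
  set F := Hx p n h z with hFd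
  set F' := Hx p n h (fun i => z i ^ p ^ h) with hFd'
  have hXQ : PowerSeries.constantCoeff (PowerSeries.X ^ Q : PowerSeries R) = 0 := by
    rw [map_pow, PowerSeries.constantCoeff_X, zero_pow hp0]
  have hmul : mulSeries F p = PowerSeries.subst (PowerSeries.X ^ Q : PowerSeries R) (Vz p n h z) :=
    mulSeries_Hx p n h h1 hh z
  have hg : MvPowerSeries.HasSubst (![X 0 ^ Q, X 1 ^ Q] : Fin 2 → MvPowerSeries (Fin 2) R) := by
    apply hasSubst_of_constantCoeff_zero
    intro i
    fin_cases i <;> simp [hp0]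
  have hXQi : ∀ i : Fin 2, PowerSeries.subst (X i : MvPowerSeries (Fin 2) R)
      (PowerSeries.X ^ Q : PowerSeries R) = X i ^ Q := by
    intro i
    rw [PowerSeries.subst_pow (PowerSeries.HasSubst.of_constantCoeff_zero (ccX i)),
      psubst_X (ccX i)]
  have hccXQ : ∀ i : Fin 2, constantCoeff (X i ^ Q : MvPowerSeries (Fin 2) R) = 0 := by
    intro i; simp [hp0]
  have hccF := constantCoeff_fadd F (X 0 : MvPowerSeries (Fin 2) R) (X 1) (ccX 0) (ccX 1)
  have hccF' := constantCoeff_fadd F' (X 0 : MvPowerSeries (Fin 2) R) (X 1) (ccX 0) (ccX 1)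
  rw [isFGHom_iff]
  refine ⟨constantCoeff_Vz p n h z, ?_⟩
  apply expand_inj Q hp0
  rw [expand_eq_subst _ hp0, expand_eq_subst _ hp0]
  have e1 : MvPowerSeries.subst (![X 0 ^ Q, X 1 ^ Q] : Fin 2 → MvPowerSeries (Fin 2) R)
      (fadd F' (X 0) (X 1)) = PowerSeries.subst (fadd F (X 0 : MvPowerSeries (Fin 2) R) (X 1))
        (PowerSeries.X ^ Q : PowerSeries R) := by
    rw [(isFGHom_iff.1 hfrob).2, subst_fadd' F' _ _ (ccX 0) (ccX 1) _ hg, hXQi, hXQi,
      MvPowerSeries.subst_X hg, MvPowerSeries.subst_X hg]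
    rfl
  have e2 : ∀ i : Fin 2, MvPowerSeries.subst
      (![X 0 ^ Q, X 1 ^ Q] : Fin 2 → MvPowerSeries (Fin 2) R)
      (PowerSeries.subst (X i : MvPowerSeries (Fin 2) R) (Vz p n h z)) =
        PowerSeries.subst (X i : MvPowerSeries (Fin 2) R) (mulSeries F p) := by
    intro i
    rw [subst_psubst (ccX i) hg, hmul, psubst_psubst hXQ (ccX i), hXQi, MvPowerSeries.subst_X hg]
    congr 1
    fin_cases i <;> rfl
  rw [subst_psubst hccF' hg, e1, ← psubst_psubst hXQ hccF, ← hmul,
    (isFGHom_iff.1 (IsFGHom.mulSeries F p)).2,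
    subst_fadd' F _ _ (constantCoeff_psubst (ccX 0) (constantCoeff_Vz p n h z))
      (constantCoeff_psubst (ccX 1) (constantCoeff_Vz p n h z)) _ hg, e2, e2]

/-- `V ≡ X^{p^{n-h}}` modulo any ideal containing the `z i`. -/
theorem coeff_Vz_sub_mem (hh : h < n) {R : Type*} [CommRing R] (z : Fin (n - h) → R)
    (I : Ideal R) (hz : ∀ i, z i ∈ I) (k : ℕ) :
    PowerSeries.coeff k (Vz p n h z - PowerSeries.X ^ p ^ (n - h)) ∈ I := by
  rw [← Ideal.Quotient.eq_zero_iff_mem, ← PowerSeries.coeff_map, map_sub, Vz_map, map_pow,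
    PowerSeries.map_X]
  have : (fun i => (Ideal.Quotient.mk I) (z i)) = fun _ => 0 := by
    funext i
    exact Ideal.Quotient.eq_zero_iff_mem.2 (hz i)
  rw [this]
  unfold Vz Vs
  rw [List.range_succ, List.map_append, vf_fsum_append_zero]
  · have h1 : pt n h (fun _ => (0 : R ⧸ I)) (h + (n - h)) = 1 := by
      unfold pt
      rw [dif_neg (by omega), if_pos (by omega)]
    rw [List.map_singleton, Typical.fsum_cons, h1, map_one, one_mul]
    have h2 : fsum (Crest.Agent.R227.hz p n (pt n h (fun _ => (0 : R ⧸ I))))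
      ([] : List (PowerSeries (R ⧸ I))) = 0 := rfl
    rw [h2, fadd_zero, sub_self, map_zero]
    have hp0 : p ^ (n - h) ≠ 0 := pow_ne_zero _ (Fact.out : p.Prime).ne_zero
    change PowerSeries.constantCoeff (PowerSeries.X ^ p ^ (n - h) : PowerSeries (R ⧸ I)) = 0
    rw [map_pow, PowerSeries.constantCoeff_X, zero_pow hp0]
  · intro a ha
    obtain ⟨i, hi, rfl⟩ := List.mem_map.1 ha
    rw [List.mem_range] at hi
    have : pt n h (fun _ => (0 : R ⧸ I)) (h + i) = 0 := by
      unfold pt
      rw [dif_pos (by omega)]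
    rw [this, map_zero, zero_mul]
  · intro a ha
    obtain ⟨i, -, rfl⟩ := List.mem_map.1 ha
    exact vf_cc_mon p _ _

/-- `coeff (p^i) V ≡ z i` modulo the square of the ideal generated by the `z`. -/
theorem coeff_Vz_sub_mem_sq (hh : h < n) {R : Type*} [CommRing R] (z : Fin (n - h) → R)
    (i : Fin (n - h)) :
    PowerSeries.coeff (p ^ (i : ℕ)) (Vz p n h z) - z i ∈ (Ideal.span (Set.range z)) ^ 2 :=
  VFactsAux.coeff_Vz_sub_mem_sq p n h hh z i

/-- the law and `V` depend on `z` through polynomials -/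
theorem coeff_Hx_sub_mem {R : Type*} [CommRing R] (z z' : Fin (n - h) → R) (I : Ideal R)
    (hz : ∀ i, z i - z' i ∈ I) (d : Fin 2 →₀ ℕ) :
    coeff d (Hx p n h z).toPowerSeries - coeff d (Hx p n h z').toPowerSeries ∈ I := by
  rw [← Ideal.Quotient.mk_eq_mk_iff_sub_mem]
  have h1 : (Hx p n h z).map (Ideal.Quotient.mk I) = (Hx p n h z').map (Ideal.Quotient.mk I) := by
    rw [Hx_map, Hx_map]
    congr 2
    funext i
    exact (Ideal.Quotient.mk_eq_mk_iff_sub_mem _ _).2 (hz i)
  have h2 := congrArg (fun H : FormalGroup (R ⧸ I) => coeff d H.toPowerSeries) h1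
  simpa only [FormalGroup.map_toPowerSeries, coeff_map] using h2

theorem coeff_Vz_sub_Vz_mem {R : Type*} [CommRing R] (z z' : Fin (n - h) → R) (I : Ideal R)
    (hz : ∀ i, z i - z' i ∈ I) (k : ℕ) :
    PowerSeries.coeff k (Vz p n h z) - PowerSeries.coeff k (Vz p n h z') ∈ I := by
  rw [← Ideal.Quotient.mk_eq_mk_iff_sub_mem, ← PowerSeries.coeff_map, ← PowerSeries.coeff_map,
    Vz_map, Vz_map]
  congr 2
  have : (fun i => (Ideal.Quotient.mk I) (z i)) = fun i => (Ideal.Quotient.mk I) (z' i) := by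
    funext i
    exact (Ideal.Quotient.mk_eq_mk_iff_sub_mem _ _).2 (hz i)
  rw [this]

theorem vf_fsum_zero {R : Type*} [CommRing R] {τ : Type*} (F : FormalGroup R)
    (l : List (MvPowerSeries τ R)) (hl : ∀ a ∈ l, a = 0) : fsum F l = 0 := by
  have := vf_fsum_append_zero F l [] hl (by simp)
  rwa [List.append_nil] at this

theorem mulSeries_Fh (h1 : 1 ≤ h) (hh : h ≤ n) {R : Type*} [CommRing R] [CharP R p] :
    mulSeries (Fh p n h R) p = PowerSeries.X ^ p ^ h := by
  have hp0 : p ^ h ≠ 0 := pow_ne_zero _ (Fact.out : p.Prime).ne_zero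
  rw [Fh, mulSeries_hz]
  have e1 : List.range n = List.range ((h - 1) + (n - h + 1)) := by congr 1; omega
  rw [e1, List.range_add, List.map_append, vf_fsum_append_zero, List.map_map,
    List.range_succ_eq_map, List.map_cons, Typical.fsum_cons, vf_fsum_zero]
  · have : h - 1 + 0 + 1 = h := by omega
    simp only [Function.comp_apply]
    rw [this, sp, if_pos rfl, map_one, one_mul, fadd_zero]
    change PowerSeries.constantCoeff (PowerSeries.X ^ p ^ h : PowerSeries R) = 0
    rw [map_pow, PowerSeries.constantCoeff_X, zero_pow hp0]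
  · intro a ha
    rw [List.map_map] at ha
    obtain ⟨i, -, rfl⟩ := List.mem_map.1 ha
    simp only [Function.comp_apply]
    rw [sp, if_neg (by omega), map_zero, zero_mul]
  · intro a ha
    obtain ⟨i, hi, rfl⟩ := List.mem_map.1 ha
    rw [List.mem_range] at hi
    rw [sp, if_neg (by omega), map_zero, zero_mul]
  · intro a ha
    obtain ⟨i, -, rfl⟩ := List.mem_map.1 ha
    exact vf_cc_mon p _ _

theorem Fh_map {R S : Type*} [CommRing R] [CommRing S] (f : R →+* S) :
    (Fh p n h R).map f = Fh p n h S := by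
  rw [Fh, hz_map]
  congr 1
  funext i
  unfold sp
  split_ifs <;> simp

end Crest.Agent.R227
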