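import Crest.Agent.R227.ExStab
import Crest.Agent.R227.Easy
import Crest.Agent.R227.VFacts

/-!
# R227 / CoDefs : common definitions for the core theorem `thmDh` (route of note 4224)

Everything is over the unit ball `Ob K` of a complete algebraically closed ultrametric field `K`
of characteristic `p`; `q = p^n`, `Q = p^h`, `1 ≤ h < n`, `r = n - h`.

* `HO p n j R`    : the Honda law of height `j` over `R` (`[p] = X^{p^j}`), `j = n` or `j = h`.
* `toPt F a`      : `a` as a point of `F` (`0` if `‖a‖ = 1`).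
* `fz k`          : `x ↦ x^{p^k}`, `k ∈ ℤ`, on `Ob K`;  `nfr k` : the same on the points of `HO`.
* `HPoint`        : a point `X : E₀ → Ob K` of height exactly `h`; `P.F = X_* H1`; `P.c < 1` size.
* `IsIota P ι`    : `ι` is the induced embedding of the residue field.
* `IsRho P ρ`     : `ρ : N = FPt (HO n) → P.F` additive with `‖ρ z - z‖ ≤ c < 1`.
* `IsTBasis`      : `t_1..t_r ∈ ker ρ`, independent mod `p`.
* `Mk`            : all of the above together.
* `IsAct`         : the set `𝒟 = End_k(Fn)` acting on `N = FPt (HO n)`.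
* `Orb`           : the orbit relation on marked points.
* `EEset`, `ApproxPoly`, `IsQEnd`, `Relation` : descent.
* `HasExp`        : typical expansions.
-/

set_option autoImplicit false
set_option linter.unusedSectionVars false

noncomputable section

namespace Crest.Agent.R227

open Crest.LubinTate MvPowerSeries Topology

/-- The Honda law of height `j` (`1 ≤ j ≤ n`) over a ring. -/
abbrev HO (p : ℕ) [Fact p.Prime] (n j : ℕ) (R : Type*) [CommRing R] : FormalGroup R :=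
  hz p n (sp j : ℕ → R)

section general

variable {p : ℕ} [Fact p.Prime]
variable {K : Type} [NontriviallyNormedField K] [IsUltrametricDist K] [CompleteSpace K]
  [IsAlgClosed K] [CharP K p]

/-- topologically nilpotent elements as points -/
def mkPt (F : FormalGroup (Ob K)) (a : Ob K) (ha : ‖a‖ < 1) : FPt F := ⟨a, (Ob_tn_iff a).2 ha⟩

@[simp] theorem mkPt_val (F : FormalGroup (Ob K)) (a : Ob K) (ha : ‖a‖ < 1) :
    (mkPt F a ha).val = a := rfl

open Classical in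
/-- total version of `mkPt` -/
def toPt (F : FormalGroup (Ob K)) (a : Ob K) : FPt F :=
  if ha : ‖a‖ < 1 then mkPt F a ha else ⟨0, FPtAux.tn_zero⟩

theorem toPt_val (F : FormalGroup (Ob K)) {a : Ob K} (ha : ‖a‖ < 1) :
    (toPt F a).val = a := by
  rw [toPt, dif_pos ha, mkPt_val]

theorem FPt.norm_lt (F : FormalGroup (Ob K)) (a : FPt F) : ‖a.val‖ < 1 := (Ob_tn_iff a.val).1 a.tn

variable (p) in
/-- the automorphism `x ↦ x^{p^k}`, `k ∈ ℤ`, of the perfect ring `Ob K` -/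
def fz (k : ℤ) : Ob K ≃+* Ob K := (frobeniusEquiv (Ob K) p) ^ k

theorem fz_zero : (fz p 0 : Ob K ≃+* Ob K) = RingEquiv.refl (Ob K) := by
  rw [fz, zpow_zero]; rfl

theorem fz_add (j k : ℤ) (x : Ob K) : fz p (j + k) x = fz p j (fz p k x) := by
  rw [fz, zpow_add]; rfl

theorem fz_natCast (k : ℕ) (x : Ob K) : fz p (k : ℤ) x = x ^ p ^ k := by
  induction k with
  | zero => rw [Nat.cast_zero, fz_zero]; simp
  | succ k ih =>
    rw [Nat.cast_succ, add_comm, fz_add, ih, fz, zpow_one, frobeniusEquiv_apply, frobenius_def,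
      ← pow_mul, pow_succ]

theorem fz_neg_pow (k : ℕ) (x : Ob K) : fz p (-(k : ℤ)) x ^ p ^ k = x := by
  rw [← fz_natCast, ← fz_add, add_neg_cancel, fz_zero]; rfl

theorem norm_fz_natCast (k : ℕ) (x : Ob K) : ‖fz p (k : ℤ) x‖ = ‖x‖ ^ p ^ k := by
  rw [fz_natCast]
  change ‖((x ^ p ^ k : Ob K) : K)‖ = ‖(x : K)‖ ^ p ^ k
  rw [Subring.coe_pow, norm_pow]

theorem norm_fz_neg (k : ℕ) (x : Ob K) : ‖fz p (-(k : ℤ)) x‖ ^ p ^ k = ‖x‖ := by
  rw [← norm_fz_natCast, ← fz_add, add_neg_cancel, fz_zero]; rfl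

theorem continuous_fz (k : ℤ) : Continuous (fz p k : Ob K ≃+* Ob K) := by
  have hp : p ≠ 0 := (Fact.out : p.Prime).ne_zero
  refine continuous_of_continuousAt_zero (fz p k : Ob K ≃+* Ob K).toAddMonoidHom ?_
  change Filter.Tendsto (fun x : Ob K => fz p k x) (𝓝 0) (𝓝 (fz p k 0))
  rw [map_zero]
  rw [tendsto_zero_iff_norm_tendsto_zero]
  obtain ⟨m, rfl | rfl⟩ := k.eq_nat_or_neg
  · simp only [norm_fz_natCast]
    have : Filter.Tendsto (fun x : Ob K => ‖x‖ ^ p ^ m) (𝓝 0) (𝓝 (‖(0 : Ob K)‖ ^ p ^ m)) :=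
      (continuous_norm.pow _).tendsto _
    rwa [norm_zero, zero_pow (pow_ne_zero _ hp)] at this
  · have h1 : ∀ x : Ob K, ‖fz p (-(m : ℤ)) x‖ = ‖x‖ ^ (((p ^ m : ℕ) : ℝ)⁻¹) := by
      intro x
      rw [← norm_fz_neg (p := p) m x, Real.pow_rpow_inv_natCast (norm_nonneg _)
        (pow_ne_zero _ hp)]
    simp only [h1]
    have hpos : (0 : ℝ) < ((p ^ m : ℕ) : ℝ)⁻¹ := by
      have : 0 < p ^ m := pow_pos (Fact.out : p.Prime).pos m
      positivity
    have : Filter.Tendsto (fun x : Ob K => ‖x‖ ^ (((p ^ m : ℕ) : ℝ)⁻¹)) (𝓝 0)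
        (𝓝 (‖(0 : Ob K)‖ ^ (((p ^ m : ℕ) : ℝ)⁻¹))) :=
      (Continuous.rpow_const continuous_norm (fun x => Or.inr hpos.le)).tendsto _
    rwa [norm_zero, Real.zero_rpow hpos.ne'] at this

variable {n j : ℕ}

theorem HO_map_fz (k : ℤ) :
    (HO p n j (Ob K)).map (fz p k : Ob K ≃+* Ob K).toRingHom = HO p n j (Ob K) := by
  rw [HO, hz_map]
  congr 1
  funext i
  rw [sp]
  split_ifs <;> simp

/-- `z ↦ z^{p^k}`, `k ∈ ℤ`, on the points of the Honda laws -/
def nfr (k : ℤ) : FPt (HO p n j (Ob K)) →+ FPt (HO p n j (Ob K)) :=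
  FPt.baseChange (fz p k : Ob K ≃+* Ob K).toRingHom (continuous_fz k) (HO_map_fz k)

@[simp] theorem nfr_val (k : ℤ) (z : FPt (HO p n j (Ob K))) : (nfr k z).val = fz p k z.val := rfl

theorem nfr_add (k l : ℤ) (z : FPt (HO p n j (Ob K))) : nfr (k + l) z = nfr k (nfr l z) := by
  apply FPt.ext; simp only [nfr_val, fz_add]

theorem nfr_zero (z : FPt (HO p n j (Ob K))) : nfr 0 z = z := by
  apply FPt.ext; rw [nfr_val, fz_zero]; rfl

end general

/-- points of height exactly `h` with values in the unit ball of `K` -/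
structure HPoint (p : ℕ) [Fact p.Prime] (n h : ℕ) (K : Type) [NontriviallyNormedField K]
    [IsUltrametricDist K] where
  X : LTRing p n →+* Ob K
  small : ∀ a, LTRing.residue p n a = 0 → ‖X a‖ < 1
  kill : ∀ a ∈ II p n h, X a = 0
  ne : X (uu p n h) ≠ 0

variable {p : ℕ} [Fact p.Prime] {n h : ℕ}
variable {K : Type} [NontriviallyNormedField K] [IsUltrametricDist K] [CompleteSpace K]
  [IsAlgClosed K] [CharP K p]

namespace HPoint

variable (P : HPoint p n h K)

/-- The law of the point. -/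
abbrev F : FormalGroup (Ob K) := (H1 p n).map P.X

instance : P.F.IsComm := by
  rw [F, H1, hz_map]; infer_instance

/-- `P.F` is the Hazewinkel law at the point. -/
theorem F_eq : P.F = hz p n (fun i => P.X (upt p n i)) := by
  rw [F, H1, hz_map]

/-- the size of the point: the maximum of the `‖X u_j‖`, `1 ≤ j < n`; it is `< 1` and `> 0`. -/
def c : ℝ := ⨆ j : Fin (n + 1), if (1 ≤ (j : ℕ) ∧ (j : ℕ) < n) then ‖P.X (upt p n j)‖ else 0

end HPoint

/-- `ι` is the embedding of the residue field induced by the point -/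
def IsIota (P : HPoint p n h K) (ι : GaloisField p n →+* Ob K) : Prop :=
  ∀ w : WittVector p (GaloisField p n), P.X (MvPowerSeries.C w) = ι (WittVector.constantCoeff w)

/-- `ρ : N → P.F`, the universal cover map. -/
structure IsRho (P : HPoint p n h K) (ρ : FPt (HO p n n (Ob K)) →+ FPt P.F) : Prop where
  near : ∀ z, ‖(ρ z).val - z.val‖ ≤ P.c

/-- `t_1, …, t_r` in the kernel of `ρ`, independent mod `p`. -/
structure IsTBasis (P : HPoint p n h K) (ρ : FPt (HO p n n (Ob K)) →+ FPt P.F)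
    (t : Fin (n - h) → FPt (HO p n n (Ob K))) : Prop where
  mem : ∀ l, ρ (t l) = 0
  indep : ∀ a : Fin (n - h) → ℤ, (∃ z, ρ z = 0 ∧ ∑ l, a l • t l = (p : ℤ) • z) →
    ∀ l, (p : ℤ) ∣ a l

/-- the level points `κ^i_l = ρ(t_l^{q^{-i}})^{Q^i}` -/
def kap (P : HPoint p n h K) (ρ : FPt (HO p n n (Ob K)) →+ FPt P.F)
    (t : Fin (n - h) → FPt (HO p n n (Ob K))) (i : ℕ) (l : Fin (n - h)) : Ob K :=
  (ρ (nfr (-((n * i : ℕ) : ℤ)) (t l))).val ^ p ^ (h * i)

/-- `A : FPt (HO n) →+ FPt (HO n)` is the action (through `ι`) of an endomorphism of `Fn` over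
`k = F_{p^n}`. -/
def IsAct (ι : GaloisField p n →+* Ob K)
    (A : FPt (HO p n n (Ob K)) →+ FPt (HO p n n (Ob K))) : Prop :=
  ∃ α : PowerSeries (GaloisField p n), IsFGHom (Fn p n) (Fn p n) α ∧
    ∀ z, (A z).val = ev₁ z.val (α.map ι)

/-- A marked point. -/
structure Mk (p : ℕ) [Fact p.Prime] (n h : ℕ) (K : Type) [NontriviallyNormedField K]
    [IsUltrametricDist K] [CompleteSpace K] [IsAlgClosed K] [CharP K p]
    (ι : GaloisField p n →+* Ob K) where
  P : HPoint p n h K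
  hι : IsIota P ι
  ρ : FPt (HO p n n (Ob K)) →+ FPt P.F
  hρ : IsRho P ρ
  t : Fin (n - h) → FPt (HO p n n (Ob K))
  ht : IsTBasis P ρ t

/-- `y = x ∘ φ_g` with the marking transported along `g`. -/
structure OrbBy {ι : GaloisField p n →+* Ob K} (M : ℕ) (g : PowerSeries (GaloisField p n))
    (x y : Mk p n h K ι) : Prop where
  aut : IsFGAut (Fn p n) g
  cong : ∀ i : ℕ, i < M → PowerSeries.coeff i g = PowerSeries.coeff i PowerSeries.X
  /-- the map of points, and the isomorphism `lam : y.F → x.F` reducing to `g` -/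
  map : ∃ φ, IsStabilizerMap p n (H1 p n) g φ ∧ (∀ a, y.P.X a = x.P.X (φ a)) ∧
    ∃ (lam : PowerSeries (Ob K)) (hl : IsFGHom y.P.F x.P.F lam),
      IsUnit (PowerSeries.coeff 1 lam) ∧
      (∀ m, ‖PowerSeries.coeff m lam - ι (PowerSeries.coeff m g)‖ ≤ x.P.c) ∧
      ∀ (z gz : FPt (HO p n n (Ob K))), gz.val = ev₁ z.val (g.map ι) →
        x.ρ gz = FPt.hom hl (y.ρ z)
  /-- the basis of `y` is `g⁻¹` applied to the basis of `x` -/
  basis : ∀ l, (x.t l).val = ev₁ (y.t l).val (g.map ι)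

/-- the orbit relation for automorphisms `≡ X mod X^M` -/
def Orb {ι : GaloisField p n →+* Ob K} (M : ℕ) (x y : Mk p n h K ι) : Prop :=
  ∃ g, OrbBy M g x y

/-- the set `EE` of the vectors `(ψ(ρ(A t_l)))_l`, `A ∈ 𝒟` -/
def EEset {ι : GaloisField p n →+* Ob K} (x : Mk p n h K ι) {ψ : PowerSeries (Ob K)}
    (hψ : IsFGHom x.P.F (HO p n h (Ob K)) ψ) : Set (Fin (n - h) → FPt (HO p n h (Ob K))) :=
  {e | ∃ A, IsAct ι A ∧ ∀ l, e l = FPt.hom hψ (x.ρ (A (x.t l)))}

/-- The approximation property (input of the descent, cf. `Descent.desc_compact`): for `N` there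
are `D ≥ N` and a polynomial over `K` with a nonzero linear coefficient which is
`O(‖e‖^{D Q^s})` at `e^{Q^s}` for all `e ∈ EE`, `s → ∞`. -/
def ApproxPoly (p h : ℕ) {r : ℕ} {G : FormalGroup (Ob K)} (EE : Set (Fin r → FPt G)) : Prop :=
  ∀ N : ℕ, ∃ D : ℕ, N ≤ D ∧ ∃ Φ : MvPolynomial (Fin r) K,
    (∃ l, Φ.coeff (Finsupp.single l 1) ≠ 0) ∧
    ∀ e ∈ EE, ∀ δ : ℝ, (∀ l, ‖(e l).val‖ ≤ δ) → ∃ B : ℝ, 0 ≤ B ∧ ∃ s₀ : ℕ, ∀ s, s₀ ≤ s →
      ‖MvPolynomial.eval (fun l => (((e l).val : Ob K) : K) ^ (p ^ h) ^ s) Φ‖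
        ≤ B * (δ ^ D) ^ (p ^ h) ^ s

/-- an additive map of `FPt (HO h)` given by an endomorphism with coefficients fixed by
`c ↦ c^{p^h}` -/
def IsQEnd (A : FPt (HO p n h (Ob K)) →+ FPt (HO p n h (Ob K))) : Prop :=
  ∃ φ : PowerSeries (Ob K), IsFGHom (HO p n h (Ob K)) (HO p n h (Ob K)) φ ∧
    (∀ m, PowerSeries.coeff m φ ^ p ^ h = PowerSeries.coeff m φ) ∧
    ∀ z, (A z).val = ev₁ z.val φ

/-- exact typical expansion `Θ(z) = ∑^{HO h}_{k ∈ ℤ} c_k z^{p^k}`, with `c_{k+n-h}^{p^h} = c_k` -/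
def HasExp (Θ : FPt (HO p n n (Ob K)) →+ FPt (HO p n h (Ob K))) : Prop :=
  ∃ c : ℤ → Ob K, (∀ k : ℤ, c (k + ((n - h : ℕ) : ℤ)) ^ p ^ h = c k) ∧ (∀ k, ‖c k‖ < 1) ∧
    ∀ z : FPt (HO p n n (Ob K)), Filter.Tendsto (fun s : ℕ =>
      (Θ z - ∑ k ∈ Finset.Ico (-(s : ℤ)) s, toPt (HO p n h (Ob K)) (c k * fz p k z.val)).val)
      Filter.atTop (𝓝 0)

end Crest.Agent.R227
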