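import Crest.Agent.R227.Defs

/-!
# R227 / Ev : evaluation of power series at topologically nilpotent elements (task EV)
-/

set_option autoImplicit false
set_option linter.unusedSectionVars false

noncomputable section

namespace Crest.Agent.R227

open MvPowerSeries Topology

/-! ## Evaluation -/

section ev

variable {S : Type*} [CommRing S] [UniformSpace S]

/-- evaluation of `f ∈ S[[X_σ]]` at `a : σ → S` (meaningful if the `a i` are topologically
nilpotent and `S` is a complete linearly topologised ring). -/
def ev {σ : Type*} (a : σ → S) (f : MvPowerSeries σ S) : S :=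
  MvPowerSeries.eval₂ (RingHom.id S) a f

variable [IsUniformAddGroup S] [IsTopologicalRing S] [IsLinearTopology S S] [CompleteSpace S]
  [T2Space S]

variable {σ : Type*} [Finite σ] {a : σ → S} (ha : ∀ i, IsTopologicallyNilpotent (a i))

include ha in
theorem hasEval_of_tn : HasEval a :=
  ⟨ha, by rw [Filter.cofinite_eq_bot]; exact Filter.tendsto_bot⟩

/-- evaluation as a ring homomorphism -/
def evHom {σ : Type*} [Finite σ] {a : σ → S} (ha : ∀ i, IsTopologicallyNilpotent (a i)) :
    MvPowerSeries σ S →+* S :=
  MvPowerSeries.eval₂Hom (φ := RingHom.id S) continuous_id (hasEval_of_tn ha)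

theorem evHom_apply (f : MvPowerSeries σ S) : evHom ha f = ev a f := by
  rw [evHom, coe_eval₂Hom, ev]

include ha in
theorem ev_add (f g : MvPowerSeries σ S) : ev a (f + g) = ev a f + ev a g := by
  simp only [← evHom_apply ha, map_add]

include ha in
theorem ev_mul (f g : MvPowerSeries σ S) : ev a (f * g) = ev a f * ev a g := by
  simp only [← evHom_apply ha, map_mul]

include ha in
theorem ev_neg (f : MvPowerSeries σ S) : ev a (-f) = -ev a f := by
  simp only [← evHom_apply ha, map_neg]

include ha in
theorem ev_sub (f g : MvPowerSeries σ S) : ev a (f - g) = ev a f - ev a g := by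
  simp only [← evHom_apply ha, map_sub]

include ha in
theorem ev_pow (f : MvPowerSeries σ S) (k : ℕ) : ev a (f ^ k) = ev a f ^ k := by
  simp only [← evHom_apply ha, map_pow]

include ha in
theorem ev_zero : ev a (0 : MvPowerSeries σ S) = 0 := by
  simp only [← evHom_apply ha, map_zero]

include ha in
theorem ev_one : ev a (1 : MvPowerSeries σ S) = 1 := by
  simp only [← evHom_apply ha, map_one]

include ha in
theorem ev_C (c : S) : ev a (C c : MvPowerSeries σ S) = c := by
  rw [ev, eval₂_C, RingHom.id_apply]

include ha in
theorem ev_X (i : σ) : ev a (X i : MvPowerSeries σ S) = a i := by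
  rw [ev, eval₂_X]

include ha in
/-- evaluation of polynomials -/
theorem ev_coe (f : MvPolynomial σ S) : ev a (f : MvPowerSeries σ S) = MvPolynomial.eval a f := by
  rw [ev, eval₂_coe, MvPolynomial.eval₂_id]

section cont

open scoped MvPowerSeries.WithPiTopology

include ha in
theorem continuous_ev : Continuous (fun f : MvPowerSeries σ S => ev a f) :=
  continuous_eval₂ (φ := RingHom.id S) continuous_id (hasEval_of_tn ha)

include ha in
theorem hasSum_ev' (f : MvPowerSeries σ S) :
    HasSum (fun d : σ →₀ ℕ => coeff d f * (d.prod fun i e => a i ^ e)) (ev a f) :=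
  hasSum_eval₂ (φ := RingHom.id S) continuous_id (hasEval_of_tn ha) f

/-- a continuous map on power series is determined by its values on polynomials -/
theorem eq_of_eq_on_poly {T : Type*} [TopologicalSpace T] [T2Space T] {u v : MvPowerSeries σ S → T}
    (hu : Continuous u) (hv : Continuous v) (h : ∀ f : MvPolynomial σ S, u f = v f) : u = v := by
  refine Continuous.ext_on (WithPiTopology.denseRange_toMvPowerSeries (σ := σ) (R := S)) hu hv ?_
  rintro _ ⟨f, rfl⟩
  exact h f

/-- substitution of series without constant term is continuous -/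
theorem continuous_subst_pi {σ τ : Type*} [Finite τ] (g : τ → MvPowerSeries σ S)
    (hg : HasSubst g) :
    Continuous (fun f : MvPowerSeries τ S => MvPowerSeries.subst g f) := by
  refine continuous_pi fun e => ?_
  have hfin := coeff_subst_finite (R := S) hg (fun _ => (1 : S) : MvPowerSeries τ S) e
  have hfin' : {d : τ →₀ ℕ | coeff e (d.prod fun s e => g s ^ e) ≠ 0}.Finite := by
    refine hfin.subset ?_
    intro d hd
    simp only [Function.mem_support]
    change coeff d (fun _ => (1 : S) : MvPowerSeries τ S) • _ ≠ 0
    have : coeff d (fun _ => (1 : S) : MvPowerSeries τ S) = 1 := rfl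
    rw [this, one_smul]
    exact hd
  have key : (fun f : MvPowerSeries τ S => coeff e (MvPowerSeries.subst g f)) =
      fun f : MvPowerSeries τ S => ∑ d ∈ hfin'.toFinset,
        coeff d f * coeff e (d.prod fun s e => g s ^ e) := by
    funext f
    rw [coeff_subst hg, finsum_eq_sum_of_support_subset (s := hfin'.toFinset)]
    · simp only [smul_eq_mul]
    · intro d hd
      simp only [Function.mem_support] at hd
      simp only [Set.Finite.coe_toFinset, Set.mem_ofPred_eq]
      intro h0
      exact hd (by rw [h0, smul_zero])
  change Continuous (fun f : MvPowerSeries τ S => coeff e (MvPowerSeries.subst g f))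
  rw [key]
  refine continuous_finsetSum _ fun d _ => ?_
  exact (WithPiTopology.continuous_coeff S d).mul continuous_const

end cont

include ha in
/-- the value of a series without constant term is topologically nilpotent; more generally if the
constant coefficient is topologically nilpotent -/
theorem ev_tn (f : MvPowerSeries σ S) (hf : IsTopologicallyNilpotent (constantCoeff f)) :
    IsTopologicallyNilpotent (ev a f) := by
  have h1 : ev a f = ev a (f - C (constantCoeff f)) + constantCoeff f := by
    rw [ev_sub ha, ev_C ha, sub_add_cancel]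
  rw [h1]
  refine IsTopologicallyNilpotent.add ?_ hf
  let _ := MvPowerSeries.WithPiTopology.instTopologicalSpace (σ := σ) (R := S)
  have h2 : IsTopologicallyNilpotent (f - C (constantCoeff f)) :=
    WithPiTopology.isTopologicallyNilpotent_of_constantCoeff_zero (by simp)
  have h3 := h2.map (φ := evHom ha) (by
    have : (evHom ha : MvPowerSeries σ S → S) = fun f => ev a f := by
      funext f; rw [evHom_apply]
    rw [this]; exact continuous_ev ha)
  rwa [evHom_apply] at h3

include ha in
/-- evaluation commutes with substitution -/
theorem ev_subst {τ : Type*} [Finite τ] (g : τ → MvPowerSeries σ S)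
    (hg : ∀ i, constantCoeff (g i) = 0) (f : MvPowerSeries τ S) :
    ev a (MvPowerSeries.subst g f) = ev (fun i => ev a (g i)) f := by
  have hgs : HasSubst g := hasSubst_of_constantCoeff_zero hg
  have hb : ∀ i, IsTopologicallyNilpotent (ev a (g i)) := fun i =>
    ev_tn ha (g i) (by rw [hg i]; exact IsTopologicallyNilpotent.zero)
  let _ := MvPowerSeries.WithPiTopology.instTopologicalSpace (σ := τ) (R := S)
  let _ := MvPowerSeries.WithPiTopology.instTopologicalSpace (σ := σ) (R := S)
  have h1 : Continuous (fun f : MvPowerSeries τ S => ev a (MvPowerSeries.subst g f)) :=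
    (continuous_ev ha).comp (continuous_subst_pi g hgs)
  have h2 := eq_of_eq_on_poly h1 (continuous_ev hb) (fun p => by
    rw [ev_coe hb, subst_coe]
    induction p using MvPolynomial.induction_on with
    | C c =>
      rw [MvPolynomial.algHom_C, MvPolynomial.eval_C, MvPowerSeries.algebraMap_apply]
      exact ev_C ha _
    | add p q hp hq => rw [map_add, map_add, ev_add ha, hp, hq]
    | mul_X p i hp => rw [map_mul, map_mul, ev_mul ha, hp, MvPolynomial.aeval_X,
        MvPolynomial.eval_X])
  exact congrFun h2 f

include ha in
/-- evaluation commutes with continuous ring homomorphisms -/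
theorem map_ev {S' : Type*} [CommRing S'] [UniformSpace S'] [IsUniformAddGroup S']
    [IsTopologicalRing S'] [IsLinearTopology S' S'] [CompleteSpace S'] [T2Space S']
    (φ : S →+* S') (hφ : Continuous φ) (f : MvPowerSeries σ S) :
    φ (ev a f) = ev (fun i => φ (a i)) (f.map φ) := by
  have hb : ∀ i, IsTopologicallyNilpotent (φ (a i)) := fun i => (ha i).map hφ
  let _ := MvPowerSeries.WithPiTopology.instTopologicalSpace (σ := σ) (R := S)
  let _ := MvPowerSeries.WithPiTopology.instTopologicalSpace (σ := σ) (R := S')
  have hm : Continuous (fun f : MvPowerSeries σ S => f.map φ) := by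
    refine continuous_pi fun e => ?_
    have : (fun f : MvPowerSeries σ S => coeff e (f.map φ)) =
        fun f : MvPowerSeries σ S => φ (coeff e f) := by
      funext f; rw [coeff_map]
    change Continuous (fun f : MvPowerSeries σ S => coeff e (f.map φ))
    rw [this]
    exact hφ.comp (WithPiTopology.continuous_coeff S e)
  have h2 := eq_of_eq_on_poly (hφ.comp (continuous_ev ha)) ((continuous_ev hb).comp hm) (fun p => by
    simp only [Function.comp_apply]
    rw [ev_coe ha]
    induction p using MvPolynomial.induction_on with
    | C c => simp [ev_C hb]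
    | add p q hp hq =>
      rw [map_add, map_add, MvPolynomial.coe_add, map_add, ev_add hb, hp, hq]
    | mul_X p i hp =>
      rw [map_mul, map_mul, MvPolynomial.coe_mul, map_mul, ev_mul hb, hp, MvPolynomial.coe_X,
        map_X, ev_X hb, MvPolynomial.eval_X])
  exact congrFun h2 f

include ha in
/-- `f(a) - f(b)` lies in any closed ideal containing all `a i - b i`. -/
theorem ev_sub_ev_mem {b : σ → S} (hb : ∀ i, IsTopologicallyNilpotent (b i)) (I : Ideal S)
    (hI : IsClosed (I : Set S)) (hab : ∀ i, a i - b i ∈ I) (f : MvPowerSeries σ S) :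
    ev a f - ev b f ∈ I := by
  let _ := MvPowerSeries.WithPiTopology.instTopologicalSpace (σ := σ) (R := S)
  have hc : Continuous (fun f : MvPowerSeries σ S => ev a f - ev b f) :=
    (continuous_ev ha).sub (continuous_ev hb)
  have hcl : IsClosed {f : MvPowerSeries σ S | ev a f - ev b f ∈ I} := hI.preimage hc
  have hd := (WithPiTopology.denseRange_toMvPowerSeries (σ := σ) (R := S))
  have : f ∈ closure (Set.range (MvPolynomial.toMvPowerSeries (σ := σ) (R := S))) := hd f
  refine closure_minimal ?_ hcl this
  rintro _ ⟨p, rfl⟩
  change ev a (p : MvPowerSeries σ S) - ev b (p : MvPowerSeries σ S) ∈ I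
  rw [ev_coe ha, ev_coe hb, ← Ideal.Quotient.eq]
  have hab' : (fun i => Ideal.Quotient.mk I (a i)) = fun i => Ideal.Quotient.mk I (b i) := by
    funext i; exact Ideal.Quotient.eq.mpr (hab i)
  rw [← MvPolynomial.eval₂_id, ← MvPolynomial.eval₂_id, ← MvPolynomial.coe_eval₂Hom,
    ← MvPolynomial.coe_eval₂Hom]
  rw [MvPolynomial.map_eval₂Hom, MvPolynomial.map_eval₂Hom, hab']

include ha in
/-- if all coefficients of `f` lie in a closed ideal, so does `f(a)` -/
theorem ev_mem_of_coeff (I : Ideal S) (hI : IsClosed (I : Set S)) (f : MvPowerSeries σ S)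
    (hf : ∀ d, coeff d f ∈ I) : ev a f ∈ I := by
  have hs := hasSum_ev' ha f
  refine hI.mem_of_tendsto hs (Filter.Eventually.of_forall fun s => ?_)
  exact I.sum_mem fun d _ => I.mul_mem_right _ (hf d)

/-- one variable version -/
abbrev ev₁ {S : Type*} [CommRing S] [UniformSpace S] (a : S) (f : PowerSeries S) : S :=
  ev (fun _ : Unit => a) f

/-- evaluating a one-variable substitution -/
theorem ev₁_subst {a : S} (ha : IsTopologicallyNilpotent a) (g : PowerSeries S)
    (hg : PowerSeries.constantCoeff g = 0) (f : PowerSeries S) :
    ev₁ a (PowerSeries.subst g f) = ev₁ (ev₁ a g) f := by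
  exact ev_subst (a := fun _ : Unit => a) (fun _ => ha) (fun _ : Unit => g) (fun _ => hg) f

include ha in
theorem ev_subst₁ (g : MvPowerSeries σ S)
    (hg : constantCoeff g = 0) (f : PowerSeries S) :
    ev a (PowerSeries.subst g f) = ev₁ (ev a g) f := by
  exact ev_subst ha (fun _ : Unit => g) (fun _ => hg) f

end ev

end Crest.Agent.R227
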