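import Crest.Agent.R227.Ball
import Crest.Agent.R227.Ev

/-!
# R227 / Est : norm estimates for evaluation on the ball (task EST)
-/

set_option autoImplicit false

noncomputable section

namespace Crest.Agent.R227

open MvPowerSeries Topology

/-! ## estimates on the ball -/

section est

variable {K : Type*} [NormedField K] [IsUltrametricDist K] [CompleteSpace K]

/-- the ideal of elements of norm `≤ r` -/
def normIdeal (K : Type*) [NormedField K] [IsUltrametricDist K] (r : ℝ) (hr : 0 ≤ r) :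
    Ideal (Ob K) where
  carrier := {x | ‖(x : K)‖ ≤ r}
  add_mem' := by
    intro a b ha hb
    simp only [Set.mem_ofPred_eq, Subring.coe_add] at *
    exact (IsUltrametricDist.norm_add_le_max _ _).trans (max_le ha hb)
  zero_mem' := by simpa using hr
  smul_mem' := by
    intro c x hx
    simp only [Set.mem_ofPred_eq, smul_eq_mul, Subring.coe_mul, norm_mul] at *
    have hc : ‖(c : K)‖ ≤ 1 := c.2
    calc ‖(c : K)‖ * ‖(x : K)‖ ≤ 1 * r := mul_le_mul hc hx (norm_nonneg _) zero_le_one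
      _ = r := one_mul r

omit [CompleteSpace K] in
theorem mem_normIdeal (r : ℝ) (hr : 0 ≤ r) (x : Ob K) : x ∈ normIdeal K r hr ↔ ‖x‖ ≤ r :=
  Iff.rfl

omit [CompleteSpace K] in
theorem isClosed_normIdeal (r : ℝ) (hr : 0 ≤ r) :
    IsClosed (normIdeal K r hr : Set (Ob K)) := by
  have : (normIdeal K r hr : Set (Ob K)) = (fun x : Ob K => ‖x‖) ⁻¹' Set.Iic r := by
    ext x; rfl
  rw [this]
  exact isClosed_Iic.preimage continuous_norm

omit [CompleteSpace K] in
theorem Ob_norm_le_one (x : Ob K) : ‖x‖ ≤ 1 := x.2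

variable {σ : Type*} [Finite σ] {a : σ → Ob K} (ha : ∀ i, ‖a i‖ < 1)

include ha in
theorem norm_ev_sub_le {b : σ → Ob K} (hb : ∀ i, ‖b i‖ < 1) (r : ℝ)
    (hr : 0 ≤ r) (hab : ∀ i, ‖a i - b i‖ ≤ r) (f : MvPowerSeries σ (Ob K)) :
    ‖ev a f - ev b f‖ ≤ r := by
  rw [← mem_normIdeal r hr]
  exact ev_sub_ev_mem (fun i => (Ob_tn_iff _).2 (ha i)) (fun i => (Ob_tn_iff _).2 (hb i)) _
    (isClosed_normIdeal r hr) (fun i => (mem_normIdeal r hr _).2 (hab i)) f

include ha in
/-- the value is the sum of the series -/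
theorem hasSum_ev (f : MvPowerSeries σ (Ob K)) :
    HasSum (fun d : σ →₀ ℕ => coeff d f * (d.prod fun i e => a i ^ e)) (ev a f) :=
  hasSum_eval₂ (φ := RingHom.id (Ob K)) continuous_id
    (hasEval_of_tn fun i => (Ob_tn_iff _).2 (ha i)) f

/-- if all coefficients of degree `< D` vanish then `‖f(a)‖ ≤ r ^ D`. -/
theorem norm_ev_le_pow (ha : ∀ i, ‖a i‖ < 1) (r : ℝ) (hr : 0 ≤ r) (har : ∀ i, ‖a i‖ ≤ r) (D : ℕ)
    (f : MvPowerSeries σ (Ob K)) (hf : ∀ d : σ →₀ ℕ, d.degree < D → coeff d f = 0) :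
    ‖ev a f‖ ≤ r ^ D := by
  have hrD : 0 ≤ r ^ D := pow_nonneg hr D
  rcases le_or_gt 1 r with h1 | h1
  · exact (Ob_norm_le_one _).trans (one_le_pow₀ h1)
  rw [← mem_normIdeal _ hrD]
  refine (isClosed_normIdeal _ hrD).mem_of_tendsto (hasSum_ev ha f)
    (Filter.Eventually.of_forall fun s => ?_)
  refine Ideal.sum_mem _ fun d _ => ?_
  rcases lt_or_ge d.degree D with hd | hd
  · rw [hf d hd, zero_mul]; exact Ideal.zero_mem _
  · refine Ideal.mul_mem_left _ _ ?_
    rw [mem_normIdeal]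
    have key : ‖(d.prod fun i e => a i ^ e)‖ ≤ r ^ d.degree := by
      have h2 : ‖(d.prod fun i e => a i ^ e)‖ = d.prod fun i e => ‖a i‖ ^ e := by
        change ‖((d.prod fun i e => a i ^ e : Ob K) : K)‖ = _
        rw [Finsupp.prod, Finsupp.prod, ← Subring.coe_subtype, map_prod, norm_prod]
        refine Finset.prod_congr rfl fun i _ => ?_
        rw [map_pow, norm_pow]
        rfl
      rw [h2, Finsupp.degree_apply, ← Finset.prod_pow_eq_pow_sum]
      exact Finset.prod_le_prod (fun i _ => pow_nonneg (norm_nonneg _) _)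
        fun i _ => pow_le_pow_left₀ (norm_nonneg _) (har i) _
    exact key.trans (pow_le_pow_of_le_one hr h1.le hd)

include ha in
theorem norm_ev_le_of_coeff (r : ℝ) (hr : 0 ≤ r) (f : MvPowerSeries σ (Ob K))
    (hf : ∀ d : σ →₀ ℕ, ‖coeff d f‖ ≤ r) : ‖ev a f‖ ≤ r := by
  rw [← mem_normIdeal r hr]
  exact ev_mem_of_coeff (fun i => (Ob_tn_iff _).2 (ha i)) _ (isClosed_normIdeal r hr) f
    fun d => (mem_normIdeal r hr _).2 (hf d)

include ha in
/-- Frobenius: `f(a)^p = f^{(p)}(a^p)` -/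
theorem ev_frob (p : ℕ) [Fact p.Prime] [CharP K p] (f : MvPowerSeries σ (Ob K)) :
    ev a f ^ p = ev (fun i => a i ^ p) (f.map (frobenius (Ob K) p)) := by
  have h := map_ev (fun i => (Ob_tn_iff _).2 (ha i)) (frobenius (Ob K) p)
    (by
      have : ⇑(frobenius (Ob K) p) = fun x => x ^ p := by ext x; rfl
      rw [this]; exact continuous_pow p) f
  simpa only [frobenius_def] using h

theorem infinite_Ob {K : Type*} [NontriviallyNormedField K] [IsUltrametricDist K] :
    Infinite (Ob K) := by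
  obtain ⟨x, hx0, hx1⟩ := NormedField.exists_norm_lt_one K
  let y : Ob K := ⟨x, hx1.le⟩
  refine Infinite.of_injective (fun n : ℕ => y ^ n) fun m n hmn => ?_
  have h : ‖x‖ ^ m = ‖x‖ ^ n := by
    have := congrArg (fun z : Ob K => ‖(z : K)‖) hmn
    simpa [y, Subring.coe_pow, norm_pow] using this
  exact (pow_right_injective₀ hx0 hx1.ne) h

theorem eval_const_mul_of_isHomogeneous {R : Type*} [CommRing R] {σ : Type*} [Finite σ]
    (P : MvPolynomial σ R) (D : ℕ) (hP : ∀ d : σ →₀ ℕ, MvPolynomial.coeff d P ≠ 0 → d.degree = D)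
    (t : R) (b : σ → R) :
    MvPolynomial.eval (fun i => t * b i) P = t ^ D * MvPolynomial.eval b P := by
  rw [MvPolynomial.eval_eq, MvPolynomial.eval_eq, Finset.mul_sum]
  refine Finset.sum_congr rfl fun d hd => ?_
  have := hP d (MvPolynomial.mem_support_iff.1 hd)
  simp only [mul_pow, Finset.prod_mul_distrib]
  rw [Finset.prod_pow_eq_pow_sum, ← this, Finsupp.degree_apply]
  ring

/-- if `f` vanishes at all points of the open unit polydisc then `f = 0` (`K` nontrivially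
normed). -/
theorem eq_zero_of_ev_eq_zero {K : Type*} [NontriviallyNormedField K] [IsUltrametricDist K]
    [CompleteSpace K] {σ : Type*} [Finite σ] (f : MvPowerSeries σ (Ob K))
    (hf : ∀ a : σ → Ob K, (∀ i, ‖a i‖ < 1) → ev a f = 0) : f = 0 := by
  classical
  by_contra hne
  obtain ⟨d0, hd0⟩ : ∃ d, coeff d f ≠ 0 := by
    by_contra h; push Not at h; exact hne (MvPowerSeries.ext fun d => by simpa using h d)
  have hex : ∃ D : ℕ, ∃ d : σ →₀ ℕ, d.degree = D ∧ coeff d f ≠ 0 := ⟨_, d0, rfl, hd0⟩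
  let D := Nat.find hex
  obtain ⟨d1, hd1, hd1'⟩ := Nat.find_spec hex
  have hmin : ∀ d : σ →₀ ℕ, d.degree < D → coeff d f = 0 := by
    intro d hd
    by_contra h
    exact Nat.find_min hex hd ⟨d, rfl, h⟩
  let P : MvPolynomial σ (Ob K) := truncTotal (D + 1) f
  have hPcoeff : ∀ d : σ →₀ ℕ, MvPolynomial.coeff d P = if d.degree < D + 1 then coeff d f else 0 :=
    fun d => coeff_truncTotal_eq_ite f
  have hPhom : ∀ d : σ →₀ ℕ, MvPolynomial.coeff d P ≠ 0 → d.degree = D := by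
    intro d hd
    rw [hPcoeff] at hd
    split_ifs at hd with h
    · by_contra hne'
      exact hd (hmin d (by omega))
    · exact absurd rfl hd
  have hPne : P ≠ 0 := by
    intro h
    have := hPcoeff d1
    rw [h, if_pos (by rw [hd1]; exact Nat.lt_succ_self _)] at this
    exact hd1' (by simpa using this.symm)
  have := infinite_Ob (K := K)
  obtain ⟨b, hb⟩ : ∃ b : σ → Ob K, MvPolynomial.eval b P ≠ 0 := by
    by_contra h
    push Not at h
    exact hPne (MvPolynomial.funext fun x => by simpa using h x)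
  set c : Ob K := MvPolynomial.eval b P with hc
  have hcpos : 0 < ‖(c : K)‖ := norm_pos_iff.2 fun h => hb (Subtype.ext h)
  obtain ⟨t, ht0, htc⟩ := NormedField.exists_norm_lt K (show 0 < ‖(c : K)‖ from hcpos)
  have ht1 : ‖t‖ < 1 := htc.trans_le (Ob_norm_le_one c)
  let t' : Ob K := ⟨t, ht1.le⟩
  have ht' : ‖t'‖ = ‖t‖ := rfl
  have htb : ∀ i, ‖t' * b i‖ ≤ ‖t‖ := by
    intro i
    change ‖((t' * b i : Ob K) : K)‖ ≤ _
    rw [Subring.coe_mul, norm_mul]
    calc ‖t‖ * ‖(b i : K)‖ ≤ ‖t‖ * 1 := mul_le_mul_of_nonneg_left (b i).2 (norm_nonneg _)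
      _ = ‖t‖ := mul_one _
  have hlt : ∀ i, ‖t' * b i‖ < 1 := fun i => (htb i).trans_lt ht1
  have htn : ∀ i, IsTopologicallyNilpotent (t' * b i) := fun i => (Ob_tn_iff _).2 (hlt i)
  have h0 := hf (fun i => t' * b i) hlt
  have h1 : ‖ev (fun i => t' * b i) (f - (P : MvPowerSeries σ (Ob K)))‖ ≤ ‖t‖ ^ (D + 1) := by
    refine norm_ev_le_pow hlt ‖t‖ (norm_nonneg _) htb (D + 1) _ fun d hd => ?_
    rw [map_sub, MvPolynomial.coeff_coe, hPcoeff, if_pos hd, sub_self]
  rw [ev_sub htn, h0, zero_sub, norm_neg, ev_coe htn,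
    eval_const_mul_of_isHomogeneous P D hPhom] at h1
  have h2 : ‖t‖ ^ D * ‖(c : K)‖ ≤ ‖t‖ ^ (D + 1) := by
    have h3 : ‖((t' ^ D * MvPolynomial.eval b P : Ob K) : K)‖ ≤ ‖t‖ ^ (D + 1) := h1
    rwa [Subring.coe_mul, Subring.coe_pow, norm_mul, norm_pow] at h3
  rw [pow_succ] at h2
  exact absurd (le_of_mul_le_mul_left h2 (pow_pos ht0 D)) (not_le.2 htc)

end est

end Crest.Agent.R227
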