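import Crest.Prelude.Def_LubinTate

/-!
# R227 / LTComplete

* `mem_powX_iff` : `f ∈ (X)^N ↔` all coefficients of degree `< N` vanish (`σ` finite).
* `mem_pow_iff`  : `f ∈ (I, X)^N ↔ ∀ e, coeff e f ∈ I ^ (N - |e|)` (`σ` finite).
* `isAdicComplete_mv` : if `A` is `I`-adically complete, `A[[X]]` is `(I, X)`-adically complete.
* `isAdicComplete_maximalIdeal_mv` : if `A` is local and complete, so is `A[[X]]`.
* facts about `LTRing p n` : `isAdicComplete_LTRing`, `isNoetherianRing_LTRing`, `residue_surjective`,
  `ker_residue`, `residue_comp_algebraMap`.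
-/

set_option autoImplicit false

noncomputable section

namespace Crest.Agent.R227

open MvPowerSeries Finsupp

section General

variable {σ : Type*} [Finite σ] {A : Type*} [CommRing A]

/-- the ideal `(X)` -/
abbrev idX (σ A : Type*) [CommRing A] : Ideal (MvPowerSeries σ A) :=
  Ideal.span (Set.range (X : σ → MvPowerSeries σ A))

/-- the ideal `(I, X)` -/
abbrev idIX (σ : Type*) {A : Type*} [CommRing A] (I : Ideal A) : Ideal (MvPowerSeries σ A) :=
  I.map (C : A →+* MvPowerSeries σ A) ⊔ idX σ A

omit [Finite σ] in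
theorem monomial_mem_powX (s : σ →₀ ℕ) : monomial s (1 : A) ∈ idX σ A ^ s.degree := by
  induction s using Finsupp.induction with
  | zero => simp
  | single_add i k f hi hk ih =>
    have h1 : (Finsupp.single i k + f).degree = k + f.degree := by
      rw [map_add, Finsupp.degree_single]
    rw [h1, pow_add]
    have h2 : monomial (Finsupp.single i k + f) (1 : A) = X i ^ k * monomial f (1 : A) := by
      rw [X_pow_eq, monomial_mul_monomial, one_mul]
    rw [h2]
    exact Ideal.mul_mem_mul (Ideal.pow_mem_pow (I := idX σ A) (Ideal.subset_span (Set.mem_range_self i)) k) ih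

/-- If all the coefficients of degree `< N` vanish, then `f ∈ (X)^N`. -/
theorem mem_powX_of_coeff (N : ℕ) (f : MvPowerSeries σ A)
    (hf : ∀ e : σ →₀ ℕ, e.degree < N → coeff e f = 0) : f ∈ idX σ A ^ N := by
  classical
  -- choose a sub-exponent of degree `N`
  have hch : ∀ e : σ →₀ ℕ, ∃ s : σ →₀ ℕ, N ≤ e.degree → (s ≤ e ∧ s.degree = N) := by
    intro e
    by_cases h : N ≤ e.degree
    · obtain ⟨g, hg, hg'⟩ := Finsupp.exists_le_degree_eq e N h
      exact ⟨g, fun _ => ⟨hg, hg'⟩⟩
    · exact ⟨0, fun h' => absurd h' h⟩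
  choose s hs using hch
  let S : Finset (σ →₀ ℕ) := (Finsupp.finite_of_degree_eq (σ := σ) N).toFinset
  have hS : ∀ t : σ →₀ ℕ, t ∈ S ↔ t.degree = N := by
    intro t; simp [S]
  let g : (σ →₀ ℕ) → MvPowerSeries σ A := fun t m => if s (m + t) = t then coeff (m + t) f else 0
  have hg : ∀ t m, coeff m (g t) = if s (m + t) = t then coeff (m + t) f else 0 := by
    intro t m; rfl
  have key : f = ∑ t ∈ S, monomial t (1 : A) * g t := by
    ext e
    rw [map_sum]
    by_cases h : N ≤ e.degree
    · obtain ⟨h1, h2⟩ := hs e h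
      rw [Finset.sum_eq_single (s e)]
      · rw [coeff_monomial_mul, if_pos h1, one_mul, hg, tsub_add_cancel_of_le h1, if_pos rfl]
      · intro t ht hte
        rw [coeff_monomial_mul]
        split_ifs with hle
        · rw [one_mul, hg, tsub_add_cancel_of_le hle, if_neg (fun hh => hte hh.symm)]
        · rfl
      · intro hne
        exact absurd ((hS _).2 h2) hne
    · rw [hf e (not_le.1 h)]
      symm
      apply Finset.sum_eq_zero
      intro t ht
      rw [coeff_monomial_mul, if_neg]
      intro hle
      apply h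
      rw [← (hS t).1 ht]
      exact Finsupp.degree_mono hle
  rw [key]
  refine Ideal.sum_mem _ fun t ht => Ideal.mul_mem_right _ _ ?_
  have := monomial_mem_powX (A := A) t
  rwa [(hS t).1 ht] at this

omit [Finite σ] in
/-- The ideal of series with `coeff e f ∈ I ^ (N - |e|)`. -/
def coeffIdeal (σ : Type*) {A : Type*} [CommRing A] (I : Ideal A) (N : ℕ) :
    Ideal (MvPowerSeries σ A) where
  carrier := {f | ∀ e : σ →₀ ℕ, coeff e f ∈ I ^ (N - e.degree)}
  zero_mem' := by intro e; simp
  add_mem' := by
    intro a b ha hb e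
    rw [map_add]
    exact Ideal.add_mem _ (ha e) (hb e)
  smul_mem' := by
    classical
    intro c f hf e
    rw [smul_eq_mul, coeff_mul]
    refine Ideal.sum_mem _ fun x hx => ?_
    rw [Finset.HasAntidiagonal.mem_antidiagonal] at hx
    refine Ideal.mul_mem_left _ _ (Ideal.pow_le_pow_right ?_ (hf x.2))
    have : x.2.degree ≤ e.degree := Finsupp.degree_mono (by rw [← hx]; exact le_add_self)
    omega

omit [Finite σ] in
theorem mem_coeffIdeal (I : Ideal A) (N : ℕ) (f : MvPowerSeries σ A) :
    f ∈ coeffIdeal σ I N ↔ ∀ e : σ →₀ ℕ, coeff e f ∈ I ^ (N - e.degree) := Iff.rfl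

omit [Finite σ] in
theorem coeffIdeal_mul (I : Ideal A) (M N : ℕ) :
    coeffIdeal σ I M * coeffIdeal σ I N ≤ coeffIdeal σ I (M + N) := by
  classical
  rw [Ideal.mul_le]
  intro f hf g hg e
  rw [coeff_mul]
  refine Ideal.sum_mem _ fun x hx => ?_
  rw [Finset.HasAntidiagonal.mem_antidiagonal] at hx
  have h1 : e.degree = x.1.degree + x.2.degree := by rw [← hx, map_add]
  have h2 := Ideal.mul_mem_mul (hf x.1) (hg x.2)
  rw [← pow_add] at h2
  exact Ideal.pow_le_pow_right (by omega) h2

omit [Finite σ] in
theorem idIX_le_coeffIdeal (I : Ideal A) : idIX σ I ≤ coeffIdeal σ I 1 := by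
  classical
  refine sup_le ?_ ?_
  · rw [Ideal.map_le_iff_le_comap]
    intro a ha e
    rw [coeff_C]
    split_ifs with h
    · subst h; simpa using ha
    · exact Ideal.zero_mem _
  · rw [Ideal.span_le]
    rintro _ ⟨i, rfl⟩ e
    rw [coeff_X]
    split_ifs with h
    · subst h; simp
    · exact Ideal.zero_mem _

omit [Finite σ] in
theorem coeff_mem_of_mem_pow (I : Ideal A) (N : ℕ) {f : MvPowerSeries σ A}
    (hf : f ∈ idIX σ I ^ N) (e : σ →₀ ℕ) : coeff e f ∈ I ^ (N - e.degree) := by
  have h : idIX σ I ^ N ≤ coeffIdeal σ I N := by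
    induction N with
    | zero =>
      intro g _ e
      simp
    | succ N ih =>
      rw [pow_succ]
      exact (Ideal.mul_mono (ih (Ideal.pow_le_pow_right (Nat.le_succ _) hf))
        (idIX_le_coeffIdeal I)).trans (coeffIdeal_mul I N 1)
  exact h hf e

/-- the description of the powers of `(I, X)` -/
theorem mem_pow_iff (I : Ideal A) (N : ℕ) (f : MvPowerSeries σ A) :
    f ∈ idIX σ I ^ N ↔ ∀ e : σ →₀ ℕ, coeff e f ∈ I ^ (N - e.degree) := by
  classical
  refine ⟨fun hf e => coeff_mem_of_mem_pow I N hf e, fun hf => ?_⟩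
  let S : Finset (σ →₀ ℕ) := (Finsupp.finite_of_degree_lt (σ := σ) N).toFinset
  have hS : ∀ t : σ →₀ ℕ, t ∈ S ↔ t.degree < N := by
    intro t; simp [S]
  have h1 : f - ∑ t ∈ S, monomial t (coeff t f) ∈ idX σ A ^ N := by
    apply mem_powX_of_coeff
    intro e he
    rw [map_sub, map_sum, Finset.sum_eq_single e]
    · rw [coeff_monomial_same, sub_self]
    · intro t _ hte
      rw [coeff_monomial_ne (Ne.symm hte)]
    · intro hne
      exact absurd ((hS e).2 he) hne
  have h2 : ∑ t ∈ S, monomial t (coeff t f) ∈ idIX σ I ^ N := by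
    refine Ideal.sum_mem _ fun t ht => ?_
    have ht' := (hS t).1 ht
    have h3 : monomial t (coeff t f) = C (coeff t f) * monomial t (1 : A) := by
      rw [← monomial_zero_eq_C_apply, monomial_mul_monomial, zero_add, mul_one]
    rw [h3]
    have h4 : C (coeff t f) ∈ idIX σ I ^ (N - t.degree) := by
      refine Ideal.pow_right_mono le_sup_left _ ?_
      rw [← Ideal.map_pow]
      exact Ideal.mem_map_of_mem _ (hf t)
    have h5 : monomial t (1 : A) ∈ idIX σ I ^ t.degree :=
      Ideal.pow_right_mono le_sup_right _ (monomial_mem_powX t)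
    have h6 := Ideal.mul_mem_mul h4 h5
    rwa [← pow_add, Nat.sub_add_cancel ht'.le] at h6
  have h3 := Ideal.add_mem _ (Ideal.pow_right_mono (le_sup_right : idX σ A ≤ idIX σ I) _ h1) h2
  simpa using h3

theorem mem_idIX_iff (I : Ideal A) (f : MvPowerSeries σ A) :
    f ∈ idIX σ I ↔ constantCoeff f ∈ I := by
  have := mem_pow_iff I 1 f
  rw [pow_one] at this
  rw [this]
  constructor
  · intro h
    simpa using h 0
  · intro h e
    by_cases he : e = 0
    · subst he; simpa using h
    · have : e.degree ≠ 0 := fun h => he ((Finsupp.degree_eq_zero_iff e).1 h)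
      have h0 : 1 - e.degree = 0 := by omega
      rw [h0]; simp

/-- If `A` is `I`-adically complete then `A[[X]]` is `(I, X)`-adically complete. -/
theorem isAdicComplete_mv (I : Ideal A) [IsAdicComplete I A] :
    IsAdicComplete (idIX σ I) (MvPowerSeries σ A) where
  haus' := by
    intro f hf
    ext e
    rw [coeff_zero]
    apply (inferInstance : IsHausdorff I A).haus'
    intro m
    have h := hf (m + e.degree)
    rw [SModEq.zero, smul_eq_mul, Ideal.mul_top] at h ⊢
    have := coeff_mem_of_mem_pow I _ h e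
    rwa [Nat.add_sub_cancel] at this
  prec' := by
    intro f hf
    have hf' : ∀ {m k : ℕ}, m ≤ k → ∀ e : σ →₀ ℕ,
        coeff e (f m) - coeff e (f k) ∈ I ^ (m - e.degree) := by
      intro m k hmk e
      have h := hf hmk
      rw [SModEq.sub_mem, smul_eq_mul, Ideal.mul_top] at h
      have := coeff_mem_of_mem_pow I _ h e
      rwa [map_sub] at this
    have hex : ∀ e : σ →₀ ℕ, ∃ L : A, ∀ m, coeff e (f (m + e.degree)) - L ∈ I ^ m := by
      intro e
      obtain ⟨L, hL⟩ := (inferInstance : IsPrecomplete I A).prec'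
        (fun m => coeff e (f (m + e.degree))) (by
          intro m k hmk
          rw [SModEq.sub_mem, smul_eq_mul, Ideal.mul_top]
          have := hf' (show m + e.degree ≤ k + e.degree by omega) e
          rwa [Nat.add_sub_cancel] at this)
      refine ⟨L, fun m => ?_⟩
      have := hL m
      rwa [SModEq.sub_mem, smul_eq_mul, Ideal.mul_top] at this
    choose L hL using hex
    obtain ⟨Ls, hLs⟩ : ∃ Ls : MvPowerSeries σ A, ∀ e, coeff e Ls = L e := ⟨L, fun e => rfl⟩
    refine ⟨Ls, fun m => ?_⟩
    rw [SModEq.sub_mem, smul_eq_mul, Ideal.mul_top, mem_pow_iff]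
    intro e
    rw [map_sub, hLs]
    by_cases h : e.degree ≤ m
    · have := hL e (m - e.degree)
      rwa [Nat.sub_add_cancel h] at this
    · have h0 : m - e.degree = 0 := by omega
      rw [h0]; simp

/-- the maximal ideal of `A[[X]]`, `A` local -/
theorem maximalIdeal_mv [IsLocalRing A] :
    IsLocalRing.maximalIdeal (MvPowerSeries σ A) = idIX σ (IsLocalRing.maximalIdeal A) := by
  ext f
  rw [mem_idIX_iff, IsLocalRing.mem_maximalIdeal, IsLocalRing.mem_maximalIdeal, mem_nonunits_iff,
    mem_nonunits_iff, MvPowerSeries.isUnit_iff_constantCoeff]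

theorem isAdicComplete_maximalIdeal_mv [IsLocalRing A]
    [IsAdicComplete (IsLocalRing.maximalIdeal A) A] :
    IsAdicComplete (IsLocalRing.maximalIdeal (MvPowerSeries σ A)) (MvPowerSeries σ A) := by
  rw [maximalIdeal_mv]
  exact isAdicComplete_mv _

end General

section LT

open Crest.LubinTate

variable (p : ℕ) [Fact p.Prime] (n : ℕ)

theorem maximalIdeal_witt : IsLocalRing.maximalIdeal (WittVector p (GaloisField p n)) =
    Ideal.span {(p : WittVector p (GaloisField p n))} := by
  rw [← WittVector.ker_constantCoeff]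
  ext x
  rw [IsLocalRing.mem_maximalIdeal, mem_nonunits_iff, RingHom.mem_ker]
  rw [not_iff_comm]
  constructor
  · intro h
    exact WittVector.isUnit_of_coeff_zero_ne_zero x h
  · intro h h0
    have := h.map (WittVector.constantCoeff : WittVector p (GaloisField p n) →+* _)
    rw [h0] at this
    exact not_isUnit_zero this

instance isNoetherianRing_witt : IsNoetherianRing (WittVector p (GaloisField p n)) := by
  infer_instance

instance isNoetherianRing_LTRing : IsNoetherianRing (LTRing p n) := by
  infer_instance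

instance isLocalRing_LTRing : IsLocalRing (LTRing p n) := by
  infer_instance

instance isAdicComplete_witt : IsAdicComplete
    (IsLocalRing.maximalIdeal (WittVector p (GaloisField p n))) (WittVector p (GaloisField p n)) := by
  rw [maximalIdeal_witt]
  infer_instance

instance isAdicComplete_LTRing :
    IsAdicComplete (IsLocalRing.maximalIdeal (LTRing p n)) (LTRing p n) :=
  isAdicComplete_maximalIdeal_mv

theorem residue_surjective : Function.Surjective (LTRing.residue p n) := by
  intro a
  obtain ⟨w, hw⟩ := WittVector.constantCoeff_surjective p a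
  exact ⟨C w, by simp [LTRing.residue, hw]⟩

theorem residue_comp_algebraMap :
    (LTRing.residue p n).comp (algebraMap (WittVector p (GaloisField p n)) (LTRing p n)) =
      WittVector.constantCoeff := by
  ext w
  simp [LTRing.residue, MvPowerSeries.algebraMap_apply]

theorem ker_residue :
    RingHom.ker (LTRing.residue p n) = IsLocalRing.maximalIdeal (LTRing p n) := by
  ext x
  rw [maximalIdeal_mv, mem_idIX_iff, maximalIdeal_witt, ← WittVector.ker_constantCoeff]
  rfl

theorem residue_eq_zero_iff (x : LTRing p n) :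
    LTRing.residue p n x = 0 ↔ x ∈ IsLocalRing.maximalIdeal (LTRing p n) := by
  rw [← ker_residue]; rfl

theorem isUnit_iff_residue_ne_zero (x : LTRing p n) :
    IsUnit x ↔ LTRing.residue p n x ≠ 0 := by
  rw [Ne, residue_eq_zero_iff, IsLocalRing.mem_maximalIdeal, mem_nonunits_iff, not_not]

instance isDomain_LTRing : IsDomain (LTRing p n) := NoZeroDivisors.to_isDomain _

end LT

end Crest.Agent.R227
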