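import Crest.Agent.R227.TopDefs
import Crest.Agent.R227.LTComplete
import Crest.Agent.R227.Est

/-!
# R227 / D0Tay : evaluation of elements of `E₀` at points, Taylor expansion
-/

set_option autoImplicit false

noncomputable section

namespace Crest.Agent.R227

open Crest.LubinTate MvPowerSeries Topology

namespace D0Tay

section general

variable {A : Type*} [CommRing A] {σ : Type*} [Finite σ]
variable {K : Type*} [NormedField K] [IsUltrametricDist K]

theorem exists_bound (a : σ → Ob K) (ha : ∀ i, ‖a i‖ < 1) : ∃ c : ℝ, 0 ≤ c ∧ c < 1 ∧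
    ∀ i, ‖a i‖ ≤ c := by
  rcases isEmpty_or_nonempty σ with h | h
  · exact ⟨0, le_rfl, zero_lt_one, fun i => (h.false i).elim⟩
  · obtain ⟨i, hi⟩ := Finite.exists_max (fun i => ‖a i‖)
    exact ⟨‖a i‖, norm_nonneg _, ha i, hi⟩

omit [Finite σ] in
theorem norm_le_pow_of_mem (X' : MvPowerSeries σ A →+* Ob K) (c : ℝ) (hc : 0 ≤ c)
    (h : ∀ i, ‖X' (X i)‖ ≤ c) (N : ℕ) (f : MvPowerSeries σ A) (hf : f ∈ idX σ A ^ N) :
    ‖X' f‖ ≤ c ^ N := by
  have h1 : Ideal.map X' (idX σ A) ≤ normIdeal K c hc := by
    rw [idX, Ideal.map_span, Ideal.span_le]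
    rintro _ ⟨_, ⟨i, rfl⟩, rfl⟩
    exact h i
  have h2 : ∀ N : ℕ, (normIdeal K c hc) ^ N ≤ normIdeal K (c ^ N) (pow_nonneg hc N) := by
    intro N
    induction N with
    | zero => 
      intro x _
      rw [mem_normIdeal, pow_zero]
      exact Ob_norm_le_one x
    | succ N ih =>
      rw [pow_succ, Ideal.mul_le]
      intro x hx y hy
      have hx' := ih hx
      rw [mem_normIdeal] at hx' hy ⊢
      change ‖((x * y : Ob K) : K)‖ ≤ _
      rw [Subring.coe_mul, norm_mul, pow_succ]
      exact mul_le_mul hx' hy (norm_nonneg _) (pow_nonneg hc N)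
  have h3 : X' f ∈ Ideal.map X' (idX σ A) ^ N := by
    rw [← Ideal.map_pow]
    exact Ideal.mem_map_of_mem X' hf
  exact h2 N (Ideal.pow_right_mono h1 N h3)

variable [CompleteSpace K]

/-- A homomorphism to the unit ball, sending the variables into the open ball, is evaluation. -/
theorem hom_eq_ev (X' : MvPowerSeries σ A →+* Ob K) (h : ∀ i, ‖X' (X i)‖ < 1)
    (f : MvPowerSeries σ A) :
    X' f = ev (fun i => X' (X i)) (f.map (X'.comp C)) := by
  classical
  obtain ⟨c, hc0, hc1, hc⟩ := exists_bound _ h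
  have htn : ∀ i, IsTopologicallyNilpotent (X' (X i)) := fun i => (Ob_tn_iff _).2 (h i)
  have hpoly : ∀ P : MvPolynomial σ A, X' (P : MvPowerSeries σ A) =
      ev (fun i => X' (X i)) ((P : MvPowerSeries σ A).map (X'.comp C)) := by
    intro P
    induction P using MvPolynomial.induction_on with
    | C a =>
      rw [MvPolynomial.coe_C, map_C, ev_C htn, RingHom.comp_apply]
    | add p q hp hq =>
      rw [MvPolynomial.coe_add, map_add, map_add, ev_add htn, hp, hq]
    | mul_X p i hp =>
      rw [MvPolynomial.coe_mul, map_mul, map_mul, ev_mul htn, hp, MvPolynomial.coe_X, map_X,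
        ev_X htn]
  have key : ∀ N : ℕ, ‖X' f - ev (fun i => X' (X i)) (f.map (X'.comp C))‖ ≤ c ^ N := by
    intro N
    let P : MvPolynomial σ A := truncTotal N f
    have hP : ∀ d : σ →₀ ℕ, d.degree < N → coeff d (f - (P : MvPowerSeries σ A)) = 0 := by
      intro d hd
      rw [map_sub, MvPolynomial.coeff_coe, coeff_truncTotal_eq_ite, if_pos hd, sub_self]
    have h1 : ‖X' (f - P)‖ ≤ c ^ N :=
      norm_le_pow_of_mem X' c hc0 hc N _ (mem_powX_of_coeff N _ hP)
    have h2 : ‖ev (fun i => X' (X i)) ((f - P : MvPowerSeries σ A).map (X'.comp C))‖ ≤ c ^ N := by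
      refine norm_ev_le_pow h c hc0 hc N _ fun d hd => ?_
      rw [coeff_map, hP d hd, map_zero]
    have h3 : X' f - ev (fun i => X' (X i)) (f.map (X'.comp C)) =
        X' (f - P) - ev (fun i => X' (X i)) ((f - P : MvPowerSeries σ A).map (X'.comp C)) := by
      rw [map_sub, map_sub, ev_sub htn, hpoly]; ring
    rw [h3]
    rw [← mem_normIdeal _ (pow_nonneg hc0 N)] at h1 h2 ⊢
    exact Ideal.sub_mem _ h1 h2
  have h0 : ‖X' f - ev (fun i => X' (X i)) (f.map (X'.comp C))‖ ≤ 0 :=
    ge_of_tendsto' (tendsto_pow_atTop_nhds_zero_of_lt_one hc0 hc1) key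
  exact sub_eq_zero.1 (norm_le_zero_iff.1 h0)

omit [Finite σ] in
theorem map_pderiv {B : Type*} [CommRing B] (φ : A →+* B) (i : σ) (f : MvPowerSeries σ A) :
    (pderiv A i f).map φ = pderiv B i (f.map φ) := by
  ext d
  rw [coeff_map, coeff_pderiv, coeff_pderiv, coeff_map]
  simp

section top

open scoped MvPowerSeries.WithPiTopology

theorem continuous_pderiv' {R : Type*} [CommRing R] [TopologicalSpace R] [IsTopologicalRing R]
    {τ : Type*} (i : τ) :
    Continuous (MvPowerSeries.pderiv R i : MvPowerSeries τ R → MvPowerSeries τ R) := by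
  refine continuous_pi fun d => ?_
  have : (fun f : MvPowerSeries τ R => MvPowerSeries.pderiv R i f d) =
      fun f : MvPowerSeries τ R => coeff (d + Finsupp.single i 1) f * ((d i : R) + 1) := by
    funext f
    exact coeff_pderiv f d
  rw [this]
  exact (WithPiTopology.continuous_coeff R _).mul continuous_const

/-- first order Taylor estimate for a power series over the ball -/
theorem ev_taylor [Fintype σ] {x y : σ → Ob K} (hx : ∀ i, ‖x i‖ < 1) (hy : ∀ i, ‖y i‖ < 1)
    (δ : ℝ) (hδ : ∀ i, ‖y i - x i‖ ≤ δ) (f : MvPowerSeries σ (Ob K)) :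
    ‖ev y f - ev x f - ∑ i, (y i - x i) * ev x (pderiv _ i f)‖ ≤ δ ^ 2 := by
  classical
  have hxt : ∀ i, IsTopologicallyNilpotent (x i) := fun i => (Ob_tn_iff _).2 (hx i)
  have hyt : ∀ i, IsTopologicallyNilpotent (y i) := fun i => (Ob_tn_iff _).2 (hy i)
  have hc : Continuous (fun f : MvPowerSeries σ (Ob K) =>
      ev y f - ev x f - ∑ i, (y i - x i) * ev x (pderiv _ i f)) := by
    refine ((continuous_ev hyt).sub (continuous_ev hxt)).sub ?_
    refine continuous_finsetSum _ fun i _ => continuous_const.mul ?_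
    exact (continuous_ev hxt).comp (continuous_pderiv' i)
  have hδ2 : 0 ≤ δ ^ 2 := sq_nonneg δ
  have hcl : IsClosed {f : MvPowerSeries σ (Ob K) |
      ev y f - ev x f - ∑ i, (y i - x i) * ev x (pderiv _ i f) ∈ normIdeal K (δ ^ 2) hδ2} :=
    (isClosed_normIdeal _ hδ2).preimage hc
  have hd := (WithPiTopology.denseRange_toMvPowerSeries (σ := σ) (R := Ob K))
  have hf : f ∈ closure (Set.range (MvPolynomial.toMvPowerSeries (σ := σ) (R := Ob K))) := hd f
  have hsub : Set.range (MvPolynomial.toMvPowerSeries (σ := σ) (R := Ob K)) ⊆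
      {f : MvPowerSeries σ (Ob K) |
        ev y f - ev x f - ∑ i, (y i - x i) * ev x (pderiv _ i f) ∈ normIdeal K (δ ^ 2) hδ2} := by
    rintro _ ⟨P, rfl⟩
    change ev y (P : MvPowerSeries σ (Ob K)) - ev x (P : MvPowerSeries σ (Ob K)) -
      ∑ i, (y i - x i) * ev x (pderiv _ i (P : MvPowerSeries σ (Ob K))) ∈ normIdeal K (δ ^ 2) hδ2
    induction P using MvPolynomial.induction_on with
    | C a =>
      rw [MvPolynomial.coe_C, ev_C hxt, ev_C hyt]
      simp only [pderiv_C, ev_zero hxt, mul_zero, Finset.sum_const_zero, sub_self]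
      exact Ideal.zero_mem _
    | add p q hp hq =>
      have h1 := Ideal.add_mem _ hp hq
      convert h1 using 1
      rw [MvPolynomial.coe_add, ev_add hxt, ev_add hyt]
      simp only [map_add, ev_add hxt, mul_add, Finset.sum_add_distrib]
      ring
    | mul_X p i hp =>
      have h0 : (∑ j, (y j - x j) * ev x (pderiv _ j (p : MvPowerSeries σ (Ob K)))) *
          (y i - x i) ∈ normIdeal K (δ ^ 2) hδ2 := by
        have hδ0 : 0 ≤ δ := (norm_nonneg _).trans (hδ i)
        have h1 : (∑ j, (y j - x j) * ev x (pderiv _ j (p : MvPowerSeries σ (Ob K)))) ∈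
            normIdeal K δ hδ0 := Ideal.sum_mem _ fun j _ => Ideal.mul_mem_right _ _ (hδ j)
        have h2 : (y i - x i) ∈ normIdeal K δ hδ0 := hδ i
        rw [mem_normIdeal] at h1 h2 ⊢
        change ‖((_ * _ : Ob K) : K)‖ ≤ _
        rw [Subring.coe_mul, norm_mul, sq]
        exact mul_le_mul h1 h2 (norm_nonneg _) hδ0
      have h1 := Ideal.add_mem _ (Ideal.mul_mem_right (y i) _ hp) h0
      convert h1 using 1
      have h2 : ∀ j, ev x (pderiv (Ob K) j ((p : MvPowerSeries σ (Ob K)) * X i)) =
          ev x (pderiv (Ob K) j (p : MvPowerSeries σ (Ob K))) * x i +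
            (if j = i then ev x (p : MvPowerSeries σ (Ob K)) else 0) := by
        intro j
        rw [Derivation.leibniz, smul_eq_mul, smul_eq_mul, ev_add hxt, ev_mul hxt, ev_mul hxt,
          ev_X hxt]
        split_ifs with hji
        · subst hji
          rw [pderiv_X_self, ev_one hxt]; ring
        · rw [pderiv_X_of_ne (Ne.symm hji), ev_zero hxt]; ring
      rw [MvPolynomial.coe_mul, MvPolynomial.coe_X, ev_mul hxt, ev_mul hyt, ev_X hxt, ev_X hyt]
      simp only [h2, mul_add, Finset.sum_add_distrib, mul_ite, mul_zero, Finset.sum_ite_eq',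
        Finset.mem_univ, if_true, ← mul_assoc, ← Finset.sum_mul]
      ring
  have := closure_minimal hsub hcl hf
  exact this

/-- translation `g(z) ↦ g(x + z)` -/
def trE {A : Type*} [CommRing A] [UniformSpace A] (x : σ → A)
    (g : MvPowerSeries σ A) : MvPowerSeries σ A :=
  ev (fun i => C (x i) + X i : σ → MvPowerSeries σ A) (g.map (C : A →+* MvPowerSeries σ A))

section tr

variable {A : Type*} [CommRing A] [UniformSpace A] [IsUniformAddGroup A] [IsTopologicalRing A]
  [IsLinearTopology A A] [CompleteSpace A] [T2Space A]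

omit [Finite σ] [IsUniformAddGroup A] [IsTopologicalRing A] [CompleteSpace A] [T2Space A] in
theorem tn_tr (x : σ → A) (hx : ∀ i, IsTopologicallyNilpotent (x i)) (i : σ) :
    IsTopologicallyNilpotent (C (x i) + X i : MvPowerSeries σ A) := by
  refine MvPowerSeries.LinearTopology.isTopologicallyNilpotent_of_constantCoeff ?_
  simpa using hx i

theorem constantCoeff_trE (x : σ → A) (hx : ∀ i, IsTopologicallyNilpotent (x i))
    (g : MvPowerSeries σ A) : constantCoeff (trE x g) = ev x g := by
  unfold trE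
  rw [map_ev (tn_tr x hx) (constantCoeff : MvPowerSeries σ A →+* A)
    (WithPiTopology.continuous_constantCoeff A)]
  congr 1
  funext i; simp

theorem ev_trE (x y : σ → A) (hx : ∀ i, IsTopologicallyNilpotent (x i))
    (hy : ∀ i, IsTopologicallyNilpotent (y i))
    (g : MvPowerSeries σ A) : ev y (trE x g) = ev (fun i => x i + y i) g := by
  unfold trE
  rw [← evHom_apply hy, map_ev (tn_tr x hx) (evHom hy) (by
    have h := continuous_ev hy
    have h2 : (evHom hy : MvPowerSeries σ A → A) = fun f => ev y f := by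
      funext f; exact evHom_apply hy f
    rw [h2]; exact h)]
  congr 1
  · funext i
    rw [map_add, evHom_apply, evHom_apply, ev_C hy, ev_X hy]
  · ext d
    rw [coeff_map, coeff_map, evHom_apply, ev_C hy]

theorem trE_C (x : σ → A) (hx : ∀ i, IsTopologicallyNilpotent (x i)) (a : A) :
    trE x (C a) = C a := by
  unfold trE
  rw [map_C, ev_C (tn_tr x hx)]

theorem trE_X (x : σ → A) (hx : ∀ i, IsTopologicallyNilpotent (x i)) (i : σ) :
    trE x (X i) = C (x i) + X i := by
  unfold trE
  rw [map_X, ev_X (tn_tr x hx)]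

theorem trE_add (x : σ → A) (hx : ∀ i, IsTopologicallyNilpotent (x i))
    (f g : MvPowerSeries σ A) : trE x (f + g) = trE x f + trE x g := by
  unfold trE
  rw [map_add, ev_add (tn_tr x hx)]

theorem trE_mul (x : σ → A) (hx : ∀ i, IsTopologicallyNilpotent (x i))
    (f g : MvPowerSeries σ A) : trE x (f * g) = trE x f * trE x g := by
  unfold trE
  rw [map_mul, ev_mul (tn_tr x hx)]

theorem continuous_trE (x : σ → A) (hx : ∀ i, IsTopologicallyNilpotent (x i)) :
    Continuous (fun g : MvPowerSeries σ A => trE x g) := by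
  unfold trE
  refine (continuous_ev (tn_tr x hx)).comp ?_
  refine continuous_pi fun d => ?_
  have : (fun f : MvPowerSeries σ A => (f.map (C : A →+* MvPowerSeries σ A)) d) =
      fun f : MvPowerSeries σ A => C (coeff d f) := by
    funext f
    exact coeff_map (C : A →+* MvPowerSeries σ A) d f
  rw [this]
  exact (WithPiTopology.continuous_C (σ := σ) (R := A)).comp
    (WithPiTopology.continuous_coeff A _)

theorem pderiv_trE (x : σ → A) (hx : ∀ i, IsTopologicallyNilpotent (x i)) (m : σ)
    (g : MvPowerSeries σ A) : pderiv A m (trE x g) = trE x (pderiv A m g) := by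
  classical
  have h : (fun g : MvPowerSeries σ A => pderiv A m (trE x g)) =
      fun g => trE x (pderiv A m g) := by
    refine eq_of_eq_on_poly ((continuous_pderiv' m).comp (continuous_trE x hx))
      ((continuous_trE x hx).comp (continuous_pderiv' m)) fun P => ?_
    induction P using MvPolynomial.induction_on with
    | C a =>
      rw [MvPolynomial.coe_C, trE_C x hx, pderiv_C, ← map_zero (C : A →+* MvPowerSeries σ A),
        trE_C x hx]
    | add p q hp hq =>
      rw [MvPolynomial.coe_add, trE_add x hx, map_add, hp, hq, map_add, trE_add x hx]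
    | mul_X p i hp =>
      rw [MvPolynomial.coe_mul, MvPolynomial.coe_X, trE_mul x hx, trE_X x hx, Derivation.leibniz,
        Derivation.leibniz, hp, smul_eq_mul, smul_eq_mul, smul_eq_mul, smul_eq_mul,
        trE_add x hx, trE_mul x hx, trE_mul x hx, trE_X x hx, map_add, pderiv_C, zero_add]
      by_cases him : m = i
      · subst him
        rw [pderiv_X_self, ← map_one (C : A →+* MvPowerSeries σ A), trE_C x hx]
      · rw [pderiv_X_of_ne (Ne.symm him), ← map_zero (C : A →+* MvPowerSeries σ A), trE_C x hx]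
  exact congrFun h g

end tr

end top

/-- If all iterated partial derivatives of `f` vanish at a point of the open polydisc over a ball
of characteristic zero then `f = 0`. -/
theorem eq_zero_of_closed {K : Type*} [NontriviallyNormedField K] [IsUltrametricDist K]
    [CompleteSpace K] [CharZero K] (x : σ → Ob K) (hx : ∀ i, ‖x i‖ < 1)
    (S : Set (MvPowerSeries σ (Ob K)))
    (h0 : ∀ f ∈ S, ev x f = 0) (h1 : ∀ f ∈ S, ∀ m, pderiv _ m f ∈ S) : ∀ f ∈ S, f = 0 := by
  classical
  have hxt : ∀ i, IsTopologicallyNilpotent (x i) := fun i => (Ob_tn_iff _).2 (hx i)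
  have key : ∀ N : ℕ, ∀ f ∈ S, ∀ d : σ →₀ ℕ, d.degree = N → coeff d (trE x f) = 0 := by
    intro N
    induction N with
    | zero =>
      intro f hf d hd
      rw [Finsupp.degree_eq_zero_iff] at hd
      subst hd
      rw [coeff_zero_eq_constantCoeff_apply, constantCoeff_trE x hxt, h0 f hf]
    | succ N ih =>
      intro f hf d hd
      obtain ⟨m, hm⟩ : ∃ m, d m ≠ 0 := by
        by_contra h
        push Not at h
        have : d = 0 := Finsupp.ext h
        rw [this] at hd
        simp at hd
      obtain ⟨d', rfl⟩ : ∃ d' : σ →₀ ℕ, d = d' + Finsupp.single m 1 := by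
        refine ⟨d - Finsupp.single m 1, (tsub_add_cancel_of_le ?_).symm⟩
        rw [Finsupp.single_le_iff]
        omega
      have hd' : d'.degree = N := by
        rw [map_add, Finsupp.degree_single] at hd
        omega
      have h2 := ih _ (h1 f hf m) d' hd'
      rw [← pderiv_trE x hxt, coeff_pderiv] at h2
      rcases mul_eq_zero.1 h2 with h3 | h3
      · exact h3
      · exfalso
        have h4 : (((d' m : ℕ) : K) + 1) = 0 := by
          have := congrArg (fun z : Ob K => (z : K)) h3
          simpa using this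
        exact Nat.cast_add_one_ne_zero _ h4
  intro f hf
  have hE : trE x f = 0 := MvPowerSeries.ext fun d => by
    rw [key _ f hf d rfl, map_zero]
  refine eq_zero_of_ev_eq_zero f fun y hy => ?_
  have hyx : ∀ i, ‖y i - x i‖ < 1 := fun i => by
    have h5 : ‖((y i : K) - (x i : K))‖ ≤ max ‖(y i : K)‖ ‖(x i : K)‖ := by
      rw [sub_eq_add_neg]
      refine (IsUltrametricDist.norm_add_le_max _ _).trans ?_
      rw [norm_neg]
    exact h5.trans_lt (max_lt (hy i) (hx i))
  have h6 := ev_trE x (fun i => y i - x i) hxt (fun i => (Ob_tn_iff _).2 (hyx i)) f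
  rw [hE, ev_zero (fun i => (Ob_tn_iff _).2 (hyx i))] at h6
  simpa using h6.symm

end general

end D0Tay

variable (p : ℕ) [Fact p.Prime] (n : ℕ)
variable {K : Type*} [NontriviallyNormedField K] [IsUltrametricDist K] [CompleteSpace K]

/-- A local homomorphism to the unit ball is evaluation. -/
theorem X_eq_ev (X : LTRing p n →+* Ob K) (hX : ∀ a, LTRing.residue p n a = 0 → ‖X a‖ < 1)
    (f : LTRing p n) :
    X f = ev (fun m : Fin (n - 1) => X (MvPowerSeries.X m)) (f.map (X.comp MvPowerSeries.C)) := by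
  exact D0Tay.hom_eq_ev X (fun i => hX _ (by simp [LTRing.residue])) f

/-- Taylor estimate of order one. -/
theorem X_taylor (X Y : LTRing p n →+* Ob K) (hX : ∀ a, LTRing.residue p n a = 0 → ‖X a‖ < 1)
    (hY : ∀ a, LTRing.residue p n a = 0 → ‖Y a‖ < 1)
    (hXY : ∀ a, X (MvPowerSeries.C a) = Y (MvPowerSeries.C a)) (δ : ℝ)
    (hδ : ∀ m : Fin (n - 1), ‖Y (MvPowerSeries.X m) - X (MvPowerSeries.X m)‖ ≤ δ)
    (f : LTRing p n) :
    ‖Y f - X f - ∑ m : Fin (n - 1), (Y (MvPowerSeries.X m) - X (MvPowerSeries.X m)) *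
      X (pderiv _ m f)‖ ≤ δ ^ 2 := by
  have hcomp : Y.comp C = X.comp C := RingHom.ext fun a => (hXY a).symm
  have h := D0Tay.ev_taylor (x := fun m : Fin (n - 1) => X (MvPowerSeries.X m))
    (y := fun m : Fin (n - 1) => Y (MvPowerSeries.X m))
    (fun i => hX _ (by simp [LTRing.residue])) (fun i => hY _ (by simp [LTRing.residue])) δ hδ
    (f.map (X.comp MvPowerSeries.C))
  rw [← X_eq_ev p n X hX] at h
  rw [← hcomp, ← X_eq_ev p n Y hY] at h
  convert h using 6
  rw [← D0Tay.map_pderiv, hcomp, ← X_eq_ev p n X hX]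

/-- A homomorphism from Witt vectors to a ring of characteristic zero is injective. -/
theorem witt_hom_injective {R : Type*} [CommRing R] [IsDomain R] [CharZero R]
    (φ : WittVector p (GaloisField p n) →+* R) : Function.Injective φ := by
  rw [injective_iff_map_eq_zero]
  intro a ha
  by_contra hne
  obtain ⟨m, b, rfl⟩ := WittVector.exists_eq_pow_p_mul' a hne
  rw [map_mul, map_pow, map_natCast] at ha
  rcases mul_eq_zero.1 ha with h | h
  · exact (Nat.cast_ne_zero.2 (Fact.out : p.Prime).ne_zero) (eq_zero_of_pow_eq_zero h)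
  · exact (b.isUnit.map φ).ne_zero h

/-- If all iterated partial derivatives of `f` vanish at the point `X` of characteristic zero then
`f = 0`. -/
theorem eq_zero_of_pderiv_closed [CharZero K] (X : LTRing p n →+* Ob K)
    (hX : ∀ a, LTRing.residue p n a = 0 → ‖X a‖ < 1) (S : Set (LTRing p n))
    (h0 : ∀ f ∈ S, X f = 0) (h1 : ∀ f ∈ S, ∀ m, pderiv _ m f ∈ S) : ∀ f ∈ S, f = 0 := by
  intro f hf
  have hcz : CharZero (Ob K) := ⟨fun a b hab => by
    have := congrArg (fun z : Ob K => (z : K)) hab
    simpa using this⟩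
  have h2 := D0Tay.eq_zero_of_closed (fun m : Fin (n - 1) => X (MvPowerSeries.X m))
    (fun i => hX _ (by simp [LTRing.residue]))
    ((fun f : LTRing p n => f.map (X.comp MvPowerSeries.C)) '' S) (by
      rintro _ ⟨g, hg, rfl⟩
      change ev _ (g.map _) = 0
      rw [← X_eq_ev p n X hX]
      exact h0 g hg) (by
      rintro _ ⟨g, hg, rfl⟩ m
      exact ⟨_, h1 g hg m, D0Tay.map_pderiv _ _ _⟩) _ ⟨f, hf, rfl⟩
  have hinj := witt_hom_injective p n (X.comp (MvPowerSeries.C : _ →+* LTRing p n))
  refine MvPowerSeries.ext fun d => hinj ?_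
  have h3 := congrArg (coeff d) h2
  rw [coeff_map, map_zero] at h3
  rw [h3, map_zero, map_zero]

end Crest.Agent.R227
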