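import Crest.Agent.R227.CoTate
import Crest.Agent.R227.Chi
import Crest.Agent.R227.D0Tay

/-! # R227 / CoDriAux : the Drinfeld trick from the coordinates `χ` of `Chi.lean` -/

set_option autoImplicit false
set_option linter.unusedSectionVars false

noncomputable section

namespace Crest.Agent.R227

open Crest.LubinTate MvPowerSeries Topology

namespace CoDriAux

variable {p : ℕ} [Fact p.Prime] {n h : ℕ}
variable {K : Type} [NontriviallyNormedField K] [IsUltrametricDist K] [CompleteSpace K]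
  [IsAlgClosed K] [CharP K p]

/-- the level points `ρ(t_l^{q^{-i}})` -/
def lvl (P : HPoint p n h K) (ρ : FPt (HO p n n (Ob K)) →+ FPt P.F)
    (t : Fin (n - h) → FPt (HO p n n (Ob K))) (i : ℕ) (l : Fin (n - h)) : FPt P.F :=
  ρ (nfr (-((n * i : ℕ) : ℤ)) (t l))

theorem pow_smul_lvl (hn : 1 ≤ n) (P : HPoint p n h K) (ρ : FPt (HO p n n (Ob K)) →+ FPt P.F)
    (t : Fin (n - h) → FPt (HO p n n (Ob K))) (ht : IsTBasis P ρ t) (i : ℕ) (l : Fin (n - h)) :
    p ^ i • lvl P ρ t i l = 0 := by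
  unfold lvl
  rw [← map_nsmul, HO_pow_smul hn le_rfl, ← nfr_add, add_neg_cancel, nfr_zero, ht.mem l]

theorem lvl_indep (hn : 1 ≤ n) (P : HPoint p n h K) (ρ : FPt (HO p n n (Ob K)) →+ FPt P.F)
    (t : Fin (n - h) → FPt (HO p n n (Ob K))) (ht : IsTBasis P ρ t) (i : ℕ) (hi : 1 ≤ i)
    (c : Fin (n - h) → ℤ) (hc : ∑ l, c l • (p ^ (i - 1) • lvl P ρ t i l) = 0) :
    ∀ l, (p : ℤ) ∣ c l := by
  set s : FPt (HO p n n (Ob K)) := nfr (-((n : ℕ) : ℤ)) (∑ l, c l • t l) with hs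
  have h1 : ∀ l, p ^ (i - 1) • lvl P ρ t i l = ρ (nfr (-((n : ℕ) : ℤ)) (t l)) := by
    intro l
    unfold lvl
    rw [← map_nsmul, HO_pow_smul hn le_rfl, ← nfr_add]
    obtain ⟨i, rfl⟩ : ∃ j, i = j + 1 := ⟨i - 1, by omega⟩
    have e : (((n * (i + 1 - 1) : ℕ) : ℤ) + -((n * (i + 1) : ℕ) : ℤ)) = -((n : ℕ) : ℤ) := by
      rw [Nat.add_sub_cancel]
      push_cast
      ring
    rw [e]
  have h2 : ρ s = 0 := by
    rw [hs, map_sum, map_sum, ← hc]
    refine Finset.sum_congr rfl fun l _ => ?_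
    rw [h1, map_zsmul, map_zsmul]
  refine ht.indep c ⟨s, h2, ?_⟩
  have h3 := HO_pow_smul (K := K) (p := p) (n := n) (j := n) hn le_rfl 1 s
  rw [pow_one, mul_one] at h3
  rw [natCast_zsmul, h3, hs, ← nfr_add, add_neg_cancel, nfr_zero]

theorem point_transport (X : ChiSys p n h) (z : Fin (n - h) → Ob K) (hz : ∀ i, ‖z i‖ < 1)
    (hz0 : ∀ i : Fin (n - h), (i : ℕ) = 0 → z i ≠ 0) (F : FormalGroup (Ob K)) [F.IsComm]
    (hF : F = Hx p n h z) (m : ℕ) (hm : 1 ≤ m) (w : Fin (n - h) → FPt F)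
    (hw1 : ∀ l, p ^ m • w l = 0)
    (hw2 : ∀ c : Fin (n - h) → ℤ, ∑ l, c l • (p ^ (m - 1) • w l) = 0 → ∀ l, (p : ℤ) ∣ c l)
    (i : Fin (n - h)) : z i = chiEv p (X.χ m i) (fun l => (w l).val ^ p ^ (h * m)) := by
  subst hF
  exact X.point K z hz hz0 m hm w ⟨hw1, hw2⟩ i

theorem ev_kap (h1 : 1 ≤ h) (hh : h < n) (X : ChiSys p n h) (P : HPoint p n h K)
    (ρ : FPt (HO p n n (Ob K)) →+ FPt P.F)
    (t : Fin (n - h) → FPt (HO p n n (Ob K))) (ht : IsTBasis P ρ t) (i : ℕ) (hi : 1 ≤ i)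
    (j : Fin (n - h)) : P.z j = chiEv p (X.χ i j) (kap P ρ t i) := by
  have hn : 1 ≤ n := by omega
  refine point_transport X P.z (fun i => (P.norm_z_le h1 i).trans_lt P.c_lt_one) ?_ P.F
    (P.F_eq_Hx h1 hh) i hi (lvl P ρ t i) (pow_smul_lvl hn P ρ t ht i)
    (lvl_indep hn P ρ t ht i hi) j
  intro j hj
  have : j = ⟨0, by omega⟩ := Fin.ext hj
  rw [this]
  exact P.z_zero_ne h1 hh

theorem kap_tn (P : HPoint p n h K)
    (ρ : FPt (HO p n n (Ob K)) →+ FPt P.F)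
    (t : Fin (n - h) → FPt (HO p n n (Ob K))) (i : ℕ) (l : Fin (n - h)) :
    IsTopologicallyNilpotent (kap P ρ t i l) := by
  rw [Ob_tn_iff]
  unfold kap
  set a := (ρ (nfr (-((n * i : ℕ) : ℤ)) (t l))).val with ha
  have e1 : ‖a‖ < 1 := FPt.norm_lt _ _
  have e2 : ‖a ^ p ^ (h * i)‖ = ‖a‖ ^ p ^ (h * i) := norm_pow (a : K) _
  rw [e2]
  exact pow_lt_one₀ (norm_nonneg _) e1 (pow_ne_zero _ (Fact.out : p.Prime).ne_zero)

/-- the substituted series -/
def G (p : ℕ) [Fact p.Prime] (n h : ℕ)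
    (χ : Fin (n - h) → MvPowerSeries (Fin (n - h)) (ZMod p)) (m : Fin (n - 1)) :
    MvPowerSeries (Fin (n - h)) (GaloisField p n) :=
  if hm : h ≤ (m : ℕ) + 1 then
    (χ ⟨(m : ℕ) + 1 - h, by omega⟩).map (ZMod.castHom (dvd_refl p) (GaloisField p n))
  else 0

theorem constantCoeff_G (χ : Fin (n - h) → MvPowerSeries (Fin (n - h)) (ZMod p))
    (hχ : ∀ i, constantCoeff (χ i) = 0) (m : Fin (n - 1)) :
    constantCoeff (G p n h χ m) = 0 := by
  unfold G
  split_ifs with hm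
  · rw [← coeff_zero_eq_constantCoeff_apply, coeff_map, coeff_zero_eq_constantCoeff_apply,
      hχ, map_zero]
  · exact map_zero _

theorem ev_G (h1 : 1 ≤ h) (hh : h < n) (X : ChiSys p n h) (P : HPoint p n h K)
    (ι : GaloisField p n →+* Ob K)
    (ρ : FPt (HO p n n (Ob K)) →+ FPt P.F)
    (t : Fin (n - h) → FPt (HO p n n (Ob K))) (ht : IsTBasis P ρ t) (i : ℕ) (hi : 1 ≤ i)
    (m : Fin (n - 1)) :
    ev (kap P ρ t i) ((G p n h (X.χ i) m).map ι) = P.X (MvPowerSeries.X m) := by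
  have hX : (MvPowerSeries.X m : LTRing p n) = upt p n ((m : ℕ) + 1) := by
    unfold upt
    rw [dif_pos ⟨by omega, by omega⟩]
    congr 1
  unfold G
  split_ifs with hm
  · have e1 := ev_kap h1 hh X P ρ t ht i hi ⟨(m : ℕ) + 1 - h, by omega⟩
    have e2 : P.z ⟨(m : ℕ) + 1 - h, by omega⟩ = P.X (MvPowerSeries.X m) := by
      rw [hX]
      unfold HPoint.z
      congr 2
      simp only
      omega
    rw [← e2, e1]
    unfold chiEv
    congr 1
    ext d
    simp only [coeff_map]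
    rw [← RingHom.comp_apply]
    exact congrArg (fun φ : ZMod p →+* Ob K => ((φ (coeff d (X.χ i ⟨(m : ℕ) + 1 - h, by omega⟩)) :
      Ob K) : K)) (Subsingleton.elim _ _)
  · rw [map_zero, ev_zero (kap_tn P ρ t i), hX]
    symm
    refine P.kill _ (Ideal.subset_span ⟨(m : ℕ) + 1, ?_, ?_⟩)
    · simp only [Set.mem_Iio]
      omega
    · unfold uu
      rw [if_neg (by omega)]

theorem drinfeld' (h1 : 1 ≤ h) (hh : h < n) (i : ℕ) (hi : 1 ≤ i) (f : LTRing p n) :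
    ∃ F : MvPowerSeries (Fin (n - h)) (GaloisField p n),
      ∀ (K : Type) [NontriviallyNormedField K] [IsUltrametricDist K] [CompleteSpace K]
        [IsAlgClosed K] [CharP K p] (ι : GaloisField p n →+* Ob K) (x : Mk p n h K ι),
        x.P.X f = ev (kap x.P x.ρ x.t i) (F.map ι) := by
  obtain ⟨X⟩ := exists_chi p n h h1 hh
  have hc := constantCoeff_G (X.χ i) (X.const i)
  refine ⟨MvPowerSeries.subst (G p n h (X.χ i)) (f.map WittVector.constantCoeff), ?_⟩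
  intro K _ _ _ _ _ ι x
  have hs : HasSubst (G p n h (X.χ i)) := hasSubst_of_constantCoeff_zero hc
  have e1 := X_eq_ev p n x.P.X x.P.small f
  rw [e1, MvPowerSeries.map_subst hs, ev_subst (kap_tn x.P x.ρ x.t i)]
  · congr 1
    · funext m
      exact (ev_G h1 hh X x.P ι x.ρ x.t x.ht i hi m).symm
    · ext d
      simp only [coeff_map, RingHom.comp_apply]
      exact congrArg _ (x.hι _)
  · intro m
    rw [← coeff_zero_eq_constantCoeff_apply, coeff_map, coeff_zero_eq_constantCoeff_apply,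
      hc, map_zero]

end CoDriAux

end Crest.Agent.R227
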