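import Mathlib.Analysis.Normed.Field.Dense
import Mathlib.Analysis.Normed.Field.Approximation
import Mathlib.Analysis.Normed.Field.Krasner
import Mathlib.Analysis.Normed.Module.Completion
import Mathlib.Analysis.Normed.Field.Instances
import Mathlib.Topology.Algebra.Valued.NormedValued
import Mathlib.RingTheory.LaurentSeries
import Mathlib.FieldTheory.Perfect

/-!
# R227 / PField : a complete algebraically closed nonarchimedean field of characteristic `p`
-/

set_option autoImplicit false

noncomputable section

namespace Crest.Agent.R227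

open Polynomial

/-- Char-free version of `IsAlgClosed.of_denseRange`: perfectness replaces characteristic zero. -/
theorem isAlgClosed_of_denseRange_of_perfect {K L : Type*} [Field K] [NontriviallyNormedField L]
    [CompleteSpace L] [PerfectField L] [IsUltrametricDist L] [Algebra K L]
    (hi : DenseRange (algebraMap K L)) [IsAlgClosed K] : IsAlgClosed L := by
  -- Fix any monic irreducible polynomial `f` in `L`.
  -- Let `F` be the splitting field of `f`. Let `a` be a root of `f` in `F`.
  apply IsAlgClosed.of_exists_root
  intro f fmon firr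
  have fnatdeg0 : f.natDegree ≠ 0 := (Irreducible.natDegree_pos firr).ne'
  let F := f.SplittingField
  let : NormedField F := spectralNorm.normedField L F
  let : NormedAlgebra L F := spectralNorm.normedAlgebra L F
  let a := rootOfSplits (SplittingField.splits f)
      (by simpa using degree_ne_of_natDegree_ne fnatdeg0)
  have fa0 : f.aeval a = 0 := by
    rw [← eval_map_algebraMap]
    exact eval_rootOfSplits (Polynomial.SplittingField.splits f)
      (by simpa using degree_ne_of_natDegree_ne fnatdeg0)
  -- Let `δ` be a positive real number such that `δ ≤ ‖a - a'‖` for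
  -- every Galois conjugates `a'` of `a`
  classical
    let S : Finset F := {x ∈ (f.rootSet F).toFinset | x ≠ a}
  let δ : ℝ := if hS : S.Nonempty then Finset.min' (S.image fun x => ‖a - x‖)
      (Finset.image_nonempty.mpr hS) else 1
  have norm_sub_le : ∀ a' : F, IsConjRoot L a a' → a ≠ a' → δ ≤ ‖a - a'‖ := by
    intro a' conj ne
    by_cases hS : S.Nonempty <;> simp only [hS, ↓reduceDIte, δ]
    · apply Finset.min'_le (S.image fun x => ‖a - x‖) (‖a - a'‖)
      apply Finset.mem_image_of_mem
      simp only [minpoly.eq_of_irreducible_of_monic firr fa0 fmon, Finset.mem_filter,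
        Set.mem_toFinset, S]
      rw [← (isConjRoot_iff_mem_minpoly_rootSet ⟨f, fmon, fa0⟩)]
      exact ⟨conj, ne.symm⟩
    · simp only [ne_eq, Finset.not_nonempty_iff_eq_empty, Finset.filter_eq_empty_iff,
      Set.mem_toFinset, not_not, S] at hS
      rw [isConjRoot_iff_mem_minpoly_rootSet ⟨f, fmon, fa0⟩,
          ← minpoly.eq_of_irreducible_of_monic firr fa0 fmon] at conj
      exact (ne (hS conj).symm).elim
  have δpos : δ > 0 := by
    by_cases hS : S.Nonempty <;> simp only [hS, ↓reduceDIte, δ]
    · simp only [gt_iff_lt, Finset.lt_min'_iff, Finset.mem_image, forall_exists_index, and_imp,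
        forall_apply_eq_imp_iff₂]
      rintro a' ha'
      simp only [Finset.mem_filter, Set.mem_toFinset, S] at ha'
      rw [norm_pos_iff, sub_ne_zero]
      exact ha'.2.symm
    · linarith
  have hε : (δ / (max ‖a‖ 1)) ^ f.natDegree / (f.natDegree + 1) > 0 := by positivity
  -- We can find a `g ∈ K[X]` whose coefficients sufficiently close to coefficients of `f`.
  -- By continuity of roots, there exists a root `b` of `g` in `K` such that `‖a - b‖ ≤ δ`.
  obtain ⟨g, gmon, gdeg, gcoeff⟩ :=
    exists_monic_and_natDegree_eq_and_norm_map_algebraMap_coeff_sub_lt hi fmon hε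
  let ⟨b, hb, hab⟩ := exists_aroots_norm_sub_lt_of_norm_coeff_sub_lt
      hε fa0 fmon (gmon.map _) (gdeg ▸ (g.natDegree_map _)) gcoeff
      (by simpa [Polynomial.map_map] using (IsAlgClosed.splits g).map ((algebraMap L F).comp _))
  have hab : ‖a - b‖ < δ := by
    rw [← Real.rpow_natCast, ← mul_comm_div, div_self, one_mul,
        ← Real.rpow_mul (div_pos δpos (by positivity)).le, mul_inv_cancel₀] at hab
    · simpa [mul_assoc, div_mul_cancel₀ _ (by positivity : (max ‖a‖ 1) > 0).ne'] using hab
    · simp [fnatdeg0]
    · positivity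
  have bbot : b ∈ (⊥ : IntermediateField L F) := by
    rw [Polynomial.aroots_def, Splits.roots_map ((IsAlgClosed.splits g).map _),
        Multiset.mem_map] at hb
    obtain ⟨bCp, _, hbCp⟩ := hb
    rw [IntermediateField.mem_bot]
    exact ⟨bCp, hbCp⟩
  simp only [Polynomial.mem_roots', ne_eq, Polynomial.map_eq_zero, Polynomial.IsRoot.def,
    Polynomial.eval_map_algebraMap] at hb
  -- By Krasner's lemma, `a ∈ L(b) = L`. Thus `f` has a root in `L`.
  have abot : a ∈ (⊥ : IntermediateField L F) := by
    have masp : ((minpoly L a).map (algebraMap L F)).Splits := by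
      simpa [minpoly.eq_of_irreducible_of_monic firr fa0 fmon] using
        (Polynomial.SplittingField.splits f)
    simpa [IntermediateField.adjoin_simple_eq_bot_iff.mpr bbot] using
      IsKrasner.krasner
        (PerfectField.separable_of_irreducible (minpoly.irreducible ⟨f, fmon, fa0⟩))
        masp ⟨(g.map _), gmon.map _, hb.2⟩ fun a' h1 h2 ↦ lt_of_lt_of_le hab (norm_sub_le a' h1 h2)
  obtain ⟨aCp, haCp⟩ := IntermediateField.mem_bot.mp abot
  use aCp
  apply_fun algebraMap L F
  · rwa [← Polynomial.aeval_algebraMap_apply_eq_algebraMap_eval, haCp, map_zero]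
  · exact RingHom.injective _

/-- In characteristic `p`, the completion of a perfect field is perfect. -/
theorem perfectField_of_denseRange (p : ℕ) [Fact p.Prime] {K L : Type*} [Field K]
    [NormedField L] [CompleteSpace L] [CharP L p] [Algebra K L] [CharP K p] [PerfectField K]
    (hi : DenseRange (algebraMap K L)) : PerfectField L := by
  have : PerfectRing K p := PerfectField.toPerfectRing p
  have hp0 : p ≠ 0 := (Fact.out : p.Prime).ne_zero
  have hsurj : Function.Surjective (frobenius L p) := by
    intro x
    -- approximate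
    have happ : ∀ k : ℕ, ∃ y : K, ‖algebraMap K L y ^ p - x‖ < (1 / 2 : ℝ) ^ (p * k) := by
      intro k
      obtain ⟨z, hz⟩ := Metric.denseRange_iff.1 hi x ((1 / 2 : ℝ) ^ (p * k)) (by positivity)
      obtain ⟨y, hy⟩ := (PerfectRing.bijective_frobenius (R := K) (p := p)).2 z
      refine ⟨y, ?_⟩
      rw [← map_pow, show y ^ p = z from hy, ← dist_eq_norm, dist_comm]
      exact hz
    choose y hy using happ
    let u : ℕ → L := fun k => algebraMap K L (y k)
    have hu : ∀ k, dist (u k) (u (k + 1)) ≤ 2 * (1 / 2 : ℝ) ^ k := by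
      intro k
      rw [dist_eq_norm]
      have h1 : ‖u k - u (k + 1)‖ ^ p ≤ (2 * (1 / 2 : ℝ) ^ k) ^ p := by
        rw [← norm_pow, sub_pow_char]
        have h2 : ‖u k ^ p - u (k + 1) ^ p‖ ≤ (1 / 2 : ℝ) ^ (p * k) + (1 / 2 : ℝ) ^ (p * (k + 1)) := by
          calc ‖u k ^ p - u (k + 1) ^ p‖ = ‖(u k ^ p - x) - (u (k + 1) ^ p - x)‖ := by
                congr 1; ring
            _ ≤ ‖u k ^ p - x‖ + ‖u (k + 1) ^ p - x‖ := norm_sub_le _ _
            _ ≤ _ := add_le_add (hy k).le (hy (k + 1)).le
        have h3 : (1 / 2 : ℝ) ^ (p * (k + 1)) ≤ (1 / 2 : ℝ) ^ (p * k) :=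
          pow_le_pow_of_le_one (by norm_num) (by norm_num) (Nat.mul_le_mul_left _ (Nat.le_succ _))
        have h4 : (2 : ℝ) ≤ 2 ^ p := by
          calc (2 : ℝ) = 2 ^ 1 := (pow_one _).symm
            _ ≤ 2 ^ p := pow_le_pow_right₀ (by norm_num) (Fact.out : p.Prime).one_le
        calc ‖u k ^ p - u (k + 1) ^ p‖ ≤ 2 * (1 / 2 : ℝ) ^ (p * k) := by linarith
          _ ≤ 2 ^ p * (1 / 2 : ℝ) ^ (p * k) := by gcongr
          _ = (2 * (1 / 2 : ℝ) ^ k) ^ p := by rw [mul_pow, ← pow_mul, mul_comm k p]
      exact le_of_pow_le_pow_left₀ hp0 (by positivity) h1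
    have hc : CauchySeq u := cauchySeq_of_le_geometric (1 / 2) 2 (by norm_num) hu
    obtain ⟨w, hw⟩ := cauchySeq_tendsto_of_complete hc
    refine ⟨w, ?_⟩
    have hw1 : Filter.Tendsto (fun k => u k ^ p) Filter.atTop (nhds (w ^ p)) := hw.pow p
    have hw2 : Filter.Tendsto (fun k => u k ^ p) Filter.atTop (nhds x) := by
      rw [tendsto_iff_norm_sub_tendsto_zero]
      refine squeeze_zero (fun k => norm_nonneg _) (fun k => (hy k).le) ?_
      have : Filter.Tendsto (fun k : ℕ => ((1 / 2 : ℝ) ^ p) ^ k) Filter.atTop (nhds 0) :=
        tendsto_pow_atTop_nhds_zero_of_lt_one (by positivity)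
          (pow_lt_one₀ (by norm_num) (by norm_num) hp0)
      simpa [pow_mul] using this
    exact tendsto_nhds_unique hw1 hw2
  have : PerfectRing L p := PerfectRing.ofSurjective L p hsurj
  exact PerfectRing.toPerfectField L p

/-- Completion of an algebraically closed nonarchimedean field of characteristic `p`. -/
theorem exists_completion_algClosed (p : ℕ) [Fact p.Prime] (C : Type) [NontriviallyNormedField C]
    [IsUltrametricDist C] [IsAlgClosed C] [CharP C p] :
    ∃ (K : Type) (_ : NontriviallyNormedField K) (_ : IsUltrametricDist K)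
      (_ : CompleteSpace K) (_ : IsAlgClosed K) (_ : CharP K p) (ι : C →+* K),
      ∀ x, ‖ι x‖ = ‖x‖ := by
  let inst : NontriviallyNormedField (UniformSpace.Completion C) :=
    { (inferInstance : NormedField (UniformSpace.Completion C)) with
      non_trivial := by
        obtain ⟨x, hx⟩ := NontriviallyNormedField.non_trivial (α := C)
        exact ⟨(x : UniformSpace.Completion C), by simpa using hx⟩ }
  have h1 : IsUltrametricDist (UniformSpace.Completion C) := IsUltrametricDist.of_normedAlgebra C
  have h2 : CharP (UniformSpace.Completion C) p :=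
    charP_of_injective_algebraMap (algebraMap C (UniformSpace.Completion C)).injective p
  have h3 : PerfectField (UniformSpace.Completion C) := perfectField_of_denseRange p (K := C)
    UniformSpace.Completion.denseRange_coe
  have h4 : IsAlgClosed (UniformSpace.Completion C) :=
    isAlgClosed_of_denseRange_of_perfect (K := C) UniformSpace.Completion.denseRange_coe
  refine ⟨UniformSpace.Completion C, inst, h1, inferInstance, h4, h2,
    algebraMap C (UniformSpace.Completion C), fun x => ?_⟩
  exact UniformSpace.Completion.norm_coe x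

/-- Completion of the algebraic closure of a complete nonarchimedean field of characteristic `p`. -/
theorem exists_complete_algClosed (p : ℕ) [Fact p.Prime] (K₀ : Type) [NontriviallyNormedField K₀]
    [CompleteSpace K₀] [IsUltrametricDist K₀] [CharP K₀ p] :
    ∃ (K : Type) (_ : NontriviallyNormedField K) (_ : IsUltrametricDist K)
      (_ : CompleteSpace K) (_ : IsAlgClosed K) (_ : CharP K p) (ι : K₀ →+* K),
      ∀ x, ‖ι x‖ = ‖x‖ := by
  let i1 : NontriviallyNormedField (AlgebraicClosure K₀) :=
    spectralNorm.nontriviallyNormedField K₀ (AlgebraicClosure K₀)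
  let i2 : NormedAlgebra K₀ (AlgebraicClosure K₀) :=
    spectralNorm.normedAlgebra K₀ (AlgebraicClosure K₀)
  have i3 : IsUltrametricDist (AlgebraicClosure K₀) := IsUltrametricDist.of_normedAlgebra K₀
  have i4 : CharP (AlgebraicClosure K₀) p :=
    charP_of_injective_algebraMap (algebraMap K₀ (AlgebraicClosure K₀)).injective p
  obtain ⟨K, j1, j2, j3, j4, j5, ι, hι⟩ := exists_completion_algClosed p (AlgebraicClosure K₀)
  refine ⟨K, j1, j2, j3, j4, j5, ι.comp (algebraMap K₀ (AlgebraicClosure K₀)), fun x => ?_⟩
  rw [RingHom.comp_apply, hι]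
  exact norm_algebraMap' _ x

section base

variable (k : Type) [Field k]

open LaurentSeries WithZero

instance rankOneLS : Valuation.RankOne (Valued.v : Valuation (LaurentSeries k) _) where
  hom' := (WithZeroMulInt.toNNReal (e := 2) (by norm_num)).comp MonoidWithZeroHom.ValueGroup₀.embedding
  strictMono' := (WithZeroMulInt.toNNReal_strictMono (by norm_num)).comp
    MonoidWithZeroHom.ValueGroup₀.embedding_strictMono
  exists_val_nontrivial := by
    refine ⟨((PowerSeries.X : PowerSeries k) : LaurentSeries k), ?_⟩
    have := LaurentSeries.valuation_X_pow k 1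
    rw [pow_one] at this
    rw [this]
    constructor
    · exact exp_ne_zero
    · intro h
      rw [← exp_zero] at h
      have := exp_injective h
      simp at this

end base

/-- A complete algebraically closed nonarchimedean field of characteristic `p` containing
`k((t))`, with `k[[t]]` in the unit ball and `t` of norm `< 1`. -/
theorem exists_pfield (p : ℕ) [Fact p.Prime] (k : Type) [Field k] [CharP k p] :
    ∃ (K : Type) (_ : NontriviallyNormedField K) (_ : IsUltrametricDist K)
      (_ : CompleteSpace K) (_ : IsAlgClosed K) (_ : CharP K p) (ι : LaurentSeries k →+* K),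
      (∀ f : PowerSeries k, ‖ι (f : LaurentSeries k)‖ ≤ 1) ∧
      ‖ι ((PowerSeries.X : PowerSeries k) : LaurentSeries k)‖ < 1 := by
  have he : (1 : NNReal) < 2 := by norm_num
  have key : ∀ x : LaurentSeries k, (Valued.v : Valuation (LaurentSeries k) _).norm x =
      WithZeroMulInt.toNNReal he.ne_zero (Valued.v x) := by
    intro x
    rw [Valuation.norm_def]
    change ((WithZeroMulInt.toNNReal he.ne_zero
      (MonoidWithZeroHom.ValueGroup₀.embedding (Valued.v.restrict x)) : NNReal) : ℝ) = _
    rw [Valuation.embedding_restrict]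
  let i0 : NormedField (LaurentSeries k) := Valued.toNormedField (LaurentSeries k) _
  have hn : ∀ x : LaurentSeries k, ‖x‖ = WithZeroMulInt.toNNReal he.ne_zero (Valued.v x) := key
  have hX : ‖((PowerSeries.X : PowerSeries k) : LaurentSeries k)‖ < 1 := by
    rw [hn]
    have := (WithZeroMulInt.toNNReal_lt_one_iff he
      (m := Valued.v ((PowerSeries.X : PowerSeries k) : LaurentSeries k))).2 ?_
    · exact_mod_cast this
    · have := LaurentSeries.valuation_X_pow k 1
      rw [pow_one] at this
      rw [this, ← WithZero.exp_zero]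
      exact WithZero.exp_lt_exp.2 (by norm_num)
  let i1 : NontriviallyNormedField (LaurentSeries k) :=
    { i0 with
      non_trivial := by
        refine ⟨(((PowerSeries.X : PowerSeries k) : LaurentSeries k))⁻¹, ?_⟩
        rw [norm_inv]
        refine (one_lt_inv₀ ?_).2 hX
        rw [norm_pos_iff]
        intro h
        have h2 := LaurentSeries.valuation_X_pow k 1
        rw [pow_one, h, map_zero] at h2
        exact WithZero.exp_ne_zero h2.symm }
  have i2 : IsUltrametricDist (LaurentSeries k) :=
    IsUltrametricDist.isUltrametricDist_of_forall_norm_add_le_max_norm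
      (fun x y => Valuation.norm_add_le _ x y)
  have i3 : CompleteSpace (LaurentSeries k) := inferInstance
  have i4 : CharP (LaurentSeries k) p :=
    charP_of_injective_ringHom (f := (HahnSeries.C : k →+* LaurentSeries k))
      (HahnSeries.C_injective) p
  obtain ⟨K, j1, j2, j3, j4, j5, ι, hι⟩ := exists_complete_algClosed p (LaurentSeries k)
  refine ⟨K, j1, j2, j3, j4, j5, ι, fun f => ?_, ?_⟩
  · rw [hι]
    change ‖(f : LaurentSeries k)‖ ≤ 1
    rw [hn]
    have := (WithZeroMulInt.toNNReal_le_one_iff he (m := Valued.v (f : LaurentSeries k))).2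
      ((LaurentSeries.val_le_one_iff_eq_coe k _).2 ⟨f, rfl⟩)
    exact_mod_cast this
  · rw [hι]
    exact hX

end Crest.Agent.R227
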