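import Crest.Agent.R227.PtAux

/-!
# R227 / PtData : points of complete local rings, the general statement
-/

set_option autoImplicit false

noncomputable section

namespace Crest.Agent.R227.PtAux

open IsLocalRing

theorem norm_le_one_of_integral {R K : Type*} [CommRing R] [NormedField K] [IsUltrametricDist K]
    (g : R →+* K) (hg1 : ∀ r, ‖g r‖ ≤ 1) (x : K) (q : Polynomial R) (hq : q.Monic)
    (hx : q.eval₂ g x = 0) : ‖x‖ ≤ 1 := by
  by_contra h
  push Not at h
  have hx0 : 0 < ‖x‖ := zero_lt_one.trans h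
  rw [hq.as_sum, Polynomial.eval₂_add, Polynomial.eval₂_pow, Polynomial.eval₂_X,
    Polynomial.eval₂_finsetSum] at hx
  set n := q.natDegree with hn
  have h1 : ∀ i ∈ Finset.range n, ‖Polynomial.eval₂ g x
      (Polynomial.C (q.coeff i) * Polynomial.X ^ i)‖ ≤ ‖x‖ ^ (n - 1) := by
    intro i hi
    rw [Finset.mem_range] at hi
    rw [Polynomial.eval₂_mul, Polynomial.eval₂_C, Polynomial.eval₂_pow, Polynomial.eval₂_X,
      norm_mul, norm_pow]
    calc ‖g (q.coeff i)‖ * ‖x‖ ^ i ≤ 1 * ‖x‖ ^ i := by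
          gcongr
          exact hg1 _
      _ = ‖x‖ ^ i := one_mul _
      _ ≤ ‖x‖ ^ (n - 1) := pow_le_pow_right₀ h.le (by omega)
  have h2 : ‖x ^ n‖ = ‖∑ i ∈ Finset.range n, Polynomial.eval₂ g x
      (Polynomial.C (q.coeff i) * Polynomial.X ^ i)‖ := by
    rw [← norm_neg, eq_neg_of_add_eq_zero_left hx, neg_neg]
  rcases Nat.eq_zero_or_pos n with h0 | h0
  · rw [h0] at h2
    simp at h2
  · have h3 : ‖∑ i ∈ Finset.range n, Polynomial.eval₂ g x
      (Polynomial.C (q.coeff i) * Polynomial.X ^ i)‖ ≤ ‖x‖ ^ (n - 1) :=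
      IsUltrametricDist.norm_sum_le_of_forall_le_of_nonneg (by positivity) h1
    rw [← h2, norm_pow] at h3
    have h4 : ‖x‖ ^ (n - 1) < ‖x‖ ^ n := pow_lt_pow_right₀ h (by omega)
    exact absurd h4 (not_lt.2 h3)

theorem point_of_data {A : Type*} [CommRing A] [IsNoetherianRing A] [IsLocalRing A]
    [Finite (ResidueField A)] (J : Ideal A)
    {R : Type*} [CommRing R] [IsDomain R] (π : R) [IsAdicComplete (Ideal.span {π}) R]
    (hR : ∀ r : R, r ≠ 0 → ∃ N : ℕ, r ∣ π ^ N)
    (f : R →+* A) (hf : f π ∈ maximalIdeal A) (hJ : ∀ N : ℕ, f π ^ N ∉ J)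
    {K : Type*} [NormedField K] [IsUltrametricDist K] [IsAlgClosed K]
    (g : R →+* K) (hg : Function.Injective g) (hg1 : ∀ r, ‖g r‖ ≤ 1) (hgπ : ‖g π‖ < 1) :
    ∃ X : A →+* K, (∀ a ∈ J, X a = 0) ∧ X (f π) = g π ∧ (∀ a, ‖X a‖ ≤ 1) ∧
      ∀ a ∈ maximalIdeal A, ‖X a‖ < 1 := by
  obtain ⟨P, hP, hJP, hsP, N, hN⟩ := exists_prime J (f π) hJ
  have hloc : IsLocalRing (A ⧸ P) :=
    IsLocalRing.of_surjective' (Ideal.Quotient.mk P) Ideal.Quotient.mk_surjective
  let : Algebra R (A ⧸ P) := ((Ideal.Quotient.mk P).comp f).toAlgebra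
  let : Algebra R K := g.toAlgebra
  have halg : ∀ r, algebraMap R (A ⧸ P) r = Ideal.Quotient.mk P (f r) := fun _ => rfl
  -- injectivity
  have hinj : Function.Injective (algebraMap R (A ⧸ P)) := by
    rw [injective_iff_map_eq_zero]
    intro r hr
    by_contra hr0
    obtain ⟨M, c, hc⟩ := hR r hr0
    have h1 : algebraMap R (A ⧸ P) (π ^ M) = 0 := by rw [hc, map_mul, hr, zero_mul]
    rw [map_pow] at h1
    have h3 := eq_zero_of_pow_eq_zero h1
    rw [halg, Ideal.Quotient.eq_zero_iff_mem] at h3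
    exact hsP h3
  -- finiteness
  have hfin : Finite ((A ⧸ P) ⧸ Ideal.span {algebraMap R (A ⧸ P) π}) := by
    have h1 : Finite (A ⧸ (P ⊔ Ideal.span {f π})) := finite_quot _ N hN
    have h2 : Ideal.span {algebraMap R (A ⧸ P) π} =
        (Ideal.span {f π}).map (Ideal.Quotient.mk P) := by
      rw [Ideal.map_span, Set.image_singleton, halg]
    rw [h2]
    exact Finite.of_equiv _ (DoubleQuot.quotQuotEquivQuotSup P (Ideal.span {f π})).symm.toEquiv
  have htop : Ideal.span {algebraMap R (A ⧸ P) π} ≠ ⊤ := by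
    rw [Ne, Ideal.eq_top_iff_one, Ideal.mem_span_singleton]
    rintro ⟨c, hc⟩
    obtain ⟨c', rfl⟩ := Ideal.Quotient.mk_surjective c
    rw [halg, ← map_mul, ← map_one (Ideal.Quotient.mk P), Ideal.Quotient.eq] at hc
    have h1 : (1 : A) ∈ maximalIdeal A := by
      have h2 := add_mem (le_maximalIdeal hP.ne_top hc) (Ideal.mul_mem_right c' _ hf)
      rwa [sub_add_cancel] at h2
    exact (Ideal.ne_top_iff_one _).1 (maximalIdeal.isMaximal A).ne_top h1
  have hH : IsHausdorff (Ideal.span {π}) (A ⧸ P) := by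
    constructor
    intro x hx
    have h1 : x ∈ (⨅ i : ℕ, (Ideal.span {algebraMap R (A ⧸ P) π}) ^ i) := by
      rw [Ideal.mem_iInf]
      intro i
      have h2 := hx i
      rw [SModEq.zero] at h2
      have h3 : ∀ y ∈ (Ideal.span {π} ^ i • (⊤ : Submodule R (A ⧸ P))),
          y ∈ (Ideal.span {algebraMap R (A ⧸ P) π}) ^ i := by
        intro y hy
        refine Submodule.smul_induction_on hy ?_ ?_
        · intro r hr z _
          rw [Ideal.span_singleton_pow, Ideal.mem_span_singleton] at hr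
          obtain ⟨c, rfl⟩ := hr
          rw [Algebra.smul_def, map_mul, map_pow, mul_assoc]
          rw [Ideal.span_singleton_pow]
          exact Ideal.mul_mem_right _ _ (Ideal.mem_span_singleton_self _)
        · intro y z hy hz
          exact add_mem hy hz
      exact h3 x h2
    rw [Ideal.iInf_pow_eq_bot_of_isLocalRing _ htop] at h1
    exact h1
  have hmf : Module.Finite R (A ⧸ P) := module_finite_of_complete π hH hfin
  have hint : Algebra.IsIntegral R (A ⧸ P) := Algebra.IsIntegral.of_finite R (A ⧸ P)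
  have hnt : Nontrivial R := inferInstance
  have halgc : Algebra.IsAlgebraic R (A ⧸ P) := inferInstance
  have htf : Module.IsTorsionFree R (A ⧸ P) :=
    Module.isTorsionFree_iff_algebraMap_injective.2 hinj
  have htf' : Module.IsTorsionFree R K := Module.isTorsionFree_iff_algebraMap_injective.2 hg
  let φ : (A ⧸ P) →ₐ[R] K := IsAlgClosed.lift
  let X : A →+* K := φ.toRingHom.comp (Ideal.Quotient.mk P)
  have hXf : ∀ r, X (f r) = g r := by
    intro r
    change φ (Ideal.Quotient.mk P (f r)) = g r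
    rw [← halg, AlgHom.commutes]
    rfl
  have hXP : ∀ a ∈ P, X a = 0 := by
    intro a ha
    change φ (Ideal.Quotient.mk P a) = 0
    rw [Ideal.Quotient.eq_zero_iff_mem.2 ha, map_zero]
  have hX1 : ∀ a, ‖X a‖ ≤ 1 := by
    intro a
    obtain ⟨q, hq, hq'⟩ := hint.isIntegral (Ideal.Quotient.mk P a)
    refine norm_le_one_of_integral g hg1 _ q hq ?_
    have h1 : φ (Polynomial.eval₂ (algebraMap R (A ⧸ P)) (Ideal.Quotient.mk P a) q) = 0 := by
      rw [hq', map_zero]
    have h2 := Polynomial.hom_eval₂ q (algebraMap R (A ⧸ P)) φ.toRingHom (Ideal.Quotient.mk P a)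
    have h3 : φ.toRingHom.comp (algebraMap R (A ⧸ P)) = g := by
      ext r
      exact hXf r
    rw [h3] at h2
    exact h2.symm.trans h1
  refine ⟨X, fun a ha => hXP a (hJP ha), hXf π, hX1, fun a ha => ?_⟩
  have h1 : a ^ N ∈ P ⊔ Ideal.span {f π} := hN (Ideal.pow_mem_pow ha N)
  obtain ⟨b, hb, c, hc, hbc⟩ := Submodule.mem_sup.1 h1
  obtain ⟨d, rfl⟩ := Ideal.mem_span_singleton.1 hc
  have h2 : X a ^ N = g π * X d := by
    rw [← map_pow, ← hbc, map_add, hXP b hb, zero_add, map_mul, hXf]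
  have h3 : ‖X a‖ ^ N < 1 := by
    rw [← norm_pow, h2, norm_mul]
    calc ‖g π‖ * ‖X d‖ ≤ ‖g π‖ * 1 := by
          gcongr
          exact hX1 d
      _ < 1 := by rw [mul_one]; exact hgπ
  by_contra h4
  push Not at h4
  exact absurd (one_le_pow₀ h4) (not_le.2 h3)

end Crest.Agent.R227.PtAux
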