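import Crest.Agent.R227.TopDefs
import Crest.Agent.R227.LTComplete
import Crest.Agent.R227.PField
import Crest.Agent.R227.PtData

/-!
# R227 / PointsP (task POINTSP)
-/

set_option autoImplicit false

noncomputable section

namespace Crest.Agent.R227

open Crest.LubinTate MvPowerSeries Topology

variable (p : ℕ) [Fact p.Prime] (n : ℕ)

namespace PtRed

/-- the special fibre `k[[u_1, …, u_{n-1}]]` -/
abbrev B : Type := MvPowerSeries (Fin (n - 1)) (GaloisField p n)

/-- reduction mod `p` -/
def red : LTRing p n →+* B p n := MvPowerSeries.map WittVector.constantCoeff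

theorem red_surj : Function.Surjective (red p n) := by
  intro b
  choose w hw using fun e => WittVector.constantCoeff_surjective p (MvPowerSeries.coeff e b)
  refine ⟨fun e => w e, ?_⟩
  ext e
  rw [red, MvPowerSeries.coeff_map]
  exact hw e

theorem ker_red (a : LTRing p n) (ha : red p n a = 0) : (p : LTRing p n) ∣ a := by
  have h1 : ∀ e, ∃ w : WittVector p (GaloisField p n), MvPowerSeries.coeff e a = p * w := by
    intro e
    have h2 : MvPowerSeries.coeff e a ∈
        RingHom.ker (WittVector.constantCoeff : WittVector p (GaloisField p n) →+* _) := by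
      rw [RingHom.mem_ker]
      have := congrArg (MvPowerSeries.coeff e) ha
      rwa [red, MvPowerSeries.coeff_map, map_zero] at this
    rw [WittVector.ker_constantCoeff, Ideal.mem_span_singleton] at h2
    exact h2
  choose w hw using h1
  refine ⟨fun e => w e, ?_⟩
  refine MvPowerSeries.ext (fun e => ?_)
  have h3 : (p : LTRing p n) = MvPowerSeries.C (p : WittVector p (GaloisField p n)) := by
    rw [map_natCast]
  rw [h3, MvPowerSeries.coeff_C_mul]
  exact hw e

theorem constantCoeff_red (a : LTRing p n) :
    MvPowerSeries.constantCoeff (red p n a) = LTRing.residue p n a := by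
  rw [red, MvPowerSeries.constantCoeff_map]
  rfl

theorem mem_maximalIdeal_B (b : B p n) :
    b ∈ IsLocalRing.maximalIdeal (B p n) ↔ MvPowerSeries.constantCoeff b = 0 := by
  rw [IsLocalRing.mem_maximalIdeal, mem_nonunits_iff, MvPowerSeries.isUnit_iff_constantCoeff,
    isUnit_iff_ne_zero, not_not]

instance finite_residueField_B : Finite (IsLocalRing.ResidueField (B p n)) := by
  have h1 : Finite (B p n ⧸ RingHom.ker (MvPowerSeries.constantCoeff : B p n →+* _)) :=
    Finite.of_injective _ (RingHom.kerLift_injective _)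
  have h2 : RingHom.ker (MvPowerSeries.constantCoeff : B p n →+* _) =
      IsLocalRing.maximalIdeal (B p n) := by
    ext b
    rw [mem_maximalIdeal_B, RingHom.mem_ker]
  rw [h2] at h1
  exact h1

end PtRed

open PtRed

/-- Characteristic `p` points. -/
theorem exists_point_p (hn : 1 ≤ n) (J : Ideal (LTRing p n)) (hJ : J.IsRadical)
    (hp : (p : LTRing p n) ∈ J) (s : LTRing p n) (hs : s ∉ J) (hsm : LTRing.residue p n s = 0) :
    ∃ (K : Type) (_ : NontriviallyNormedField K) (_ : IsUltrametricDist K)
      (_ : CompleteSpace K) (_ : IsAlgClosed K) (_ : CharP K p)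
      (X : LTRing p n →+* Ob K), (∀ a ∈ J, X a = 0) ∧ X s ≠ 0 ∧
      ∀ a, LTRing.residue p n a = 0 → ‖X a‖ < 1 := by
  obtain ⟨K, i1, i2, i3, i4, i5, ι, hι1, hι2⟩ := exists_pfield p (ZMod p)
  have hs0 : MvPowerSeries.constantCoeff (red p n s) = 0 := by
    rw [constantCoeff_red, hsm]
  have hsub : PowerSeries.HasSubst (red p n s) := PowerSeries.HasSubst.of_constantCoeff_zero hs0
  let f : PowerSeries (ZMod p) →+* B p n := (PowerSeries.substAlgHom hsub).toRingHom
  have hfX : f PowerSeries.X = red p n s := by
    change PowerSeries.substAlgHom hsub PowerSeries.X = red p n s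
    exact PowerSeries.substAlgHom_X hsub
  have hinj : Function.Injective
      (ι.comp (HahnSeries.ofPowerSeries ℤ (ZMod p))) := by
    rw [RingHom.coe_comp]
    exact ι.injective.comp HahnSeries.ofPowerSeries_injective
  obtain ⟨X, hX1, hX2, hX3, hX4⟩ := PtAux.point_of_data (J.map (red p n))
    (R := PowerSeries (ZMod p)) PowerSeries.X
    (fun r hr => ⟨r.order.toNat, PowerSeries.Inv_divided_by_X_pow_order hr, by
      have h1 := PowerSeries.X_pow_order_mul_divXPowOrder (f := r)
      calc (PowerSeries.X ^ r.order.toNat : PowerSeries (ZMod p))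
          = PowerSeries.X ^ r.order.toNat * (PowerSeries.divXPowOrder r *
              PowerSeries.Inv_divided_by_X_pow_order hr) := by
            rw [PowerSeries.Inv_divided_by_X_pow_order_rightInv, mul_one]
        _ = r * PowerSeries.Inv_divided_by_X_pow_order hr := by rw [← mul_assoc, h1]⟩)
    f (by rw [hfX, mem_maximalIdeal_B, hs0])
    (fun N h => by
      rw [hfX, ← map_pow, Ideal.mem_map_iff_of_surjective _ (red_surj p n)] at h
      obtain ⟨j, hj, hj'⟩ := h
      have h1 : (p : LTRing p n) ∣ s ^ N - j := by
        apply ker_red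
        rw [map_sub, hj', sub_self]
      have h2 : s ^ N ∈ J := by
        have := add_mem (J.mem_of_dvd h1 hp) hj
        rwa [sub_add_cancel] at this
      exact hs (hJ ⟨N, h2⟩))
    (K := K) (ι.comp (HahnSeries.ofPowerSeries ℤ (ZMod p))) hinj (fun r => hι1 r) hι2
  refine ⟨K, i1, i2, i3, i4, i5, (X.comp (red p n)).codRestrict (Ob K) (fun a => hX3 _), ?_, ?_, ?_⟩
  · intro a ha
    exact Subtype.ext (hX1 _ (Ideal.mem_map_of_mem _ ha))
  · intro h
    have h1 : X (red p n s) = 0 := congrArg Subtype.val h
    rw [← hfX, hX2] at h1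
    have h2 := (map_eq_zero_iff _ hinj).1 h1
    exact PowerSeries.X_ne_zero h2
  · intro a ha
    refine hX4 _ ?_
    rw [mem_maximalIdeal_B, constantCoeff_red, ha]

end Crest.Agent.R227
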