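import Crest.Agent.R227.CoTate
import Crest.Agent.R227.PointsP
import Crest.Agent.R227.CoDriAux

/-! # R227 / CoDri : Drinfeld trick (task CODRI) -/

set_option autoImplicit false
set_option linter.unusedSectionVars false

noncomputable section

namespace Crest.Agent.R227

open Crest.LubinTate MvPowerSeries Topology

variable {p : ℕ} [Fact p.Prime] {n h : ℕ}
variable {K : Type} [NontriviallyNormedField K] [IsUltrametricDist K] [CompleteSpace K]
  [IsAlgClosed K] [CharP K p]

/-- **Drinfeld trick**: every function on the stratum is a power series in the level points. -/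
theorem drinfeld (h1 : 1 ≤ h) (hh : h < n) (i : ℕ) (hi : 1 ≤ i) (f : LTRing p n) :
    ∃ F : MvPowerSeries (Fin (n - h)) (GaloisField p n),
      ∀ (K : Type) [NontriviallyNormedField K] [IsUltrametricDist K] [CompleteSpace K]
        [IsAlgClosed K] [CharP K p] (ι : GaloisField p n →+* Ob K) (x : Mk p n h K ι),
        x.P.X f = ev (kap x.P x.ρ x.t i) (F.map ι) :=
  CoDriAux.drinfeld' h1 hh i hi f

end Crest.Agent.R227
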