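import Crest.Agent.R227.CoTate
import Crest.Agent.R227.PointsP

/-! # R227 / CoDri2 : existence of marked points (task CODRI2) -/

set_option autoImplicit false
set_option linter.unusedSectionVars false

noncomputable section

namespace Crest.Agent.R227

open Crest.LubinTate MvPowerSeries Topology

/-- if `f ∉ II h` the series is not zero: there is a marked point with `X f ≠ 0` (`PointsP`
with `s = f u_h`, `exists_iota`, `exists_rho`, `exists_tbasis`). -/
theorem exists_mk_ne {p : ℕ} [Fact p.Prime] {n h : ℕ}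
    (h1 : 1 ≤ h) (hh : h < n) (f : LTRing p n) (hf : f ∉ II p n h) :
    ∃ (K : Type) (_ : NontriviallyNormedField K) (_ : IsUltrametricDist K) (_ : CompleteSpace K)
      (_ : IsAlgClosed K) (_ : CharP K p) (ι : GaloisField p n →+* Ob K) (x : Mk p n h K ι),
      x.P.X f ≠ 0 := by
  have hn : 1 ≤ n := by omega
  have hprime := II_isPrime p n hn h hh.le
  have hu : uu p n h ∉ II p n h := by
    rw [mem_II_iff p n h1 hh.le, killHom_eq_zero_iff]
    intro hd
    have h2 := hd (Finsupp.single ⟨h - 1, by omega⟩ 1) (fun i hi => by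
      rw [Finsupp.single_apply, if_neg]
      intro h3
      have := congrArg Fin.val h3
      simp only at this
      omega)
    rw [uu_of_lt p n h1 hh, coeff_X, if_pos rfl] at h2
    simp at h2
  have hs : f * uu p n h ∉ II p n h := by
    intro h2
    rcases hprime.mem_or_mem h2 with h3 | h3
    · exact hf h3
    · exact hu h3
  have hres : LTRing.residue p n (uu p n h) = 0 := by
    rw [← mem_II_n p n hn]
    exact Ideal.subset_span ⟨h, hh, rfl⟩
  have hsm : LTRing.residue p n (f * uu p n h) = 0 := by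
    rw [map_mul, hres, mul_zero]
  obtain ⟨K, i1, i2, i3, i4, i5, X, hX1, hX2, hX3⟩ :=
    exists_point_p p n hn (II p n h) hprime.isRadical (p_mem_II p n h1) (f * uu p n h) hs hsm
  rw [map_mul] at hX2
  let P : HPoint p n h K := ⟨X, hX3, hX1, right_ne_zero_of_mul hX2⟩
  obtain ⟨ι, hι⟩ := exists_iota P
  obtain ⟨ρ, hρ⟩ := exists_rho h1 hh P
  obtain ⟨t, ht⟩ := exists_tbasis h1 hh hρ
  exact ⟨K, i1, i2, i3, i4, i5, ι, ⟨P, hι, ρ, hρ, t, ht⟩, left_ne_zero_of_mul hX2⟩

end Crest.Agent.R227
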