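import Crest.Agent.R227.WittRW

/-!
# R227 / WittSize : `L_n(t) L_h(t) = [t²] + …` modulo `[t³]`
-/

set_option autoImplicit false
set_option linter.unusedSectionVars false

noncomputable section

namespace Crest.Agent.R227

open Crest.LubinTate MvPowerSeries Topology WittVector

variable (p : ℕ) [Fact p.Prime] {K : Type*} [NormedField K] [IsUltrametricDist K]
  [CharP K p] [PerfectRing K p]

theorem Lp_coeff_zero {O : Type*} [CommRing O] [CharP O p] [PerfectRing O p] (n : ℕ) (z : O) :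
    (Lp p n z).coeff 0 = z := by
  rw [Lp, WittVector.coeff_mk, mul_zero, proot, RingEquiv.symm_apply_eq, iterateFrobeniusEquiv_def,
    pow_zero, pow_one]

theorem Lp_eq_add {O : Type*} [CommRing O] [CharP O p] [PerfectRing O p] (n : ℕ) (hn : 1 ≤ n)
    (z : O) : Lp p n z = (p : WittVector p O) * Lp p n (proot p n z) + teichmuller p z := by
  have h1 : (proot p n z) ^ p ^ n = z := by
    have := (iterateFrobeniusEquiv O p n).apply_symm_apply z
    rwa [iterateFrobeniusEquiv_def] at this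
  have h2 := Lp_pow p n hn (proot p n z)
  rwa [h1] at h2

/-- `p L_n(t) = p Lp_n(t) + [t^q]` in `RW (t^3)` -/
theorem p_mul_Lw_cube (n : ℕ) (hn : 1 ≤ n) (t : Ob K) :
    (p : RW p (t ^ 3)) * Lw p n (t ^ 3) t =
      toRW p (t ^ 3) ((p : WittVector p (Ob K)) * Lp p n t + teichmuller p (t ^ p ^ n)) := by
  have hp2 : 2 ≤ p := (Fact.out : p.Prime).two_le
  have hq : 2 ≤ p ^ n := by
    calc 2 ≤ p := hp2
      _ = p ^ 1 := (pow_one p).symm
      _ ≤ p ^ n := Nat.pow_le_pow_right (by omega) hn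
  have h0 : 2 ^ 2 ≤ (p ^ n) ^ (1 + 1) := Nat.pow_le_pow_left hq 2
  have h1 : t ^ 3 ∣ t ^ (p ^ n) ^ (1 + 1) := pow_dvd_pow t (by omega)
  rw [Lw_eq p n hn (t ^ 3) t 1 h1, pow_one, ← mul_assoc, p_mul_pinv, one_mul, pow_one, Lp_pow p n hn]

/-- for `0 < |t| < 1`, `n, h ≥ 1`: in `RW (t^3)`, `L_n(t) L_h(t) = a` with `a ∈ W(O)` and
`t^3 ∤ a_0`. -/
theorem Lw_mul_Lw_size (n h : ℕ) (hn : 1 ≤ n) (hh : 1 ≤ h) (t : Ob K) (ht0 : t ≠ 0)
    (ht : ‖t‖ < 1) : ∃ a : WittVector p (Ob K),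
    Lw p n (t ^ 3) t * Lw p h (t ^ 3) t = toRW p (t ^ 3) a ∧ ¬ t ^ 3 ∣ a.coeff 0 := by
  have hp2 : 2 ≤ p := (Fact.out : p.Prime).two_le
  have hq : ∀ m : ℕ, 1 ≤ m → 2 ≤ p ^ m := fun m hm => by
    calc 2 ≤ p := hp2
      _ = p ^ 1 := (pow_one p).symm
      _ ≤ p ^ m := Nat.pow_le_pow_right (by omega) hm
  have ht0' : 0 < ‖t‖ := norm_pos_iff.2 ht0
  set W := WittVector p (Ob K)
  set a : WittVector p (Ob K) := Lp p n t * Lp p h t + teichmuller p (t ^ p ^ n) * Lp p h (proot p h t) +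
    teichmuller p (t ^ p ^ h) * Lp p n (proot p n t) with ha
  refine ⟨a, ?_, ?_⟩
  · apply p_pow_mul_cancel p (t ^ 3) 2
    have e1 := p_mul_Lw_cube p n hn t
    have e2 := p_mul_Lw_cube p h hh t
    have e3 : (p : RW p (t ^ 3)) ^ 2 * (Lw p n (t ^ 3) t * Lw p h (t ^ 3) t) =
        ((p : RW p (t ^ 3)) * Lw p n (t ^ 3) t) * ((p : RW p (t ^ 3)) * Lw p h (t ^ 3) t) := by ring
    rw [e3, e1, e2, ← map_mul, ← toRW_p_pow_mul, ← sub_eq_zero, ← map_sub]
    have e4 : ((p : WittVector p (Ob K)) * Lp p n t + teichmuller p (t ^ p ^ n)) *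
        ((p : WittVector p (Ob K)) * Lp p h t + teichmuller p (t ^ p ^ h)) -
          (p : WittVector p (Ob K)) ^ 2 * a =
        (p : WittVector p (Ob K)) * (teichmuller p (t ^ p ^ n) * teichmuller p t) +
        (p : WittVector p (Ob K)) * (teichmuller p (t ^ p ^ h) * teichmuller p t) +
          teichmuller p (t ^ p ^ n) * teichmuller p (t ^ p ^ h) := by
      have e5 := Lp_eq_add p n hn t
      have e6 := Lp_eq_add p h hh t
      have e7 : teichmuller p (t ^ p ^ n) * Lp p h t = teichmuller p (t ^ p ^ n) *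
        ((p : WittVector p (Ob K)) * Lp p h (proot p h t) + teichmuller p t) := by rw [← e6]
      have e8 : teichmuller p (t ^ p ^ h) * Lp p n t = teichmuller p (t ^ p ^ h) *
        ((p : WittVector p (Ob K)) * Lp p n (proot p n t) + teichmuller p t) := by rw [← e5]
      rw [ha]
      linear_combination (p : WittVector p (Ob K)) * e7 + (p : WittVector p (Ob K)) * e8
    have e9 : teichmuller p (t ^ p ^ n) * teichmuller p t = teichmuller p (t ^ (p ^ n + 1)) := by
      rw [← map_mul, ← pow_succ]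
    have e10 : teichmuller p (t ^ p ^ h) * teichmuller p t = teichmuller p (t ^ (p ^ h + 1)) := by
      rw [← map_mul, ← pow_succ]
    have e11 : teichmuller p (t ^ p ^ n) * teichmuller p (t ^ p ^ h) =
        teichmuller p (t ^ (p ^ n + p ^ h)) := by
      rw [← map_mul, ← pow_add]
    rw [e4, e9, e10, e11, map_add, map_add, map_mul, map_mul]
    have hqn := hq n hn
    have hqh := hq h hh
    rw [toRW_teichmuller_of_dvd p (t ^ 3) _ (pow_dvd_pow t (by omega : 3 ≤ p ^ n + 1)),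
      toRW_teichmuller_of_dvd p (t ^ 3) _ (pow_dvd_pow t (by omega : 3 ≤ p ^ h + 1)),
      toRW_teichmuller_of_dvd p (t ^ 3) _ (pow_dvd_pow t (by omega : 3 ≤ p ^ n + p ^ h)),
      mul_zero, add_zero, add_zero]
  · have hc : a.coeff 0 = t * t + t ^ p ^ n * proot p h t + t ^ p ^ h * proot p n t := by
      have h1 : a.coeff 0 = WittVector.constantCoeff a := rfl
      have h2 : ∀ b : WittVector p (Ob K), WittVector.constantCoeff b = b.coeff 0 := fun _ => rfl
      rw [h1, ha, map_add, map_add, map_mul, map_mul, map_mul]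
      simp only [h2, Lp_coeff_zero, teichmuller_coeff_zero]
    rw [hc]
    intro hd
    have h3 : t ^ 3 ≠ 0 := pow_ne_zero _ ht0
    rw [Ob_dvd_iff _ _ h3, Ob_norm_pow] at hd
    have hs : ∀ m : ℕ, 1 ≤ m → ∀ k, ‖t ^ p ^ m * proot p k t‖ < ‖t‖ ^ 2 := by
      intro m hm k
      have hpk : ‖proot p k t‖ < 1 := by
        by_contra hlt
        have h5 : (proot p k t) ^ p ^ k = t := by
          have := (iterateFrobeniusEquiv (Ob K) p k).apply_symm_apply t
          rwa [iterateFrobeniusEquiv_def] at this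
        have h6 : 1 ≤ ‖proot p k t‖ ^ p ^ k := one_le_pow₀ (not_lt.1 hlt)
        rw [← Ob_norm_pow, h5] at h6
        exact absurd ht (not_lt.2 h6)
      rw [Ob_norm_mul, Ob_norm_pow]
      calc ‖t‖ ^ p ^ m * ‖proot p k t‖ < ‖t‖ ^ p ^ m * 1 := by
            apply mul_lt_mul_of_pos_left hpk (pow_pos ht0' _)
        _ = ‖t‖ ^ p ^ m := mul_one _
        _ ≤ ‖t‖ ^ 2 := pow_le_pow_of_le_one (norm_nonneg _) ht.le (hq m hm)
    have h7 : ‖t * t‖ = ‖t‖ ^ 2 := by rw [Ob_norm_mul, sq]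
    have h8 : t * t = (t * t + t ^ p ^ n * proot p h t + t ^ p ^ h * proot p n t) -
        t ^ p ^ n * proot p h t - t ^ p ^ h * proot p n t := by ring
    have h9 : ‖t * t‖ < ‖t‖ ^ 2 := by
      have hadd : ∀ x y : Ob K, ‖x - y‖ ≤ max ‖x‖ ‖y‖ := by
        intro x y
        have h10 := IsUltrametricDist.norm_add_le_max (x : K) (-(y : K))
        rw [norm_neg, ← sub_eq_add_neg] at h10
        exact h10
      rw [h8]
      refine (hadd _ _).trans_lt (max_lt ((hadd _ _).trans_lt (max_lt ?_ (hs n hn h))) (hs h hh n))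
      refine hd.trans_lt ?_
      exact pow_lt_pow_right_of_lt_one₀ ht0' ht (by norm_num)
    rw [h7] at h9
    exact lt_irrefl _ h9

end Crest.Agent.R227
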