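import Crest.Agent.R227.EndExp
import Crest.Agent.R227.WittSize

/-!
# R227 / SwapEnd : from the swap identity to a contradiction (helper106)
-/

set_option autoImplicit false

noncomputable section

namespace Crest.Agent.R227

open Crest.LubinTate MvPowerSeries Topology WittVector

variable (p : ℕ) [Fact p.Prime] {K : Type*} [NormedField K] [IsUltrametricDist K]
  [CompleteSpace K] [CharP K p] [PerfectRing K p]

theorem SwapEnd.norm_eq (b : K) (h : ℕ) (hh : 1 ≤ h) (hb : b ^ p ^ h = b) : ‖b‖ ≤ 1 := by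
  by_contra hcon
  push Not at hcon
  have h1 : ‖b‖ ^ p ^ h = ‖b‖ := by rw [← norm_pow, hb]
  have h2 : 1 < p ^ h := Nat.one_lt_pow (by omega) (Fact.out : p.Prime).one_lt
  have h3 : ‖b‖ ^ 1 < ‖b‖ ^ p ^ h := pow_lt_pow_right₀ hcon h2
  rw [h1, pow_one] at h3
  exact lt_irrefl _ h3

/-- a unit of `O` fixed by a power of Frobenius -/
theorem SwapEnd.isUnit_of_fixed (d : Ob K) (h : ℕ) (hh : 1 ≤ h) (hd : d ^ p ^ h = d)
    (h0 : d ≠ 0) : IsUnit d := by
  have h2 : 1 < p ^ h := Nat.one_lt_pow (by omega) (Fact.out : p.Prime).one_lt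
  have h3 : d * d ^ (p ^ h - 1) = d * 1 := by
    rw [mul_one, ← pow_succ', Nat.sub_add_cancel (by omega), hd]
  have h4 : d ^ (p ^ h - 1) = 1 := mul_left_cancel₀ h0 h3
  exact IsUnit.of_pow_eq_one h4 (by omega)

theorem SwapEnd.isUnit_teich_sub (b c : Ob K) (hu : IsUnit (b - c)) :
    IsUnit (teichmuller p b - teichmuller p c) := by
  obtain ⟨u, hu⟩ := hu
  have h1 : (teichmuller p b - teichmuller p c).coeff 0 = u := by
    have : constantCoeff (teichmuller p b - teichmuller p c) = (u : Ob K) := by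
      rw [map_sub, hu]
      change (teichmuller p b).coeff 0 - (teichmuller p c).coeff 0 = b - c
      rw [teichmuller_coeff_zero, teichmuller_coeff_zero]
    exact this
  exact ⟨mkUnit h1, coe_mkUnit h1⟩

/-- separation of the `F_{p^h}`-characters -/
theorem SwapEnd.stepA [IsAlgClosed K] (h : ℕ) (h1 : 1 ≤ h) {ι : Type*} [Fintype ι]
    (g : ι → ℕ → WittVector p (Ob K)) (w : Ob K) (hw : w ≠ 0) (T : ι → RW p w)
    (hswap : ∀ y : Ob K, ‖y‖ < 1 → ∑ l, T l * ∑ m ∈ Finset.range h,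
      toRW p w (g l m) * Lw p h w (y ^ p ^ m) = 0)
    (y : Ob K) (hy : ‖y‖ < 1) :
    ∑ l, toRW p w (g l 0) * T l * Lw p h w y = 0 := by
  have hp0 : p ≠ 0 := (Fact.out : p.Prime).ne_zero
  obtain ⟨b0, hb0, hbd⟩ := exists_generator (p := p) (K := K) h h1
  set b : Ob K := ⟨b0, SwapEnd.norm_eq p b0 h h1 hb0⟩ with hbdef
  have hb : b ^ p ^ h = b := Subtype.ext hb0
  have hbd' : ∀ d, 0 < d → d < h → b ^ p ^ d ≠ b := by
    intro d hd1 hd2 hbd0
    exact hbd d hd1 hd2 (congrArg Subtype.val hbd0)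
  -- powers of b
  have hbm : ∀ m, (b ^ p ^ m) ^ p ^ h = b ^ p ^ m := by
    intro m
    rw [← pow_mul, mul_comm, pow_mul, hb]
  set v : Fin h → RW p w := fun m => toRW p w (teichmuller p (b ^ p ^ (m : ℕ))) with hv
  set X : Fin h → RW p w := fun m => ∑ l, T l * (toRW p w (g l m) * Lw p h w (y ^ p ^ (m : ℕ)))
    with hX
  have hunit : ∀ i j : Fin h, i < j → IsUnit (v j - v i) := by
    intro i j hij
    rw [hv]
    simp only
    rw [← map_sub]
    apply IsUnit.map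
    apply SwapEnd.isUnit_teich_sub
    apply SwapEnd.isUnit_of_fixed p _ h h1
    · rw [sub_pow_char_pow, hbm, hbm]
    · intro h0
      rw [sub_eq_zero] at h0
      have hij' : (i : ℕ) < (j : ℕ) := hij
      apply hbd' ((j : ℕ) - (i : ℕ)) (by omega) (by omega)
      have h5 : (b ^ p ^ ((j : ℕ) - (i : ℕ)) - b) ^ p ^ (i : ℕ) = 0 := by
        rw [sub_pow_char_pow, ← pow_mul, ← pow_add, Nat.sub_add_cancel hij'.le, h0, sub_self]
      exact sub_eq_zero.mp (pow_eq_zero_iff (pow_ne_zero _ hp0) |>.1 h5)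
  have hsum : ∀ k : Fin h, ∑ m, v m ^ (k : ℕ) * X m = 0 := by
    intro k
    have hyk : ‖b ^ (k : ℕ) * y‖ < 1 := by
      have h3 : ‖b ^ (k : ℕ) * y‖ = ‖b‖ ^ (k : ℕ) * ‖y‖ := by simp
      rw [h3]
      calc ‖b‖ ^ (k : ℕ) * ‖y‖ ≤ 1 * ‖y‖ := by
            apply mul_le_mul_of_nonneg_right (pow_le_one₀ (norm_nonneg _) (Ob_norm_le_one b))
              (norm_nonneg _)
        _ < 1 := by rw [one_mul]; exact hy
    have h2 := hswap (b ^ (k : ℕ) * y) hyk
    rw [← h2]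
    have h4 : ∀ m : ℕ, Lw p h w ((b ^ (k : ℕ) * y) ^ p ^ m) =
        toRW p w (teichmuller p (b ^ p ^ m)) ^ (k : ℕ) * Lw p h w (y ^ p ^ m) := by
      intro m
      have hym : ‖y ^ p ^ m‖ < 1 := by
        have : ‖y ^ p ^ m‖ = ‖y‖ ^ p ^ m := by simp
        rw [this]
        exact pow_lt_one₀ (norm_nonneg _) hy (pow_ne_zero _ hp0)
      rw [mul_pow, ← pow_mul, mul_comm (k : ℕ), pow_mul,
        Lw_smul p h h1 w _ _ hw hym (by rw [← pow_mul, mul_comm, pow_mul, hbm]), map_pow, map_pow]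
    simp only [h4]
    rw [hX]
    simp only [Finset.mul_sum]
    rw [Finset.sum_comm]
    apply Finset.sum_congr rfl
    intro l _
    rw [Finset.sum_range]
    apply Finset.sum_congr rfl
    intro m _
    rw [hv]
    ring
  have hX0 := vandermonde_cancel v hunit X hsum
  have h6 := congrFun hX0 ⟨0, h1⟩
  rw [hX] at h6
  simp only [pow_zero, pow_one, Pi.zero_apply] at h6
  rw [← h6]
  apply Finset.sum_congr rfl
  intro l _
  ring

theorem SwapEnd.norm_pow_lt (y : Ob K) (hy : ‖y‖ < 1) (k : ℕ) (hk : k ≠ 0) : ‖y ^ k‖ < 1 := by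
  have : ‖y ^ k‖ = ‖y‖ ^ k := by simp
  rw [this]
  exact pow_lt_one₀ (norm_nonneg _) hy hk

/-- Frobenius twists of the relation -/
theorem SwapEnd.stepC (n h : ℕ) (hn : 1 ≤ n) (h1 : 1 ≤ h) {ι : Type*} [Fintype ι]
    (t : ι → Ob K) (ht : ∀ l, ‖t l‖ < 1) (x : ι → WittVector p (Ob K))
    (hx : ∀ (e : ℕ) (w y : Ob K), w ≠ 0 → ‖w‖ < 1 → ‖y‖ < 1 →
      ∑ l, toRW p w (x l) * Lw p n w (t l ^ p ^ e) * Lw p h w y = 0) (j : ℕ) :
    ∀ (e : ℕ) (w y : Ob K), w ≠ 0 → ‖w‖ < 1 → ‖y‖ < 1 →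
      ∑ l, toRW p w (WittVector.frobenius^[j] (x l)) * Lw p n w (t l ^ p ^ (e + j)) *
        Lw p h w y = 0 := by
  have hp0 : p ≠ 0 := (Fact.out : p.Prime).ne_zero
  induction j with
  | zero => exact hx
  | succ j ih =>
    intro e w y hw hw1 hy
    obtain ⟨w0, rfl⟩ : ∃ w0 : Ob K, w0 ^ p = w := (bijective_frobenius (Ob K) p).surjective w
    obtain ⟨y0, rfl⟩ : ∃ y0 : Ob K, y0 ^ p = y := (bijective_frobenius (Ob K) p).surjective y
    have hw0 : w0 ≠ 0 := by
      rintro rfl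
      exact hw (zero_pow hp0)
    have hw01 : ‖w0‖ < 1 := by
      have h3 : ‖w0 ^ p‖ = ‖w0‖ ^ p := by simp
      rw [h3] at hw1
      exact (pow_lt_one_iff_of_nonneg (norm_nonneg _) hp0).1 hw1
    have hy01 : ‖y0‖ < 1 := by
      have h3 : ‖y0 ^ p‖ = ‖y0‖ ^ p := by simp
      rw [h3] at hy
      exact (pow_lt_one_iff_of_nonneg (norm_nonneg _) hp0).1 hy
    have h4 := congrArg (frobRW p w0 hw0) (ih e w0 y0 hw0 hw01 hy01)
    rw [map_sum, map_zero] at h4
    rw [← h4]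
    apply Finset.sum_congr rfl
    intro l _
    rw [map_mul, map_mul, frobRW_toRW, frobRW_Lw p n hn w0 _ hw0
      (SwapEnd.norm_pow_lt _ (ht l) _ (pow_ne_zero _ hp0)), frobRW_Lw p h h1 w0 _ hw0 hy01,
      Function.iterate_succ_apply', ← pow_mul, ← pow_succ, add_assoc]

/-- the relation with the sum over Frobenius conjugates -/
theorem SwapEnd.stepD (n h : ℕ) (hn : 1 ≤ n) (h1 : 1 ≤ h) {ι : Type*} [Fintype ι]
    (t : ι → Ob K) (ht : ∀ l, ‖t l‖ < 1) (x : ι → WittVector p (Ob K))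
    (hx : ∀ (e : ℕ) (w y : Ob K), w ≠ 0 → ‖w‖ < 1 → ‖y‖ < 1 →
      ∑ l, toRW p w (x l) * Lw p n w (t l ^ p ^ e) * Lw p h w y = 0)
    (w y : Ob K) (hw : w ≠ 0) (hw1 : ‖w‖ < 1) (hy : ‖y‖ < 1) :
    ∑ l, toRW p w (∑ j ∈ Finset.range h, WittVector.frobenius^[j] (x l)) *
      Lw p n w (t l) * Lw p h w y = 0 := by
  have hj : ∀ j, ∑ l, toRW p w (WittVector.frobenius^[j] (x l)) * Lw p n w (t l) *
      Lw p h w y = 0 := by
    intro j
    have h2 := SwapEnd.stepC p n h hn h1 t ht x hx j ((n - 1) * j) w y hw hw1 hy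
    have h3 : (n - 1) * j + j = n * j := by
      obtain ⟨m, rfl⟩ : ∃ m, n = m + 1 := ⟨n - 1, by omega⟩
      simp; ring
    have h4 : ∀ l, Lw p n w (t l ^ p ^ (n * j)) = (p : RW p w) ^ j * Lw p n w (t l) := by
      intro l
      rw [pow_mul, Lw_frobq_pow p n hn w _ hw (ht l)]
    simp only [h3, h4] at h2
    have hu : IsUnit ((p : RW p w) ^ j) := (isUnit_p p w).pow j
    apply hu.mul_left_cancel
    rw [mul_zero, ← h2, Finset.mul_sum]
    apply Finset.sum_congr rfl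
    intro l _
    ring
  simp only [map_sum, Finset.sum_mul]
  rw [Finset.sum_comm]
  apply Finset.sum_eq_zero
  intro j _
  exact hj j

theorem SwapEnd.frobenius_trace (h : ℕ) (x : WittVector p (Ob K))
    (hx : WittVector.frobenius^[h] x = x) :
    WittVector.frobenius (∑ j ∈ Finset.range h, WittVector.frobenius^[j] x) =
      ∑ j ∈ Finset.range h, WittVector.frobenius^[j] x := by
  rw [map_sum]
  have h1 : ∀ j, WittVector.frobenius (WittVector.frobenius^[j] x) =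
      WittVector.frobenius^[j + 1] x := fun j => (Function.iterate_succ_apply' _ _ _).symm
  simp only [h1]
  have h2 := Finset.sum_range_succ (fun j => WittVector.frobenius^[j] x) h
  have h3 := Finset.sum_range_succ' (fun j => WittVector.frobenius^[j] x) h
  rw [h2] at h3
  simp only [Function.iterate_zero, id_eq] at h3
  rw [hx] at h3
  exact (add_right_cancel h3).symm

theorem SwapEnd.coeff_zero_frobenius_iterate (x : WittVector p (Ob K)) (j : ℕ) :
    (WittVector.frobenius^[j] x).coeff 0 = x.coeff 0 ^ p ^ j := by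
  rw [iterate_frobenius_coeff]

/-- **End of (G)**: from the swap identity (in expanded form) to a contradiction. -/
theorem swap_end_aux [IsAlgClosed K] (n N h : ℕ) (hn : 1 ≤ n) (hnN : n ≤ N) (h1 : 1 ≤ h)
    {ι : Type*} [Fintype ι]
    (t : ι → FPt (hz p N (sp n : ℕ → Ob K))) (δ : ℝ) (hδ : 0 < δ)
    (hind : ∀ m : ι → ℤ, (∃ l, ¬ (p : ℤ) ∣ m l) → δ ≤ ‖(∑ l, m l • t l).val‖)
    (g : ι → ℕ → WittVector p (Ob K)) (hg : ∀ l m, WittVector.frobenius^[h] (g l m) = g l m)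
    (l0 : ι) (hg0 : (g l0 0).coeff 0 ≠ 0)
    (hswap : ∀ (e : ℕ) (w y : Ob K), w ≠ 0 → ‖w‖ < 1 → ‖y‖ < 1 →
      ∑ l, Lw p n w ((t l).val ^ p ^ e) * ∑ m ∈ Finset.range h,
        toRW p w (g l m) * Lw p h w (y ^ p ^ m) = 0) : False := by
  have hp0 : p ≠ 0 := (Fact.out : p.Prime).ne_zero
  have hp1 : 1 < p := (Fact.out : p.Prime).one_lt
  have htn : ∀ l, ‖(t l).val‖ < 1 := fun l => (Ob_tn_iff _).1 (t l).tn
  -- Step A
  have hA : ∀ (e : ℕ) (w y : Ob K), w ≠ 0 → ‖w‖ < 1 → ‖y‖ < 1 →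
      ∑ l, toRW p w (g l 0) * Lw p n w ((t l).val ^ p ^ e) * Lw p h w y = 0 := by
    intro e w y hw hw1 hy
    exact SwapEnd.stepA p h h1 g w hw (fun l => Lw p n w ((t l).val ^ p ^ e))
      (fun y hy => hswap e w y hw hw1 hy) y hy
  -- choice of the multiplier
  have hg0' : ((g l0 0).coeff 0 : K) ≠ 0 := fun h0 => hg0 (Subtype.ext h0)
  obtain ⟨b0, hb0, hbt⟩ := exists_trace_ne_zero (p := p) (K := K) h h1 _ hg0'
  set b : Ob K := ⟨b0, SwapEnd.norm_eq p b0 h h1 hb0⟩ with hbdef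
  have hb : b ^ p ^ h = b := Subtype.ext hb0
  set x : ι → WittVector p (Ob K) := fun l => teichmuller p b * g l 0 with hx
  have hB : ∀ (e : ℕ) (w y : Ob K), w ≠ 0 → ‖w‖ < 1 → ‖y‖ < 1 →
      ∑ l, toRW p w (x l) * Lw p n w ((t l).val ^ p ^ e) * Lw p h w y = 0 := by
    intro e w y hw hw1 hy
    have h2 := congrArg (fun X => toRW p w (teichmuller p b) * X) (hA e w y hw hw1 hy)
    simp only [mul_zero, Finset.mul_sum] at h2
    rw [← h2]
    apply Finset.sum_congr rfl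
    intro l _
    rw [hx]
    simp only [map_mul]
    ring
  have hxfix : ∀ l, WittVector.frobenius^[h] (x l) = x l := by
    intro l
    rw [hx]
    have h3 : WittVector.frobenius^[h] (teichmuller p b * g l 0) =
        WittVector.frobenius^[h] (teichmuller p b) * WittVector.frobenius^[h] (g l 0) :=
      iterate_map_mul _ _ _ _
    rw [h3, hg]
    congr 1
    ext i
    rw [iterate_frobenius_coeff]
    cases i with
    | zero => rw [teichmuller_coeff_zero, hb]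
    | succ i => rw [teichmuller_coeff_pos p _ _ (Nat.succ_pos i),
        zero_pow (pow_ne_zero _ hp0)]
  set s : ι → WittVector p (Ob K) :=
    fun l => ∑ j ∈ Finset.range h, WittVector.frobenius^[j] (x l) with hs
  have hsfix : ∀ l, WittVector.frobenius (s l) = s l := fun l =>
    SwapEnd.frobenius_trace p h (x l) (hxfix l)
  have hs0 : (s l0).coeff 0 ≠ 0 := by
    have h2 : (constantCoeff (s l0) : Ob K) = ∑ j ∈ Finset.range h,
        (b * (g l0 0).coeff 0) ^ p ^ j := by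
      rw [hs]
      simp only [map_sum]
      apply Finset.sum_congr rfl
      intro j _
      change (WittVector.frobenius^[j] (x l0)).coeff 0 = _
      rw [SwapEnd.coeff_zero_frobenius_iterate, hx]
      simp only [WittVector.mul_coeff_zero, teichmuller_coeff_zero]
    intro h0
    apply hbt
    have h3 : (constantCoeff (s l0) : Ob K) = 0 := h0
    rw [h2] at h3
    have h4 := congrArg (fun z : Ob K => (z : K)) h3
    simpa using h4
  -- Step D
  have hD := fun w y hw hw1 hy => SwapEnd.stepD p n h hn h1 (fun l => (t l).val) htn x hB w y hw hw1 hy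
  -- choose B
  have hBex : ∃ B : ℕ, ∀ l, ‖(t l).val‖ ^ (p ^ n) ^ (B + 1) ≤ δ ^ 3 := by
    have h2 : ∀ l, ∃ B0 : ℕ, ∀ B ≥ B0, ‖(t l).val‖ ^ (p ^ n) ^ (B + 1) ≤ δ ^ 3 := by
      intro l
      obtain ⟨m, hm⟩ := exists_pow_lt_of_lt_one (show (0 : ℝ) < δ ^ 3 by positivity) (htn l)
      refine ⟨m, ?_⟩
      intro B hBm
      refine le_trans ?_ hm.le
      apply pow_le_pow_of_le_one (norm_nonneg _) (htn l).le
      calc m ≤ B + 1 := by omega
        _ ≤ (p ^ n) ^ (B + 1) := (Nat.lt_pow_self (Nat.one_lt_pow (by omega) hp1)).le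
    choose B0 hB0 using h2
    refine ⟨∑ l, B0 l, fun l => hB0 l _ ?_⟩
    exact Finset.single_le_sum (f := B0) (fun _ _ => Nat.zero_le _) (Finset.mem_univ l)
  obtain ⟨B, hBl⟩ := hBex
  set k := B + 2 with hk
  -- integer approximations
  have happ := fun l => witt_fixed_approx (p := p) k (s l) (hsfix l)
  choose m c hmc using happ
  have hm0 : ¬ (p : ℤ) ∣ ((m l0 : ℕ) : ℤ) := by
    intro hdvd
    have h2 : p ∣ m l0 := by exact_mod_cast hdvd
    apply hs0
    have h3 : (constantCoeff (s l0) : Ob K) = 0 := by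
      rw [hmc l0, map_add, map_natCast, map_mul, map_pow, map_natCast]
      rw [(CharP.cast_eq_zero_iff (Ob K) p (m l0)).2 h2, CharP.cast_eq_zero, zero_pow (by omega)]
      simp
    exact h3
  set t' : FPt (hz p N (sp n : ℕ → Ob K)) := ∑ l, ((m l : ℕ) : ℤ) • t l with ht'
  have hδt : δ ≤ ‖t'.val‖ := hind (fun l => ((m l : ℕ) : ℤ)) ⟨l0, hm0⟩
  have ht'1 : ‖t'.val‖ < 1 := (Ob_tn_iff _).1 t'.tn
  have ht'0 : t'.val ≠ 0 := by
    intro h0
    rw [h0] at hδt
    simp at hδt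
    linarith
  set w : Ob K := t'.val ^ 3 with hw
  have hw0 : w ≠ 0 := pow_ne_zero _ ht'0
  have hw1 : ‖w‖ < 1 := SwapEnd.norm_pow_lt _ ht'1 _ (by norm_num)
  have hLt' : Lw p n w t'.val = ∑ l, (m l : RW p w) * Lw p n w (t l).val := by
    rw [ht', Lw_sum p N n hn hnN w hw0]
    apply Finset.sum_congr rfl
    intro l _
    rw [Lw_zsmul p N n hn hnN w hw0]
    simp
  have hmem : ∀ l, ∃ a, (p : RW p w) ^ B * Lw p n w (t l).val = toRW p w a := by
    intro l
    apply Lw_mem p n hn w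
    apply EndExp.dvd_of_norm_le hw0
    have h2 : ‖(t l).val ^ (p ^ n) ^ (B + 1)‖ = ‖(t l).val‖ ^ (p ^ n) ^ (B + 1) := by simp
    have h3 : ‖w‖ = ‖t'.val‖ ^ 3 := by rw [hw]; simp
    rw [h2, h3]
    exact (hBl l).trans (pow_le_pow_left₀ hδ.le hδt 3)
  choose a ha using hmem
  have hmem' : ∃ a', (p : RW p w) ^ 1 * Lw p h w t'.val = toRW p w a' := by
    apply Lw_mem p h h1 w
    rw [hw]
    apply pow_dvd_pow
    have h2 : 2 ≤ p ^ h := Nat.one_lt_pow (by omega) hp1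
    calc 3 ≤ 2 ^ 2 := by norm_num
      _ ≤ (p ^ h) ^ (1 + 1) := Nat.pow_le_pow_left h2 2
  obtain ⟨a', ha'⟩ := hmem'
  obtain ⟨z, hz1, hz2⟩ := Lw_mul_Lw_size p n h hn h1 t'.val ht'0 ht'1
  have hfin := hD w t'.val hw0 hw1 ht'1
  have hterm : ∀ l, toRW p w (s l) * Lw p n w (t l).val * Lw p h w t'.val =
      (m l : RW p w) * Lw p n w (t l).val * Lw p h w t'.val +
        (p : RW p w) * toRW p w (c l * a l * a') := by
    intro l
    rw [hmc l, map_add, map_natCast, map_mul, map_pow, map_natCast, hk, map_mul, map_mul,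
      ← ha l, ← ha']
    ring
  have hfin2 : ∑ l, toRW p w (s l) * Lw p n w (t l).val * Lw p h w t'.val = 0 := hfin
  simp only [hterm, Finset.sum_add_distrib] at hfin2
  rw [← Finset.sum_mul, ← hLt', hz1, ← Finset.mul_sum, ← map_sum] at hfin2
  apply toRW_ne_zero_of_coeff p w hw0 z hz2 (-∑ l, c l * a l * a')
  rw [map_neg, mul_neg]
  exact eq_neg_of_add_eq_zero_left hfin2

/-- **End of (G)**: from the swap identity to a contradiction. -/
theorem swap_end [IsAlgClosed K] (n N h N' : ℕ) (hn : 1 ≤ n) (hnN : n ≤ N) (h1 : 1 ≤ h)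
    (hN : h ≤ N') {ι : Type*} [Fintype ι]
    (t : ι → FPt (hz p N (sp n : ℕ → Ob K))) (δ : ℝ) (hδ : 0 < δ)
    (hind : ∀ m : ι → ℤ, (∃ l, ¬ (p : ℤ) ∣ m l) → δ ≤ ‖(∑ l, m l • t l).val‖)
    (A : ι → PowerSeries (Ob K))
    (hA : ∀ l, IsFGHom (hz p N' (sp h : ℕ → Ob K)) (hz p N' (sp h : ℕ → Ob K)) (A l))
    (hAf : ∀ l, PowerSeries.map (iterateFrobenius (Ob K) p h) (A l) = A l)
    (l0 : ι) (hl0 : PowerSeries.coeff 1 (A l0) ≠ 0)
    (hswap : ∀ (e : ℕ) (w y : Ob K), w ≠ 0 → ‖w‖ < 1 → ‖y‖ < 1 →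
      ∑ l, Lw p n w ((t l).val ^ p ^ e) * Lw p h w (ev₁ y (A l)) = 0) : False := by
  choose g hg hg0 hgL using fun l => Lw_end_expand p N' h h1 hN (A l) (hA l) (hAf l)
  refine swap_end_aux p n N h hn hnN h1 t δ hδ hind g hg l0 ?_ ?_
  · rw [hg0]; exact hl0
  · intro e w y hw hw1 hy
    rw [← hswap e w y hw hw1 hy]
    apply Finset.sum_congr rfl
    intro l _
    rw [hgL l w y hw hw1 hy]

end Crest.Agent.R227
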