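import Crest.Agent.R227.Swap
import Crest.Agent.R227.Est

/-!
# R227 / SwapId : the swap identity for `θ = ∑^{G_h} c_K z^{p^K}`
-/

set_option autoImplicit false

noncomputable section

namespace Crest.Agent.R227

open WittVector Crest.LubinTate

variable (p : ℕ) [Fact p.Prime] {K : Type*} [NormedField K] [IsUltrametricDist K]
  [CompleteSpace K] [CharP K p] [PerfectRing K p]

/-- the point `c_k z^{p^k}` -/
def cpt {h r : ℕ} (F : FormalGroup (Ob K)) {c : ℤ → Ob K} (hc : CSys p h r c) {z : Ob K}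
    (hz : ‖z‖ < 1) (k : ℤ) : FPt F :=
  ⟨c k * fr p k z, (Ob_tn_iff _).2 (by
    rw [norm_mul]
    exact lt_of_le_of_lt (mul_le_of_le_one_right (norm_nonneg _) (Ob_norm_le_one _)) (hc.lt k))⟩

@[simp] theorem cpt_val {h r : ℕ} (F : FormalGroup (Ob K)) {c : ℤ → Ob K} (hc : CSys p h r c)
    {z : Ob K} (hz : ‖z‖ < 1) (k : ℤ) : (cpt p F hc hz k).val = c k * fr p k z := rfl

theorem SwapId.norm_val_lt {F : FormalGroup (Ob K)} (P : FPt F) : ‖P.val‖ < 1 := (Ob_tn_iff _).1 P.tn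

theorem sp_map_frob (N h m : ℕ) :
    (hz p N (sp h : ℕ → Ob K)).map (iterateFrobenius (Ob K) p m) = hz p N (sp h : ℕ → Ob K) := by
  rw [hz_map]
  congr 1
  funext i
  unfold sp
  split_ifs <;> simp

/-- `Lw` is small on small arguments -/
theorem Lw_mem_naW (h : ℕ) (hh : 1 ≤ h) (w : Ob K) (hw : w ≠ 0) (hw1 : ‖w‖ < 1) (m : ℕ) :
    ∃ ε > 0, ∀ x : Ob K, ‖x‖ ≤ ε → Lw p h w x ∈ (naW p w hw).F m := by
  refine ⟨‖w ^ (p ^ h) ^ m‖, norm_pos_iff.2 (pow_ne_zero _ hw), fun x hx => ?_⟩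
  obtain ⟨a, ha⟩ := Lw_small p h hh w x hw hw1 m (Ob_dvd_of_norm_le (pow_ne_zero _ hw) hx)
  refine (naW p w hw).anti m ?_
  exact ⟨a, ha⟩

theorem norm_add_val_le {F : FormalGroup (Ob K)} [F.IsComm] (a b : FPt F) {r : ℝ} (hr : 0 ≤ r)
    (ha : ‖a.val‖ ≤ r) (hb : ‖b.val‖ ≤ r) : ‖(a + b).val‖ ≤ r :=
  FPt.add_mem F a b (normIdeal K r hr) (isClosed_normIdeal r hr) ha hb

theorem norm_sub_val_iff {F : FormalGroup (Ob K)} [F.IsComm] (a b : FPt F) {r : ℝ} (hr : 0 ≤ r) :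
    ‖(a - b).val‖ ≤ r ↔ ‖a.val - b.val‖ ≤ r :=
  FPt.sub_mem_iff F a b (normIdeal K r hr) (isClosed_normIdeal r hr)

/-- `θ(z)` is the sum of the points `c_k z^{p^k}`. -/
def IsTypSum {h r : ℕ} (F : FormalGroup (Ob K)) [F.IsComm] {c : ℤ → Ob K} (hc : CSys p h r c)
    {z : Ob K} (hz : ‖z‖ < 1) (P : FPt F) : Prop :=
  ∀ ε > 0, ∃ N₀ : ℕ, ∀ N' ≥ N₀,
    ‖(P - ∑ k ∈ Finset.Icc (-(N' : ℤ)) N', cpt p F hc hz k).val‖ ≤ ε

/-- the sum of the `L`-values -/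
theorem HS_of_typSum {N h r : ℕ} (hh : 1 ≤ h) (hr : 1 ≤ r) (hN : h ≤ N) {c : ℤ → Ob K}
    (hc : CSys p h r c) {z : Ob K} (hz : ‖z‖ < 1) (P : FPt (Crest.Agent.R227.hz p N (sp h : ℕ → Ob K)))
    (hP : IsTypSum p _ hc hz P) (w : Ob K) (hw : w ≠ 0) (hw1 : ‖w‖ < 1) (m : ℕ) :
    HS (naW p w hw) (fun k : ℤ => Lw p h w ((c k * fr p k z) ^ p ^ m))
      (Lw p h w (P.val ^ p ^ m)) := by
  classical
  have hfr := sp_map_frob (K := K) p N h m
  have hpm : p ^ m ≠ 0 := pow_ne_zero _ (Fact.out : p.Prime).ne_zero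
  refine HS.of_seq ?_ (fun N' => Finset.Icc (-(N' : ℤ)) N') ?_ ?_
  · intro M
    obtain ⟨ε, hε, hs⟩ := Lw_mem_naW p h hh w hw hw1 M
    refine (hc.finite p hh hr hz hε).subset ?_
    intro k hk
    rw [Set.mem_ofPred_eq] at hk ⊢
    by_contra hlt
    push Not at hlt
    apply hk
    apply hs
    rw [norm_pow]
    exact (pow_le_of_le_one (norm_nonneg _) (Ob_norm_le_one _) hpm).trans hlt.le
  · intro k
    refine ⟨k.natAbs, fun N' hN' => ?_⟩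
    rw [Finset.mem_Icc]
    omega
  · intro M
    obtain ⟨ε, hε, hs⟩ := Lw_mem_naW p h hh w hw hw1 M
    obtain ⟨N₀, hN₀⟩ := hP ε hε
    refine ⟨N₀, fun N' hN' => ?_⟩
    have h1 := hN₀ N' hN'
    set S := ∑ k ∈ Finset.Icc (-(N' : ℤ)) N', cpt p (Crest.Agent.R227.hz p N (sp h : ℕ → Ob K)) hc hz k
      with hS
    have h2 : Lw p h w ((P - S).val ^ p ^ m) ∈ (naW p w hw).F M := by
      apply hs
      rw [norm_pow]
      exact (pow_le_of_le_one (norm_nonneg _) (Ob_norm_le_one _) hpm).trans h1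
    have h3 : (FPt.frob p m hfr P).val = P.val ^ p ^ m := rfl
    have h4 : FPt.frob p m hfr P = FPt.frob p m hfr (P - S) +
        ∑ k ∈ Finset.Icc (-(N' : ℤ)) N', FPt.frob p m hfr
          (cpt p (Crest.Agent.R227.hz p N (sp h : ℕ → Ob K)) hc hz k) := by
      rw [← map_sum, ← map_add, sub_add_cancel]
    have h5 : Lw p h w (P.val ^ p ^ m) = Lw p h w ((P - S).val ^ p ^ m) +
        ∑ k ∈ Finset.Icc (-(N' : ℤ)) N', Lw p h w ((c k * fr p k z) ^ p ^ m) := by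
      rw [← h3, h4, Lw_add p N h hh hN w hw, Lw_sum p N h hh hN w hw]
      rfl
    have h6 : ∑ k ∈ Finset.Icc (-(N' : ℤ)) N', Lw p h w ((c k * fr p k z) ^ p ^ m) -
        Lw p h w (P.val ^ p ^ m) = -Lw p h w ((P - S).val ^ p ^ m) := by
      rw [h5]; ring
    rw [h6]
    exact ((naW p w hw).F M).neg_mem h2

omit [CompleteSpace K] in
theorem CSys.twist {h r : ℕ} {c : ℤ → Ob K} (hc : CSys p h r c) (m : ℕ) :
    CSys p h r (fun k => c k ^ p ^ m) := by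
  refine ⟨fun k => ?_, fun k => ?_⟩
  · rw [norm_pow]
    exact pow_lt_one₀ (norm_nonneg _) (hc.lt k) (pow_ne_zero _ (Fact.out : p.Prime).ne_zero)
  · rw [← pow_mul, mul_comm, pow_mul, hc.rel]

/-- **The swap identity.** -/
theorem swap_identity [IsAlgClosed K] {n h r N : ℕ} (hn : n = h + r) (hh : 1 ≤ h) (hr : 1 ≤ r)
    (hN : h ≤ N) {c : ℤ → Ob K} (hc : CSys p h r c)
    (θ : Ob K → FPt (Crest.Agent.R227.hz p N (sp h : ℕ → Ob K)))
    (hθ : ∀ (z : Ob K) (hz : ‖z‖ < 1), IsTypSum p _ hc hz (θ z))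
    (hsurj : ∀ y : FPt (Crest.Agent.R227.hz p N (sp h : ℕ → Ob K)), ∃ z : Ob K, ‖z‖ < 1 ∧ θ z = y)
    {ι : Type*} [Fintype ι] (A : ι → PowerSeries (Ob K))
    (hA : ∀ l, IsFGHom (Crest.Agent.R227.hz p N (sp h : ℕ → Ob K))
      (Crest.Agent.R227.hz p N (sp h : ℕ → Ob K)) (A l))
    (hAexp : ∀ l, ∀ w : Ob K, w ≠ 0 → ‖w‖ < 1 → ∃ g : Fin h → RW p w, ∀ y : Ob K, ‖y‖ < 1 →
      Lw p h w (ev₁ y (A l)) = ∑ m : Fin h, g m * Lw p h w (y ^ p ^ (m : ℕ)))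
    (t : ι → Ob K) (ht : ∀ l, ‖t l‖ < 1)
    (hrel : ∀ b : Ob K, b ^ p ^ n = b → ∀ j : ℕ,
      ∑ l, FPt.hom (hA l) (θ (b * t l ^ p ^ j)) = 0)
    (w : Ob K) (hw : w ≠ 0) (hw1 : ‖w‖ < 1) (e : ℕ) (y : Ob K) (hy : ‖y‖ < 1) :
    ∑ l, Lw p n w (t l ^ p ^ e) * Lw p h w (ev₁ y (A l)) = 0 := by
  classical
  have hn1 : 1 ≤ n := by omega
  -- expansion of `L_h(A_l θ(z))`
  have hexp : ∀ l, Expandable p n w (fun z => Lw p h w (ev₁ (θ z).val (A l))) := by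
    intro l
    obtain ⟨g, hg⟩ := hAexp l w hw hw1
    have h1 : ∀ m : Fin h, Expandable p n w (fun z => Lw p h w ((θ z).val ^ p ^ (m : ℕ))) := by
      intro m
      obtain ⟨μ, hμ⟩ := expansion p hn hh hr (hc.twist p m) w hw
      have h2 : Expandable p n w
          (fun z => ∑ e : Fin n, μ e * Lw p n w ((z ^ p ^ (m : ℕ)) ^ p ^ (e : ℕ))) := by
        refine Expandable.comp_pow (Λ := fun z => ∑ e : Fin n, μ e * Lw p n w (z ^ p ^ (e : ℕ)))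
          hn1 hw ?_ m
        exact ⟨μ, fun z _ => rfl⟩
      refine h2.congr fun z hz => ?_
      have hzm : ‖z ^ p ^ (m : ℕ)‖ < 1 := by
        rw [norm_pow]
        exact pow_lt_one₀ (norm_nonneg _) hz (pow_ne_zero _ (Fact.out : p.Prime).ne_zero)
      apply hμ _ hzm
      have h3 := HS_of_typSum p hh hr hN hc hz (θ z) (hθ z hz) w hw hw1 m
      have h4 : ∀ k : ℤ, (c k * fr p k z) ^ p ^ (m : ℕ) =
          c k ^ p ^ (m : ℕ) * fr p k (z ^ p ^ (m : ℕ)) := by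
        intro k
        rw [mul_pow, map_pow]
      simpa only [h4] using h3
    have h5 : Expandable p n w (fun z => ∑ m : Fin h, g m * Lw p h w ((θ z).val ^ p ^ (m : ℕ))) :=
      Expandable.sum _ fun m _ => (h1 m).mul _
    exact h5.congr fun z _ => hg _ (SwapId.norm_val_lt (θ z))
  -- relation
  have hrel' : ∀ b : Ob K, b ^ p ^ n = b → ∀ j : ℕ,
      ∑ l, Lw p h w (ev₁ (θ (b * t l ^ p ^ j)).val (A l)) = 0 := by
    intro b hb j
    have h1 := hrel b hb j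
    have h2 := Lw_sum p N h hh hN w hw Finset.univ
      (fun l => FPt.hom (hA l) (θ (b * t l ^ p ^ j)))
    rw [h1, FPt.val_zero, Lw_zero p h hh] at h2
    exact h2.symm
  obtain ⟨z, hz, hzy⟩ := hsurj ⟨y, (Ob_tn_iff _).2 hy⟩
  have key := swap_core hn1 hw (fun l z => Lw p h w (ev₁ (θ z).val (A l))) hexp t ht hrel' z hz e
  simpa only [hzy] using key

end Crest.Agent.R227
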