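import Crest.Agent.R227.CoDefs
import Crest.Agent.R227.SwapId
import Crest.Agent.R227.SwapEnd

/-!
# R227 / CoEndAux : the final contradiction from a relation
-/

set_option autoImplicit false
set_option linter.unusedSectionVars false

noncomputable section

namespace Crest.Agent.R227

open Crest.LubinTate MvPowerSeries Topology

variable {p : ℕ} [Fact p.Prime] {n h : ℕ}
variable {K : Type} [NontriviallyNormedField K] [IsUltrametricDist K] [CompleteSpace K]
  [IsAlgClosed K] [CharP K p]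

/-- The final contradiction: a nontrivial relation between the points `Θ(b t_l^{p^j})` over the
endomorphisms of `HO h` is impossible. -/
theorem co_end (h1 : 1 ≤ h) (hh : h < n)
    (Θ : FPt (HO p n n (Ob K)) →+ FPt (HO p n h (Ob K))) (hΘ : HasExp Θ)
    (hsurj : Function.Surjective Θ) {ι : Type*} [Fintype ι]
    (t : ι → FPt (HO p n n (Ob K))) (δ : ℝ) (hδ : 0 < δ)
    (hind : ∀ m : ι → ℤ, (∃ l, ¬ (p : ℤ) ∣ m l) → δ ≤ ‖(∑ l, m l • t l).val‖)
    (A : ι → PowerSeries (Ob K))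
    (hA : ∀ l, IsFGHom (HO p n h (Ob K)) (HO p n h (Ob K)) (A l))
    (hAf : ∀ l m, PowerSeries.coeff m (A l) ^ p ^ h = PowerSeries.coeff m (A l))
    (l0 : ι) (hl0 : PowerSeries.coeff 1 (A l0) ≠ 0)
    (hrel : ∀ b : Ob K, b ^ p ^ n = b → ∀ j : ℕ,
      ∑ l, FPt.hom (hA l) (Θ (toPt (HO p n n (Ob K)) (b * (t l).val ^ p ^ j))) = 0) : False := by
  obtain ⟨c, hcr, hc1, hc⟩ := hΘ
  have hcs : CSys p h (n - h) c := ⟨hc1, hcr⟩
  have hAf' : ∀ l, PowerSeries.map (iterateFrobenius (Ob K) p h) (A l) = A l := by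
    intro l
    ext m
    rw [PowerSeries.coeff_map, iterateFrobenius_def, hAf]
  refine swap_end p n n h n (by omega) le_rfl h1 hh.le t δ hδ hind A hA hAf' l0 hl0 ?_
  intro e w y hw hw1 hy
  refine swap_identity p (n := n) (h := h) (r := n - h) (N := n) (by omega) h1 (by omega) hh.le
    hcs (fun z => Θ (toPt (HO p n n (Ob K)) z)) ?_ ?_ A hA ?_ (fun l => (t l).val)
    (fun l => SwapId.norm_val_lt (t l)) hrel w hw hw1 e y hy
  · intro z hz ε hε
    have h2 := hc (toPt (HO p n n (Ob K)) z)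
    rw [toPt_val _ hz] at h2
    have h3 := (tendsto_zero_iff_norm_tendsto_zero.1 h2).eventually_lt_const hε
    obtain ⟨N₀, hN₀⟩ := Filter.eventually_atTop.1 h3
    -- compare `Ico (-s) s` and `Icc (-s) s`
    obtain ⟨J, hJ⟩ := tendsto_pow_pow p (norm_nonneg z) hz (le_refl 1) hε
    refine ⟨max N₀ J, fun N' hN' => ?_⟩
    have h4 := hN₀ N' (le_trans (le_max_left _ _) hN')
    have h5 : Finset.Icc (-(N' : ℤ)) N' = insert (N' : ℤ) (Finset.Ico (-(N' : ℤ)) N') := by
      rw [← Finset.Ico_insert_right (by omega)]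
    have h6 : (N' : ℤ) ∉ Finset.Ico (-(N' : ℤ)) N' := by simp
    have h7 : ∀ k : ℤ, cpt p (HO p n h (Ob K)) hcs hz k =
        toPt (HO p n h (Ob K)) (c k * fz p k z) := by
      intro k
      have hk : ‖c k * fz p k z‖ < 1 := SwapId.norm_val_lt (cpt p (HO p n h (Ob K)) hcs hz k)
      apply FPt.ext
      rw [toPt_val _ hk]
      rfl
    rw [h5, Finset.sum_insert h6]
    simp_rw [h7]
    set S := ∑ k ∈ Finset.Ico (-(N' : ℤ)) N', toPt (HO p n h (Ob K)) (c k * fz p k z) with hS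
    set x := toPt (HO p n h (Ob K)) (c (N' : ℤ) * fz p (N' : ℤ) z) with hx
    have h8 : Θ (toPt (HO p n n (Ob K)) z) - (x + S) =
        (Θ (toPt (HO p n n (Ob K)) z) - S) + (0 - x) := by abel
    rw [h8]
    refine norm_add_val_le _ _ hε.le h4.le ?_
    rw [norm_sub_val_iff _ _ hε.le, FPt.val_zero, zero_sub, norm_neg, hx, ← h7, cpt_val]
    have h9 := hJ N' (le_trans (le_max_right _ _) hN')
    rw [one_mul] at h9
    have h10 : ‖fr p (N' : ℤ) z‖ = ‖z‖ ^ p ^ N' := by rw [fr_natCast, norm_pow]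
    rw [norm_mul, h10]
    exact (mul_le_of_le_one_left (by positivity) (Ob_norm_le_one _)).trans h9.le
  · intro y
    obtain ⟨z, hz⟩ := hsurj y
    refine ⟨z.val, SwapId.norm_val_lt z, ?_⟩
    rw [← hz]
    congr 1
    apply FPt.ext
    rw [toPt_val _ (SwapId.norm_val_lt z)]
  · intro l w' hw' hw1'
    obtain ⟨g, _, _, hg⟩ := Lw_end_expand p n h h1 hh.le (A l) (hA l) (hAf' l)
    refine ⟨fun m => toRW p w' (g m), fun y hy => ?_⟩
    rw [hg w' y hw' hw1' hy, Finset.sum_range]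

end Crest.Agent.R227
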