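import Crest.Agent.R227.CoExp
import Crest.Agent.R227.CoEndAux

/-! # R227 / CoEnd : the end of the proof (task COEND), part (G) of note 4224 + note 4352 -/

set_option autoImplicit false
set_option linter.unusedSectionVars false

noncomputable section

namespace Crest.Agent.R227

open Crest.LubinTate MvPowerSeries Topology

variable {p : ℕ} [Fact p.Prime] {n h : ℕ}
variable {K : Type} [NontriviallyNormedField K] [IsUltrametricDist K] [CompleteSpace K]
  [IsAlgClosed K] [CharP K p]

/-- the series of `-1` -/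
theorem CoEnd.exists_neg (F : FormalGroup (Ob K)) [F.IsComm] (h1 : 1 ≤ h)
    (hF : F.map (iterateFrobenius (Ob K) p h) = F) :
    ∃ (ν : PowerSeries (Ob K)) (hν : IsFGHom F F ν),
      (∀ m, PowerSeries.coeff m ν ^ p ^ h = PowerSeries.coeff m ν) ∧
      PowerSeries.coeff 1 ν ≠ 0 ∧ ∀ P : FPt F, FPt.hom hν P = -P := by
  have hν : IsFGHom F F (fnegSeries F) := isFGHom_fnegSeries F
  have h0 : PowerSeries.constantCoeff (fnegSeries F) = 0 := (exists_fneg F).choose_spec.1
  have h2 : fadd F PowerSeries.X (fnegSeries F) = 0 := (exists_fneg F).choose_spec.2.1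
  have hX0 : PowerSeries.constantCoeff (PowerSeries.X : PowerSeries (Ob K)) = 0 := by simp
  have h3 : fnegSeries F = fneg F PowerSeries.X := Typical.fneg_unique F _ _ hX0 h0 h2
  have h4 : PowerSeries.map (iterateFrobenius (Ob K) p h) (fnegSeries F) = fnegSeries F := by
    have h5 := congrArg (MvPowerSeries.map (iterateFrobenius (Ob K) p h)) h2
    rw [map_fadd _ F _ _ hX0 h0, hF, map_zero] at h5
    have h6 : MvPowerSeries.map (iterateFrobenius (Ob K) p h)
        (PowerSeries.X : PowerSeries (Ob K)) = (PowerSeries.X : PowerSeries (Ob K)) :=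
      PowerSeries.map_X _
    rw [h6] at h5
    have h7 : PowerSeries.constantCoeff
        (PowerSeries.map (iterateFrobenius (Ob K) p h) (fnegSeries F)) = 0 :=
      Typical.cc_map _ h0
    rw [Typical.fneg_unique F _ _ hX0 h7 h5, ← h3]
  refine ⟨fnegSeries F, hν, ?_, ?_, fun P => FPt.ext rfl⟩
  · intro m
    conv_rhs => rw [← h4]
    rw [PowerSeries.coeff_map, iterateFrobenius_def]
  · rw [h3, Typical.coeff_fneg F PowerSeries.X 1 le_rfl (by simp) 1 le_rfl]
    simp

theorem witt_contradiction (h1 : 1 ≤ h) (hh : h < n)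
    (t : Fin (n - h) → FPt (HO p n n (Ob K))) (δ : ℝ) (hδ : 0 < δ)
    (ht : ∀ m : Fin (n - h) → ℤ, (∃ l, ¬ (p : ℤ) ∣ m l) → δ ≤ ‖(∑ l, m l • t l).val‖)
    (θ : FPt (HO p n n (Ob K)) →+ FPt (HO p n h (Ob K))) (hθ : Function.Surjective θ)
    (hθE : HasExp θ) (l0 : Fin (n - h))
    (A : Fin (n - h) → (FPt (HO p n h (Ob K)) →+ FPt (HO p n h (Ob K))))
    (hA : ∀ l, IsQEnd (A l)) (hAE : ∀ l, HasExp ((A l).comp θ))
    (hrel : ∀ b : Ob K, b ^ p ^ n = b → ∀ j : ℕ, ∀ bt : Fin (n - h) → FPt (HO p n n (Ob K)),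
      (∀ l, (bt l).val = b * (t l).val ^ p ^ j) →
      θ (bt l0) = ∑ l ∈ Finset.univ.erase l0, A l (θ (bt l))) : False := by
  classical
  choose φ hφ hφf hφv using hA
  obtain ⟨B, hB, hBf, hB1, hBv⟩ : ∃ (B : Fin (n - h) → PowerSeries (Ob K))
      (hB : ∀ l, IsFGHom (HO p n h (Ob K)) (HO p n h (Ob K)) (B l)),
      (∀ l m, PowerSeries.coeff m (B l) ^ p ^ h = PowerSeries.coeff m (B l)) ∧
      PowerSeries.coeff 1 (B l0) ≠ 0 ∧
      ∀ P : Fin (n - h) → FPt (HO p n h (Ob K)), P l0 = ∑ l ∈ Finset.univ.erase l0, A l (P l) →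
        ∑ l, FPt.hom (hB l) (P l) = 0 := by
    -- replace `A_l` by `-A_l` for `l ≠ l0`, `A_{l0} = X`
    obtain ⟨ν, hν, hνf, hν1, hνv⟩ := CoEnd.exists_neg (p := p) (h := h) (HO p n h (Ob K)) h1
      (sp_map_frob p n h h)
    refine ⟨fun l => if l = l0 then ν else φ l, ?_, ?_, ?_, ?_⟩
    · intro l
      by_cases hl : l = l0
      · simpa only [if_pos hl] using hν
      · simpa only [if_neg hl] using hφ l
    · intro l m
      by_cases hl : l = l0
      · simpa only [if_pos hl] using hνf m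
      · simpa only [if_neg hl] using hφf l m
    · simpa only [if_true] using hν1
    · intro P hP
      rw [← Finset.add_sum_erase _ _ (Finset.mem_univ l0)]
      have h2 : ∀ (l : Fin (n - h)) (ψ : PowerSeries (Ob K))
          (hψ : IsFGHom (HO p n h (Ob K)) (HO p n h (Ob K)) ψ),
          ψ = (if l = l0 then ν else φ l) → ∀ (hψ' : IsFGHom (HO p n h (Ob K))
            (HO p n h (Ob K)) (if l = l0 then ν else φ l)), FPt.hom hψ' (P l) =
            FPt.hom hψ (P l) := by
        intro l ψ hψ he hψ'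
        subst he
        rfl
      rw [h2 l0 ν hν (by simp) _, hνv]
      have h3 : ∀ l ∈ Finset.univ.erase l0, ∀ (hψ' : IsFGHom (HO p n h (Ob K))
            (HO p n h (Ob K)) (if l = l0 then ν else φ l)),
          FPt.hom hψ' (P l) = A l (P l) := by
        intro l hl hψ'
        rw [h2 l (φ l) (hφ l) (by simp [Finset.ne_of_mem_erase hl]) hψ']
        apply FPt.ext
        rw [hφv l (P l)]
        rfl
      rw [Finset.sum_congr rfl fun l hl => h3 l hl _, ← hP]
      exact neg_add_cancel _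
  refine co_end h1 hh θ hθE hθ t δ hδ ht B hB hBf l0 hB1 ?_
  intro b hb j
  apply hBv (fun l => θ (toPt (HO p n n (Ob K)) (b * (t l).val ^ p ^ j)))
  apply hrel b hb j
  intro l
  apply toPt_val
  rw [norm_mul, norm_pow]
  exact lt_of_le_of_lt (mul_le_of_le_one_left (by positivity) (Ob_norm_le_one _))
    (pow_lt_one₀ (norm_nonneg _) (SwapId.norm_val_lt (t l))
      (pow_ne_zero _ (Fact.out : p.Prime).ne_zero))

end Crest.Agent.R227
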