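import Mathlib

/-!
# R227 / SwapEndAux : Witt vectors fixed by Frobenius, traces (helper106)
-/

set_option autoImplicit false

noncomputable section

namespace Crest.Agent.R227

open WittVector

section fixed

variable {p : ℕ} [hp : Fact p.Prime] {O : Type*} [CommRing O] [CharP O p]

/-- in a domain of characteristic `p`, `x ^ p = x` implies `x` is an integer. -/
theorem exists_nat_of_pow_eq [IsDomain O] (x : O) (hx : x ^ p = x) : ∃ m : ℕ, (m : O) = x := by
  have : CharP (FractionRing O) p := inferInstance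
  have h1 : (algebraMap O (FractionRing O) x) ∈ (⊥ : Subfield (FractionRing O)) := by
    rw [Subfield.mem_bot_iff_pow_eq_self (FractionRing O) p, ← map_pow, hx]
  rw [← ZMod.fieldRange_castHom_eq_bot p] at h1
  obtain ⟨m, hm⟩ := h1
  refine ⟨m.val, ?_⟩
  apply IsFractionRing.injective O (FractionRing O)
  rw [← hm, map_natCast]
  simp

theorem coeff_zero_eq_zero_iff [PerfectRing O p] (x : WittVector p O) :
    x.coeff 0 = 0 ↔ ∃ y, x = p * y := by
  rw [← mem_span_p_iff_coeff_zero_eq_zero, Ideal.mem_span_singleton]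
  rfl

theorem mul_p_cancel [PerfectRing O p] (x y : WittVector p O) (h : (p : WittVector p O) * x = p * y) :
    x = y := by
  have := eq_zero_of_p_mul_eq_zero (x - y) (by rw [mul_comm, mul_sub, h, sub_self])
  exact sub_eq_zero.mp this

/-- Witt vectors fixed by Frobenius are approximated by integers. -/
theorem witt_fixed_approx [IsDomain O] [PerfectRing O p] (k : ℕ) (s : WittVector p O)
    (hs : WittVector.frobenius s = s) : ∃ m : ℕ, ∃ b : WittVector p O, s = m + p ^ k * b := by
  induction k generalizing s with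
  | zero => exact ⟨0, s, by simp⟩
  | succ k ih =>
    have h0 : s.coeff 0 ^ p = s.coeff 0 := by
      conv_rhs => rw [← hs]
      rw [coeff_frobenius_charP]
    obtain ⟨m0, hm0⟩ := exists_nat_of_pow_eq _ h0
    have h1 : (s - (m0 : WittVector p O)).coeff 0 = 0 := by
      have : (constantCoeff (s - (m0 : WittVector p O)) : O) = 0 := by
        rw [map_sub, map_natCast, sub_eq_zero]
        exact hm0.symm
      exact this
    obtain ⟨s1, hs1⟩ := (coeff_zero_eq_zero_iff _).1 h1
    have hfix : WittVector.frobenius s1 = s1 := by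
      apply mul_p_cancel
      have := congrArg WittVector.frobenius hs1
      rw [map_sub, map_mul, map_natCast, map_natCast, hs, hs1] at this
      exact this.symm
    obtain ⟨m1, b, hb⟩ := ih s1 hfix
    refine ⟨m0 + p * m1, b, ?_⟩
    have : s = m0 + p * s1 := by rw [← hs1]; ring
    rw [this, hb]
    push_cast
    ring

end fixed

section roots

open Polynomial

variable {p : ℕ} [hp : Fact p.Prime] {K : Type*} [Field K] [IsAlgClosed K] [CharP K p]

/-- a nonzero polynomial of degree `< p ^ h` does not vanish at all points of `F_{p^h}`. -/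
theorem exists_fixed_eval_ne_zero (h : ℕ) (hh : 1 ≤ h) (P : K[X]) (hP : P ≠ 0)
    (hd : P.natDegree < p ^ h) : ∃ b : K, b ^ p ^ h = b ∧ P.eval b ≠ 0 := by
  classical
  by_contra hcon
  push Not at hcon
  have hne : h ≠ 0 := by omega
  have hsep : (X ^ p ^ h - X : K[X]).Separable := galois_poly_separable p (p ^ h) (dvd_pow_self p hne)
  have hdeg : (X ^ p ^ h - X : K[X]).natDegree = p ^ h :=
    FiniteField.X_pow_card_pow_sub_X_natDegree_eq K hne hp.out.one_lt
  have hcard : (X ^ p ^ h - X : K[X]).roots.toFinset.card = p ^ h := by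
    rw [Multiset.toFinset_card_of_nodup (nodup_roots hsep),
      ← (IsAlgClosed.splits _).natDegree_eq_card_roots, hdeg]
  have hsub : (X ^ p ^ h - X : K[X]).roots.toFinset.val ⊆ P.roots := by
    intro b hb
    rw [Finset.mem_val, Multiset.mem_toFinset, mem_roots (by
      intro h0; rw [h0] at hdeg; simp at hdeg; exact absurd hdeg.symm (pow_ne_zero _ hp.out.ne_zero)),
      IsRoot.def, eval_sub, eval_pow, eval_X, sub_eq_zero] at hb
    rw [mem_roots hP, IsRoot.def]
    exact hcon b hb
  have := card_le_degree_of_subset_roots hsub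
  omega

/-- an element of `F_{p^h}` whose conjugates `b^{p^m}`, `m < h`, are distinct -/
theorem exists_generator (h : ℕ) (hh : 1 ≤ h) : ∃ b : K, b ^ p ^ h = b ∧
    ∀ d, 0 < d → d < h → b ^ p ^ d ≠ b := by
  have hp1 : 1 < p := hp.out.one_lt
  set P : K[X] := ∏ d ∈ Finset.Ico 1 h, (X ^ p ^ d - X) with hPdef
  have hne : ∀ d ∈ Finset.Ico 1 h, (X ^ p ^ d - X : K[X]) ≠ 0 := by
    intro d hd
    rw [Finset.mem_Ico] at hd
    exact FiniteField.X_pow_card_pow_sub_X_ne_zero K (by omega) hp1
  have hP0 : P ≠ 0 := Finset.prod_ne_zero_iff.mpr hne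
  have hdeg : P.natDegree < p ^ h := by
    rw [hPdef, natDegree_prod _ _ hne]
    calc ∑ d ∈ Finset.Ico 1 h, (X ^ p ^ d - X : K[X]).natDegree
        = ∑ d ∈ Finset.Ico 1 h, p ^ d := by
          apply Finset.sum_congr rfl
          intro d hd
          rw [Finset.mem_Ico] at hd
          exact FiniteField.X_pow_card_pow_sub_X_natDegree_eq K (by omega) hp1
      _ ≤ ∑ d ∈ Finset.range h, p ^ d := by
          apply Finset.sum_le_sum_of_subset
          intro d hd
          rw [Finset.mem_Ico] at hd
          exact Finset.mem_range.mpr hd.2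
      _ < p ^ h := Nat.geomSum_lt hp.out.two_le (by intro x hx; exact Finset.mem_range.mp hx)
  obtain ⟨b, hb, hPb⟩ := exists_fixed_eval_ne_zero h hh P hP0 hdeg
  refine ⟨b, hb, ?_⟩
  intro d hd1 hd2 hbd
  apply hPb
  rw [hPdef, eval_prod]
  apply Finset.prod_eq_zero (Finset.mem_Ico.mpr ⟨hd1, hd2⟩)
  rw [eval_sub, eval_pow, eval_X, hbd, sub_self]

/-- nonvanishing of a trace form -/
theorem exists_trace_ne_zero (h : ℕ) (hh : 1 ≤ h) (g : K) (hg : g ≠ 0) :
    ∃ b : K, b ^ p ^ h = b ∧ ∑ j ∈ Finset.range h, (b * g) ^ p ^ j ≠ 0 := by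
  have hp1 : 1 < p := hp.out.one_lt
  set P : K[X] := ∑ j ∈ Finset.range h, C (g ^ p ^ j) * X ^ p ^ j with hPdef
  have hc : P.coeff 1 = g := by
    rw [hPdef, finset_sum_coeff, Finset.sum_eq_single 0]
    · simp
    · intro j _ hj
      rw [coeff_C_mul, coeff_X_pow, if_neg, mul_zero]
      exact (Nat.one_lt_pow hj hp1).ne
    · intro h0
      exact absurd (Finset.mem_range.mpr (by omega)) h0
  have hP0 : P ≠ 0 := by
    intro h0
    rw [h0, coeff_zero] at hc
    exact hg hc.symm
  have hdeg : P.natDegree < p ^ h := by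
    apply lt_of_le_of_lt (b := p ^ (h - 1))
    · apply natDegree_sum_le_of_forall_le
      intro j hj
      rw [Finset.mem_range] at hj
      refine (natDegree_C_mul_X_pow_le _ _).trans ?_
      exact Nat.pow_le_pow_right hp.out.pos (by omega)
    · exact Nat.pow_lt_pow_right hp1 (by omega)
  obtain ⟨b, hb, hPb⟩ := exists_fixed_eval_ne_zero h hh P hP0 hdeg
  refine ⟨b, hb, ?_⟩
  intro h0
  apply hPb
  rw [hPdef, eval_finset_sum, ← h0]
  apply Finset.sum_congr rfl
  intro j _
  rw [eval_mul, eval_C, eval_pow, eval_X, mul_pow, mul_comm]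

end roots

section vandermonde

theorem vandermonde_cancel {R : Type*} [CommRing R] {h : ℕ} (v : Fin h → R)
    (hv : ∀ i j, i < j → IsUnit (v j - v i)) (X : Fin h → R)
    (hX : ∀ k : Fin h, ∑ m, v m ^ (k : ℕ) * X m = 0) : X = 0 := by
  set M : Matrix (Fin h) (Fin h) R := (Matrix.vandermonde v).transpose with hM
  have hdet : IsUnit M.det := by
    rw [hM, Matrix.det_transpose, Matrix.det_vandermonde]
    rw [IsUnit.prod_univ_iff]
    intro i
    rw [IsUnit.prod_iff]
    intro j hj
    exact hv i j (Finset.mem_Ioi.mp hj)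
  have hMX : M.mulVec X = 0 := by
    ext k
    simp only [Matrix.mulVec, dotProduct, hM, Matrix.transpose_apply, Matrix.vandermonde_apply,
      Pi.zero_apply]
    exact hX k
  have := Matrix.mulVec_injective_of_det_mem_nonZeroDivisors (M := M) hdet.mem_nonZeroDivisors
  apply this
  rw [hMX, Matrix.mulVec_zero]

end vandermonde

end Crest.Agent.R227
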