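import Crest.Agent.R227.WittL
import Crest.Agent.R227.Typical
import Crest.Agent.R227.SwapEndAux

/-!
# R227 / EndExp : expansion of `L_h(A(y))` for a `p`-typical endomorphism `A` (helper106)
-/

set_option autoImplicit false

noncomputable section

namespace Crest.Agent.R227

open Crest.LubinTate MvPowerSeries Topology WittVector

/-! ### evaluation of formal sums -/

section evfsum

variable {S : Type*} [CommRing S] [UniformSpace S] [IsUniformAddGroup S] [IsTopologicalRing S]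
  [IsLinearTopology S S] [CompleteSpace S] [T2Space S]

theorem EndExp.constantCoeff_fsum (G : FormalGroup S) {τ : Type*} (l : List (MvPowerSeries τ S))
    (hl : ∀ f ∈ l, constantCoeff f = 0) : constantCoeff (fsum G l) = 0 := by
  induction l with
  | nil => simp [fsum]
  | cons a l ih =>
    have : fsum G (a :: l) = fadd G a (fsum G l) := rfl
    rw [this]
    exact constantCoeff_fadd G _ _ (hl a (by simp)) (ih fun f hf => hl f (by simp [hf]))

/-- evaluation of a formal sum of power series at a point -/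
theorem EndExp.ev_fsum (G : FormalGroup S) [G.IsComm] {σ : Type*} [Finite σ] {a : σ → S}
    (ha : ∀ i, IsTopologicallyNilpotent (a i)) {ι : Type*} (l : List ι)
    (f : ι → MvPowerSeries σ S) (hf : ∀ i ∈ l, constantCoeff (f i) = 0) (P : ι → FPt G)
    (hP : ∀ i ∈ l, (P i).val = ev a (f i)) :
    ev a (fsum G (l.map f)) = ((l.map P).sum).val := by
  induction l with
  | nil =>
    simp only [List.map_nil, List.sum_nil, FPt.val_zero]
    exact ev_zero ha
  | cons i l ih =>
    have h1 : fsum G ((i :: l).map f) = fadd G (f i) (fsum G (l.map f)) := rfl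
    rw [h1, FPtAux.ev_fadd G ha _ _ (hf i (by simp)) (EndExp.constantCoeff_fsum G _ (by
      intro g hg
      rw [List.mem_map] at hg
      obtain ⟨j, hj, rfl⟩ := hg
      exact hf j (by simp [hj]))), ih (fun j hj => hf j (by simp [hj]))
      (fun j hj => hP j (by simp [hj]))]
    rw [List.map_cons, List.sum_cons, FPt.val_add, hP i (by simp)]
    rfl

end evfsum

variable (p : ℕ) [Fact p.Prime] {K : Type*} [NormedField K] [IsUltrametricDist K]
  [CompleteSpace K] [CharP K p] [PerfectRing K p]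

/-- the Witt vector `∑_j p^j [c_{m+jh}]` when the `c_k` are fixed by `x ↦ x^{p^h}`. -/
def gW (h : ℕ) (c : ℕ → Ob K) (m : ℕ) : WittVector p (Ob K) :=
  WittVector.mk p fun j => c (m + j * h) ^ p ^ j

theorem gW_sub (h : ℕ) (c : ℕ → Ob K) (m J : ℕ) :
    (p : WittVector p (Ob K)) ^ J ∣ gW p h c m -
      ∑ j ∈ Finset.range J, teichmuller p (c (m + j * h)) * (p : WittVector p (Ob K)) ^ j := by
  cases J with
  | zero => simp
  | succ J =>
    have h1 := dvd_sub_sum_teichmuller_iterateFrobeniusEquiv_coeff (p := p) (gW p h c m) J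
    have h2 : ∀ i, ((_root_.frobeniusEquiv (Ob K) p).symm ^ i) ((gW p h c m).coeff i) =
        c (m + i * h) := by
      intro i
      have h3 : (gW p h c m).coeff i = c (m + i * h) ^ p ^ i := rfl
      rw [h3]
      have h4 : ∀ (i : ℕ) (x : Ob K), ((_root_.frobeniusEquiv (Ob K) p).symm ^ i) (x ^ p ^ i) = x := by
        intro i
        induction i with
        | zero => intro x; simp
        | succ i ih =>
          intro x
          rw [pow_succ, RingAut.mul_apply, pow_succ p, pow_mul]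
          rw [show (x ^ p ^ i) ^ p = _root_.frobeniusEquiv (Ob K) p (x ^ p ^ i) from rfl,
            RingEquiv.symm_apply_apply, ih]
      exact h4 i _
    simp only [h2] at h1
    have h5 : (Finset.range (J + 1)) = Finset.Iic J := by
      ext x; simp
    rw [h5]
    exact h1

theorem frobenius_gW (h : ℕ) (c : ℕ → Ob K) (hc : ∀ k, c k ^ p ^ h = c k) (m : ℕ) :
    (WittVector.frobenius)^[h] (gW p h c m) = gW p h c m := by
  ext i
  rw [iterate_frobenius_coeff]
  have h3 : (gW p h c m).coeff i = c (m + i * h) ^ p ^ i := rfl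
  rw [h3, ← pow_mul, mul_comm (p ^ i), pow_mul, hc]

theorem gW_coeff_zero (h : ℕ) (c : ℕ → Ob K) (m : ℕ) : (gW p h c m).coeff 0 = c m := by
  have h3 : (gW p h c m).coeff 0 = c (m + 0 * h) ^ p ^ 0 := rfl
  rw [h3]; simp

/-! ### the expansion -/

theorem EndExp.tn_of_norm_lt {a : Ob K} (ha : ‖a‖ < 1) : IsTopologicallyNilpotent a :=
  (Ob_tn_iff a).2 ha

theorem EndExp.norm_mul_pow_lt (c y : Ob K) (hy : ‖y‖ < 1) (k : ℕ) (hk : k ≠ 0) :
    ‖c * y ^ k‖ < 1 := by
  have h1 : ‖c * y ^ k‖ = ‖c‖ * ‖y‖ ^ k := by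
    simp
  rw [h1]
  calc ‖c‖ * ‖y‖ ^ k ≤ 1 * ‖y‖ ^ k := by
        apply mul_le_mul_of_nonneg_right (Ob_norm_le_one c) (by positivity)
    _ < 1 := by rw [one_mul]; exact pow_lt_one₀ (norm_nonneg _) hy hk

/-- the point `c y^{p^k}` -/
def EndExp.mpt (G : FormalGroup (Ob K)) (c y : Ob K) (hy : ‖y‖ < 1) (k : ℕ) : FPt G :=
  ⟨c * y ^ p ^ k, EndExp.tn_of_norm_lt (EndExp.norm_mul_pow_lt c y hy _
    (pow_ne_zero _ (Fact.out : p.Prime).ne_zero))⟩

theorem EndExp.ev_fsum_mono (G : FormalGroup (Ob K)) [G.IsComm] (c : ℕ → Ob K) (y : Ob K)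
    (hy : ‖y‖ < 1) (D : ℕ) :
    ev₁ y (fsum G ((List.range D).map fun k =>
      (PowerSeries.C (c k) * PowerSeries.X ^ p ^ k : PowerSeries (Ob K)))) =
      (∑ k ∈ Finset.range D, EndExp.mpt p G (c k) y hy k).val := by
  have ha : ∀ _ : Unit, IsTopologicallyNilpotent y := fun _ => EndExp.tn_of_norm_lt hy
  have hp0 : ∀ k, p ^ k ≠ 0 := fun k => pow_ne_zero _ (Fact.out : p.Prime).ne_zero
  have h := EndExp.ev_fsum G ha (List.range D)
    (fun k => (PowerSeries.C (c k) * PowerSeries.X ^ p ^ k : PowerSeries (Ob K)))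
    (by
      intro k _
      change PowerSeries.constantCoeff (R := Ob K) _ = 0
      rw [map_mul, map_pow, PowerSeries.constantCoeff_X, zero_pow (hp0 k), mul_zero])
    (fun k => EndExp.mpt p G (c k) y hy k)
    (by
      intro k _
      rw [show (PowerSeries.C (c k) * PowerSeries.X ^ p ^ k : PowerSeries (Ob K)) =
        (MvPowerSeries.C (c k) * (MvPowerSeries.X ()) ^ p ^ k : MvPowerSeries Unit (Ob K)) from rfl,
        ev_mul ha, ev_C ha, ev_pow ha, ev_X ha]
      rfl)
  refine h.trans ?_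
  rfl

/-- truncation error as a point -/
theorem EndExp.exists_err (G : FormalGroup (Ob K)) [G.IsComm] (c : ℕ → Ob K)
    (A : PowerSeries (Ob K)) (hA0 : PowerSeries.constantCoeff A = 0) (D : ℕ)
    (hAc : ∀ i < p ^ D, PowerSeries.coeff i A = PowerSeries.coeff i
      (fsum G ((List.range D).map fun k =>
        (PowerSeries.C (c k) * PowerSeries.X ^ p ^ k : PowerSeries (Ob K)))))
    (y : Ob K) (hy : ‖y‖ < 1) :
    ∃ d : FPt G, ‖d.val‖ ≤ ‖y‖ ^ p ^ D ∧ ∃ hA : IsTopologicallyNilpotent (ev₁ y A),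
      (⟨ev₁ y A, hA⟩ : FPt G) = d + ∑ k ∈ Finset.range D, EndExp.mpt p G (c k) y hy k := by
  have ha : ∀ _ : Unit, IsTopologicallyNilpotent y := fun _ => EndExp.tn_of_norm_lt hy
  have hA : IsTopologicallyNilpotent (ev₁ y A) := by
    apply ev_tn ha
    have : (MvPowerSeries.constantCoeff (A : MvPowerSeries Unit (Ob K))) = 0 := hA0
    rw [this]
    exact FPtAux.tn_zero
  set P : FPt G := ∑ k ∈ Finset.range D, EndExp.mpt p G (c k) y hy k with hP
  set Q : FPt G := ⟨ev₁ y A, hA⟩ with hQ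
  refine ⟨Q - P, ?_, hA, by rw [sub_add_cancel]⟩
  have hr : (0 : ℝ) ≤ ‖y‖ ^ p ^ D := by positivity
  rw [← mem_normIdeal (K := K) _ hr, FPt.sub_mem_iff G Q P _ (isClosed_normIdeal _ hr),
    mem_normIdeal, hP, ← EndExp.ev_fsum_mono p G c y hy D]
  change ‖ev (fun _ : Unit => y) A - ev (fun _ : Unit => y) _‖ ≤ _
  rw [← ev_sub ha]
  apply norm_ev_le_pow (fun _ => hy) ‖y‖ (norm_nonneg _) (fun _ => le_refl _)
  intro d hd
  have hd' : d = Finsupp.single () (d ()) := by
    ext; simp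
  have hdeg : d () < p ^ D := by
    have : d.degree = d () := by
      rw [hd']; simp
    omega
  have h2 := hAc (d ()) hdeg
  rw [map_sub, sub_eq_zero, hd']
  exact h2

theorem EndExp.dvd_of_norm_le {a b : Ob K} (ha : a ≠ 0) (h : ‖b‖ ≤ ‖a‖) : a ∣ b := by
  have ha' : (a : K) ≠ 0 := fun h0 => ha (Subtype.ext h0)
  refine ⟨⟨(b : K) / (a : K), ?_⟩, ?_⟩
  · rw [mem_Ob, norm_div]
    apply div_le_one_of_le₀ h (norm_nonneg _)
  · apply Subtype.ext
    change (b : K) = (a : K) * ((b : K) / (a : K))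
    field_simp

theorem EndExp.norm_le_of_dvd {a b : Ob K} (h : a ∣ b) : ‖b‖ ≤ ‖a‖ := by
  obtain ⟨c, rfl⟩ := h
  have h1 : ‖a * c‖ = ‖a‖ * ‖c‖ := by simp
  rw [h1]
  calc ‖a‖ * ‖c‖ ≤ ‖a‖ * 1 := by
        apply mul_le_mul_of_nonneg_left (Ob_norm_le_one c) (norm_nonneg _)
    _ = ‖a‖ := mul_one _

theorem EndExp.sum_range_mul {M : Type*} [AddCommMonoid M] (f : ℕ → M) (h J : ℕ) :
    ∑ k ∈ Finset.range (J * h), f k =
      ∑ m ∈ Finset.range h, ∑ j ∈ Finset.range J, f (m + j * h) := by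
  induction J with
  | zero => simp
  | succ J ih =>
    rw [add_mul, one_mul, Finset.sum_range_add, ih, ← Finset.sum_add_distrib]
    apply Finset.sum_congr rfl
    intro m _
    rw [Finset.sum_range_succ, add_comm (J * h) m]

/-- **Expansion of `L_h(A(y))`** for `A = ∑^{G} c_k X^{p^k}`, `c_k ∈ F_{p^h}`. -/
theorem Lw_end_expand_aux (N h : ℕ) (h1 : 1 ≤ h) (hN : h ≤ N) (c : ℕ → Ob K)
    (hc : ∀ k, c k ^ p ^ h = c k) (A : PowerSeries (Ob K))
    (hA0 : PowerSeries.constantCoeff A = 0)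
    (hAc : ∀ D, ∀ i < p ^ D, PowerSeries.coeff i A = PowerSeries.coeff i
      (fsum (hz p N (sp h : ℕ → Ob K)) ((List.range D).map fun k =>
        (PowerSeries.C (c k) * PowerSeries.X ^ p ^ k : PowerSeries (Ob K)))))
    (w y : Ob K) (hw : w ≠ 0) (hw1 : ‖w‖ < 1) (hy : ‖y‖ < 1) :
    Lw p h w (ev₁ y A) =
      ∑ m ∈ Finset.range h, toRW p w (gW p h c m) * Lw p h w (y ^ p ^ m) := by
  have hp0 : p ≠ 0 := (Fact.out : p.Prime).ne_zero
  rw [← sub_eq_zero]
  apply eq_zero_of_forall_pow p w hw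
  intro k
  obtain ⟨B, hB⟩ := exists_dvd_pow p h h1 w y hw hy
  set J := B + 1 + k with hJ
  obtain ⟨d, hd, hA, hAd⟩ := EndExp.exists_err p (hz p N (sp h : ℕ → Ob K)) c A hA0 (J * h)
    (hAc (J * h)) y hy
  -- additivity
  have e1 : Lw p h w (ev₁ y A) = Lw p h w d.val +
      ∑ k ∈ Finset.range (J * h), Lw p h w (c k * y ^ p ^ k) := by
    have := congrArg (fun P : FPt (hz p N (sp h : ℕ → Ob K)) => Lw p h w P.val) hAd
    simp only at this
    rw [this, Lw_add p N h h1 hN w hw, Lw_sum p N h h1 hN w hw]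
    rfl
  -- the error term
  have e2 : ∃ a, Lw p h w d.val = (p : RW p w) ^ (k + 1) * toRW p w a := by
    apply Lw_small p h h1 w d.val hw hw1 k
    apply EndExp.dvd_of_norm_le (pow_ne_zero _ hw)
    have hn : ‖w ^ (p ^ h) ^ k‖ = ‖w‖ ^ (p ^ h) ^ k := by simp
    rw [hn]
    refine hd.trans ?_
    have h3 : ‖y‖ ^ (p ^ h) ^ (B + 1) ≤ ‖w‖ := by
      have := EndExp.norm_le_of_dvd hB
      simpa using this
    calc ‖y‖ ^ p ^ (J * h) = (‖y‖ ^ (p ^ h) ^ (B + 1)) ^ (p ^ h) ^ k := by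
          rw [← pow_mul, ← pow_add, ← pow_mul, hJ, mul_comm h]
      _ ≤ ‖w‖ ^ (p ^ h) ^ k := pow_le_pow_left₀ (by positivity) h3 _
  -- the terms
  have e3 : ∀ m j, Lw p h w (c (m + j * h) * y ^ p ^ (m + j * h)) =
      toRW p w (teichmuller p (c (m + j * h)) * (p : WittVector p (Ob K)) ^ j) *
        Lw p h w (y ^ p ^ m) := by
    intro m j
    have hym : ‖y ^ p ^ m‖ < 1 := by
      have : ‖y ^ p ^ m‖ = ‖y‖ ^ p ^ m := by simp
      rw [this]
      exact pow_lt_one₀ (norm_nonneg _) hy (pow_ne_zero _ hp0)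
    have hym' : ‖y ^ p ^ (m + j * h)‖ < 1 := by
      have : ‖y ^ p ^ (m + j * h)‖ = ‖y‖ ^ p ^ (m + j * h) := by simp
      rw [this]
      exact pow_lt_one₀ (norm_nonneg _) hy (pow_ne_zero _ hp0)
    rw [Lw_smul p h h1 w _ _ hw hym' (hc _)]
    have : y ^ p ^ (m + j * h) = (y ^ p ^ m) ^ (p ^ h) ^ j := by
      rw [← pow_mul, ← pow_mul, ← pow_add, mul_comm h j]
    rw [this, Lw_frobq_pow p h h1 w _ hw hym, map_mul, map_pow, map_natCast, mul_assoc]
  have e4 : ∀ m, ∃ b, toRW p w (gW p h c m) = toRW p w (∑ j ∈ Finset.range J,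
      teichmuller p (c (m + j * h)) * (p : WittVector p (Ob K)) ^ j) +
        (p : RW p w) ^ J * toRW p w b := by
    intro m
    obtain ⟨b, hb⟩ := gW_sub p h c m J
    refine ⟨b, ?_⟩
    rw [← map_natCast (toRW p w), ← map_pow, ← map_mul, ← map_add, ← hb, add_sub_cancel]
  have e5 : ∀ m, ∃ a, (p : RW p w) ^ B * Lw p h w (y ^ p ^ m) = toRW p w a := by
    intro m
    apply Lw_mem p h h1 w
    rw [← pow_mul, mul_comm, pow_mul]
    exact hB.trans (dvd_pow_self _ (pow_ne_zero _ hp0))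
  choose b hb using e4
  choose a ha using e5
  obtain ⟨a', ha'⟩ := e2
  refine ⟨(p : WittVector p (Ob K)) * a' - (p : WittVector p (Ob K)) *
    ∑ m ∈ Finset.range h, b m * a m, ?_⟩
  rw [e1, ha', EndExp.sum_range_mul]
  simp only [e3, hb]
  have e6 : ∀ m, (toRW p w (∑ j ∈ Finset.range J, teichmuller p (c (m + j * h)) *
      (p : WittVector p (Ob K)) ^ j) + (p : RW p w) ^ J * toRW p w (b m)) *
      Lw p h w (y ^ p ^ m) = ∑ j ∈ Finset.range J,
        toRW p w (teichmuller p (c (m + j * h)) * (p : WittVector p (Ob K)) ^ j) *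
          Lw p h w (y ^ p ^ m) + (p : RW p w) ^ (k + 1) * toRW p w (b m * a m) := by
    intro m
    rw [add_mul, map_sum, Finset.sum_mul]
    congr 1
    rw [map_mul, ← ha m, hJ]
    ring
  simp only [e6]
  rw [Finset.sum_add_distrib]
  rw [map_sub, map_mul, map_mul, map_natCast, map_sum, ← Finset.mul_sum]
  ring

/-- typical coefficients of a Frobenius-fixed endomorphism are Frobenius-fixed -/
theorem EndExp.exists_typical_fixed (N h : ℕ) (A : PowerSeries (Ob K))
    (hA : IsFGHom (hz p N (sp h : ℕ → Ob K)) (hz p N (sp h : ℕ → Ob K)) A)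
    (hAf : PowerSeries.map (iterateFrobenius (Ob K) p h) A = A) :
    ∃ c : ℕ → Ob K, (∀ k, c k ^ p ^ h = c k) ∧
      ∀ D, ∀ i < p ^ D, PowerSeries.coeff i A = PowerSeries.coeff i
        (fsum (hz p N (sp h : ℕ → Ob K)) ((List.range D).map fun k =>
          (PowerSeries.C (c k) * PowerSeries.X ^ p ^ k : PowerSeries (Ob K)))) := by
  obtain ⟨c, hc⟩ := exists_typical (p := p) _ _ A hA
  refine ⟨c, ?_, hc⟩
  intro k
  have hF : (hz p N (sp h : ℕ → Ob K)).map (iterateFrobenius (Ob K) p h) =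
      hz p N (sp h : ℕ → Ob K) := by
    rw [hz_map]
    congr 1
    funext i
    by_cases hi : i = h
    · simp [sp, hi]
    · simp [sp, hi]
  refine typical_unique (p := p) (hz p N (sp h : ℕ → Ob K)) (fun k => c k ^ p ^ h) c (k + 1) ?_ k
    (Nat.lt_succ_self k)
  intro i hi
  rw [← hc (k + 1) i hi]
  conv_rhs => rw [← hAf, PowerSeries.coeff_map, hc (k + 1) i hi, ← PowerSeries.coeff_map]
  congr 1
  have h2 := Typical.map_fsum (iterateFrobenius (Ob K) p h) (hz p N (sp h : ℕ → Ob K))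
    ((List.range (k + 1)).map fun k =>
        (PowerSeries.C (c k) * PowerSeries.X ^ p ^ k : PowerSeries (Ob K))) (by
      intro f hf
      rw [List.mem_map] at hf
      obtain ⟨j, _, rfl⟩ := hf
      change PowerSeries.constantCoeff (R := Ob K) _ = 0
      rw [map_mul, map_pow, PowerSeries.constantCoeff_X,
        zero_pow (pow_ne_zero _ (Fact.out : p.Prime).ne_zero), mul_zero])
  refine Eq.trans ?_ h2.symm
  rw [hF, List.map_map]
  congr 2
  funext j
  simp only [Function.comp]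
  change _ = PowerSeries.map (iterateFrobenius (Ob K) p h) _
  have h5 : PowerSeries.map (iterateFrobenius (Ob K) p h)
      (PowerSeries.X ^ p ^ j : PowerSeries (Ob K)) = PowerSeries.X ^ p ^ j := by
    rw [← PowerSeries.map_X (iterateFrobenius (Ob K) p h)]
    simp only [map_pow, PowerSeries.map_X]
  rw [map_mul, PowerSeries.map_C, h5, iterateFrobenius_def]

/-- **Expansion of `L_h(A(y))`** for a Frobenius-fixed endomorphism `A` of `F_h`. -/
theorem Lw_end_expand (N h : ℕ) (h1 : 1 ≤ h) (hN : h ≤ N) (A : PowerSeries (Ob K))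
    (hA : IsFGHom (hz p N (sp h : ℕ → Ob K)) (hz p N (sp h : ℕ → Ob K)) A)
    (hAf : PowerSeries.map (iterateFrobenius (Ob K) p h) A = A) :
    ∃ g : ℕ → WittVector p (Ob K), (∀ m, WittVector.frobenius^[h] (g m) = g m) ∧
      (g 0).coeff 0 = PowerSeries.coeff 1 A ∧
      ∀ w y : Ob K, w ≠ 0 → ‖w‖ < 1 → ‖y‖ < 1 →
        Lw p h w (ev₁ y A) =
          ∑ m ∈ Finset.range h, toRW p w (g m) * Lw p h w (y ^ p ^ m) := by
  obtain ⟨c, hc, hAc⟩ := EndExp.exists_typical_fixed p N h A hA hAf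
  refine ⟨gW p h c, frobenius_gW p h c hc, ?_, ?_⟩
  · rw [gW_coeff_zero]
    have h2 := hAc 1 1 (by simpa using (Fact.out : p.Prime).one_lt)
    rw [h2]
    have h3 : (List.range 1).map (fun k =>
        (PowerSeries.C (c k) * PowerSeries.X ^ p ^ k : PowerSeries (Ob K))) =
        [PowerSeries.C (c 0) * PowerSeries.X ^ p ^ 0] := rfl
    have h4 : fsum (hz p N (sp h : ℕ → Ob K))
        [(PowerSeries.C (c 0) * PowerSeries.X ^ p ^ 0 : PowerSeries (Ob K))] =
        PowerSeries.C (c 0) * PowerSeries.X ^ p ^ 0 := by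
      change fadd _ _ 0 = _
      rw [fadd_zero]
      change PowerSeries.constantCoeff (R := Ob K) _ = 0
      rw [map_mul, map_pow, PowerSeries.constantCoeff_X,
        zero_pow (pow_ne_zero _ (Fact.out : p.Prime).ne_zero), mul_zero]
    rw [h3, h4]
    simp
  · intro w y hw hw1 hy
    exact Lw_end_expand_aux p N h h1 hN c hc A hA.1 hAc w y hw hw1 hy

end Crest.Agent.R227
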