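import Crest.Agent.R227.CoRho
import Crest.Agent.R227.Typical
import Crest.Agent.R227.CoExpAux

/-! # R227 / CoExp : typical expansions (task COEXP), part (F) of note 4224 -/

set_option autoImplicit false
set_option linter.unusedSectionVars false

noncomputable section

namespace Crest.Agent.R227

open Crest.LubinTate MvPowerSeries Topology

variable {p : ℕ} [Fact p.Prime] {n h : ℕ}
variable {K : Type} [NontriviallyNormedField K] [IsUltrametricDist K] [CompleteSpace K]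
  [IsAlgClosed K] [CharP K p]

/-- Over `A_i = Ob K / (‖·‖ ≤ c^{Q^i})` the series `φ^{(Q^i)}` is a homomorphism from the Honda law
of height `n` to the one of height `h`, so `φ^{(Q^i)} = ∑^{HO h} c^{(i)}_k X^{p^k}` (typical lemma);
`c_k = lim_i c^{(i)}_{k+ri}`. -/
theorem hasExp_of_hom (h1 : 1 ≤ h) (hh : h < n) (P : HPoint p n h K)
    {ρ : FPt (HO p n n (Ob K)) →+ FPt P.F} (hρ : IsRho P ρ) {φ : PowerSeries (Ob K)}
    (hφ : IsFGHom P.F (HO p n h (Ob K)) φ) : HasExp ((FPt.hom hφ).comp ρ) := by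
  have hc0 := P.c_nonneg
  have hc1 := P.c_lt_one
  have hp := (Fact.out : p.Prime)
  obtain ⟨C, hC, hC1, hC2⟩ := CoExp.exists_C h1 hh P hφ
  obtain ⟨b, hbC, hbr, hbs, hb1⟩ := CoExp.exists_b h1 hh P C hC1 hC2
  have hr : 1 ≤ n - h := by omega
  obtain ⟨c, hc⟩ := CoExp.exists_ext (h := h) b (n - h) hr hbr
  have hrep : ∀ K : ℤ, ∃ k i : ℕ, K = (k : ℤ) - (((n - h) * (i + 1) : ℕ) : ℤ) := by
    intro K
    refine ⟨(K + (((n - h) * ((-K).toNat + 1) : ℕ) : ℤ)).toNat, (-K).toNat, ?_⟩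
    have : (-K).toNat + 1 ≤ (n - h) * ((-K).toNat + 1) := Nat.le_mul_of_pos_left _ hr
    omega
  have hsmall : ∀ (i : ℕ) (J : ℤ), J < -(((n - h) * i : ℕ) : ℤ) →
      ‖c J‖ ≤ P.c ^ p ^ (h * i) := by
    intro i J hJ
    have hr' : (0 : ℤ) < ((n - h : ℕ) : ℤ) := by exact_mod_cast hr
    have hdiv := Int.emod_add_mul_ediv J ((n - h : ℕ) : ℤ)
    have hm0 := Int.emod_nonneg J hr'.ne'
    have hm1 := Int.emod_lt_of_pos J hr'
    have hq : J / ((n - h : ℕ) : ℤ) < -(i : ℤ) := by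
      apply Int.ediv_lt_of_lt_mul hr'
      push_cast at hJ ⊢
      linarith
    obtain ⟨m, hm⟩ : ∃ m : ℕ, J / ((n - h : ℕ) : ℤ) = -((m : ℤ) + 1) :=
      ⟨(-(J / ((n - h : ℕ) : ℤ)) - 1).toNat, by omega⟩
    obtain ⟨k, hk⟩ : ∃ k : ℕ, J % ((n - h : ℕ) : ℤ) = k := ⟨_, (Int.toNat_of_nonneg hm0).symm⟩
    have him : i ≤ m := by omega
    have hkr : k < n - h := by omega
    have hJ2 : J = (k : ℤ) - (((n - h) * (m + 1) : ℕ) : ℤ) := by
      rw [← hdiv, hk, hm]
      push_cast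
      ring
    rw [hJ2, hc, CoExp.norm_pow', show h * (m + 1) = h + h * m by ring, pow_add, pow_mul]
    refine (pow_le_pow_left₀ (by positivity) (hbs k hkr) _).trans ?_
    exact pow_le_pow_of_le_one hc0 hc1.le
      (Nat.pow_le_pow_right hp.pos (Nat.mul_le_mul_left h him))
  refine ⟨c, ?_, ?_, ?_⟩
  · intro J
    obtain ⟨k, i, rfl⟩ := hrep J
    have e1 : (k : ℤ) - (((n - h) * (i + 1) : ℕ) : ℤ) + ((n - h : ℕ) : ℤ) =
        (k : ℤ) - (((n - h) * i : ℕ) : ℤ) := by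
      rw [Nat.mul_succ, Nat.cast_add]; ring
    rw [e1, hc, hc, ← pow_mul, ← pow_add, Nat.mul_succ]
  · intro J
    obtain ⟨k, i, rfl⟩ := hrep J
    rw [hc, CoExp.norm_pow']
    exact pow_lt_one₀ (norm_nonneg _) (hb1 k) (pow_ne_zero _ hp.ne_zero)
  · intro z
    rw [tendsto_zero_iff_norm_tendsto_zero]
    have hz : ‖z.val‖ < 1 := FPt.norm_lt _ z
    have hbound : ∀ s : ℕ, ‖(((FPt.hom hφ).comp ρ) z - ∑ k ∈ Finset.Ico (-(s : ℤ)) s,
        toPt (HO p n h (Ob K)) (c k * fz p k z.val)).val‖ ≤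
          max (P.c ^ p ^ (h * (s / (n - h)))) (‖z.val‖ ^ p ^ s) := by
      intro s
      set i := s / (n - h) with hi
      have his : (n - h) * i ≤ s := Nat.mul_div_le s (n - h)
      have e1 := CoExp.Ei h1 hh ((FPt.hom hφ).comp ρ) b c P.c hc0
        (fun z N => CoExp.E0 hρ hφ b C hC hbC z N) hc z i s
      have hle1 : (-(s : ℤ)) ≤ -(((n - h) * i : ℕ) : ℤ) := by omega
      have hle2 : -(((n - h) * i : ℕ) : ℤ) ≤ (s : ℤ) := by omega
      rw [← Finset.Ico_union_Ico_eq_Ico hle1 hle2,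
        Finset.sum_union (Finset.Ico_disjoint_Ico_consecutive _ _ _)]
      have e2 : ((FPt.hom hφ).comp ρ) z -
          (∑ k ∈ Finset.Ico (-(s : ℤ)) (-(((n - h) * i : ℕ) : ℤ)),
            toPt (HO p n h (Ob K)) (c k * fz p k z.val) +
          ∑ k ∈ Finset.Ico (-(((n - h) * i : ℕ) : ℤ)) s,
            toPt (HO p n h (Ob K)) (c k * fz p k z.val)) =
          (((FPt.hom hφ).comp ρ) z - ∑ k ∈ Finset.Ico (-(((n - h) * i : ℕ) : ℤ)) s,
            toPt (HO p n h (Ob K)) (c k * fz p k z.val)) +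
          -(∑ k ∈ Finset.Ico (-(s : ℤ)) (-(((n - h) * i : ℕ) : ℤ)),
            toPt (HO p n h (Ob K)) (c k * fz p k z.val)) := by abel
      rw [e2]
      refine FPt.norm_add_le _ _ _ _ e1 ?_
      rw [FPt.norm_neg]
      refine (FPt.norm_sum_le _ _ _ (P.c ^ p ^ (h * i)) (by positivity) fun k hk => ?_).trans
        (le_max_left _ _)
      rw [toPt_val _ (CoExp.mul_fz_lt _ _ _)]
      rw [Finset.mem_Ico] at hk
      exact (CoExp.norm_mul_le_left _ _).trans (hsmall i k hk.2)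
    refine squeeze_zero (fun _ => norm_nonneg _) hbound ?_
    have t1 : Filter.Tendsto (fun s : ℕ => P.c ^ p ^ (h * (s / (n - h)))) Filter.atTop (𝓝 0) :=
      (tendsto_pow_tower (p := p) h1 hc0 hc1).comp
        (Nat.tendsto_div_const_atTop (by omega))
    have t2 : Filter.Tendsto (fun s : ℕ => ‖z.val‖ ^ p ^ s) Filter.atTop (𝓝 0) := by
      have := tendsto_pow_tower (p := p) (h := 1) le_rfl (norm_nonneg z.val) hz
      simpa using this
    have := t1.max t2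
    rwa [max_self] at this

/-- typical expansion of the endomorphisms of `HO h` with `Q`-fixed coefficients -/
theorem IsQEnd.exp (h1 : 1 ≤ h) (hh : h ≤ n)
    {A : FPt (HO p n h (Ob K)) →+ FPt (HO p n h (Ob K))} (hA : IsQEnd A) :
    ∃ c : ℕ → Ob K, (∀ k, c k ^ p ^ h = c k) ∧ ∀ z, Filter.Tendsto (fun s : ℕ =>
      (A z - ∑ k ∈ Finset.range s, toPt (HO p n h (Ob K)) (c k * z.val ^ p ^ k)).val)
      Filter.atTop (𝓝 0) := by
  have hp := (Fact.out : p.Prime)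
  obtain ⟨φ, hφ, hφQ, hAφ⟩ := hA
  have hfix : PowerSeries.map (iterateFrobenius (Ob K) p h) φ = φ := by
    ext m
    rw [PowerSeries.coeff_map, iterateFrobenius_def, hφQ]
  obtain ⟨c, hc, hcφ⟩ := EndExp.exists_typical_fixed p n h φ hφ hfix
  refine ⟨c, hc, fun z => ?_⟩
  have hz : ‖z.val‖ < 1 := FPt.norm_lt _ z
  rw [tendsto_zero_iff_norm_tendsto_zero]
  have hbound : ∀ s : ℕ, ‖(A z - ∑ k ∈ Finset.range s,
      toPt (HO p n h (Ob K)) (c k * z.val ^ p ^ k)).val‖ ≤ ‖z.val‖ ^ p ^ s := by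
    intro s
    obtain ⟨d, hd, hA, hAd⟩ := EndExp.exists_err (p := p) (HO p n h (Ob K)) c φ hφ.1 s
      (hcφ s) z.val hz
    have e1 : A z = ⟨ev₁ z.val φ, hA⟩ := FPt.ext (hAφ z)
    have e2 : ∑ k ∈ Finset.range s, toPt (HO p n h (Ob K)) (c k * z.val ^ p ^ k) =
        ∑ k ∈ Finset.range s, EndExp.mpt p (HO p n h (Ob K)) (c k) z.val hz k := by
      refine Finset.sum_congr rfl fun k _ => ?_
      apply FPt.ext
      rw [toPt_val _ (EndExp.norm_mul_pow_lt (c k) z.val hz _ (pow_ne_zero _ hp.ne_zero))]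
      rfl
    rw [e1, hAd, e2, add_sub_cancel_right]
    exact hd
  refine squeeze_zero (fun _ => norm_nonneg _) hbound ?_
  have := tendsto_pow_tower (p := p) (h := 1) le_rfl (norm_nonneg z.val) hz
  simpa using this

end Crest.Agent.R227
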