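import Crest.Agent.R227.Est

/-!
# R227 / Eval : power series rings over the ball (task EVPS)
-/

set_option autoImplicit false

noncomputable section

namespace Crest.Agent.R227

open MvPowerSeries Topology

/-! ## Power series rings over the ball -/

section ps

open scoped MvPowerSeries.WithPiTopology

variable {K : Type*} [NormedField K] [IsUltrametricDist K] [CompleteSpace K] {τ : Type*}
  [Finite τ]

example : IsUniformAddGroup (MvPowerSeries τ (Ob K)) := inferInstance
example : IsTopologicalRing (MvPowerSeries τ (Ob K)) := inferInstance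
example : IsLinearTopology (MvPowerSeries τ (Ob K)) (MvPowerSeries τ (Ob K)) := inferInstance
example : CompleteSpace (MvPowerSeries τ (Ob K)) := inferInstance
example : T2Space (MvPowerSeries τ (Ob K)) := inferInstance

omit [CompleteSpace K] [Finite τ] in
theorem ps_tn_iff (f : MvPowerSeries τ (Ob K)) :
    IsTopologicallyNilpotent f ↔ ‖constantCoeff f‖ < 1 :=
  (MvPowerSeries.LinearTopology.isTopologicallyNilpotent_iff_constantCoeff f).trans (Ob_tn_iff _)

/-- evaluation `O[[τ]] → O` is continuous -/
theorem continuous_evHom {a : τ → Ob K} (ha : ∀ i, IsTopologicallyNilpotent (a i)) :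
    Continuous (evHom ha) := by
  have : ⇑(evHom ha) = MvPowerSeries.eval₂ (RingHom.id (Ob K)) a :=
    coe_eval₂Hom (φ := RingHom.id (Ob K)) continuous_id (hasEval_of_tn ha)
  rw [this]
  exact continuous_eval₂ (φ := RingHom.id (Ob K)) continuous_id (hasEval_of_tn ha)

/-- nested evaluation: evaluate the parameters of `f(g_1(Z),…)` at `Z = a`. -/
theorem ev_ev {σ : Type*} [Finite σ] (g : σ → MvPowerSeries τ (Ob K))
    (hg : ∀ i, ‖constantCoeff (g i)‖ < 1) {a : τ → Ob K} (ha : ∀ i, ‖a i‖ < 1)
    (f : MvPowerSeries σ (Ob K)) :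
    ev a (ev g (f.map (C : Ob K →+* MvPowerSeries τ (Ob K)))) = ev (fun i => ev a (g i)) f := by
  have hat : ∀ i, IsTopologicallyNilpotent (a i) := fun i => (Ob_tn_iff _).2 (ha i)
  have h := map_ev (a := g) (fun i => (ps_tn_iff _).2 (hg i)) (evHom hat)
    (continuous_evHom hat) (f.map (C : Ob K →+* MvPowerSeries τ (Ob K)))
  simp only [evHom_apply] at h
  rw [h]
  congr 1
  ext d
  rw [coeff_map, coeff_map, evHom_apply, ev_C hat]

/-- when the `g i` have no constant term, `ev` is substitution -/
theorem ev_eq_subst {σ : Type*} [Finite σ] (g : σ → MvPowerSeries τ (Ob K))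
    (hg : ∀ i, constantCoeff (g i) = 0) (f : MvPowerSeries σ (Ob K)) :
    ev g (f.map (C : Ob K →+* MvPowerSeries τ (Ob K))) = MvPowerSeries.subst g f := by
  have hgt : ∀ i, IsTopologicallyNilpotent (g i) := fun i =>
    (ps_tn_iff _).2 (by rw [hg i]; simp)
  have hs : HasSubst g := hasSubst_of_constantCoeff_zero hg
  have h1 := hasSum_eval₂ (φ := RingHom.id (MvPowerSeries τ (Ob K))) continuous_id
    (hasEval_of_tn hgt) (f.map (C : Ob K →+* MvPowerSeries τ (Ob K)))
  ext e : 1
  rw [coeff_subst hs, ← tsum_eq_finsum (L := SummationFilter.unconditional _)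
    (coeff_subst_finite hs f e)]
  have h2 := (WithPiTopology.hasSum_iff_hasSum_coeff.1 h1) e
  have h3 : HasSum (fun d : σ →₀ ℕ => coeff d f • coeff e (d.prod fun s e => g s ^ e))
      (coeff e (ev g (f.map (C : Ob K →+* MvPowerSeries τ (Ob K))))) := by
    have heq : (fun d : σ →₀ ℕ => coeff d f • coeff e (d.prod fun s e => g s ^ e)) =
        fun d : σ →₀ ℕ => coeff e ((RingHom.id (MvPowerSeries τ (Ob K)))
          (coeff d (f.map (C : Ob K →+* MvPowerSeries τ (Ob K)))) * d.prod fun s e => g s ^ e) := by
      funext d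
      rw [RingHom.id_apply, coeff_map, coeff_C_mul, smul_eq_mul]
    rw [heq]
    exact h2
  exact h3.tsum_eq.symm

end ps

end Crest.Agent.R227
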