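import Crest.Agent.R227.FG2
import Crest.Agent.R227.Eval

/-!
# R227 / FPt : groups of points (task FPT)
-/

set_option autoImplicit false

noncomputable section

namespace Crest.Agent.R227

open Crest.LubinTate MvPowerSeries Topology

/-! ## Points -/

variable {S : Type*} [CommRing S] [UniformSpace S]

/-- points of `F` with values in the topologically nilpotent elements of `S` -/
@[ext] structure FPt (F : FormalGroup S) where
  val : S
  tn : IsTopologicallyNilpotent val

variable [IsUniformAddGroup S] [IsTopologicalRing S] [IsLinearTopology S S] [CompleteSpace S]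
  [T2Space S]

/-- formal addition of elements -/
def padd (F : FormalGroup S) (a b : S) : S := ev ![a, b] F.toPowerSeries

theorem FPtAux.tn_zero {S : Type*} [CommRing S] [UniformSpace S] :
    IsTopologicallyNilpotent (0 : S) := IsTopologicallyNilpotent.zero

theorem FPtAux.tn_pair {S : Type*} [CommRing S] [UniformSpace S] {a b : S}
    (ha : IsTopologicallyNilpotent a)
    (hb : IsTopologicallyNilpotent b) : ∀ i, IsTopologicallyNilpotent ((![a, b] : Fin 2 → S) i) := by
  intro i
  fin_cases i
  · simpa using ha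
  · simpa using hb

theorem FPtAux.tn_triple {S : Type*} [CommRing S] [UniformSpace S] {a b c : S}
    (ha : IsTopologicallyNilpotent a)
    (hb : IsTopologicallyNilpotent b) (hc : IsTopologicallyNilpotent c) :
    ∀ i, IsTopologicallyNilpotent ((![a, b, c] : Fin 3 → S) i) := by
  intro i
  fin_cases i
  · simpa using ha
  · simpa using hb
  · simpa using hc

theorem padd_tn (F : FormalGroup S) {a b : S} (ha : IsTopologicallyNilpotent a)
    (hb : IsTopologicallyNilpotent b) : IsTopologicallyNilpotent (padd F a b) := by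
  refine ev_tn (FPtAux.tn_pair ha hb) _ ?_
  rw [F.zero_constantCoeff]
  exact FPtAux.tn_zero

/-- evaluation of a formal sum -/
theorem FPtAux.ev_fadd (F : FormalGroup S) {σ : Type*} [Finite σ] {a : σ → S}
    (ha : ∀ i, IsTopologicallyNilpotent (a i)) (f g : MvPowerSeries σ S)
    (hf : constantCoeff f = 0) (hg : constantCoeff g = 0) :
    ev a (fadd F f g) = padd F (ev a f) (ev a g) := by
  have h := ev_subst ha (τ := Fin 2) ![f, g] (by
    intro i
    fin_cases i
    · simpa using hf
    · simpa using hg) F.toPowerSeries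
  unfold fadd padd
  rw [h]
  congr 1
  funext i
  fin_cases i <;> simp

theorem FPtAux.padd_assoc (F : FormalGroup S) {a b c : S} (ha : IsTopologicallyNilpotent a)
    (hb : IsTopologicallyNilpotent b) (hc : IsTopologicallyNilpotent c) :
    padd F (padd F a b) c = padd F a (padd F b c) := by
  have h3 := FPtAux.tn_triple ha hb hc
  have key := fadd_assoc F (X 0 : MvPowerSeries (Fin 3) S) (X 1) (X 2) (by simp) (by simp)
    (by simp)
  have h1 := congrArg (ev (![a, b, c] : Fin 3 → S)) key
  rw [FPtAux.ev_fadd F h3 _ _ (constantCoeff_fadd F _ _ (by simp) (by simp)) (by simp),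
    FPtAux.ev_fadd F h3 _ _ (by simp) (by simp),
    FPtAux.ev_fadd F h3 _ _ (by simp) (constantCoeff_fadd F _ _ (by simp) (by simp)),
    FPtAux.ev_fadd F h3 _ _ (by simp) (by simp), ev_X h3, ev_X h3, ev_X h3] at h1
  simpa using h1

theorem FPtAux.padd_comm (F : FormalGroup S) [F.IsComm] {a b : S}
    (ha : IsTopologicallyNilpotent a)
    (hb : IsTopologicallyNilpotent b) : padd F a b = padd F b a := by
  have h2 := FPtAux.tn_pair ha hb
  have key := fadd_comm F (X 0 : MvPowerSeries (Fin 2) S) (X 1) (by simp) (by simp)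
  have h1 := congrArg (ev (![a, b] : Fin 2 → S)) key
  rw [FPtAux.ev_fadd F h2 _ _ (by simp) (by simp), FPtAux.ev_fadd F h2 _ _ (by simp) (by simp),
    ev_X h2, ev_X h2] at h1
  simpa using h1

theorem FPtAux.zero_padd (F : FormalGroup S) {a : S} (ha : IsTopologicallyNilpotent a) :
    padd F 0 a = a := by
  have h2 : ∀ _ : Unit, IsTopologicallyNilpotent a := fun _ => ha
  have key := zero_fadd F (X () : MvPowerSeries Unit S) (by simp)
  have h1 := congrArg (ev (fun _ : Unit => a)) key
  rw [FPtAux.ev_fadd F h2 _ _ (by simp) (by simp), ev_X h2, ev_zero h2] at h1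
  simpa using h1

theorem FPtAux.padd_zero (F : FormalGroup S) {a : S} (ha : IsTopologicallyNilpotent a) :
    padd F a 0 = a := by
  have h2 : ∀ _ : Unit, IsTopologicallyNilpotent a := fun _ => ha
  have key := fadd_zero F (X () : MvPowerSeries Unit S) (by simp)
  have h1 := congrArg (ev (fun _ : Unit => a)) key
  rw [FPtAux.ev_fadd F h2 _ _ (by simp) (by simp), ev_X h2, ev_zero h2] at h1
  simpa using h1

theorem FPtAux.neg_tn (F : FormalGroup S) {a : S} (ha : IsTopologicallyNilpotent a) :
    IsTopologicallyNilpotent (ev₁ a (fnegSeries F)) := by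
  refine ev_tn (fun _ => ha) _ ?_
  have h := (exists_fneg F).choose_spec.1
  have h' : constantCoeff (fnegSeries F : MvPowerSeries Unit S) = 0 := h
  rw [h']
  exact FPtAux.tn_zero

theorem FPtAux.neg_padd (F : FormalGroup S) {a : S} (ha : IsTopologicallyNilpotent a) :
    padd F (ev₁ a (fnegSeries F)) a = 0 := by
  have h2 : ∀ _ : Unit, IsTopologicallyNilpotent a := fun _ => ha
  have h0 : constantCoeff (fnegSeries F : MvPowerSeries Unit S) = 0 :=
    (exists_fneg F).choose_spec.1
  have key : fadd F (fnegSeries F) (X () : MvPowerSeries Unit S) = 0 :=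
    (exists_fneg F).choose_spec.2.2
  have h1 := congrArg (ev (fun _ : Unit => a)) key
  rw [FPtAux.ev_fadd F h2 _ _ h0 (by simp), ev_X h2, ev_zero h2] at h1
  exact h1

instance (F : FormalGroup S) : Add (FPt F) := ⟨fun a b => ⟨padd F a.val b.val, padd_tn F a.tn b.tn⟩⟩

instance (F : FormalGroup S) : Zero (FPt F) := ⟨⟨0, FPtAux.tn_zero⟩⟩

instance (F : FormalGroup S) : Neg (FPt F) := ⟨fun a => ⟨ev₁ a.val (fnegSeries F), FPtAux.neg_tn F a.tn⟩⟩

instance (F : FormalGroup S) [F.IsComm] : AddCommGroup (FPt F) where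
  add_assoc a b c := FPt.ext (FPtAux.padd_assoc F a.tn b.tn c.tn)
  zero_add a := FPt.ext (FPtAux.zero_padd F a.tn)
  add_zero a := FPt.ext (FPtAux.padd_zero F a.tn)
  neg_add_cancel a := FPt.ext (FPtAux.neg_padd F a.tn)
  add_comm a b := FPt.ext (FPtAux.padd_comm F a.tn b.tn)
  nsmul := nsmulRec
  zsmul := zsmulRec

@[simp] theorem FPt.val_zero (F : FormalGroup S) : (0 : FPt F).val = 0 := rfl

theorem FPt.val_add (F : FormalGroup S) (a b : FPt F) :
    (a + b).val = ev ![a.val, b.val] F.toPowerSeries := rfl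

theorem FPt.val_nsmul (F : FormalGroup S) [F.IsComm] (m : ℕ) (a : FPt F) :
    (m • a).val = ev₁ a.val (mulSeries F m) := by
  have h2 : ∀ _ : Unit, IsTopologicallyNilpotent a.val := fun _ => a.tn
  induction m with
  | zero =>
    rw [zero_nsmul, FPt.val_zero]
    exact (ev_zero h2).symm
  | succ m ih =>
    rw [succ_nsmul]
    have h3 : ev₁ a.val (mulSeries F (m + 1)) =
        padd F (ev₁ a.val (mulSeries F m)) (ev₁ a.val (PowerSeries.X : PowerSeries S)) :=
      FPtAux.ev_fadd F h2 _ _ (constantCoeff_mulSeries F m) (by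
        exact PowerSeries.constantCoeff_X)
    rw [h3, ← ih]
    have h4 : ev₁ a.val (PowerSeries.X : PowerSeries S) = a.val := ev_X h2 ()
    rw [h4]
    rfl

theorem FPtAux.hom_tn {F G : FormalGroup S} {φ : PowerSeries S}
    (h : IsFGHom F G φ) {a : S} (ha : IsTopologicallyNilpotent a) :
    IsTopologicallyNilpotent (ev₁ a φ) := by
  refine ev_tn (fun _ => ha) _ ?_
  have h' : constantCoeff (φ : MvPowerSeries Unit S) = 0 := h.1
  rw [h']
  exact FPtAux.tn_zero

theorem FPtAux.hom_zero {F G : FormalGroup S} {φ : PowerSeries S}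
    (h : IsFGHom F G φ) : ev₁ (0 : S) φ = 0 := by
  have h2 : ∀ _ : Unit, IsTopologicallyNilpotent (0 : S) := fun _ => FPtAux.tn_zero
  have h' : constantCoeff (φ : MvPowerSeries Unit S) = 0 := h.1
  have h3 := ev_subst₁ h2 (0 : MvPowerSeries Unit S) (by simp) φ
  rw [ev_zero h2] at h3
  rw [← h3]
  have h4 : PowerSeries.subst (0 : MvPowerSeries Unit S) φ = 0 :=
    PowerSeries.subst_zero_of_constantCoeff_zero h.1
  rw [h4]
  exact ev_zero h2

theorem FPtAux.hom_padd {F G : FormalGroup S} {φ : PowerSeries S}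
    (h : IsFGHom F G φ) {a b : S} (ha : IsTopologicallyNilpotent a)
    (hb : IsTopologicallyNilpotent b) :
    ev₁ (padd F a b) φ = padd G (ev₁ a φ) (ev₁ b φ) := by
  have h2 := FPtAux.tn_pair ha hb
  have h1 := congrArg (ev (![a, b] : Fin 2 → S)) h.2
  rw [ev_subst₁ h2 _ F.zero_constantCoeff] at h1
  have h0 : constantCoeff (φ : MvPowerSeries Unit S) = 0 := h.1
  have h3 := FPtAux.ev_fadd G h2
    (PowerSeries.subst (X 0 : MvPowerSeries (Fin 2) S) φ)
    (PowerSeries.subst (X 1 : MvPowerSeries (Fin 2) S) φ) 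
    (PowerSeries.constantCoeff_subst_eq_zero (by simp) φ h.1)
    (PowerSeries.constantCoeff_subst_eq_zero (by simp) φ h.1)
  rw [ev_subst₁ h2 _ (by simp), ev_subst₁ h2 _ (by simp), ev_X h2, ev_X h2] at h3
  unfold fadd at h3
  rw [h3] at h1
  simpa [padd] using h1

/-- action of homomorphisms on points -/
def FPt.hom {F G : FormalGroup S} [F.IsComm] [G.IsComm] {φ : PowerSeries S}
    (h : IsFGHom F G φ) : FPt F →+ FPt G where
  toFun a := ⟨ev₁ a.val φ, FPtAux.hom_tn h a.tn⟩
  map_zero' := FPt.ext (FPtAux.hom_zero h)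
  map_add' a b := FPt.ext (FPtAux.hom_padd h a.tn b.tn)

@[simp] theorem FPt.hom_val {F G : FormalGroup S} [F.IsComm] [G.IsComm] {φ : PowerSeries S}
    (h : IsFGHom F G φ) (a : FPt F) : (FPt.hom h a).val = ev₁ a.val φ := rfl

theorem FPtAux.map_tn {S' : Type*} [CommRing S'] [UniformSpace S'] (f : S →+* S')
    (hf : Continuous f) {a : S} (ha : IsTopologicallyNilpotent a) :
    IsTopologicallyNilpotent (f a) := ha.map hf

theorem FPtAux.map_padd {S' : Type*} [CommRing S'] [UniformSpace S'] [IsUniformAddGroup S']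
    [IsTopologicalRing S'] [IsLinearTopology S' S'] [CompleteSpace S'] [T2Space S']
    (f : S →+* S') (hf : Continuous f) {F : FormalGroup S} {G : FormalGroup S'}
    (hG : F.map f = G) {a b : S} (ha : IsTopologicallyNilpotent a)
    (hb : IsTopologicallyNilpotent b) : f (padd F a b) = padd G (f a) (f b) := by
  subst hG
  have h2 := FPtAux.tn_pair ha hb
  unfold padd
  rw [map_ev h2 f hf]
  congr 1
  funext i
  fin_cases i <;> simp

/-- base change of points along a continuous ring homomorphism -/
def FPt.baseChange {S' : Type*} [CommRing S'] [UniformSpace S'] [IsUniformAddGroup S']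
    [IsTopologicalRing S'] [IsLinearTopology S' S'] [CompleteSpace S'] [T2Space S']
    (f : S →+* S') (hf : Continuous f) {F : FormalGroup S} {G : FormalGroup S'} [F.IsComm]
    [G.IsComm] (hG : F.map f = G) : FPt F →+ FPt G where
  toFun a := ⟨f a.val, FPtAux.map_tn f hf a.tn⟩
  map_zero' := FPt.ext (map_zero f)
  map_add' a b := FPt.ext (FPtAux.map_padd f hf hG a.tn b.tn)

@[simp] theorem FPt.baseChange_val {S' : Type*} [CommRing S'] [UniformSpace S']
    [IsUniformAddGroup S'] [IsTopologicalRing S'] [IsLinearTopology S' S'] [CompleteSpace S']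
    [T2Space S'] (f : S →+* S') (hf : Continuous f) {F : FormalGroup S} {G : FormalGroup S'}
    [F.IsComm] [G.IsComm] (hG : F.map f = G) (a : FPt F) :
    (FPt.baseChange f hf hG a).val = f a.val := rfl

/-- `a - b` in `FPt F` lies in a closed ideal iff the difference of the values does -/
theorem FPt.sub_mem_iff (F : FormalGroup S) [F.IsComm] (a b : FPt F) (I : Ideal S)
    (hI : IsClosed (I : Set S)) : (a - b).val ∈ I ↔ a.val - b.val ∈ I := by
  have key : ∀ x y z : FPt F, x.val - y.val ∈ I → (x + z).val - (y + z).val ∈ I := by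
    intro x y z hxy
    refine ev_sub_ev_mem (FPtAux.tn_pair x.tn z.tn) (FPtAux.tn_pair y.tn z.tn) I hI ?_
      F.toPowerSeries
    intro i
    fin_cases i
    · simpa using hxy
    · simp
  constructor
  · intro h
    have h1 := key (a - b) 0 b (by simpa using h)
    simpa using h1
  · intro h
    have h1 := key a b (-b) h
    rw [add_neg_cancel] at h1
    simpa [sub_eq_add_neg] using h1

theorem FPt.add_mem (F : FormalGroup S) [F.IsComm] (a b : FPt F) (I : Ideal S)
    (hI : IsClosed (I : Set S)) (ha : a.val ∈ I) (hb : b.val ∈ I) : (a + b).val ∈ I := by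
  have h0 : ev (![(0 : S), 0] : Fin 2 → S) F.toPowerSeries = 0 := by
    have h := FPt.val_add F 0 0
    rw [add_zero] at h
    simpa using h.symm
  have h1 := ev_sub_ev_mem (FPtAux.tn_pair a.tn b.tn)
    (FPtAux.tn_pair (FPtAux.tn_zero (S := S)) FPtAux.tn_zero) I hI (by
      intro i
      fin_cases i
      · simpa using ha
      · simpa using hb) F.toPowerSeries
  rw [h0, sub_zero] at h1
  exact h1

theorem FPtAux.continuous_frob {S : Type*} [CommRing S] [UniformSpace S] [IsTopologicalRing S]
    (p : ℕ) [Fact p.Prime] [CharP S p] (k : ℕ) : Continuous (iterateFrobenius S p k) := by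
  have h : (iterateFrobenius S p k : S → S) = fun x => x ^ p ^ k := by
    funext x
    rfl
  rw [h]
  exact continuous_pow _

/-- Frobenius on points, `P ↦ P^{p^k}`, from `F` to `F^{(p^k)}` -/
def FPt.frob (p : ℕ) [Fact p.Prime] [CharP S p] (k : ℕ) {F G : FormalGroup S} [F.IsComm]
    [G.IsComm] (hG : F.map (iterateFrobenius S p k) = G) : FPt F →+ FPt G where
  toFun a := ⟨a.val ^ p ^ k, FPtAux.map_tn (iterateFrobenius S p k)
    (FPtAux.continuous_frob p k) a.tn⟩
  map_zero' := FPt.ext (map_zero (iterateFrobenius S p k))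
  map_add' a b := FPt.ext (FPtAux.map_padd (iterateFrobenius S p k)
    (FPtAux.continuous_frob p k) hG a.tn b.tn)

@[simp] theorem FPt.frob_val (p : ℕ) [Fact p.Prime] [CharP S p] (k : ℕ) {F G : FormalGroup S}
    [F.IsComm] [G.IsComm] (hG : F.map (iterateFrobenius S p k) = G) (a : FPt F) :
    (FPt.frob p k hG a).val = a.val ^ p ^ k := rfl

end Crest.Agent.R227
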