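import Crest.Agent.R227.TrLT
import Crest.Agent.R227.TopDefs

/-!
# R227 / TrIso : every law over `F_{p^n}` with `[p] = X^{p^n}` admitting a lift to `W` is
isomorphic to the Honda law (part of task TRANSFER)
-/

set_option autoImplicit false

noncomputable section

namespace Crest.Agent.R227

open Crest.LubinTate MvPowerSeries

namespace LT

theorem map_isComm {R S : Type*} [CommRing R] [CommRing S] (F : FormalGroup R) [F.IsComm]
    (f : R →+* S) : (F.map f).IsComm := by
  constructor
  have h := congrArg (MvPowerSeries.map f) (FormalGroup.IsComm.comm (F := F))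
  rw [MvPowerSeries.map_subst HasSubst.X_X] at h
  rw [FormalGroup.map_toPowerSeries]
  refine h.trans ?_
  congr 1
  ext i : 1
  fin_cases i <;> simp

theorem map_map {R S T : Type*} [CommRing R] [CommRing S] [CommRing T] (F : FormalGroup R)
    (f : R →+* S) (g : S →+* T) : (F.map f).map g = F.map (g.comp f) := by
  ext : 1
  simp only [FormalGroup.map_toPowerSeries]
  ext d
  simp

theorem map_id (R : Type*) [CommRing R] (F : FormalGroup R) : F.map (RingHom.id R) = F := by
  ext : 1
  simp only [FormalGroup.map_toPowerSeries]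
  ext d
  simp

end LT

variable (p : ℕ) [Fact p.Prime] (n : ℕ)

theorem LT.fsum_sp {R : Type*} [CommRing R] (F : FormalGroup R) (m : ℕ) (g : ℕ → PowerSeries R)
    (hg : ∀ i < m, g i = 0) (hgm : PowerSeries.constantCoeff (g m) = 0) :
    fsum F ((List.range (m + 1)).map g) = g m := by
  unfold fsum
  rw [List.range_succ, List.map_append, List.foldr_append]
  have h1 : List.foldr (fadd F) 0 (List.map g [m]) = g m := by
    simp only [List.map_cons, List.map_nil, List.foldr_cons, List.foldr_nil]
    exact fadd_zero F _ hgm
  rw [h1]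
  have h2 : ∀ l : List ℕ, (∀ i ∈ l, i < m) →
      List.foldr (fadd F) (g m) (List.map g l) = g m := by
    intro l
    induction l with
    | nil => intro _; rfl
    | cons a l ih =>
      intro hl
      rw [List.map_cons, List.foldr_cons, ih (fun i hi => hl i (List.mem_cons_of_mem _ hi)),
        hg a (hl a List.mem_cons_self)]
      exact zero_fadd F _ hgm
  exact h2 _ (fun i hi => List.mem_range.mp hi)

/-- the `p`-series of the Honda law -/
theorem mulSeries_Fn (hn : 1 ≤ n) : mulSeries (Fn p n) p = PowerSeries.X ^ p ^ n := by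
  obtain ⟨m, rfl⟩ : ∃ m, n = m + 1 := ⟨n - 1, by omega⟩
  rw [mulSeries_hz]
  have := LT.fsum_sp (Fn p (m + 1)) m (fun i => (PowerSeries.C (sp (m + 1) (i + 1)) *
    PowerSeries.X ^ p ^ (i + 1) : PowerSeries (GaloisField p (m + 1)))) ?_ ?_
  · rw [this]
    simp [sp]
  · intro i hi
    have : ¬ i = m := by omega
    simp [sp, this]
  · simp [(Fact.out : p.Prime).ne_zero]

/-- the residue of the universal point -/
theorem hz_residue : (H1 p n).map (LTRing.residue p n) = Fn p n := by
  unfold H1 Fn
  rw [hz_map]
  congr 1
  ext i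
  unfold upt sp
  by_cases h1 : 1 ≤ i ∧ i < n
  · have : ¬ i = n := by omega
    simp only [dif_pos h1, if_neg this]
    simp [LTRing.residue]
  · rw [dif_neg h1]
    by_cases h2 : i = n
    · simp [h2]
    · simp [h2]

/-- existence of an isomorphism `Γ → Fn` with linear coefficient `1`. -/
theorem exists_lam (hn : 1 ≤ n) (Γ : FormalGroup (GaloisField p n)) [Γ.IsComm]
    (hΓ : mulSeries Γ p = PowerSeries.X ^ (p ^ n))
    (H : FormalGroup (LTRing p n)) [H.IsComm] (hH : H.map (LTRing.residue p n) = Γ) :
    ∃ lam : PowerSeries (GaloisField p n), IsFGHom Γ (Fn p n) lam ∧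
      PowerSeries.coeff 1 lam = 1 := by
  let W := WittVector p (GaloisField p n)
  let r : W →+* GaloisField p n := WittVector.constantCoeff
  let G : FormalGroup W := H.map (MvPowerSeries.constantCoeff : LTRing p n →+* W)
  let G' : FormalGroup W := hz p n (sp n)
  have : G.IsComm := LT.map_isComm H _
  have hG : G.map r = Γ := by
    rw [← hH]
    exact LT.map_map H _ _
  have hG' : G'.map r = Fn p n := by
    simp only [G', Fn]
    rw [hz_map]
    congr 1
    ext i
    simp only [sp]
    split_ifs <;> simp
  have hk : ∀ a : GaloisField p n, a ^ p ^ n = a := by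
    intro a
    have hc : Nat.card (GaloisField p n) = p ^ n := GaloisField.card p n (by omega)
    have := Fintype.ofFinite (GaloisField p n)
    have h := FiniteField.pow_card a
    rwa [← Nat.card_eq_fintype_card, hc] at h
  have hker : ∀ a : W, r a = 0 → (p : W) ∣ a := by
    intro a ha
    have : a ∈ RingHom.ker (WittVector.constantCoeff : W →+* GaloisField p n) := ha
    rw [WittVector.ker_constantCoeff, Ideal.mem_span_singleton] at this
    exact this
  have hunit : ∀ a : W, r a ≠ 0 → IsUnit a := by
    intro a ha
    exact WittVector.isUnit_of_coeff_zero_ne_zero a ha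
  have hreg : ∀ d : ℕ, 2 ≤ d → ∀ a : W, ((p : W) - (p : W) ^ d) * a = 0 → a = 0 := by
    intro d hd a ha
    have h1 : IsUnit ((1 : W) - (p : W) ^ (d - 1)) := by
      apply hunit
      rw [map_sub, map_one, map_pow, map_natCast, CharP.cast_eq_zero, zero_pow (by omega), sub_zero]
      exact one_ne_zero
    have h2 : (p : W) - (p : W) ^ d = p * (1 - (p : W) ^ (d - 1)) := by
      have : (p : W) ^ d = p * (p : W) ^ (d - 1) := by
        rw [← pow_succ']; congr 1; omega
      rw [this]; ring
    rw [h2, mul_assoc] at ha
    rcases mul_eq_zero.mp ha with h | h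
    · exact absurd h (WittVector.p_nonzero p (GaloisField p n))
    · exact (h1.mul_right_eq_zero).mp h
  obtain ⟨φ, h0, h1, hφ⟩ := LT.exists_series (p := p) (n := n) r hker hk hunit
    (constantCoeff_mulSeries G p) (constantCoeff_mulSeries G' p)
    (coeff_one_mulSeries G p) (coeff_one_mulSeries G' p)
    (by rw [mulSeries_map, hG, hΓ]) (by rw [mulSeries_map, hG', mulSeries_Fn p n hn])
  have hhom := LT.isFGHom_of_comm (P := (p : W)) (m := p) rfl hreg G G' φ h0 h1 hφ
  refine ⟨PowerSeries.map r φ, ?_, ?_⟩
  · have := IsFGHom.map r hhom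
    rwa [hG, hG'] at this
  · rw [PowerSeries.coeff_map, h1, map_one]

end Crest.Agent.R227
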