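import Crest.Agent.R227.ExStab
import Crest.Agent.R227.TrIso

/-!
# R227 / D0Cont : composition of stabilizer maps; stabilizer maps of `X +_Γ ω X^{p^i}` are close to
the identity
-/

set_option autoImplicit false

noncomputable section

namespace Crest.Agent.R227

open Crest.LubinTate MvPowerSeries Topology

namespace D0Cont

section formal

variable {R : Type*} [CommRing R] {τ : Type*}

/-- power series with coefficients in an ideal: products -/
theorem coeff_mul_mem_mul (I J : Ideal R) (a b : MvPowerSeries τ R) (ha : ∀ d, coeff d a ∈ I)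
    (hb : ∀ d, coeff d b ∈ J) : ∀ d, coeff d (a * b) ∈ I * J := by
  classical
  intro d
  rw [coeff_mul]
  exact Ideal.sum_mem _ fun x _ => Ideal.mul_mem_mul (ha _) (hb _)

/-- `[p]` raises the order by one. -/
theorem mulSeries_mem (G : FormalGroup R) (p : ℕ) (I : Ideal R) (hp : (p : R) ∈ I) (s : ℕ)
    (hs : 1 ≤ s) (e : MvPowerSeries τ R) (he0 : constantCoeff e = 0) (he : ∀ d, coeff d e ∈ I ^ s) :
    ∀ d, coeff d (PowerSeries.subst e (mulSeries G p)) ∈ I ^ (s + 1) := by
  have hsu : PowerSeries.HasSubst e := PowerSeries.HasSubst.of_constantCoeff_zero he0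
  obtain ⟨q, hq⟩ : ∃ q : PowerSeries R,
      mulSeries G p = PowerSeries.C (p : R) * PowerSeries.X + PowerSeries.X ^ 2 * q := by
    have h1 : (PowerSeries.X : PowerSeries R) ^ 2 ∣
        mulSeries G p - PowerSeries.C (p : R) * PowerSeries.X := by
      rw [PowerSeries.X_pow_dvd_iff]
      intro m hm
      rw [map_sub, PowerSeries.coeff_C_mul]
      have : m = 0 ∨ m = 1 := by omega
      rcases this with rfl | rfl
      · rw [PowerSeries.coeff_zero_eq_constantCoeff_apply, constantCoeff_mulSeries]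
        simp
      · rw [coeff_one_mulSeries]
        simp
    obtain ⟨q, hq⟩ := h1
    exact ⟨q, by rw [← hq]; ring⟩
  have e1 : PowerSeries.subst e (mulSeries G p) = C (p : R) * e + e ^ 2 * PowerSeries.subst e q := by
    rw [hq, PowerSeries.subst_add hsu, PowerSeries.subst_mul hsu, PowerSeries.subst_mul hsu,
      PowerSeries.subst_pow hsu, PowerSeries.subst_X hsu, PowerSeries.subst_C]
  intro d
  rw [e1, map_add]
  refine Ideal.add_mem _ ?_ ?_
  · rw [coeff_C_mul, pow_succ, mul_comm (p : R)]
    exact Ideal.mul_mem_mul (he d) hp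
  · rw [pow_two]
    refine coeff_mul_mem _ _ _ (fun d => ?_) d
    have h2 := coeff_mul_mem_mul (I ^ s) (I ^ s) e e he he d
    rw [← pow_add] at h2
    exact Ideal.pow_le_pow_right (by omega) h2

theorem mulSeries_pow_mem (G : FormalGroup R) [G.IsComm] (p : ℕ) (I : Ideal R) (hp : (p : R) ∈ I)
    (j : ℕ) (e : MvPowerSeries τ R) (he0 : constantCoeff e = 0) (he : ∀ d, coeff d e ∈ I) :
    ∀ d, coeff d (PowerSeries.subst e (mulSeries G (p ^ j))) ∈ I ^ (j + 1) := by
  induction j with
  | zero =>
    have h1 : mulSeries G (p ^ 0) = PowerSeries.X := by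
      rw [pow_zero]
      change fadd G (mulSeries G 0) (PowerSeries.X : PowerSeries R) = _
      exact zero_fadd G _ mvConstantCoeff_X
    rw [h1, psubst_X he0, zero_add, pow_one]
    exact he
  | succ j ih =>
    have h1 : mulSeries G (p ^ (j + 1)) =
        PowerSeries.subst (mulSeries G (p ^ j)) (mulSeries G p) := by
      rw [pow_succ', mulSeries_mul]
    rw [h1, psubst_psubst (constantCoeff_mulSeries G _) he0]
    exact mulSeries_mem G p I hp (j + 1) (by omega) _
      (constantCoeff_psubst he0 (constantCoeff_mulSeries G _)) ih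

/-- if `b` is additive modulo `I` and `I^(j+1) = 0`, then `[p^j] ∘ b` is an endomorphism. -/
theorem isFGHom_of_mod (G : FormalGroup R) [G.IsComm] (p : ℕ) (I : Ideal R) (hp : (p : R) ∈ I)
    (j : ℕ) (hI : I ^ (j + 1) = ⊥) (b : PowerSeries R) (hb0 : PowerSeries.constantCoeff b = 0)
    (hb : ∀ d, coeff d (PowerSeries.subst (fadd G (X 0 : MvPowerSeries (Fin 2) R) (X 1)) b -
      fadd G (PowerSeries.subst (X 0 : MvPowerSeries (Fin 2) R) b)
        (PowerSeries.subst (X 1 : MvPowerSeries (Fin 2) R) b)) ∈ I) :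
    IsFGHom G G (PowerSeries.subst b (mulSeries G (p ^ j))) := by
  have hN := IsFGHom.mulSeries G (p ^ j)
  set N := mulSeries G (p ^ j) with hNdef
  have h0 := constantCoeff_X (R := R) (0 : Fin 2)
  have h1 := constantCoeff_X (R := R) (1 : Fin 2)
  have hF := constantCoeff_fadd G _ _ h0 h1
  have hb0' := constantCoeff_psubst h0 hb0
  have hb1' := constantCoeff_psubst h1 hb0
  set u := PowerSeries.subst (fadd G (X 0 : MvPowerSeries (Fin 2) R) (X 1)) b with hu
  set v := fadd G (PowerSeries.subst (X 0 : MvPowerSeries (Fin 2) R) b)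
        (PowerSeries.subst (X 1 : MvPowerSeries (Fin 2) R) b) with hv
  have hu0 : constantCoeff u = 0 := constantCoeff_psubst hF hb0
  have hv0 : constantCoeff v = 0 := constantCoeff_fadd G _ _ hb0' hb1'
  have hnv := constantCoeff_fneg G v hv0
  set e := fadd G u (fneg G v) with he
  have he0 : constantCoeff e = 0 := constantCoeff_fadd G _ _ hu0 hnv
  have heI : ∀ d, coeff d e ∈ I := (fsub_mem_iff G u v hu0 hv0 I).2 hb
  have hNe : PowerSeries.subst e N = 0 := by
    ext d
    have := mulSeries_pow_mem G p I hp j e he0 heI d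
    rw [hI] at this
    simpa using this
  have huv : fadd G e v = u := by
    rw [he, fadd_assoc G u _ v hu0 hnv hv0, fneg_fadd G v hv0, fadd_zero G u hu0]
  rw [isFGHom_iff]
  refine ⟨constantCoeff_psubst hb0 hN.1, ?_⟩
  rw [psubst_psubst hb0 hF, psubst_psubst hb0 h0, psubst_psubst hb0 h1,
    ← IsFGHom.subst_fadd hN _ _ hb0' hb1', ← hu, ← hv, ← huv,
    IsFGHom.subst_fadd hN _ _ he0 hv0, hNe, zero_fadd G _ (constantCoeff_psubst hv0 hN.1)]

/-- linear coefficient of a composition -/
theorem coeff_one_subst {φ ψ : PowerSeries R} (hφ : PowerSeries.constantCoeff φ = 0) :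
    PowerSeries.coeff 1 (PowerSeries.subst φ ψ : PowerSeries R) =
      PowerSeries.coeff 1 ψ * PowerSeries.coeff 1 φ := by
  have hsu : PowerSeries.HasSubst φ := PowerSeries.HasSubst.of_constantCoeff_zero' hφ
  obtain ⟨q, hq⟩ : ∃ q : PowerSeries R,
      ψ = PowerSeries.C (PowerSeries.constantCoeff ψ) +
        PowerSeries.C (PowerSeries.coeff 1 ψ) * PowerSeries.X + PowerSeries.X ^ 2 * q := by
    have h1 : (PowerSeries.X : PowerSeries R) ^ 2 ∣
        ψ - (PowerSeries.C (PowerSeries.constantCoeff ψ) +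
          PowerSeries.C (PowerSeries.coeff 1 ψ) * PowerSeries.X) := by
      rw [PowerSeries.X_pow_dvd_iff]
      intro m hm
      have : m = 0 ∨ m = 1 := by omega
      rcases this with rfl | rfl
      · simp
      · simp [PowerSeries.coeff_C]
    obtain ⟨q, hq⟩ := h1
    exact ⟨q, by rw [← hq]; ring⟩
  have e1 : (PowerSeries.subst φ ψ : PowerSeries R) =
      PowerSeries.C (PowerSeries.constantCoeff ψ) +
        PowerSeries.C (PowerSeries.coeff 1 ψ) * φ + φ ^ 2 * PowerSeries.subst φ q := by
    conv_lhs => rw [hq]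
    rw [PowerSeries.subst_add hsu, PowerSeries.subst_add hsu, PowerSeries.subst_mul hsu,
      PowerSeries.subst_mul hsu,
      PowerSeries.subst_pow hsu, PowerSeries.subst_X hsu, PowerSeries.subst_C, PowerSeries.subst_C]
    rfl
  obtain ⟨φ', hφ'⟩ := PowerSeries.X_dvd_iff.2 hφ
  have e2 : PowerSeries.coeff 1 (φ ^ 2 * PowerSeries.subst φ q : PowerSeries R) = 0 := by
    have : φ ^ 2 * PowerSeries.subst φ q =
      (PowerSeries.X : PowerSeries R) ^ 2 * (φ' ^ 2 * PowerSeries.subst φ q) := by
      rw [hφ']; ring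
    rw [this, PowerSeries.coeff_X_pow_mul']
    simp
  rw [e1, map_add, map_add, e2, PowerSeries.coeff_C_mul]
  simp

end formal

end D0Cont

variable (p : ℕ) [Fact p.Prime] (n : ℕ)

namespace D0Cont

theorem galois_pow (hn : 1 ≤ n) (a : GaloisField p n) : a ^ p ^ n = a := by
  have hc : Nat.card (GaloisField p n) = p ^ n := GaloisField.card p n (by omega)
  have := Fintype.ofFinite (GaloisField p n)
  have h := FiniteField.pow_card a
  rwa [← Nat.card_eq_fintype_card, hc] at h

theorem galois_pow_pow (hn : 1 ≤ n) (a : GaloisField p n) (j : ℕ) : a ^ p ^ (n * j) = a := by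
  induction j with
  | zero => simp
  | succ j ih => rw [Nat.mul_succ, pow_add, pow_mul, ih, galois_pow p n hn]

/-- `ω X^{p^i}` is an endomorphism of the Honda law -/
theorem isFGHom_mono (hn : 1 ≤ n) (ω : GaloisField p n) (i : ℕ) :
    IsFGHom (Fn p n) (Fn p n) (PowerSeries.C ω * PowerSeries.X ^ p ^ i) := by
  have h1 : IsFGHom (Fn p n) (Fn p n) (PowerSeries.X ^ p ^ i) := by
    have h := isFGHom_frob (p := p) (Fn p n) i
    have e : (Fn p n).map (iterateFrobenius (GaloisField p n) p i) = Fn p n := by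
      unfold Fn
      rw [hz_map]
      congr 1
      ext m
      simp only [sp]
      split_ifs <;> simp
    rwa [e] at h
  have h2 : IsFGHom (Fn p n) (Fn p n) (PowerSeries.C ω * PowerSeries.X) := by
    have h0 := constantCoeff_X (R := GaloisField p n) (0 : Fin 2)
    have h1 := constantCoeff_X (R := GaloisField p n) (1 : Fin 2)
    have hF := constantCoeff_fadd (Fn p n) _ _ h0 h1
    have key : ∀ a : MvPowerSeries (Fin 2) (GaloisField p n), constantCoeff a = 0 →
        PowerSeries.subst a (PowerSeries.C ω * PowerSeries.X : PowerSeries (GaloisField p n)) =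
          C ω * a := by
      intro a ha
      have hs : PowerSeries.HasSubst a := PowerSeries.HasSubst.of_constantCoeff_zero ha
      rw [PowerSeries.subst_mul hs, PowerSeries.subst_X hs, PowerSeries.subst_C]
    rw [isFGHom_iff]
    refine ⟨by simp, ?_⟩
    rw [key _ hF, key _ h0, key _ h1, fadd_X_X]
    exact (hz_sp_smul p n n hn ω (galois_pow p n hn ω)).symm
  have h3 := IsFGHom.comp h1 h2
  have e : (PowerSeries.subst (PowerSeries.X ^ p ^ i : PowerSeries (GaloisField p n))
      (PowerSeries.C ω * PowerSeries.X : PowerSeries (GaloisField p n)) :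
        PowerSeries (GaloisField p n)) = PowerSeries.C ω * PowerSeries.X ^ p ^ i := by
    have hs : PowerSeries.HasSubst (PowerSeries.X ^ p ^ i : PowerSeries (GaloisField p n)) :=
      PowerSeries.HasSubst.X_pow (pow_ne_zero _ (Fact.out : p.Prime).ne_zero)
    rw [PowerSeries.subst_mul hs, PowerSeries.subst_X hs, PowerSeries.subst_C]
    rfl
  rwa [e] at h3

theorem mulSeries_Fn_pow (hn : 1 ≤ n) (j : ℕ) :
    mulSeries (Fn p n) (p ^ j) = PowerSeries.X ^ p ^ (n * j) := by
  induction j with
  | zero =>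
    simp only [pow_zero, mul_zero, pow_one]
    exact zero_fadd (Fn p n) _ mvConstantCoeff_X
  | succ j ih =>
    have hs : PowerSeries.HasSubst (PowerSeries.X ^ p ^ (n * j) : PowerSeries (GaloisField p n)) :=
      PowerSeries.HasSubst.X_pow (pow_ne_zero _ (Fact.out : p.Prime).ne_zero)
    rw [pow_succ', mulSeries_mul, ih, mulSeries_Fn p n hn, PowerSeries.subst_pow hs,
      PowerSeries.subst_X hs, ← pow_mul, ← pow_add, Nat.mul_succ]

end D0Cont

theorem isStab_id (M : ℕ) : IsStab p n M (AlgHom.id _ _) := by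
  refine ⟨PowerSeries.X, ⟨IsFGHom.id _, by simp⟩, fun _ _ => rfl, ?_, PowerSeries.X, ?_,
    PowerSeries.map_X _⟩
  · ext x; rfl
  · have : (H1 p n).map (AlgHom.id (WittVector p (GaloisField p n)) (LTRing p n)).toRingHom
        = H1 p n := LT.map_id _ _
    rw [this]
    exact IsFGHom.id _

theorem isStab_comp (hn : 1 ≤ n) (M : ℕ) (hM : 1 ≤ M)
    (φ₁ φ₂ : LTRing p n →ₐ[WittVector p (GaloisField p n)] LTRing p n)
    (h₁ : IsStab p n M φ₁) (h₂ : IsStab p n M φ₂) : IsStab p n M (φ₁.comp φ₂) := by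
  obtain ⟨g₁, ⟨hg₁, hu₁⟩, hM₁, hr₁, θ₁, hθ₁, hθr₁⟩ := h₁
  obtain ⟨g₂, ⟨hg₂, hu₂⟩, hM₂, hr₂, θ₂, hθ₂, hθr₂⟩ := h₂
  have hs₂ : PowerSeries.HasSubst g₂ := PowerSeries.HasSubst.of_constantCoeff_zero' hg₂.1
  refine ⟨PowerSeries.subst g₂ g₁, ⟨IsFGHom.comp hg₂ hg₁, ?_⟩, ?_, ?_, 
    PowerSeries.subst (PowerSeries.map φ₁.toRingHom θ₂) θ₁, ?_, ?_⟩
  · rw [D0Cont.coeff_one_subst hg₂.1]
    exact hu₁.mul hu₂
  · intro i hi
    -- `g₁ = X + X^M q`
    obtain ⟨q, hq⟩ : (PowerSeries.X : PowerSeries (GaloisField p n)) ^ M ∣ g₁ - PowerSeries.X := by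
      rw [PowerSeries.X_pow_dvd_iff]
      intro m hm
      rw [map_sub, hM₁ m hm, sub_self]
    have hq' : g₁ = PowerSeries.X + PowerSeries.X ^ M * q := by rw [← hq]; ring
    obtain ⟨g', hg'⟩ := PowerSeries.X_dvd_iff.2 hg₂.1
    have e : (PowerSeries.subst g₂ g₁ : PowerSeries (GaloisField p n)) =
        g₂ + PowerSeries.X ^ M * (g' ^ M * PowerSeries.subst g₂ q) := by
      conv_lhs => rw [hq']
      rw [PowerSeries.subst_add hs₂, PowerSeries.subst_mul hs₂, PowerSeries.subst_pow hs₂,
        PowerSeries.subst_X hs₂]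
      conv_lhs => rw [show g₂ ^ M = PowerSeries.X ^ M * g' ^ M by rw [hg', mul_pow]]
      rw [mul_assoc]
    rw [e, map_add, hM₂ i hi, PowerSeries.coeff_X_pow_mul', if_neg (by omega), add_zero]
  · ext x
    have e1 := RingHom.congr_fun hr₁ (φ₂ x)
    have e2 := RingHom.congr_fun hr₂ x
    simp only [RingHom.comp_apply] at e1 e2 ⊢
    exact e1.trans e2
  · have h := IsFGHom.map φ₁.toRingHom hθ₂
    have e : ((H1 p n).map φ₂.toRingHom).map φ₁.toRingHom =
        (H1 p n).map (φ₁.comp φ₂).toRingHom := LT.map_map _ _ _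
    rw [e] at h
    exact IsFGHom.comp h hθ₁
  · have hs : PowerSeries.HasSubst (PowerSeries.map φ₁.toRingHom θ₂) := by
      refine PowerSeries.HasSubst.of_constantCoeff_zero' ?_
      rw [← PowerSeries.coeff_zero_eq_constantCoeff_apply, PowerSeries.coeff_map,
        PowerSeries.coeff_zero_eq_constantCoeff_apply, hθ₂.1, map_zero]
    have e3 := PowerSeries.map_subst hs (h := LTRing.residue p n) θ₁
    have e4 : PowerSeries.map (LTRing.residue p n) (PowerSeries.map φ₁.toRingHom θ₂) = g₂ := by
      rw [← hθr₂]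
      ext m
      simp only [PowerSeries.coeff_map]
      exact RingHom.congr_fun hr₁ _
    calc PowerSeries.map (LTRing.residue p n)
          (PowerSeries.subst (PowerSeries.map φ₁.toRingHom θ₂) θ₁)
        = PowerSeries.subst (PowerSeries.map (LTRing.residue p n)
            (PowerSeries.map φ₁.toRingHom θ₂)) (PowerSeries.map (LTRing.residue p n) θ₁) := e3
      _ = PowerSeries.subst g₂ g₁ := by rw [e4, hθr₁]

/-- the automorphism `X +_Γ ω X^{p^i}` of the Honda law -/
def gAut (ω : GaloisField p n) (i : ℕ) : PowerSeries (GaloisField p n) :=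
  fadd (Fn p n) PowerSeries.X (PowerSeries.C ω * PowerSeries.X ^ p ^ i : PowerSeries _)

theorem D0Cont.cc_mono (ω : GaloisField p n) (i : ℕ) :
    PowerSeries.constantCoeff (PowerSeries.C ω * PowerSeries.X ^ p ^ i : PowerSeries _) = 0 := by
  simp [(Fact.out : p.Prime).ne_zero]

theorem gAut_isFGAut (hn : 1 ≤ n) (ω : GaloisField p n) (i : ℕ) (hi : 1 ≤ i) :
    IsFGAut (Fn p n) (gAut p n ω i) := by
  refine ⟨IsFGHom.fadd (IsFGHom.id _) (D0Cont.isFGHom_mono p n hn ω i), ?_⟩
  unfold gAut
  rw [coeff_one_fadd _ _ _ PowerSeries.constantCoeff_X (D0Cont.cc_mono p n ω i),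
    PowerSeries.coeff_one_X, PowerSeries.coeff_C_mul, PowerSeries.coeff_X_pow, if_neg, mul_zero,
    add_zero]
  · exact isUnit_one
  · exact (Nat.one_lt_pow (by omega) (Fact.out : p.Prime).one_lt).ne

theorem gAut_coeff (hn : 1 ≤ n) (ω : GaloisField p n) (i M : ℕ) (hi : M ≤ p ^ i) (d : ℕ)
    (hd : d < M) : PowerSeries.coeff d (gAut p n ω i) = PowerSeries.coeff d PowerSeries.X := by
  obtain ⟨w, hw, he⟩ := fadd_sub_fadd (Fn p n) (PowerSeries.X : PowerSeries (GaloisField p n))
    (PowerSeries.C ω * PowerSeries.X ^ p ^ i : PowerSeries _) 0 mvConstantCoeff_X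
    (D0Cont.cc_mono p n ω i) (map_zero _)
  rw [fadd_zero _ _ mvConstantCoeff_X, sub_zero, sub_eq_iff_eq_add'] at he
  have he' : gAut p n ω i = PowerSeries.X + PowerSeries.X ^ p ^ i * (PowerSeries.C ω * w) := by
    unfold gAut
    refine he.trans ?_
    ring
  rw [he', map_add, PowerSeries.coeff_X_pow_mul', if_neg (by omega), add_zero]

namespace D0Cont

/-- a ring with `I^(j+1) = 0` is `I`-adically complete -/
theorem isAdicComplete_of_pow_eq_bot {B : Type*} [CommRing B] (I : Ideal B) (j : ℕ)
    (h : I ^ (j + 1) = ⊥) : IsAdicComplete I B where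
  haus' := by
    intro x hx
    have := hx (j + 1)
    rw [h, Ideal.smul_top_eq_map] at this
    simpa [SModEq.zero] using this
  prec' := by
    intro f hf
    refine ⟨f (j + 1), fun m => ?_⟩
    rcases le_total m (j + 1) with hm | hm
    · exact hf hm
    · have h2 := hf hm
      rw [h] at h2
      have h3 : f (j + 1) = f m := by
        rw [Ideal.smul_top_eq_map] at h2
        rw [SModEq.sub_mem] at h2
        simpa [sub_eq_zero] using h2
      rw [h3]

end D0Cont

/-- closeness to the identity -/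
theorem gAut_close (hn : 1 ≤ n) (hU : IsUniversalDeformation p n (Fn p n) (H1 p n))
    (ω : GaloisField p n) (i j : ℕ) (hi : 1 ≤ i + n * j)
    (φ : LTRing p n →ₐ[WittVector p (GaloisField p n)] LTRing p n)
    (hφ : IsStabilizerMap p n (H1 p n) (gAut p n ω (i + n * j)) φ) (a : LTRing p n) :
    φ a - a ∈ RingHom.ker (LTRing.residue p n) ^ (j + 1) := by
  obtain ⟨hU1, hU2⟩ := hU
  obtain ⟨hr, θ, hθ, hθr⟩ := hφ
  set 𝔪 := RingHom.ker (LTRing.residue p n) with h𝔪
  let B := LTRing p n ⧸ 𝔪 ^ (j + 1)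
  let π : LTRing p n →ₐ[WittVector p (GaloisField p n)] B := Ideal.Quotient.mkₐ _ _
  have hle : 𝔪 ^ (j + 1) ≤ 𝔪 := Ideal.pow_le_self (by omega)
  let r : B →+* GaloisField p n := Ideal.Quotient.lift (𝔪 ^ (j + 1)) (LTRing.residue p n)
    (fun x hx => hle hx)
  have hrπ : r.comp π.toRingHom = LTRing.residue p n := by
    ext x
    rfl
  have hrs : Function.Surjective r := by
    intro y
    obtain ⟨x, hx⟩ := residue_surjective p n y
    exact ⟨π x, hx⟩
  have hne : 𝔪 ^ (j + 1) ≠ ⊤ := by
    intro h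
    have h1 : (1 : LTRing p n) ∈ 𝔪 ^ (j + 1) := by rw [h]; trivial
    have h2 := hle h1
    rw [h𝔪, RingHom.mem_ker, map_one] at h2
    exact one_ne_zero h2
  have hnt : Nontrivial B := Ideal.Quotient.nontrivial_iff.mpr hne
  have hloc : IsLocalRing B :=
    IsLocalRing.of_surjective' (Ideal.Quotient.mk (𝔪 ^ (j + 1))) Ideal.Quotient.mk_surjective
  have hnoe : IsNoetherianRing B := inferInstance
  have hker : RingHom.ker r = IsLocalRing.maximalIdeal B :=
    IsLocalRing.eq_maximalIdeal (RingHom.ker_isMaximal_of_surjective r hrs)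
  have hkerm : RingHom.ker r = 𝔪.map (Ideal.Quotient.mk (𝔪 ^ (j + 1))) := by
    apply le_antisymm
    · intro x hx
      obtain ⟨y, rfl⟩ := Ideal.Quotient.mk_surjective x
      refine Ideal.mem_map_of_mem _ ?_
      exact hx
    · rw [Ideal.map_le_iff_le_comap]
      intro x hx
      exact hx
  have hnil : RingHom.ker r ^ (j + 1) = ⊥ := by
    rw [hkerm, ← Ideal.map_pow]
    exact Ideal.map_quotient_self _
  have hcompl : IsAdicComplete (IsLocalRing.maximalIdeal B) B := by
    rw [← hker]
    exact D0Cont.isAdicComplete_of_pow_eq_bot _ j hnil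
  have hralg : r.comp (algebraMap (WittVector p (GaloisField p n)) B) =
      WittVector.constantCoeff := by
    have h1 : algebraMap (WittVector p (GaloisField p n)) B =
        π.toRingHom.comp (algebraMap (WittVector p (GaloisField p n)) (LTRing p n)) := by
      ext x
      exact (AlgHom.commutes π x).symm
    rw [h1, ← RingHom.comp_assoc, hrπ, residue_comp_algebraMap]
  let G : FormalGroup B := (H1 p n).map π.toRingHom
  have hGc : G.IsComm := LT.map_isComm _ _
  have hGr : G.map r = Fn p n := by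
    simp only [G]
    rw [LT.map_map, hrπ, hU1]
  -- the endomorphism `Θ`
  obtain ⟨ωh, hωh⟩ := hrs ω
  let b : PowerSeries B := PowerSeries.C ωh * PowerSeries.X ^ p ^ i
  have hb0 : PowerSeries.constantCoeff b = 0 := by
    simp [b, (Fact.out : p.Prime).ne_zero]
  have hbr : PowerSeries.map r b = PowerSeries.C ω * PowerSeries.X ^ p ^ i := by
    simp [b, hωh]
  have hpker : (p : B) ∈ RingHom.ker r := by
    rw [RingHom.mem_ker, map_natCast, CharP.cast_eq_zero]
  have hX0 := constantCoeff_X (R := B) (0 : Fin 2)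
  have hX1 := constantCoeff_X (R := B) (1 : Fin 2)
  have hF := constantCoeff_fadd G _ _ hX0 hX1
  have hmod : ∀ d, coeff d (PowerSeries.subst (fadd G (X 0 : MvPowerSeries (Fin 2) B) (X 1)) b -
      fadd G (PowerSeries.subst (X 0 : MvPowerSeries (Fin 2) B) b)
        (PowerSeries.subst (X 1 : MvPowerSeries (Fin 2) B) b)) ∈ RingHom.ker r := by
    have hmap : MvPowerSeries.map r
        (PowerSeries.subst (fadd G (X 0 : MvPowerSeries (Fin 2) B) (X 1)) b -
          fadd G (PowerSeries.subst (X 0 : MvPowerSeries (Fin 2) B) b)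
          (PowerSeries.subst (X 1 : MvPowerSeries (Fin 2) B) b)) = 0 := by
      rw [map_sub, sub_eq_zero,
        PowerSeries.map_subst (PowerSeries.HasSubst.of_constantCoeff_zero hF),
        map_fadd r G _ _ (constantCoeff_psubst hX0 hb0) (constantCoeff_psubst hX1 hb0),
        PowerSeries.map_subst (PowerSeries.HasSubst.X 0),
        PowerSeries.map_subst (PowerSeries.HasSubst.X 1), map_fadd r G _ _ hX0 hX1, hGr]
      have h := (isFGHom_iff.1 (D0Cont.isFGHom_mono p n hn ω i)).2
      rw [← hbr] at h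
      simpa using h
    intro d
    rw [RingHom.mem_ker, ← coeff_map, hmap, map_zero]
  have hc := D0Cont.isFGHom_of_mod G p (RingHom.ker r) hpker j hnil b hb0 hmod
  let c : PowerSeries B := PowerSeries.subst b (mulSeries G (p ^ j))
  have hcr : PowerSeries.map r c = PowerSeries.C ω * PowerSeries.X ^ p ^ (i + n * j) := by
    have hsb : PowerSeries.HasSubst b := PowerSeries.HasSubst.of_constantCoeff_zero' hb0
    have e3 := PowerSeries.map_subst hsb (h := r) (mulSeries G (p ^ j))
    have hs' : PowerSeries.HasSubst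
        (PowerSeries.C ω * PowerSeries.X ^ p ^ i : PowerSeries (GaloisField p n)) :=
      PowerSeries.HasSubst.of_constantCoeff_zero' (D0Cont.cc_mono p n ω i)
    calc PowerSeries.map r c = PowerSeries.subst (PowerSeries.map r b)
          (PowerSeries.map r (mulSeries G (p ^ j))) := e3
      _ = PowerSeries.subst (PowerSeries.C ω * PowerSeries.X ^ p ^ i :
            PowerSeries (GaloisField p n)) (mulSeries (Fn p n) (p ^ j)) := by
          rw [hbr, mulSeries_map, hGr]
      _ = _ := by
          rw [D0Cont.mulSeries_Fn_pow p n hn, PowerSeries.subst_pow hs', PowerSeries.subst_X hs',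
            mul_pow, ← map_pow, D0Cont.galois_pow_pow p n hn, ← pow_mul, ← pow_add]
  let Θ : PowerSeries B := fadd G PowerSeries.X c
  have hΘ : IsFGHom G G Θ := IsFGHom.fadd (IsFGHom.id _) hc
  have hΘr : PowerSeries.map r Θ = gAut p n ω (i + n * j) := by
    have e := map_fadd r G (PowerSeries.X : PowerSeries B) c mvConstantCoeff_X hc.1
    rw [hGr] at e
    refine e.trans ?_
    unfold gAut
    rw [show (MvPowerSeries.map r (PowerSeries.X : PowerSeries B) : MvPowerSeries Unit _) =
      (PowerSeries.X : PowerSeries _) from PowerSeries.map_X r,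
      show (MvPowerSeries.map r c : MvPowerSeries Unit _) =
      (PowerSeries.C ω * PowerSeries.X ^ p ^ (i + n * j) : PowerSeries _) from hcr]
  have hΘu : IsUnit (PowerSeries.coeff 1 Θ) := by
    have h1 : IsUnit (r (PowerSeries.coeff 1 Θ)) := by
      rw [← PowerSeries.coeff_map, hΘr]
      exact (gAut_isFGAut p n hn ω _ hi).2
    by_contra hcon
    have h2 : PowerSeries.coeff 1 Θ ∈ IsLocalRing.maximalIdeal B :=
      (IsLocalRing.mem_maximalIdeal _).2 hcon
    rw [← hker, RingHom.mem_ker] at h2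
    rw [h2] at h1
    exact not_isUnit_zero h1
  obtain ⟨Ψ, hΨ, hΨ1, hΨ2, hΨu⟩ := IsFGHom.exists_inv hΘ hΘu
  -- two candidates for the classifying map of `G`
  obtain ⟨φ₀, -, huniq⟩ := hU2 B hcompl r hrs hker hralg G hGr
  have hπ := huniq π ⟨hrπ, PowerSeries.X, IsFGHom.id G, PowerSeries.map_X _⟩
  have hφ' := huniq (π.comp φ) ⟨?_, PowerSeries.subst (PowerSeries.map π.toRingHom θ) Ψ, ?_, ?_⟩
  · have h1 : π (φ a) = π a := by
      have := congrArg (fun f : LTRing p n →ₐ[WittVector p (GaloisField p n)] B => f a)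
        (hφ'.trans hπ.symm)
      exact this
    exact (Ideal.Quotient.mk_eq_mk_iff_sub_mem (φ a) a).1 h1
  · ext x
    have e1 := RingHom.congr_fun hrπ (φ x)
    have e2 := RingHom.congr_fun hr x
    simp only [RingHom.comp_apply] at e1 e2 ⊢
    exact e1.trans e2
  · have h := IsFGHom.map π.toRingHom hθ
    have e : ((H1 p n).map φ.toRingHom).map π.toRingHom =
        (H1 p n).map (π.comp φ).toRingHom := LT.map_map _ _ _
    rw [e] at h
    exact IsFGHom.comp h hΨ
  · have hcθ : PowerSeries.constantCoeff (PowerSeries.map π.toRingHom θ) = 0 := by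
      rw [← PowerSeries.coeff_zero_eq_constantCoeff_apply, PowerSeries.coeff_map,
        PowerSeries.coeff_zero_eq_constantCoeff_apply, hθ.1, map_zero]
    have hs : PowerSeries.HasSubst (PowerSeries.map π.toRingHom θ) :=
      PowerSeries.HasSubst.of_constantCoeff_zero' hcθ
    have e3 := PowerSeries.map_subst hs (h := r) Ψ
    have e4 : PowerSeries.map r (PowerSeries.map π.toRingHom θ) = gAut p n ω (i + n * j) := by
      rw [← hθr]
      ext m
      simp only [PowerSeries.coeff_map]
      exact RingHom.congr_fun hrπ _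
    have hsΘ : PowerSeries.HasSubst Θ := PowerSeries.HasSubst.of_constantCoeff_zero' hΘ.1
    have e5 := PowerSeries.map_subst hsΘ (h := r) Ψ
    calc PowerSeries.map r (PowerSeries.subst (PowerSeries.map π.toRingHom θ) Ψ)
        = PowerSeries.subst (PowerSeries.map r (PowerSeries.map π.toRingHom θ))
            (PowerSeries.map r Ψ) := e3
      _ = PowerSeries.subst (PowerSeries.map r Θ) (PowerSeries.map r Ψ) := by rw [e4, hΘr]
      _ = PowerSeries.map r (PowerSeries.subst Θ Ψ) := e5.symm
      _ = PowerSeries.X := by rw [hΨ1, PowerSeries.map_X]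

end Crest.Agent.R227
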