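import Crest.Agent.R227.CoOrb
import Crest.Agent.R227.CoDri
import Crest.Agent.R227.D0Cont

/-! # R227 / CoIneq : the key orbit inequality (task COINEQ), part (B) of note 4224 -/

set_option autoImplicit false
set_option linter.unusedSectionVars false

noncomputable section

namespace Crest.Agent.R227

open Crest.LubinTate MvPowerSeries Topology

variable {p : ℕ} [Fact p.Prime] {n h : ℕ}
variable {K : Type} [NontriviallyNormedField K] [IsUltrametricDist K] [CompleteSpace K]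
  [IsAlgClosed K] [CharP K p]

variable {ι : GaloisField p n →+* Ob K} {M : ℕ}

namespace CoIneqAux

/-- `X +_{Fn} α^{p^{ni}}` and its inverse -/
theorem exists_inv_add (hn : 1 ≤ n) (i : ℕ) (hi : 1 ≤ i) (hMi : M ≤ p ^ (n * i))
    {α : PowerSeries (GaloisField p n)} (hα : IsFGHom (Fn p n) (Fn p n) α) :
    ∃ g : PowerSeries (GaloisField p n), IsFGAut (Fn p n) g ∧
      (∀ i : ℕ, i < M → PowerSeries.coeff i g = PowerSeries.coeff i PowerSeries.X) ∧
      PowerSeries.subst g (fadd (Fn p n) PowerSeries.X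
        (PowerSeries.subst α (mulSeries (Fn p n) (p ^ i)))) = PowerSeries.X := by
  have hp := (Fact.out : p.Prime)
  set β : PowerSeries (GaloisField p n) := PowerSeries.subst α (mulSeries (Fn p n) (p ^ i)) with hβ
  have hβhom : IsFGHom (Fn p n) (Fn p n) β := IsFGHom.comp hα (IsFGHom.mulSeries _ _)
  have hα0 : PowerSeries.constantCoeff α = 0 := hα.1
  have hαs := PowerSeries.HasSubst.of_constantCoeff_zero' hα0
  have hβ' : β = α ^ p ^ (n * i) := by
    rw [hβ, D0Cont.mulSeries_Fn_pow p n hn, PowerSeries.subst_pow hαs, PowerSeries.subst_X hαs]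
  have hnm : 1 ≤ n * i := Nat.mul_le_mul hn hi
  have hpow : 1 < p ^ (n * i) := Nat.one_lt_pow (by omega) hp.one_lt
  obtain ⟨α', hα'⟩ := PowerSeries.X_dvd_iff.mpr hα0
  set g' : PowerSeries (GaloisField p n) := fadd (Fn p n) PowerSeries.X β with hg'
  have hg'hom : IsFGHom (Fn p n) (Fn p n) g' := IsFGHom.fadd (IsFGHom.id _) hβhom
  obtain ⟨w, hw, he⟩ := fadd_sub_fadd (Fn p n) (PowerSeries.X : PowerSeries (GaloisField p n))
    β 0 mvConstantCoeff_X hβhom.1 (map_zero _)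
  rw [fadd_zero _ _ mvConstantCoeff_X, sub_zero, sub_eq_iff_eq_add'] at he
  have he' : g' = PowerSeries.X + PowerSeries.X ^ p ^ (n * i) * (α' ^ p ^ (n * i) * w) := by
    refine he.trans ?_
    rw [hβ', hα']
    ring
  have hg'1 : PowerSeries.coeff 1 g' = 1 := by
    rw [he', map_add, PowerSeries.coeff_X_pow_mul', if_neg (by omega), add_zero,
      PowerSeries.coeff_one_X]
  have hg'u : IsUnit (PowerSeries.coeff 1 g') := by rw [hg'1]; exact isUnit_one
  obtain ⟨g, hghom, hg1, hg2, hgu⟩ := IsFGHom.exists_inv hg'hom hg'u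
  refine ⟨g, ⟨hghom, hgu⟩, ?_, hg2⟩
  intro k hk
  have hgs := PowerSeries.HasSubst.of_constantCoeff_zero' hghom.1
  obtain ⟨g'', hg''⟩ := PowerSeries.X_dvd_iff.mpr hghom.1
  have e : PowerSeries.X = g + PowerSeries.X ^ p ^ (n * i) *
      (g'' ^ p ^ (n * i) * PowerSeries.subst g (α' ^ p ^ (n * i) * w)) := by
    calc PowerSeries.X = PowerSeries.subst g g' := hg2.symm
      _ = g + g ^ p ^ (n * i) * PowerSeries.subst g (α' ^ p ^ (n * i) * w) := by
        conv_lhs => rw [he']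
        rw [PowerSeries.subst_add hgs, PowerSeries.subst_mul hgs, PowerSeries.subst_pow hgs,
          PowerSeries.subst_X hgs]
      _ = _ := by
        rw [show g ^ p ^ (n * i) = PowerSeries.X ^ p ^ (n * i) * g'' ^ p ^ (n * i) by
          rw [hg'', mul_pow]]
        ring
  have e2 := congrArg (PowerSeries.coeff k) e
  rw [map_add, PowerSeries.coeff_X_pow_mul', if_neg (by omega), add_zero] at e2
  exact e2.symm

theorem norm_sub_pow (a b : Ob K) (k : ℕ) : ‖a ^ p ^ k - b ^ p ^ k‖ = ‖a - b‖ ^ p ^ k := by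
  rw [← sub_pow_char_pow, ← fz_natCast, norm_fz_natCast]

end CoIneqAux

/-- For `α ∈ 𝒟` and `i ≥ 1`, `M ≤ q^i`, there is an automorphism `g ≡ X mod X^M` whose inverse is
`1 - p^i α`. -/
theorem exists_one_sub (hn : 1 ≤ n) (i : ℕ) (hi : 1 ≤ i) (hMi : M ≤ p ^ (n * i))
    {A : FPt (HO p n n (Ob K)) →+ FPt (HO p n n (Ob K))} (hA : IsAct ι A) :
    ∃ g : PowerSeries (GaloisField p n), IsFGAut (Fn p n) g ∧
      (∀ i : ℕ, i < M → PowerSeries.coeff i g = PowerSeries.coeff i PowerSeries.X) ∧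
      ∀ z w : FPt (HO p n n (Ob K)), z.val = ev₁ w.val (g.map ι) → w = z - (p ^ i) • A z := by
  obtain ⟨β, hβ, hβA⟩ := hA.neg
  obtain ⟨g, hg, hgM, hgs⟩ := CoIneqAux.exists_inv_add (M := M) hn i hi hMi hβ
  refine ⟨g, hg, hgM, fun z w hzw => ?_⟩
  set s : PowerSeries (GaloisField p n) := fadd (Fn p n) PowerSeries.X
        (PowerSeries.subst β (mulSeries (Fn p n) (p ^ i))) with hs
  have hFn : (Fn p n).map ι = HO p n n (Ob K) := Fn_map_ι
  have hβ0 : PowerSeries.constantCoeff β = 0 := hβ.1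
  have hβs := PowerSeries.HasSubst.of_constantCoeff_zero' hβ0
  have hβm0 : PowerSeries.constantCoeff (PowerSeries.map ι β) = 0 := by
    rw [← PowerSeries.coeff_zero_eq_constantCoeff_apply, PowerSeries.coeff_map,
      PowerSeries.coeff_zero_eq_constantCoeff_apply, hβ0, map_zero]
  have hg0 : PowerSeries.constantCoeff g = 0 := hg.1.1
  have hgm0 : PowerSeries.constantCoeff (PowerSeries.map ι g) = 0 := by
    rw [← PowerSeries.coeff_zero_eq_constantCoeff_apply, PowerSeries.coeff_map,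
      PowerSeries.coeff_zero_eq_constantCoeff_apply, hg0, map_zero]
  have hgss := PowerSeries.HasSubst.of_constantCoeff_zero' hg0
  -- `s.map ι`
  have e1 : PowerSeries.map ι s = fadd (HO p n n (Ob K)) PowerSeries.X
      (PowerSeries.subst (PowerSeries.map ι β) (mulSeries (HO p n n (Ob K)) (p ^ i))) := by
    have h1 := map_fadd ι (Fn p n) (PowerSeries.X : PowerSeries (GaloisField p n))
      (PowerSeries.subst β (mulSeries (Fn p n) (p ^ i))) mvConstantCoeff_X
      (constantCoeff_psubst hβ0 (constantCoeff_mulSeries _ _))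
    rw [hFn] at h1
    refine h1.trans ?_
    have h2 : (MvPowerSeries.map ι (PowerSeries.X : PowerSeries (GaloisField p n)) :
      MvPowerSeries Unit _) = (PowerSeries.X : PowerSeries _) := PowerSeries.map_X ι
    have h3 : (MvPowerSeries.map ι (PowerSeries.subst β (mulSeries (Fn p n) (p ^ i)) :
        PowerSeries (GaloisField p n)) : MvPowerSeries Unit _) =
        PowerSeries.subst (PowerSeries.map ι β) (mulSeries (HO p n n (Ob K)) (p ^ i)) := by
      have h4 := PowerSeries.map_subst hβs (h := ι) (mulSeries (Fn p n) (p ^ i))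
      refine h4.trans ?_
      rw [mulSeries_map, hFn]
      rfl
    rw [h2, h3]
  -- evaluate `s ∘ g = X` at `w`
  have e2 : ev₁ z.val (PowerSeries.map ι s) = w.val := by
    rw [hzw, ← ev₁_subst w.tn _ hgm0]
    have h5 := PowerSeries.map_subst hgss (h := ι) s
    have h6 : PowerSeries.subst (PowerSeries.map ι g) (PowerSeries.map ι s) =
        (PowerSeries.X : PowerSeries (Ob K)) := by
      refine h5.symm.trans ?_
      rw [hgs]
      exact PowerSeries.map_X ι
    rw [h6]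
    exact ev_X (fun _ => w.tn) ()
  have hzt : ∀ _ : Unit, IsTopologicallyNilpotent z.val := fun _ => z.tn
  have e3 : ev₁ z.val (PowerSeries.map ι s) = (z + (p ^ i) • (-A) z).val := by
    rw [e1]
    have h7 := FPtAux.ev_fadd (HO p n n (Ob K)) hzt (PowerSeries.X : PowerSeries (Ob K))
      (PowerSeries.subst (PowerSeries.map ι β) (mulSeries (HO p n n (Ob K)) (p ^ i)))
      mvConstantCoeff_X (constantCoeff_psubst hβm0 (constantCoeff_mulSeries _ _))
    refine h7.trans ?_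
    have h8 : ev (fun _ : Unit => z.val) (PowerSeries.X : PowerSeries (Ob K)) = z.val :=
      ev_X hzt ()
    have h9 : ev (fun _ : Unit => z.val) (PowerSeries.subst (PowerSeries.map ι β)
        (mulSeries (HO p n n (Ob K)) (p ^ i)) : PowerSeries (Ob K)) =
        ((p ^ i) • (-A) z).val := by
      rw [FPt.val_nsmul, hβA]
      exact ev₁_subst z.tn _ hβm0 _
    rw [h8, h9]
    rfl
  apply FPt.ext
  rw [← e2, e3]
  congr 1
  rw [AddMonoidHom.neg_apply, sub_eq_add_neg, neg_nsmul]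

namespace CoIneqAux

theorem nfr_neg_smul (hn : 1 ≤ n) (i : ℕ) (z : FPt (HO p n n (Ob K))) :
    nfr (-((n * i : ℕ) : ℤ)) ((p ^ i) • z) = z := by
  rw [HO_pow_smul hn le_rfl, ← nfr_add, neg_add_cancel, nfr_zero]

theorem basis_eq {x y : Mk p n h K ι} {g : PowerSeries (GaloisField p n)} (hn : 1 ≤ n)
    (hxy : OrbBy M g x y) (i : ℕ)
    {A : FPt (HO p n n (Ob K)) →+ FPt (HO p n n (Ob K))}
    (hg : ∀ z w : FPt (HO p n n (Ob K)), z.val = ev₁ w.val (g.map ι) → w = z - (p ^ i) • A z)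
    (l : Fin (n - h)) : nfr (-((n * i : ℕ) : ℤ)) (y.t l) =
      nfr (-((n * i : ℕ) : ℤ)) (x.t l) - A (x.t l) := by
  rw [hg _ _ (hxy.basis l), map_sub, nfr_neg_smul hn]

theorem norm_kap_lt (P : HPoint p n h K) (ρ : FPt (HO p n n (Ob K)) →+ FPt P.F)
    (t : Fin (n - h) → FPt (HO p n n (Ob K))) (i : ℕ) (l : Fin (n - h)) :
    ‖kap P ρ t i l‖ < 1 := by
  unfold kap
  rw [← fz_natCast, norm_fz_natCast]
  exact pow_lt_one₀ (norm_nonneg _) (FPt.norm_lt _ _) (pow_ne_zero _ (Fact.out : p.Prime).ne_zero)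

end CoIneqAux

/-- distance of the orbit point for `g = (1 - p^i α)⁻¹` -/
theorem pdist_orb_le (h1 : 1 ≤ h) (hh : h < n) (x y : Mk p n h K ι)
    (g : PowerSeries (GaloisField p n)) (hxy : OrbBy M g x y) (i : ℕ) (hi : 1 ≤ i)
    {A : FPt (HO p n n (Ob K)) →+ FPt (HO p n n (Ob K))} (hA : IsAct ι A)
    (hg : ∀ z w : FPt (HO p n n (Ob K)), z.val = ev₁ w.val (g.map ι) → w = z - (p ^ i) • A z)
    (δ : ℝ) (hδ : ∀ l, ‖(x.ρ (A (x.t l))).val‖ ≤ δ) :
    x.P.pdist y.P ≤ δ ^ p ^ (h * i) := by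
  have hp := (Fact.out : p.Prime)
  have hn : 1 ≤ n := by omega
  have hδ0 : 0 ≤ δ := (norm_nonneg _).trans (hδ ⟨0, by omega⟩)
  set d := x.P.pdist y.P with hd
  have hd0 : 0 ≤ d := x.P.pdist_nonneg y.P
  have hd1 : d < 1 := x.P.pdist_lt_one y.P
  have hQ : 1 < p ^ (h * i) := Nat.one_lt_pow (by have := Nat.mul_le_mul h1 hi; omega) hp.one_lt
  have hmax0 : 0 ≤ max d δ := le_max_of_le_left hd0
  -- the level points
  have hkap : ∀ l, ‖kap x.P x.ρ x.t i l - kap y.P y.ρ y.t i l‖ ≤ max d δ ^ p ^ (h * i) := by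
    intro l
    unfold kap
    rw [CoIneqAux.norm_sub_pow, CoIneqAux.basis_eq hn hxy i hg l]
    refine pow_le_pow_left₀ (norm_nonneg _) ?_ _
    set a := nfr (-((n * i : ℕ) : ℤ)) (x.t l) with ha
    set b := A (x.t l) with hb
    have e1 : (x.ρ a).val - (y.ρ (a - b)).val =
        ((x.ρ (a - b)).val - (y.ρ (a - b)).val) + ((x.ρ a).val - (x.ρ (a - b)).val) := by ring
    rw [e1]
    refine (IsUltrametricDist.norm_add_le_max _ _).trans (max_le_max ?_ ?_)
    · exact x.hρ.dist_le h1 hh y.hρ _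
    · rw [← FPt.norm_sub, ← map_sub, sub_sub_cancel]
      exact hδ l
  have hpd : d ≤ max d δ ^ p ^ (h * i) := by
    refine x.P.pdist_le y.P _ (pow_nonneg hmax0 _) fun j hj1 hj2 => ?_
    obtain ⟨F, hF⟩ := drinfeld (p := p) h1 hh i hi (upt p n j)
    rw [hF K ι x, hF K ι y]
    exact norm_ev_sub_le (fun l => CoIneqAux.norm_kap_lt _ _ _ _ _)
      (fun l => CoIneqAux.norm_kap_lt _ _ _ _ _) _ (pow_nonneg hmax0 _) hkap _
  rcases le_total d δ with hle | hle
  · rwa [max_eq_right hle] at hpd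
  · rw [max_eq_left hle] at hpd
    have hd00 : d = 0 := by
      by_contra hne
      have hpos : 0 < d := lt_of_le_of_ne hd0 (Ne.symm hne)
      exact absurd hpd (not_le.2 (pow_lt_self_of_lt_one₀ hpos hd1 hQ))
    rw [hd00]
    exact pow_nonneg hδ0 _

/-- **key inequality** -/
theorem key_ineq (hn : 1 ≤ n) (hU : IsUniversalDeformation p n (Fn p n) (H1 p n))
    (h1 : 1 ≤ h) (hh : h < n) (hM : 1 ≤ M) (x : Mk p n h K ι) (i : ℕ) (hi : 1 ≤ i)
    (hMi : M ≤ p ^ (n * i)) (G : MvPowerSeries (Fin (n - h)) (GaloisField p n))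
    (hG : ∀ y, Orb M x y → ev (kap y.P y.ρ y.t i) (G.map ι) = 0)
    {A : FPt (HO p n n (Ob K)) →+ FPt (HO p n n (Ob K))} (hA : IsAct ι A)
    (δ : ℝ) (hδ : ∀ l, ‖(x.ρ (A (x.t l))).val‖ ≤ δ) :
    ‖ev (fun l => (x.ρ (nfr (-((n * i : ℕ) : ℤ)) (x.t l)) - x.ρ (A (x.t l))).val)
      ((G.map ι).map (fz p (-((h * i : ℕ) : ℤ)) : Ob K ≃+* Ob K).toRingHom)‖
      ≤ δ ^ p ^ (h * i) := by
  obtain ⟨g, hg, hgM, hgA⟩ := exists_one_sub (M := M) hn i hi hMi hA
  obtain ⟨y, hxy⟩ := exists_orbBy hn hU h1 hh hM x g hg hgM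
  have hy0 := hG y ⟨g, hxy⟩
  have hdist := pdist_orb_le h1 hh x y g hxy i hi hA hgA δ hδ
  have hd0 : 0 ≤ x.P.pdist y.P := x.P.pdist_nonneg y.P
  refine le_trans ?_ hdist
  set w : Fin (n - h) → FPt (HO p n n (Ob K)) := fun l => nfr (-((n * i : ℕ) : ℤ)) (y.t l) with hw
  have hwl : ∀ l, (x.ρ (nfr (-((n * i : ℕ) : ℤ)) (x.t l)) - x.ρ (A (x.t l))).val =
      (x.ρ (w l)).val := by
    intro l
    rw [hw, ← map_sub]
    simp only
    rw [CoIneqAux.basis_eq hn hxy i hgA l]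
  simp only [hwl]
  set G' := (G.map ι).map (fz p (-((h * i : ℕ) : ℤ)) : Ob K ≃+* Ob K).toRingHom with hG'
  have hv : ev (fun l => (y.ρ (w l)).val) G' = 0 := by
    have e1 := map_ev (a := kap y.P y.ρ y.t i)
      (fun l => (Ob_tn_iff _).2 (CoIneqAux.norm_kap_lt _ _ _ _ l))
      (fz p (-((h * i : ℕ) : ℤ)) : Ob K ≃+* Ob K).toRingHom (continuous_fz _) (G.map ι)
    rw [hy0, map_zero] at e1
    have e2 : (fun l => (fz p (-((h * i : ℕ) : ℤ)) : Ob K ≃+* Ob K).toRingHom
        (kap y.P y.ρ y.t i l)) = fun l => (y.ρ (w l)).val := by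
      funext l
      unfold kap
      change fz p (-((h * i : ℕ) : ℤ)) ((y.ρ (w l)).val ^ p ^ (h * i)) = _
      rw [← fz_natCast, ← fz_add, neg_add_cancel, fz_zero]
      rfl
    rw [e2] at e1
    exact e1.symm
  have e3 : ev (fun l => (x.ρ (w l)).val) G' =
      ev (fun l => (x.ρ (w l)).val) G' - ev (fun l => (y.ρ (w l)).val) G' := by
    rw [hv, sub_zero]
  rw [e3]
  exact norm_ev_sub_le (fun l => FPt.norm_lt _ _) (fun l => FPt.norm_lt _ _) _ hd0
    (fun l => x.hρ.dist_le h1 hh y.hρ _) _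

end Crest.Agent.R227
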