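import Crest.Agent.R227.CoTate2

/-! # R227 / CoTate : surjectivity of `ρ`, the kernel `T` of `ρ` (task COTATE)

`T / pT ≃ ker V` by `t ↦ ρ(t^{1/q})^Q`; `ker V` is an `F_p`-vector space with exactly `p^{n-h}`
elements (`card_roots`, `IsVi.deriv_ne`).

* `CoTate1.lean` : `IsRho.surjective`, `IsTBasis.lower`.
* `CoTate2.lean` : `exists_tbasis`, `IsTBasis.indep_pow`, `IsTBasis.level_zero`,
  `IsTBasis.level_inj`.
-/
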