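import Crest.Agent.R227.CoAct
import Crest.Agent.R227.CoTate
import Crest.Agent.R227.D0Cont

/-! # R227 / CoOrb : orbit points (task COORB) -/

set_option autoImplicit false
set_option linter.unusedSectionVars false

noncomputable section

namespace Crest.Agent.R227

open Crest.LubinTate MvPowerSeries Topology

variable {p : ℕ} [Fact p.Prime] {n h : ℕ}
variable {K : Type} [NontriviallyNormedField K] [IsUltrametricDist K] [CompleteSpace K]
  [IsAlgClosed K] [CharP K p]

variable {ι : GaloisField p n →+* Ob K} {M : ℕ}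

theorem orb_ev₁_X {a : Ob K} (ha : IsTopologicallyNilpotent a) :
    ev₁ a (PowerSeries.X : PowerSeries (Ob K)) = a :=
  ev_X (a := fun _ : Unit => a) (fun _ => ha) ()

theorem Orb.refl (hn : 1 ≤ n) (x : Mk p n h K ι) : Orb M x x := by
  have hid : (H1 p n).map (AlgHom.id (WittVector p (GaloisField p n)) (LTRing p n)).toRingHom =
      H1 p n := by
    rw [H1, hz_map]; rfl
  refine ⟨PowerSeries.X, ⟨⟨IsFGHom.id _, ?_⟩, fun i _ => rfl, ?_, ?_⟩⟩
  · rw [PowerSeries.coeff_one_X]; exact isUnit_one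
  · refine ⟨AlgHom.id _ _, ⟨rfl, PowerSeries.X, ?_, PowerSeries.map_X _⟩, fun a => rfl,
      PowerSeries.X, IsFGHom.id _, ?_, ?_, ?_⟩
    · rw [hid]; exact IsFGHom.id _
    · rw [PowerSeries.coeff_one_X]; exact isUnit_one
    · intro m
      have : PowerSeries.coeff m (PowerSeries.X : PowerSeries (Ob K)) -
          ι (PowerSeries.coeff m (PowerSeries.X : PowerSeries (GaloisField p n))) = 0 := by
        rw [← PowerSeries.coeff_map, PowerSeries.map_X, sub_self]
      rw [this, norm_zero]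
      exact x.P.c_nonneg
    · intro z gz hz
      rw [PowerSeries.map_X, orb_ev₁_X z.tn] at hz
      apply FPt.ext
      rw [FPt.hom_val, orb_ev₁_X (x.ρ z).tn, FPt.ext hz]
  · intro l
    rw [PowerSeries.map_X, orb_ev₁_X (x.t l).tn]


theorem orb_ev₁_comp {a : Ob K} (ha : IsTopologicallyNilpotent a)
    {g₂ : PowerSeries (GaloisField p n)} (hg₂ : PowerSeries.constantCoeff g₂ = 0)
    (g₁ : PowerSeries (GaloisField p n)) :
    ev₁ a (PowerSeries.map ι (PowerSeries.subst g₂ g₁ : PowerSeries (GaloisField p n))) =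
      ev₁ (ev₁ a (PowerSeries.map ι g₂)) (PowerSeries.map ι g₁) := by
  rw [CoVAux.psubst_one_eq_map ι hg₂, ev₁_subst ha]
  rw [← PowerSeries.coeff_zero_eq_constantCoeff_apply, PowerSeries.coeff_map,
    PowerSeries.coeff_zero_eq_constantCoeff_apply, hg₂, map_zero]

theorem orb_c_le {P P' : HPoint p n h K}
    (φ : LTRing p n →ₐ[WittVector p (GaloisField p n)] LTRing p n)
    (hφ : (LTRing.residue p n).comp φ.toRingHom = LTRing.residue p n)
    (hX : ∀ a, P'.X a = P.X (φ a)) : P'.c ≤ P.c := by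
  refine ciSup_le fun j => ?_
  split_ifs with hj
  · rw [hX]
    apply P.norm_X_le_c (by omega)
    have h1 := RingHom.congr_fun hφ (upt p n j)
    rw [RingHom.comp_apply] at h1
    exact h1.trans (CoBase.residue_upt hj.1 hj.2)
  · exact P.c_nonneg

/-- composition of stabilizer maps -/
theorem Orb.trans {x y w : Mk p n h K ι} (hxy : Orb M x y) (hyw : Orb M y w) :
    Orb M x w := by
  obtain ⟨g₁, haut₁, hM₁, ⟨φ₁, ⟨hr₁, θ₁, hθ₁, hθr₁⟩, hX₁, lam₁, hl₁, hu₁, hc₁, hρ₁⟩, hb₁⟩ := hxy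
  obtain ⟨g₂, haut₂, hM₂, ⟨φ₂, ⟨hr₂, θ₂, hθ₂, hθr₂⟩, hX₂, lam₂, hl₂, hu₂, hc₂, hρ₂⟩, hb₂⟩ := hyw
  have hs₂ : PowerSeries.HasSubst g₂ := PowerSeries.HasSubst.of_constantCoeff_zero' haut₂.1.1
  have hcc : y.P.c ≤ x.P.c := orb_c_le φ₁ hr₁ hX₁
  refine ⟨PowerSeries.subst g₂ g₁, ⟨⟨IsFGHom.comp haut₂.1 haut₁.1, ?_⟩, ?_,
    ⟨φ₁.comp φ₂, ⟨?_, PowerSeries.subst (PowerSeries.map φ₁.toRingHom θ₂) θ₁, ?_, ?_⟩, ?_,
    PowerSeries.subst lam₂ lam₁, IsFGHom.comp hl₂ hl₁, ?_, ?_, ?_⟩, ?_⟩⟩
  · rw [D0Cont.coeff_one_subst haut₂.1.1]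
    exact haut₁.2.mul haut₂.2
  · intro i hi
    -- `g₁ = X + X^M q`
    obtain ⟨q, hq⟩ : (PowerSeries.X : PowerSeries (GaloisField p n)) ^ M ∣ g₁ - PowerSeries.X := by
      rw [PowerSeries.X_pow_dvd_iff]
      intro m hm
      rw [map_sub, hM₁ m hm, sub_self]
    have hq' : g₁ = PowerSeries.X + PowerSeries.X ^ M * q := by rw [← hq]; ring
    obtain ⟨g', hg'⟩ := PowerSeries.X_dvd_iff.2 haut₂.1.1
    have e : (PowerSeries.subst g₂ g₁ : PowerSeries (GaloisField p n)) =
        g₂ + PowerSeries.X ^ M * (g' ^ M * PowerSeries.subst g₂ q) := by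
      conv_lhs => rw [hq']
      rw [PowerSeries.subst_add hs₂, PowerSeries.subst_mul hs₂, PowerSeries.subst_pow hs₂,
        PowerSeries.subst_X hs₂]
      conv_lhs => rw [show g₂ ^ M = PowerSeries.X ^ M * g' ^ M by rw [hg', mul_pow]]
      rw [mul_assoc]
    rw [e, map_add, hM₂ i hi, PowerSeries.coeff_X_pow_mul', if_neg (by omega), add_zero]
  · ext a
    have e1 := RingHom.congr_fun hr₁ (φ₂ a)
    have e2 := RingHom.congr_fun hr₂ a
    simp only [RingHom.comp_apply] at e1 e2 ⊢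
    exact e1.trans e2
  · have h := IsFGHom.map φ₁.toRingHom hθ₂
    have e : ((H1 p n).map φ₂.toRingHom).map φ₁.toRingHom =
        (H1 p n).map (φ₁.comp φ₂).toRingHom := LT.map_map _ _ _
    rw [e] at h
    exact IsFGHom.comp h hθ₁
  · have hs : PowerSeries.HasSubst (PowerSeries.map φ₁.toRingHom θ₂) := by
      refine PowerSeries.HasSubst.of_constantCoeff_zero' ?_
      rw [← PowerSeries.coeff_zero_eq_constantCoeff_apply, PowerSeries.coeff_map,
        PowerSeries.coeff_zero_eq_constantCoeff_apply, hθ₂.1, map_zero]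
    have e3 := PowerSeries.map_subst hs (h := LTRing.residue p n) θ₁
    have e4 : PowerSeries.map (LTRing.residue p n) (PowerSeries.map φ₁.toRingHom θ₂) = g₂ := by
      rw [← hθr₂]
      ext m
      simp only [PowerSeries.coeff_map]
      exact RingHom.congr_fun hr₁ _
    calc PowerSeries.map (LTRing.residue p n)
          (PowerSeries.subst (PowerSeries.map φ₁.toRingHom θ₂) θ₁)
        = PowerSeries.subst (PowerSeries.map (LTRing.residue p n)
            (PowerSeries.map φ₁.toRingHom θ₂)) (PowerSeries.map (LTRing.residue p n) θ₁) := e3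
      _ = PowerSeries.subst g₂ g₁ := by rw [e4, hθr₁]
  · intro a
    rw [hX₂, hX₁]; rfl
  · rw [CoVAux.coeff_one_subst hl₂.1]
    exact hu₂.mul hu₁
  · intro m
    rw [← mem_normIdeal x.P.c x.P.c_nonneg, ← Ideal.Quotient.mk_eq_mk_iff_sub_mem,
      ← PowerSeries.coeff_map, ← PowerSeries.coeff_map, ← PowerSeries.coeff_map,
      CoVAux.psubst_one_eq_map _ hl₂.1, CoVAux.psubst_one_eq_map _ haut₂.1.1,
      CoVAux.psubst_one_eq_map]
    · have e1 : PowerSeries.map (Ideal.Quotient.mk (normIdeal K x.P.c x.P.c_nonneg)) lam₁ =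
          PowerSeries.map (Ideal.Quotient.mk (normIdeal K x.P.c x.P.c_nonneg))
            (PowerSeries.map ι g₁) := by
        ext j
        rw [PowerSeries.coeff_map, PowerSeries.coeff_map, PowerSeries.coeff_map,
          Ideal.Quotient.mk_eq_mk_iff_sub_mem]
        exact hc₁ j
      have e2 : PowerSeries.map (Ideal.Quotient.mk (normIdeal K x.P.c x.P.c_nonneg)) lam₂ =
          PowerSeries.map (Ideal.Quotient.mk (normIdeal K x.P.c x.P.c_nonneg))
            (PowerSeries.map ι g₂) := by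
        ext j
        rw [PowerSeries.coeff_map, PowerSeries.coeff_map, PowerSeries.coeff_map,
          Ideal.Quotient.mk_eq_mk_iff_sub_mem]
        exact (hc₂ j).trans hcc
      rw [e1, e2]
    · rw [← PowerSeries.coeff_zero_eq_constantCoeff_apply, PowerSeries.coeff_map,
        PowerSeries.coeff_zero_eq_constantCoeff_apply, haut₂.1.1, map_zero]
  · intro z gz hgz
    rw [orb_ev₁_comp z.tn haut₂.1.1] at hgz
    have h1 := hρ₂ z (actHom ι haut₂.1 z) rfl
    have h2 := hρ₁ (actHom ι haut₂.1 z) gz hgz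
    rw [h2, h1]
    apply FPt.ext
    rw [FPt.hom_val, FPt.hom_val, FPt.hom_val, ev₁_subst (w.ρ z).tn _ hl₂.1]
  · intro l
    rw [orb_ev₁_comp (w.t l).tn haut₂.1.1, ← hb₂, ← hb₁]


/-- Existence of the orbit point for every automorphism `g ≡ X mod X^M`. -/
theorem exists_orbBy (hn : 1 ≤ n) (hU : IsUniversalDeformation p n (Fn p n) (H1 p n))
    (h1 : 1 ≤ h) (hh : h < n) (hM : 1 ≤ M) (x : Mk p n h K ι) (g : PowerSeries (GaloisField p n))
    (hg : IsFGAut (Fn p n) g)
    (hgM : ∀ i : ℕ, i < M → PowerSeries.coeff i g = PowerSeries.coeff i PowerSeries.X) :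
    ∃ y, OrbBy M g x y := by
  obtain ⟨φ, hφ⟩ := exists_stab p n hn hU g hg
  have hφ' := hφ
  obtain ⟨hr, θ, hθ, hθr⟩ := hφ
  have hmapII := fun j hj => map_II p n hn g φ hg.2 hφ' j hj
  -- the point
  have hres : ∀ a, LTRing.residue p n (φ a) = LTRing.residue p n a :=
    fun a => RingHom.congr_fun hr a
  obtain ⟨P, hPX'⟩ : ∃ P : HPoint p n h K, P.X = x.P.X.comp φ.toRingHom := ⟨
    { X := x.P.X.comp φ.toRingHom
      small := fun a ha => x.P.small _ ((hres a).trans ha)
      kill := fun a ha => x.P.kill _ (by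
        rw [← hmapII h hh.le]; exact Ideal.mem_map_of_mem _ ha)
      ne := by
        intro h0
        apply x.P.ne
        have h2 : ∀ a ∈ II p n (h + 1), x.P.X (φ a) = 0 := by
          intro a ha
          rw [II_succ, Submodule.mem_sup] at ha
          obtain ⟨b, hb, c, hc, rfl⟩ := ha
          obtain ⟨d, rfl⟩ := Ideal.mem_span_singleton'.1 hc
          have h3 : x.P.X (φ b) = 0 := x.P.kill _ (by
            rw [← hmapII h hh.le]; exact Ideal.mem_map_of_mem _ hb)
          have h4 : x.P.X (φ (uu p n h)) = 0 := h0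
          rw [map_add, map_add, h3, map_mul, map_mul, h4, mul_zero, add_zero]
        have h5 : uu p n h ∈ Ideal.map φ.toRingHom (II p n (h + 1)) := by
          rw [hmapII (h + 1) hh]
          exact Ideal.subset_span ⟨h, Nat.lt_succ_self h, rfl⟩
        have h6 : Ideal.map φ.toRingHom (II p n (h + 1)) ≤ RingHom.ker x.P.X := by
          rw [Ideal.map_le_iff_le_comap]
          intro a ha
          exact h2 a ha
        exact h6 h5 }, rfl⟩
  have hPX : ∀ a, P.X a = x.P.X (φ a) := fun _ => by rw [hPX']; rfl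
  have hPι : IsIota P ι := by
    intro w
    rw [hPX]
    have : φ (MvPowerSeries.C w) = MvPowerSeries.C w := φ.commutes w
    rw [this]; exact x.hι w
  have hPc : P.c ≤ x.P.c := orb_c_le φ hr hPX
  obtain ⟨ρ, hρ⟩ := exists_rho h1 hh P
  -- the isomorphism `lam`
  have hFP : ((H1 p n).map φ.toRingHom).map x.P.X = P.F := by
    rw [HPoint.F, hPX']; exact LT.map_map _ _ _
  have hl : IsFGHom P.F x.P.F (PowerSeries.map x.P.X θ) := by
    have := IsFGHom.map x.P.X hθ
    rwa [hFP] at this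
  have hθ1 : IsUnit (PowerSeries.coeff 1 θ) := by
    rw [isUnit_iff_residue_ne_zero, ← PowerSeries.coeff_map, hθr]
    exact hg.2.ne_zero
  have hlu : IsUnit (PowerSeries.coeff 1 (PowerSeries.map x.P.X θ)) := by
    rw [PowerSeries.coeff_map]; exact hθ1.map _
  have hlc : ∀ m, ‖PowerSeries.coeff m (PowerSeries.map x.P.X θ) -
      ι (PowerSeries.coeff m g)‖ ≤ x.P.c := by
    intro m
    rw [PowerSeries.coeff_map, ← hθr, PowerSeries.coeff_map]
    set a := PowerSeries.coeff m θ
    have e1 : x.P.X (MvPowerSeries.C (MvPowerSeries.constantCoeff a)) =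
        ι (LTRing.residue p n a) := x.hι _
    rw [← e1, ← map_sub]
    apply x.P.norm_X_le_c hn
    rw [map_sub, sub_eq_zero]
    rw [LTRing.residue, RingHom.comp_apply, RingHom.comp_apply, MvPowerSeries.constantCoeff_C]
  obtain ⟨e, -, -, he⟩ := exists_act_equiv (K := K) (ι := ι) hg
  have hρρ : x.ρ.comp e.toAddMonoidHom = (FPt.hom hl).comp ρ := by
    refine rho_unique h1 hh x.P _ _ x.P.c x.P.c_lt_one fun z => ?_
    rw [AddMonoidHom.comp_apply, AddMonoidHom.comp_apply, FPt.hom_val]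
    change ‖(x.ρ (e z)).val - _‖ ≤ _
    have n1 : ‖(x.ρ (e z)).val - (e z).val‖ ≤ x.P.c := x.hρ.near _
    have n2 : ‖ev₁ (ρ z).val (PowerSeries.map ι g) - ev₁ z.val (PowerSeries.map ι g)‖ ≤ x.P.c :=
      norm_ev_sub_le (a := fun _ : Unit => (ρ z).val) (fun _ => FPt.norm_lt _ _)
        (b := fun _ : Unit => z.val) (fun _ => FPt.norm_lt _ _) _ x.P.c_nonneg
        (fun _ => (hρ.near z).trans hPc) _
    have n3 : ‖ev₁ (ρ z).val (PowerSeries.map x.P.X θ - PowerSeries.map ι g)‖ ≤ x.P.c := by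
      refine norm_ev_le_of_coeff (a := fun _ : Unit => (ρ z).val) (fun _ => FPt.norm_lt _ _) _
        x.P.c_nonneg _ fun d => ?_
      have hd : d = Finsupp.single () (d ()) := by
        ext; simp
      rw [hd]
      have := hlc (d ())
      rw [← PowerSeries.coeff_map, ← map_sub] at this
      exact this
    have n3' : ev₁ (ρ z).val (PowerSeries.map x.P.X θ - PowerSeries.map ι g) =
        ev₁ (ρ z).val (PowerSeries.map x.P.X θ) - ev₁ (ρ z).val (PowerSeries.map ι g) :=
      ev_sub (a := fun _ : Unit => (ρ z).val) (fun _ => (ρ z).tn) _ _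
    rw [n3'] at n3
    have e2 : (x.ρ (e z)).val - ev₁ (ρ z).val (PowerSeries.map x.P.X θ) =
        ((x.ρ (e z)).val - (e z).val) -
        ((ev₁ (ρ z).val (PowerSeries.map x.P.X θ) - ev₁ (ρ z).val (PowerSeries.map ι g)) +
         (ev₁ (ρ z).val (PowerSeries.map ι g) - ev₁ z.val (PowerSeries.map ι g))) := by
      rw [he z]; ring
    rw [e2]
    rw [← mem_normIdeal x.P.c x.P.c_nonneg] at n1 n2 n3 ⊢
    exact Ideal.sub_mem _ n1 (Ideal.add_mem _ n3 n2)
  have hρe : ∀ z, x.ρ (e z) = FPt.hom hl (ρ z) := fun z => DFunLike.congr_fun hρρ z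
  have hinj : Function.Injective (FPt.hom hl) := by
    obtain ⟨μ, hμ, hμ1, -, -⟩ := IsFGHom.exists_inv hl hlu
    refine Function.LeftInverse.injective (g := FPt.hom hμ) fun a => ?_
    apply FPt.ext
    rw [FPt.hom_val, FPt.hom_val, ← ev₁_subst a.tn _ hl.1, hμ1, orb_ev₁_X a.tn]
  let y : Mk p n h K ι :=
    { P := P
      hι := hPι
      ρ := ρ
      hρ := hρ
      t := fun l => e.symm (x.t l)
      ht :=
        { mem := fun l => hinj (by
            rw [← hρe, AddEquiv.apply_symm_apply, x.ht.mem, map_zero])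
          indep := by
            rintro a ⟨z, hz0, hz⟩
            refine x.ht.indep a ⟨e z, by rw [hρe, hz0, map_zero], ?_⟩
            have := congrArg e hz
            rw [map_sum, map_zsmul] at this
            rw [← this]
            refine Finset.sum_congr rfl fun l _ => ?_
            rw [map_zsmul, AddEquiv.apply_symm_apply] } }
  refine ⟨y, ⟨hg, hgM, ⟨φ, hφ', hPX, PowerSeries.map x.P.X θ, hl, hlu, hlc, ?_⟩, ?_⟩⟩
  · intro z gz hgz
    have : gz = e z := FPt.ext (by rw [hgz, he])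
    rw [this]
    exact hρe z
  · intro l
    change (x.t l).val = ev₁ (e.symm (x.t l)).val (PowerSeries.map ι g)
    rw [← he, AddEquiv.apply_symm_apply]

theorem Orb.kill {x y : Mk p n h K ι} (hxy : Orb M x y) {f : LTRing p n}
    (hf : ∀ φ, IsStab p n M φ → x.P.X (φ f) = 0) : y.P.X f = 0 := by
  obtain ⟨g, hg⟩ := hxy
  obtain ⟨φ, hφ, hX, -⟩ := hg.map
  rw [hX]
  exact hf φ ⟨g, hg.aut, hg.cong, hφ⟩

end Crest.Agent.R227
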