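import Mathlib

/-!
Row 227 (S0351): the `p`-th power trick.  A nonzero proper radical ideal of a power series ring
over a perfect field of characteristic `p` is not stable under all partial derivatives.
(helper251)
-/

set_option autoImplicit false

open Finsupp

namespace Crest.Agent.R227
namespace PthPower

variable {κ : Type*} [Field κ] {σ : Type*}

noncomputable section

/-- keep only the monomials whose exponents in `s` are all divisible by `p` -/
def keep (p : ℕ) (s : Finset σ) (f : MvPowerSeries σ κ) : MvPowerSeries σ κ :=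
  fun d => open Classical in if ∀ l ∈ s, p ∣ d l then MvPowerSeries.coeff d f else 0

theorem coeff_keep (p : ℕ) (s : Finset σ) (f : MvPowerSeries σ κ) (d : σ →₀ ℕ) :
    MvPowerSeries.coeff d (keep p s f) =
      open Classical in if ∀ l ∈ s, p ∣ d l then MvPowerSeries.coeff d f else 0 := rfl

/-- the Euler operator `X_l ∂_l` -/
def euler (l : σ) (f : MvPowerSeries σ κ) : MvPowerSeries σ κ :=
  MvPowerSeries.X l * MvPowerSeries.pderiv κ l f

theorem coeff_euler (l : σ) (f : MvPowerSeries σ κ) (d : σ →₀ ℕ) :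
    MvPowerSeries.coeff d (euler l f) = (d l : κ) * MvPowerSeries.coeff d f := by
  classical
  unfold euler
  by_cases h : d l = 0
  · have h1 : ¬ single l 1 ≤ d := by
      intro hle
      have := hle l
      simp at this
      omega
    rw [h, Nat.cast_zero, zero_mul, MvPowerSeries.X_def, MvPowerSeries.coeff_monomial_mul,
      if_neg h1]
  · have h1 : single l 1 ≤ d := by
      rw [Finsupp.single_le_iff]
      omega
    obtain ⟨e, rfl⟩ : ∃ e, d = e + single l 1 := ⟨d - single l 1, (tsub_add_cancel_of_le h1).symm⟩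
    rw [mul_comm, MvPowerSeries.X_def, MvPowerSeries.coeff_add_mul_monomial,
      MvPowerSeries.coeff_pderiv]
    simp
    ring

theorem coeff_euler_iterate (l : σ) (f : MvPowerSeries σ κ) (d : σ →₀ ℕ) (n : ℕ) :
    MvPowerSeries.coeff d ((euler l)^[n] f) = (d l : κ) ^ n * MvPowerSeries.coeff d f := by
  induction n with
  | zero => simp
  | succ n ih => rw [Function.iterate_succ_apply', coeff_euler, ih, pow_succ]; ring

theorem iterate_mem {I : Ideal (MvPowerSeries σ κ)} {l : σ}
    (hst : ∀ f ∈ I, MvPowerSeries.pderiv κ l f ∈ I) {f : MvPowerSeries σ κ} (hf : f ∈ I) (n : ℕ) :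
    (euler l)^[n] f ∈ I := by
  induction n with
  | zero => simpa using hf
  | succ n ih =>
    rw [Function.iterate_succ_apply']
    exact I.mul_mem_left _ (hst _ ih)

variable (p : ℕ) [Fact p.Prime] [CharP κ p]

theorem pow_pred_eq (a : ℕ) : ((a : κ)) ^ (p - 1) = if p ∣ a then 0 else 1 := by
  have hp : p.Prime := Fact.out
  split_ifs with h
  · rw [(CharP.cast_eq_zero_iff κ p a).2 h, zero_pow]
    have := hp.two_le
    omega
  · have h1 : ((a : ZMod p)) ^ (p - 1) = 1 := by
      apply ZMod.pow_card_sub_one_eq_one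
      rwa [Ne, ZMod.natCast_eq_zero_iff]
    have h2 := congrArg (ZMod.castHom (dvd_refl p) κ) h1
    simpa using h2

theorem keep_insert [DecidableEq σ] {l : σ} {s : Finset σ} (f : MvPowerSeries σ κ) :
    keep p (insert l s) f = keep p s f - (euler l)^[p - 1] (keep p s f) := by
  classical
  ext d
  rw [map_sub, coeff_euler_iterate, coeff_keep, coeff_keep, pow_pred_eq p]
  by_cases h1 : ∀ l ∈ s, p ∣ d l
  · by_cases h2 : p ∣ d l
    · have h3 : ∀ x ∈ insert l s, p ∣ d x := by
        intro x hx
        rcases Finset.mem_insert.1 hx with rfl | hx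
        · exact h2
        · exact h1 x hx
      rw [if_pos h3, if_pos h1, if_pos h2]
      ring
    · have h3 : ¬ ∀ x ∈ insert l s, p ∣ d x := fun h => h2 (h l (Finset.mem_insert_self _ _))
      rw [if_neg h3, if_pos h1, if_neg h2]
      ring
  · have h3 : ¬ ∀ x ∈ insert l s, p ∣ d x := fun h =>
      h1 fun x hx => h x (Finset.mem_insert_of_mem hx)
    rw [if_neg h3, if_neg h1]
    ring

theorem keep_mem {I : Ideal (MvPowerSeries σ κ)}
    (hst : ∀ f ∈ I, ∀ l, MvPowerSeries.pderiv κ l f ∈ I) {f : MvPowerSeries σ κ} (hf : f ∈ I)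
    (s : Finset σ) : keep p s f ∈ I := by
  classical
  induction s using Finset.induction_on with
  | empty =>
    have : keep p ∅ f = f := by
      ext d
      rw [coeff_keep, if_pos (by simp)]
    rwa [this]
  | insert l s _ ih =>
    rw [keep_insert p]
    exact I.sub_mem ih (iterate_mem (fun g hg => hst g hg l) ih _)

/-- a series all of whose monomials are `p`-th powers is a `p`-th power -/
theorem exists_root [Fintype σ] [PerfectRing κ p] (f : MvPowerSeries σ κ) :
    ∃ g : MvPowerSeries σ κ, g ^ p = keep p Finset.univ f ∧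
      ∀ e, MvPowerSeries.coeff e g ≠ 0 → MvPowerSeries.coeff (p • e) f ≠ 0 := by
  classical
  have hp : p.Prime := Fact.out
  let g : MvPowerSeries σ κ := fun e => (frobeniusEquiv κ p).symm (MvPowerSeries.coeff (p • e) f)
  have hg : ∀ e, MvPowerSeries.coeff e g
      = (frobeniusEquiv κ p).symm (MvPowerSeries.coeff (p • e) f) := fun e => rfl
  refine ⟨g, ?_, ?_⟩
  · rw [← MvPowerSeries.map_frobenius_expand (p := p) (f := g) (hp := hp.ne_zero)]
    ext d
    rw [MvPowerSeries.coeff_map, coeff_keep]
    by_cases h : ∀ l ∈ Finset.univ, p ∣ d l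
    · rw [if_pos h]
      obtain ⟨e, rfl⟩ : ∃ e : σ →₀ ℕ, d = p • e := by
        refine ⟨Finsupp.equivFunOnFinite.symm fun l => d l / p, ?_⟩
        ext l
        simp only [Finsupp.smul_apply, Finsupp.equivFunOnFinite_symm_apply_apply, smul_eq_mul]
        exact (Nat.mul_div_cancel' (h l (Finset.mem_univ l))).symm
      rw [MvPowerSeries.coeff_expand_smul, hg]
      simp
    · rw [if_neg h]
      push Not at h
      obtain ⟨l, -, hl⟩ := h
      rw [MvPowerSeries.coeff_expand_of_not_dvd _ _ _ hl, map_zero]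
  · intro e he h0
    apply he
    rw [hg, h0, map_zero]

/-- **`p`-th power trick**: a nonzero proper radical ideal of `κ[[X_l]]` is not stable under all
partial derivatives. -/
theorem exists_pderiv_notMem [Finite σ] [PerfectRing κ p] {I : Ideal (MvPowerSeries σ κ)}
    (hrad : I.IsRadical) (h0 : I ≠ ⊥) (h1 : I ≠ ⊤) :
    ∃ f ∈ I, ∃ l, MvPowerSeries.pderiv κ l f ∉ I := by
  classical
  have := Fintype.ofFinite σ
  have hp : p.Prime := Fact.out
  by_contra hcon
  push Not at hcon
  -- minimal degree of a nonzero coefficient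
  have hex : ∃ n : ℕ, ∃ f ∈ I, ∃ d : σ →₀ ℕ, MvPowerSeries.coeff d f ≠ 0 ∧ d.degree = n := by
    obtain ⟨f, hf, hf0⟩ := (Submodule.ne_bot_iff I).1 h0
    have : ∃ d, MvPowerSeries.coeff d f ≠ 0 := by
      by_contra hc
      push Not at hc
      exact hf0 (by ext d; simpa using hc d)
    obtain ⟨d, hd⟩ := this
    exact ⟨_, f, hf, d, hd, rfl⟩
  let n := Nat.find hex
  obtain ⟨f, hf, d, hd, hdn⟩ : ∃ f ∈ I, ∃ d : σ →₀ ℕ, MvPowerSeries.coeff d f ≠ 0 ∧ d.degree = n :=
    Nat.find_spec hex
  have hmin : ∀ g ∈ I, ∀ e : σ →₀ ℕ, e.degree < n → MvPowerSeries.coeff e g = 0 := by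
    intro g hg e he
    by_contra hne
    exact Nat.find_min hex he ⟨g, hg, e, hne, rfl⟩
  -- n > 0
  have hn : 0 < n := by
    rcases Nat.eq_zero_or_pos n with h | h
    · exfalso
      have hd0 : d = 0 := by
        rw [h] at hdn
        exact (Finsupp.degree_eq_zero_iff d).1 hdn
      rw [hd0, MvPowerSeries.coeff_zero_eq_constantCoeff] at hd
      apply h1
      apply Ideal.eq_top_of_isUnit_mem I hf
      rw [MvPowerSeries.isUnit_iff_constantCoeff]
      exact isUnit_iff_ne_zero.2 hd
    · exact h
  -- all exponents of the monomial `d` are divisible by `p`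
  have hdiv : ∀ l, p ∣ d l := by
    intro l
    by_contra hl
    have hl1 : 1 ≤ d l := by
      rcases Nat.eq_zero_or_pos (d l) with h | h
      · exact absurd (h ▸ dvd_zero p) hl
      · exact h
    have hle : single l 1 ≤ d := by rwa [Finsupp.single_le_iff]
    have h2 : MvPowerSeries.coeff (d - single l 1) (MvPowerSeries.pderiv κ l f) = 0 := by
      apply hmin _ (hcon f hf l)
      have : d.degree = (d - single l 1).degree + 1 := by
        conv_lhs => rw [← tsub_add_cancel_of_le hle]
        rw [map_add, Finsupp.degree_single]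
      omega
    rw [MvPowerSeries.coeff_pderiv, tsub_add_cancel_of_le hle] at h2
    have h3 : (((d - single l 1 : σ →₀ ℕ) l : ℕ) : κ) + 1 = (d l : κ) := by
      rw [Finsupp.tsub_apply, Finsupp.single_eq_same, ← Nat.cast_add_one, Nat.sub_add_cancel hl1]
    rw [h3] at h2
    rcases mul_eq_zero.1 h2 with h4 | h4
    · exact hd h4
    · exact hl ((CharP.cast_eq_zero_iff κ p _).1 h4)
  obtain ⟨e, rfl⟩ : ∃ e : σ →₀ ℕ, d = p • e := by
    refine ⟨Finsupp.equivFunOnFinite.symm fun l => d l / p, ?_⟩
    ext l
    simp only [Finsupp.smul_apply, Finsupp.equivFunOnFinite_symm_apply_apply, smul_eq_mul]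
    exact (Nat.mul_div_cancel' (hdiv l)).symm
  obtain ⟨g, hg, -⟩ := exists_root p f
  have hgI : g ∈ I := hrad ⟨p, by rw [hg]; exact keep_mem p hcon hf _⟩
  have hce : MvPowerSeries.coeff e g = 0 := by
    apply hmin g hgI
    have : (p • e).degree = p * e.degree := by
      rw [map_nsmul, smul_eq_mul]
    rw [this] at hdn
    have h2 := hp.two_le
    have h3 : 0 < e.degree := by
      rcases Nat.eq_zero_or_pos e.degree with h | h
      · rw [h, mul_zero] at hdn; omega
      · exact h
    nlinarith
  have h5 : MvPowerSeries.coeff (p • e) (g ^ p) = 0 := by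
    rw [← MvPowerSeries.map_frobenius_expand (p := p) (f := g) (hp := hp.ne_zero),
      MvPowerSeries.coeff_map, MvPowerSeries.coeff_expand_smul, hce, map_zero]
  rw [hg, coeff_keep, if_pos (fun l _ => by simp)] at h5
  exact hd h5

end

end PthPower

/-- same statement as `PthPower.exists_pderiv_notMem` (name used by helper357) -/
theorem exists_pderiv_not_mem {σ κ : Type*} [Field κ] (p : ℕ) [Fact p.Prime] [CharP κ p]
    [PerfectRing κ p] [Fintype σ] [DecidableEq σ] (I : Ideal (MvPowerSeries σ κ))
    (hrad : I.IsRadical) (hbot : I ≠ ⊥) (htop : I ≠ ⊤) :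
    ∃ f ∈ I, ∃ l, MvPowerSeries.pderiv κ l f ∉ I :=
  PthPower.exists_pderiv_notMem p hrad hbot htop

end Crest.Agent.R227
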