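import Crest.Agent.R227.DescEv
import Crest.Agent.R227.PthPower
import Crest.Agent.R227.FPt

/-!
Row 227 (S0351): translation of series by points, chain rule for the linear part, and the
existence of a series with nonzero linear part in the vanishing ideal (helper251).
-/

set_option autoImplicit false

noncomputable section

open Filter Topology

namespace Crest.Agent.R227
namespace Circuit

open Crest.LubinTate MvPowerSeries
open scoped MvPowerSeries.WithPiTopology

variable {K : Type*} [NormedField K] [IsUltrametricDist K] [CompleteSpace K]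
variable {σ : Type*} [Finite σ]

omit [CompleteSpace K] [Finite σ] in
theorem coeff_single_mul (l : σ) (u v : MvPowerSeries σ (Ob K)) :
    coeff (Finsupp.single l 1) (u * v)
      = coeff (Finsupp.single l 1) u * constantCoeff v
        + constantCoeff u * coeff (Finsupp.single l 1) v := by
  classical
  rw [coeff_mul, Finsupp.antidiagonal_single]
  simp only [Finset.sum_map, Function.Embedding.coe_prodMap, Prod.map,
    Finset.Nat.antidiagonal_succ, Finset.Nat.antidiagonal_zero]
  simp
  ring

theorem continuous_map_C {τ : Type*} :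
    Continuous (fun f : MvPowerSeries τ (Ob K) =>
      f.map (C : Ob K →+* MvPowerSeries σ (Ob K))) := by
  refine continuous_pi fun e => ?_
  have : (fun f : MvPowerSeries τ (Ob K) =>
      coeff e (f.map (C : Ob K →+* MvPowerSeries σ (Ob K))))
      = fun f => (C : Ob K →+* MvPowerSeries σ (Ob K)) (coeff e f) := by
    funext f; rw [coeff_map]
  change Continuous (fun f : MvPowerSeries τ (Ob K) =>
      coeff e (f.map (C : Ob K →+* MvPowerSeries σ (Ob K))))
  rw [this]
  exact (WithPiTopology.continuous_C (σ := σ) (R := Ob K)).comp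
    (WithPiTopology.continuous_coeff (Ob K) e)

omit [CompleteSpace K] in
theorem continuous_pderiv {τ : Type*} (k : τ) :
    Continuous (fun f : MvPowerSeries τ (Ob K) => pderiv (Ob K) k f) := by
  refine continuous_pi fun e => ?_
  have : (fun f : MvPowerSeries τ (Ob K) => coeff e (pderiv (Ob K) k f))
      = fun f => coeff (e + Finsupp.single k 1) f * ((e k : Ob K) + 1) := by
    funext f; rw [coeff_pderiv]
  change Continuous (fun f : MvPowerSeries τ (Ob K) => coeff e (pderiv (Ob K) k f))
  rw [this]
  exact (WithPiTopology.continuous_coeff (Ob K) _).mul continuous_const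

/-- constant coefficient of an evaluation -/
theorem constantCoeff_ev {τ : Type*} [Finite τ] (T : τ → MvPowerSeries σ (Ob K))
    (hT : ∀ k, ‖constantCoeff (T k)‖ < 1) (f : MvPowerSeries τ (Ob K)) :
    constantCoeff (ev T (f.map (C : Ob K →+* MvPowerSeries σ (Ob K))))
      = ev (fun k => constantCoeff (T k)) f := by
  have h0 : ∀ i : σ, ‖(0 : Ob K)‖ < 1 := fun _ => by simp
  have h := ev_ev T hT (a := fun _ => (0 : Ob K)) h0 f
  have h1 : ∀ u : MvPowerSeries σ (Ob K), ev (fun _ => (0 : Ob K)) u = constantCoeff u := by
    intro u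
    have hc : Continuous (constantCoeff : MvPowerSeries σ (Ob K) →+* Ob K) :=
      WithPiTopology.continuous_constantCoeff (Ob K)
    have h2 := eq_of_eq_on_poly (S := Ob K) (σ := σ) (continuous_ev (a := fun _ : σ => (0 : Ob K))
      (fun i => (Ob_tn_iff _).2 (h0 i))) hc (fun q => by
        rw [ev_coe (fun i => (Ob_tn_iff _).2 (h0 i))]
        induction q using MvPolynomial.induction_on with
        | C c => simp
        | add p q hp hq => rw [map_add, hp, hq, MvPolynomial.coe_add, map_add]
        | mul_X p i hp => simp)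
    exact congrFun h2 u
  rw [h1] at h
  rw [h]
  congr 1
  funext k
  rw [h1]

/-- **chain rule** for the linear part of an evaluation -/
theorem coeff_single_ev {τ : Type*} [Fintype τ] (T : τ → MvPowerSeries σ (Ob K))
    (hT : ∀ k, ‖constantCoeff (T k)‖ < 1) (l : σ) (f : MvPowerSeries τ (Ob K)) :
    coeff (Finsupp.single l 1) (ev T (f.map (C : Ob K →+* MvPowerSeries σ (Ob K))))
      = ∑ k, ev (fun k => constantCoeff (T k)) (pderiv (Ob K) k f)
          * coeff (Finsupp.single l 1) (T k) := by
  classical
  have hTt : ∀ k, IsTopologicallyNilpotent (T k) := fun k => (ps_tn_iff _).2 (hT k)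
  have hct : ∀ k, IsTopologicallyNilpotent (constantCoeff (T k)) :=
    fun k => (Ob_tn_iff _).2 (hT k)
  have hu : Continuous (fun f : MvPowerSeries τ (Ob K) => coeff (Finsupp.single l 1)
      (ev T (f.map (C : Ob K →+* MvPowerSeries σ (Ob K))))) :=
    (WithPiTopology.continuous_coeff (Ob K) _).comp ((continuous_ev hTt).comp continuous_map_C)
  have hv : Continuous (fun f : MvPowerSeries τ (Ob K) =>
      ∑ k, ev (fun k => constantCoeff (T k)) (pderiv (Ob K) k f)
          * coeff (Finsupp.single l 1) (T k)) := by
    refine continuous_finsetSum _ fun k _ => Continuous.mul ?_ continuous_const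
    exact (continuous_ev hct).comp (continuous_pderiv k)
  have h2 := eq_of_eq_on_poly hu hv (fun q => by
    induction q using MvPolynomial.induction_on with
    | C c =>
      rw [MvPolynomial.coe_C, map_C, ev_C hTt]
      simp only [pderiv_C, ev_zero hct, zero_mul, Finset.sum_const_zero]
      rw [coeff_C, if_neg (by simp)]
    | add p q hp hq =>
      rw [MvPolynomial.coe_add, map_add, ev_add hTt, map_add, hp, hq, ← Finset.sum_add_distrib]
      refine Finset.sum_congr rfl fun k _ => ?_
      rw [map_add, ev_add hct, add_mul]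
    | mul_X p i hp =>
      rw [MvPolynomial.coe_mul, MvPolynomial.coe_X, map_mul, map_X, ev_mul hTt, ev_X hTt,
        coeff_single_mul, hp, constantCoeff_ev T hT]
      have e1 : ∀ k, ev (fun k => constantCoeff (T k))
          (pderiv (Ob K) k ((p : MvPowerSeries τ (Ob K)) * X i))
          = ev (fun k => constantCoeff (T k)) (pderiv (Ob K) k (p : MvPowerSeries τ (Ob K)))
              * constantCoeff (T i)
            + if k = i then ev (fun k => constantCoeff (T k)) (p : MvPowerSeries τ (Ob K))
              else 0 := by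
        intro k
        rw [Derivation.leibniz, smul_eq_mul, smul_eq_mul, ev_add hct, ev_mul hct, ev_mul hct,
          ev_X hct]
        split_ifs with hki
        · subst hki
          rw [pderiv_X_self, ev_one hct]
          ring
        · rw [pderiv_X_of_ne (fun h => hki h.symm), ev_zero hct]
          ring
      simp only [e1, add_mul, Finset.sum_add_distrib, ite_mul, zero_mul, Finset.sum_ite_eq',
        Finset.mem_univ, if_true]
      rw [Finset.sum_mul]
      congr 1
      refine Finset.sum_congr rfl fun k _ => ?_
      ring)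
  exact congrFun h2 f

/-! ### translation by a point -/

variable (F : FormalGroup (Ob K))

/-- the generic point translated by `e₀` -/
def trans (e₀ : σ → Ob K) (l : σ) : MvPowerSeries σ (Ob K) :=
  ev ![C (e₀ l), X l] (F.toPowerSeries.map (C : Ob K →+* MvPowerSeries σ (Ob K)))

omit [Finite σ] [CompleteSpace K] in
theorem cc_pair {e : Ob K} (he : ‖e‖ < 1) (l : σ) : ∀ k : Fin 2,
    ‖constantCoeff ((![C e, X l] : Fin 2 → MvPowerSeries σ (Ob K)) k)‖ < 1 := by
  intro k
  fin_cases k
  · simpa using he
  · simp

omit [Finite σ] [CompleteSpace K] in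
theorem cc_pair' (e : Ob K) (l : σ) :
    (fun k : Fin 2 => constantCoeff ((![C e, X l] : Fin 2 → MvPowerSeries σ (Ob K)) k))
      = ![e, 0] := by
  funext k
  fin_cases k <;> simp

theorem constantCoeff_trans {e₀ : σ → Ob K} (he : ∀ l, ‖e₀ l‖ < 1) (l : σ) :
    constantCoeff (trans F e₀ l) = e₀ l := by
  unfold trans
  rw [constantCoeff_ev _ (cc_pair (he l) l), cc_pair']
  exact FPtAux.padd_zero F ((Ob_tn_iff _).2 (he l))

theorem ev_trans {e₀ a : σ → Ob K} (he : ∀ l, ‖e₀ l‖ < 1) (ha : ∀ l, ‖a l‖ < 1) (l : σ) :
    ev a (trans F e₀ l) = padd F (e₀ l) (a l) := by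
  unfold trans
  rw [ev_ev _ (cc_pair (he l) l) ha]
  unfold padd
  congr 1
  funext k
  have hat : ∀ i, IsTopologicallyNilpotent (a i) := fun i => (Ob_tn_iff _).2 (ha i)
  fin_cases k
  · simpa using ev_C hat (e₀ l)
  · simpa using ev_X hat l

/-- the series translated by `e₀` -/
def translate (e₀ : σ → Ob K) (f : MvPowerSeries σ (Ob K)) : MvPowerSeries σ (Ob K) :=
  ev (trans F e₀) (f.map (C : Ob K →+* MvPowerSeries σ (Ob K)))

theorem ev_translate {e₀ a : σ → Ob K} (he : ∀ l, ‖e₀ l‖ < 1) (ha : ∀ l, ‖a l‖ < 1)
    (f : MvPowerSeries σ (Ob K)) :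
    ev a (translate F e₀ f) = ev (fun l => padd F (e₀ l) (a l)) f := by
  unfold translate
  rw [ev_ev _ (fun l => by rw [constantCoeff_trans F he]; exact he l) ha]
  congr 1
  funext l
  exact ev_trans F he ha l

theorem coeff_translate {e₀ : σ → Ob K} (he : ∀ l, ‖e₀ l‖ < 1) (f : MvPowerSeries σ (Ob K))
    (l : σ) : ∃ u : Ob K, u ≠ 0 ∧
      coeff (Finsupp.single l 1) (translate F e₀ f) = ev e₀ (pderiv (Ob K) l f) * u := by
  classical
  have := Fintype.ofFinite σ
  refine ⟨ev ![e₀ l, 0] (pderiv (Ob K) 1 F.toPowerSeries), ?_, ?_⟩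
  · have h1 : ‖ev ![e₀ l, 0] (pderiv (Ob K) 1 F.toPowerSeries)
        - ev ![(0 : Ob K), 0] (pderiv (Ob K) 1 F.toPowerSeries)‖ ≤ ‖e₀ l‖ := by
      apply norm_ev_sub_le
      · intro i; fin_cases i
        · simpa using he l
        · simp
      · intro i; fin_cases i <;> simp
      · exact norm_nonneg _
      · intro i; fin_cases i <;> simp
    have h2 : ev ![(0 : Ob K), 0] (pderiv (Ob K) 1 F.toPowerSeries) = 1 := by
      have h3 := constantCoeff_ev (σ := σ) (K := K) (τ := Fin 2)
        (fun _ => (0 : MvPowerSeries σ (Ob K))) (by simp) (pderiv (Ob K) 1 F.toPowerSeries)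
      have h4 : (fun k : Fin 2 => constantCoeff ((fun _ => (0 : MvPowerSeries σ (Ob K))) k))
          = ![(0 : Ob K), 0] := by
        funext k; fin_cases k <;> simp
      rw [h4] at h3
      rw [← h3]
      have h5 : ev (fun _ : Fin 2 => (0 : MvPowerSeries σ (Ob K)))
          ((pderiv (Ob K) 1 F.toPowerSeries).map (C : Ob K →+* MvPowerSeries σ (Ob K)))
          = C (constantCoeff (pderiv (Ob K) 1 F.toPowerSeries)) := by
        rw [ev_eq_subst _ (by simp)]
        have := MvPowerSeries.subst_zero_of_constantCoeff_zero
          (σ := Fin 2) (τ := σ) (R := Ob K) (S := Ob K)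
          (f := pderiv (Ob K) 1 F.toPowerSeries
            - C (constantCoeff (pderiv (Ob K) 1 F.toPowerSeries))) (by simp)
        have hs : HasSubst (0 : Fin 2 → MvPowerSeries σ (Ob K)) :=
          hasSubst_of_constantCoeff_zero (by simp)
        have h6 : MvPowerSeries.subst (0 : Fin 2 → MvPowerSeries σ (Ob K))
            (pderiv (Ob K) 1 F.toPowerSeries)
            - MvPowerSeries.subst (0 : Fin 2 → MvPowerSeries σ (Ob K))
              (C (constantCoeff (pderiv (Ob K) 1 F.toPowerSeries))) = 0 := by
          rw [← this, ← coe_substAlgHom hs, map_sub]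
        rw [sub_eq_zero] at h6
        have h7 : (fun _ : Fin 2 => (0 : MvPowerSeries σ (Ob K))) = 0 := rfl
        rw [h7, h6, ← coe_substAlgHom hs]
        have := AlgHom.commutes (substAlgHom (R := Ob K) hs)
          (constantCoeff (pderiv (Ob K) 1 F.toPowerSeries))
        simpa [MvPowerSeries.algebraMap_apply] using this
      rw [h5, constantCoeff_C, ← coeff_zero_eq_constantCoeff_apply, coeff_pderiv, zero_add,
        F.lin_coeff_Y]
      simp
    intro h0
    rw [h0, h2, zero_sub, norm_neg] at h1
    have h3 : ‖(1 : Ob K)‖ = 1 := by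
      change ‖((1 : Ob K) : K)‖ = 1
      simp
    rw [h3] at h1
    exact absurd (he l) (not_lt.2 h1)
  · unfold translate
    rw [coeff_single_ev _ (fun l => by rw [constantCoeff_trans F he]; exact he l)]
    have h1 : (fun k => constantCoeff (trans F e₀ k)) = e₀ := by
      funext k; exact constantCoeff_trans F he k
    rw [h1]
    have h2 : ∀ k, coeff (Finsupp.single l 1) (trans F e₀ k)
        = if k = l then ev ![e₀ l, 0] (pderiv (Ob K) 1 F.toPowerSeries) else 0 := by
      intro k
      unfold trans
      rw [coeff_single_ev _ (cc_pair (he k) k), cc_pair', Fin.sum_univ_two]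
      have e1 : coeff (Finsupp.single l 1)
          ((![C (e₀ k), X k] : Fin 2 → MvPowerSeries σ (Ob K)) 0) = 0 := by
        simp only [Matrix.cons_val_zero]
        rw [coeff_C, if_neg (by simp)]
      have e2 : coeff (Finsupp.single l 1)
          ((![C (e₀ k), X k] : Fin 2 → MvPowerSeries σ (Ob K)) 1) = if k = l then 1 else 0 := by
        simp only [Matrix.cons_val_one, Matrix.cons_val_fin_one]
        rw [coeff_X]
        by_cases hkl : k = l
        · subst hkl; simp
        · rw [if_neg, if_neg hkl]
          intro h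
          exact hkl ((Finsupp.single_left_inj (one_ne_zero)).1 h).symm
      rw [e1, e2, mul_zero, zero_add]
      split_ifs with hkl
      · subst hkl; rw [mul_one]
      · rw [mul_zero]
    simp only [h2, mul_ite, mul_zero, Finset.sum_ite_eq', Finset.mem_univ, if_true]

end Circuit
end Crest.Agent.R227
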