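import Crest.Agent.R227.CoIneq
import Crest.Agent.R227.CoDri2
import Crest.Agent.R227.PthPower
import Crest.Agent.R227.Translate

/-! # R227 / CoPhi : series with nonzero linear part at some orbit point (task COPHI),
part (C) of note 4224 -/

set_option autoImplicit false
set_option linter.unusedSectionVars false

noncomputable section

namespace Crest.Agent.R227

open Crest.LubinTate MvPowerSeries Topology

variable {p : ℕ} [Fact p.Prime] {n h : ℕ}
variable {K : Type} [NontriviallyNormedField K] [IsUltrametricDist K] [CompleteSpace K]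
  [IsAlgClosed K] [CharP K p]

variable {ι : GaloisField p n →+* Ob K} {M : ℕ}

namespace CoPhiAux

theorem kap_tn (x : Mk p n h K ι) (i : ℕ) (l : Fin (n - h)) :
    IsTopologicallyNilpotent (kap x.P x.ρ x.t i l) :=
  FPtAux.map_tn (iterateFrobenius (Ob K) p (h * i)) (FPtAux.continuous_frob p _)
    (x.ρ (nfr (-((n * i : ℕ) : ℤ)) (x.t l))).tn

/-- the ideal of the series vanishing at the level points of the orbit -/
def orbIdeal (M : ℕ) (x : Mk p n h K ι) (i : ℕ) :
    Ideal (MvPowerSeries (Fin (n - h)) (GaloisField p n)) where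
  carrier := {G | ∀ y, Orb M x y → ev (kap y.P y.ρ y.t i) (G.map ι) = 0}
  add_mem' := by
    intro a b ha hb y hy
    rw [map_add, ev_add (kap_tn y i), ha y hy, hb y hy, add_zero]
  zero_mem' := by
    intro y _
    rw [map_zero, ev_zero (kap_tn y i)]
  smul_mem' := by
    intro c a ha y hy
    rw [smul_eq_mul, map_mul, ev_mul (kap_tn y i), ha y hy, mul_zero]

theorem mem_orbIdeal (x : Mk p n h K ι) (i : ℕ)
    (G : MvPowerSeries (Fin (n - h)) (GaloisField p n)) :
    G ∈ orbIdeal M x i ↔ ∀ y, Orb M x y → ev (kap y.P y.ρ y.t i) (G.map ι) = 0 := Iff.rfl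

theorem coeff_one_fneg {R : Type*} [CommRing R] (F : FormalGroup R) :
    PowerSeries.coeff 1 (fnegSeries F) = -1 := by
  have h0 : fadd F PowerSeries.X (fnegSeries F) = (0 : PowerSeries R) :=
    (exists_fneg F).choose_spec.2.1
  have h1 := coeff_fadd_low F (PowerSeries.X : PowerSeries R) (fnegSeries F) 1 le_rfl
    (by intro i hi; obtain rfl : i = 0 := by omega
        simp)
    (by intro i hi; obtain rfl : i = 0 := by omega
        rw [PowerSeries.coeff_zero_eq_constantCoeff_apply, constantCoeff_fnegSeries]) 1 le_rfl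
  have h2 : PowerSeries.coeff 1 (fadd F PowerSeries.X (fnegSeries F) : PowerSeries R) = 0 := by
    rw [h0, map_zero]
  rw [h2, PowerSeries.coeff_one_X] at h1
  exact (neg_eq_of_add_eq_zero_right h1.symm).symm

theorem map_pderiv' {σ A B : Type*} [CommRing A] [CommRing B] (φ : A →+* B) (i : σ)
    (f : MvPowerSeries σ A) : (pderiv A i f).map φ = pderiv B i (f.map φ) := by
  ext d
  rw [coeff_map, coeff_pderiv, coeff_pderiv, coeff_map, map_mul, map_add, map_natCast, map_one]

theorem ev_zero_eq {σ : Type*} [Finite σ] (f : MvPowerSeries σ (Ob K)) :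
    ev (fun _ => (0 : Ob K)) f = constantCoeff f := by
  have h := Circuit.constantCoeff_ev (σ := σ) (K := K) (τ := σ)
    (fun _ => (0 : MvPowerSeries σ (Ob K))) (by simp) f
  simp only [map_zero] at h
  rw [← h, ev_eq_subst _ (by simp)]
  have h1 := MvPowerSeries.subst_zero_of_constantCoeff_zero
    (σ := σ) (τ := σ) (R := Ob K) (S := Ob K) (f := f - C (constantCoeff f)) (by simp)
  have hs : HasSubst (0 : σ → MvPowerSeries σ (Ob K)) := hasSubst_of_constantCoeff_zero (by simp)
  have h2 : MvPowerSeries.subst (0 : σ → MvPowerSeries σ (Ob K)) f =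
      MvPowerSeries.subst (0 : σ → MvPowerSeries σ (Ob K)) (C (constantCoeff f)) := by
    rw [← sub_eq_zero, ← h1, ← coe_substAlgHom hs, map_sub]
  have h3 : (fun _ : σ => (0 : MvPowerSeries σ (Ob K))) = 0 := rfl
  rw [h3, h2, MvPowerSeries.subst_C, constantCoeff_C]

section neg

open scoped MvPowerSeries.WithPiTopology

/-- the series `f(-Y)` -/
def negSer (F : FormalGroup (Ob K)) {σ : Type*} (f : MvPowerSeries σ (Ob K)) :
    MvPowerSeries σ (Ob K) :=
  ev (fun l => PowerSeries.subst (X l : MvPowerSeries σ (Ob K)) (fnegSeries F))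
    (f.map (C : Ob K →+* MvPowerSeries σ (Ob K)))

theorem cc_T (F : FormalGroup (Ob K)) {σ : Type*} (l : σ) :
    constantCoeff (PowerSeries.subst (X l : MvPowerSeries σ (Ob K)) (fnegSeries F)) = 0 :=
  PowerSeries.constantCoeff_subst_eq_zero (by simp) _ (constantCoeff_fnegSeries F)

theorem ev_negSer (F : FormalGroup (Ob K)) {σ : Type*} [Finite σ] {a : σ → Ob K}
    (ha : ∀ l, ‖a l‖ < 1) (f : MvPowerSeries σ (Ob K)) :
    ev a (negSer F f) = ev (fun l => ev₁ (a l) (fnegSeries F)) f := by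
  have hat : ∀ i, IsTopologicallyNilpotent (a i) := fun i => (Ob_tn_iff _).2 (ha i)
  unfold negSer
  rw [ev_ev _ (fun l => by rw [cc_T]; simp) ha]
  congr 1
  funext l
  rw [ev_subst₁ hat _ (by simp), ev_X hat]

theorem coeff_negSer (F : FormalGroup (Ob K)) {σ : Type*} [Finite σ]
    (f : MvPowerSeries σ (Ob K)) (l : σ) :
    coeff (Finsupp.single l 1) (negSer F f) = - coeff (Finsupp.single l 1) f := by
  classical
  have := Fintype.ofFinite σ
  unfold negSer
  rw [Circuit.coeff_single_ev _ (fun l => by rw [cc_T]; simp)]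
  have h1 : ∀ k : σ, coeff (Finsupp.single l 1)
      (PowerSeries.subst (X k : MvPowerSeries σ (Ob K)) (fnegSeries F)) =
      if k = l then -1 else 0 := by
    intro k
    rw [FEAux.coeff_single_psubst _ (by simp), coeff_one_fneg, coeff_X]
    by_cases hkl : k = l
    · subst hkl; simp
    · rw [if_neg, if_neg hkl, mul_zero]
      intro h
      exact hkl ((Finsupp.single_left_inj (one_ne_zero)).1 h).symm
  simp only [h1, cc_T, mul_ite, mul_neg, mul_one, mul_zero, Finset.sum_ite_eq', Finset.mem_univ,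
    if_true]
  rw [ev_zero_eq, ← coeff_zero_eq_constantCoeff_apply, coeff_pderiv, zero_add]
  simp

end neg

end CoPhiAux

open CoPhiAux

/-- The ideal of the series vanishing at the level points of the orbit is a nonzero proper radical
ideal; by `exists_pderiv_not_mem` there are `G` in it, `l`, and an orbit point `y` with
`(∂_l G)(κ(y)) ≠ 0`. -/
theorem exists_gradient (hn : 1 ≤ n) (h1 : 1 ≤ h) (hh : h < n) (x : Mk p n h K ι) (i : ℕ)
    (hi : 1 ≤ i) (f : LTRing p n) (hf : f ∉ II p n h)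
    (hkill : ∀ φ, IsStab p n M φ → x.P.X (φ f) = 0) :
    ∃ G : MvPowerSeries (Fin (n - h)) (GaloisField p n),
      (∀ y, Orb M x y → ev (kap y.P y.ρ y.t i) (G.map ι) = 0) ∧
      ∃ y, Orb M x y ∧ ∃ l, ev (kap y.P y.ρ y.t i) ((pderiv (GaloisField p n) l G).map ι) ≠ 0 := by
  classical
  have hrad : (orbIdeal M x i).IsRadical := by
    intro G hG
    obtain ⟨m, hm⟩ := hG
    intro y hy
    have h2 := hm y hy
    rw [map_pow, ev_pow (kap_tn y i)] at h2
    exact eq_zero_of_pow_eq_zero h2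
  have htop : orbIdeal M x i ≠ ⊤ := by
    intro h2
    have h3 : (1 : MvPowerSeries (Fin (n - h)) (GaloisField p n)) ∈ orbIdeal M x i := by
      rw [h2]; exact Submodule.mem_top
    have h4 := h3 x (Orb.refl hn x)
    rw [map_one, ev_one (kap_tn x i)] at h4
    exact one_ne_zero h4
  have hbot : orbIdeal M x i ≠ ⊥ := by
    obtain ⟨F, hF⟩ := drinfeld h1 hh i hi f
    intro h2
    have h3 : F ∈ orbIdeal M x i := by
      intro y hy
      rw [← hF K ι y]
      exact hy.kill hkill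
    rw [h2, Ideal.mem_bot] at h3
    obtain ⟨K', i1, i2, i3, i4, i5, ι', x', hx'⟩ := exists_mk_ne h1 hh f hf
    apply hx'
    rw [hF K' ι' x', h3, map_zero, ev_zero (kap_tn x' i)]
  obtain ⟨G, hG, l, hl⟩ := exists_pderiv_not_mem p (orbIdeal M x i) hrad hbot htop
  refine ⟨G, hG, ?_⟩
  rw [mem_orbIdeal] at hl
  push Not at hl
  obtain ⟨y, hy, hne⟩ := hl
  exact ⟨y, hy, l, hne⟩

theorem exists_phi (hn : 1 ≤ n) (hU : IsUniversalDeformation p n (Fn p n) (H1 p n))
    (h1 : 1 ≤ h) (hh : h < n) (hM : 1 ≤ M) (x : Mk p n h K ι) (i : ℕ) (hi : 1 ≤ i)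
    (hMi : M ≤ p ^ (n * i)) (f : LTRing p n) (hf : f ∉ II p n h)
    (hkill : ∀ φ, IsStab p n M φ → x.P.X (φ f) = 0) :
    ∃ y, Orb M x y ∧ ∃ Φ : MvPowerSeries (Fin (n - h)) (Ob K),
      (∃ l, coeff (Finsupp.single l 1) Φ ≠ 0) ∧
      ∀ A, IsAct ι A → ∀ δ : ℝ, (∀ l, ‖(y.ρ (A (y.t l))).val‖ ≤ δ) →
        ‖ev (fun l => (y.ρ (A (y.t l))).val) Φ‖ ≤ δ ^ p ^ (h * i) := by
  obtain ⟨G, hG, y, hy, l, hl⟩ := exists_gradient hn h1 hh x i hi f hf hkill
  refine ⟨y, hy, ?_⟩
  have hGy : ∀ w, Orb M y w → ev (kap w.P w.ρ w.t i) (G.map ι) = 0 := fun w hw =>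
    hG w (hy.trans hw)
  set kh : Fin (n - h) → FPt y.P.F := fun l => y.ρ (nfr (-((n * i : ℕ) : ℤ)) (y.t l)) with hkh
  set G' : MvPowerSeries (Fin (n - h)) (Ob K) :=
    (G.map ι).map (fz p (-((h * i : ℕ) : ℤ)) : Ob K ≃+* Ob K).toRingHom with hG'
  have hkhn : ∀ l, ‖(kh l).val‖ < 1 := fun l => FPt.norm_lt _ _
  refine ⟨negSer y.P.F (Circuit.translate y.P.F (fun l => (kh l).val) G'), ⟨l, ?_⟩, ?_⟩
  · rw [coeff_negSer, neg_ne_zero]
    obtain ⟨u, hu, hu2⟩ := Circuit.coeff_translate y.P.F (e₀ := fun l => (kh l).val) hkhn G' l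
    rw [hu2]
    refine mul_ne_zero ?_ hu
    have h2 := map_ev (kap_tn y i) (fz p (-((h * i : ℕ) : ℤ)) : Ob K ≃+* Ob K).toRingHom
      (continuous_fz _) ((pderiv (GaloisField p n) l G).map ι)
    have h3 : (fun j => (fz p (-((h * i : ℕ) : ℤ)) : Ob K ≃+* Ob K).toRingHom
        (kap y.P y.ρ y.t i j)) = fun l => (kh l).val := by
      funext j
      have h4 := fz_natCast (p := p) (h * i) (kh j).val
      change fz p (-((h * i : ℕ) : ℤ)) (kap y.P y.ρ y.t i j) = (kh j).val
      rw [kap, ← h4, ← fz_add, neg_add_cancel, fz_zero]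
      rfl
    rw [h3, map_pderiv', map_pderiv', ← hG'] at h2
    rw [← h2]
    intro h5
    apply hl
    rw [map_pderiv'] at *
    exact (map_eq_zero_iff _ (RingEquiv.injective _)).1 h5
  · intro A hA δ hδ
    have hAn : ∀ l, ‖(y.ρ (A (y.t l))).val‖ < 1 := fun l => FPt.norm_lt _ _
    have hneg : ∀ l, ‖ev₁ (y.ρ (A (y.t l))).val (fnegSeries y.P.F)‖ < 1 := fun l =>
      FPt.norm_lt _ (-(y.ρ (A (y.t l))))
    rw [ev_negSer _ hAn, Circuit.ev_translate _ hkhn hneg]
    have h2 := key_ineq hn hU h1 hh hM y i hi hMi G hGy hA δ hδ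
    convert h2 using 3
    funext l
    rw [sub_eq_add_neg]
    rfl

end Crest.Agent.R227
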