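import Crest.Agent.R227.CoDefs
import Crest.Agent.R227.Circuit3
import Crest.Agent.R227.Psi

/-! # R227 / CoRelAux : from approximate relations to a relation over `End` (helper251) -/

set_option autoImplicit false
set_option linter.unusedSectionVars false

noncomputable section

namespace Crest.Agent.R227

open Crest.LubinTate MvPowerSeries Topology

theorem circuit' {K : Type*} [NormedField K] [IsUltrametricDist K] [CompleteSpace K]
    {κ : Type*} [Field κ] [Fintype κ] (ι : κ →+* Ob K) (Γ : FormalGroup κ) [Γ.IsComm]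
    {G : FormalGroup (Ob K)} [G.IsComm] (hΓ : Γ.map ι = G) {σ : Type*} [Fintype σ]
    (EE : AddSubmonoid (σ → FPt G))
    (hfrob : ∀ e ∈ EE, ∃ e' ∈ EE, ∀ l, (e' l).val = (e l).val ^ Fintype.card κ)
    (hG : ∃ F : MvPowerSeries σ κ, F ≠ 0 ∧ ∀ e ∈ EE, ev (fun l => (e l).val) (F.map ι) = 0) :
    ∃ (A : σ → PowerSeries κ) (hA : ∀ l, IsFGHom G G ((A l).map ι)),
      (∃ l₀, ∀ z, FPt.hom (hA l₀) z = -z) ∧ ∀ e ∈ EE, ∑ l, FPt.hom (hA l) (e l) = 0 := by
  subst hΓ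
  obtain ⟨A, hA, ⟨l₀, hl₀⟩, h⟩ := circuit_fq ι Γ EE hfrob hG
  refine ⟨A, fun l => IsFGHom.map ι (hA l), ⟨l₀, fun z => ?_⟩, h⟩
  rw [← Circuit.hom_fneg ι (isFGHom_fnegSeries Γ) z]
  apply FPt.ext
  rw [FPt.hom_val, FPt.hom_val, hl₀]

namespace CoRelAux

section general

variable {p : ℕ} [Fact p.Prime]
variable {K : Type} [NontriviallyNormedField K] [IsUltrametricDist K] [CompleteSpace K]
  [IsAlgClosed K] [CharP K p]

/-- the embedding of `F_{p^j}` in the ball -/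
theorem exists_iotaQ (p : ℕ) [Fact p.Prime] (K : Type) [NontriviallyNormedField K]
    [IsUltrametricDist K] [CompleteSpace K] [IsAlgClosed K] [CharP K p] {j : ℕ} (hj : 1 ≤ j) :
    ∃ ι : GaloisField p j →+* Ob K, (∀ y, ι y ^ p ^ j = ι y) ∧
      ∀ x : Ob K, x ^ p ^ j = x → ∃ y, ι y = x := by
  obtain ⟨ι, h1, h2⟩ := exists_galoisField_embedding (K := K) p j hj
  have hnorm : ∀ y, ‖ι y‖ ≤ 1 := by
    intro y
    by_contra hlt
    push Not at hlt
    have h2 : 1 < p ^ j := Nat.one_lt_pow (by omega) (Fact.out : p.Prime).one_lt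
    have h3 : ‖ι y‖ ^ 1 < ‖ι y‖ ^ p ^ j := pow_lt_pow_right₀ hlt h2
    rw [pow_one, ← norm_pow, h1] at h3
    exact lt_irrefl _ h3
  refine ⟨ι.codRestrict (Ob K) (fun y => hnorm y), fun y => Subtype.ext (h1 y), fun x hx => ?_⟩
  obtain ⟨y, hy⟩ := h2 (x : K) (by
    have := congrArg Subtype.val hx
    simpa using this)
  exact ⟨y, Subtype.ext hy⟩

variable {n h : ℕ}

theorem HO_map {R S : Type*} [CommRing R] [CommRing S] (f : R →+* S) (n j : ℕ) :
    (HO p n j R).map f = HO p n j S := by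
  rw [HO, hz_map]
  congr 1
  funext i
  rw [sp, sp]
  split_ifs <;> simp

instance (n j : ℕ) (R : Type*) [CommRing R] : (HO p n j R).IsComm := by
  unfold HO; infer_instance

end general

section main

variable {p : ℕ} [Fact p.Prime] {n h : ℕ}
variable {K : Type} [NontriviallyNormedField K] [IsUltrametricDist K] [CompleteSpace K]
  [IsAlgClosed K] [CharP K p]

theorem exists_vanish (h1 : 1 ≤ h) {r : ℕ} {G : FormalGroup (Ob K)}
    (ιQ : GaloisField p h →+* Ob K) (EE : Set (Fin r → FPt G)) (hA : ApproxPoly p h EE) :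
    ∃ F : MvPowerSeries (Fin r) (GaloisField p h), F ≠ 0 ∧
      ∀ e ∈ EE, ev (fun l => (e l).val) (F.map ιQ) = 0 := by
  classical
  let _ : Fintype (GaloisField p h) := Fintype.ofFinite _
  have hcard : Fintype.card (GaloisField p h) = p ^ h := by
    rw [← Nat.card_eq_fintype_card]; exact GaloisField.card p h (by omega)
  -- one linear coefficient works for all `N`
  obtain ⟨l, hl⟩ : ∃ l : Fin r, ∀ N : ℕ, ∃ D : ℕ, N ≤ D ∧ ∃ Φ : MvPolynomial (Fin r) K,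
      Φ.coeff (Finsupp.single l 1) ≠ 0 ∧
      ∀ e ∈ EE, ∀ δ : ℝ, (∀ l, ‖(e l).val‖ ≤ δ) → ∃ B : ℝ, 0 ≤ B ∧ ∃ s₀ : ℕ, ∀ s, s₀ ≤ s →
      ‖MvPolynomial.eval (fun l => (((e l).val : Ob K) : K) ^ (p ^ h) ^ s) Φ‖
        ≤ B * (δ ^ D) ^ (p ^ h) ^ s := by
    by_contra hcon
    push Not at hcon
    choose N hN using hcon
    obtain ⟨D, hD, Φ, ⟨l, hl⟩, hΦ⟩ := hA (Finset.univ.sup N)
    obtain ⟨e, he, δ, hδ, hc⟩ := hN l D ((Finset.le_sup (Finset.mem_univ l)).trans hD) Φ hl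
    obtain ⟨B, hB, s₀, hs⟩ := hΦ e he δ hδ
    obtain ⟨s, hs1, hs2⟩ := hc B hB s₀
    exact absurd (hs s hs1) (not_le.2 hs2)
  let EE' : Set (Fin r → Ob K) := Circuit.vals '' EE
  have hEE' : ∀ e ∈ EE', ∀ l, ‖e l‖ < 1 := by
    rintro _ ⟨e, _, rfl⟩ l
    exact Circuit.vals_lt e l
  obtain ⟨F, hF, hF'⟩ := Descent.desc_gen ιQ EE' hEE' (Finsupp.single l 1) (by
    intro N
    obtain ⟨D, hD, Φ, hΦ, hΦe⟩ := hl N
    refine ⟨D, hD, Φ, hΦ, ?_⟩
    rintro _ ⟨e, he, rfl⟩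
    obtain ⟨B, hB, s₀, hs⟩ := hΦe e he (Descent.supn (Circuit.vals e))
      (fun l => Descent.norm_le_supn (Circuit.vals e) l)
    refine ⟨B, hB, s₀, fun s hss => ?_⟩
    rw [hcard]
    exact hs s hss)
  refine ⟨F, ?_, fun e he => hF' _ ⟨e, he, rfl⟩⟩
  rintro rfl
  exact hF (map_zero _)

end main

end CoRelAux
end Crest.Agent.R227
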