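import Crest.Agent.R227.CoDefs
import Crest.Agent.R227.CoV
import Crest.Agent.R227.CoRelAux

/-! # R227 / CoRel : descent + circuit (task COREL), parts (D2), (E) of note 4224 -/

set_option autoImplicit false
set_option linter.unusedSectionVars false

noncomputable section

namespace Crest.Agent.R227

open Crest.LubinTate MvPowerSeries Topology

variable {p : ℕ} [Fact p.Prime] {n h : ℕ}
variable {K : Type} [NontriviallyNormedField K] [IsUltrametricDist K] [CompleteSpace K]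
  [IsAlgClosed K] [CharP K p]

theorem circuit (h1 : 1 ≤ h) (hh : h < n) {r : ℕ}
    (EE : AddSubgroup (Fin r → FPt (HO p n h (Ob K)))) (r0 : ℝ) (hr0 : r0 < 1)
    (hb : ∀ e ∈ EE, ∀ l, ‖(e l).val‖ ≤ r0)
    (hA : ApproxPoly p h (EE : Set (Fin r → FPt (HO p n h (Ob K))))) :
    ∃ (l0 : Fin r) (A : Fin r → (FPt (HO p n h (Ob K)) →+ FPt (HO p n h (Ob K)))),
      (∀ l, IsQEnd (A l)) ∧ ∀ e ∈ EE, e l0 = ∑ l ∈ Finset.univ.erase l0, A l (e l) := by
  classical
  obtain ⟨ιQ, hQ1, -⟩ := CoRelAux.exists_iotaQ p K h1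
  let _ : Fintype (GaloisField p h) := Fintype.ofFinite _
  have hcard : Fintype.card (GaloisField p h) = p ^ h := by
    rw [← Nat.card_eq_fintype_card]; exact GaloisField.card p h (by omega)
  obtain ⟨F, hF0, hF⟩ := CoRelAux.exists_vanish h1 ιQ (EE : Set (Fin r → FPt (HO p n h (Ob K)))) hA
  have hfrob : ∀ e ∈ EE.toAddSubmonoid, ∃ e' ∈ EE.toAddSubmonoid,
      ∀ l, (e' l).val = (e l).val ^ Fintype.card (GaloisField p h) := by
    intro e he
    refine ⟨p • e, EE.toAddSubmonoid.nsmul_mem he p, fun l => ?_⟩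
    have := HO_pow_smul (p := p) (K := K) h1 hh.le 1 (e l)
    rw [pow_one, mul_one] at this
    rw [hcard, Pi.smul_apply, this, nfr_val, fz_natCast]
  obtain ⟨A, hA', ⟨l₀, hl₀⟩, hrel⟩ := circuit' ιQ (HO p n h (GaloisField p h))
    (G := HO p n h (Ob K)) (CoRelAux.HO_map ιQ n h) EE.toAddSubmonoid hfrob ⟨F, hF0, hF⟩
  refine ⟨l₀, fun l => FPt.hom (hA' l), fun l => ⟨(A l).map ιQ, hA' l, fun m => ?_, fun z => rfl⟩,
    fun e he => ?_⟩
  · rw [PowerSeries.coeff_map]
    exact hQ1 _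
  · have h := hrel e he
    rw [← Finset.add_sum_erase _ _ (Finset.mem_univ l₀), hl₀, neg_add_eq_zero] at h
    exact h

end Crest.Agent.R227
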