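import Crest.Agent.R227.CoV

/-! # R227 / CoRho : the universal cover map `ρ(z) = lim [p^i]_F(z^{q^{-i}})` (task CORHO) -/

set_option autoImplicit false
set_option linter.unusedSectionVars false

noncomputable section

namespace Crest.Agent.R227

open Crest.LubinTate MvPowerSeries Topology

variable {p : ℕ} [Fact p.Prime] {n h : ℕ}
variable {K : Type} [NontriviallyNormedField K] [IsUltrametricDist K] [CompleteSpace K]
  [IsAlgClosed K] [CharP K p]

theorem FPt.norm_sub_le_iff (F : FormalGroup (Ob K)) [F.IsComm] (a b : FPt F) (r : ℝ) :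
    ‖(a - b).val‖ ≤ r ↔ ‖a.val - b.val‖ ≤ r := by
  rcases le_or_gt 0 r with hr | hr
  · rw [← mem_normIdeal r hr, ← mem_normIdeal r hr]
    exact FPt.sub_mem_iff F a b _ (isClosed_normIdeal r hr)
  · constructor
    · intro h
      exact absurd ((norm_nonneg _).trans h) (not_le.2 hr)
    · intro h
      exact absurd ((norm_nonneg _).trans h) (not_le.2 hr)

/-- norms of differences of points -/
theorem FPt.norm_sub (F : FormalGroup (Ob K)) [F.IsComm] (a b : FPt F) :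
    ‖(a - b).val‖ = ‖a.val - b.val‖ :=
  le_antisymm ((FPt.norm_sub_le_iff F a b _).2 le_rfl) ((FPt.norm_sub_le_iff F a b _).1 le_rfl)

theorem FPt.norm_add_le (F : FormalGroup (Ob K)) [F.IsComm] (a b : FPt F) (r : ℝ)
    (ha : ‖a.val‖ ≤ r) (hb : ‖b.val‖ ≤ r) : ‖(a + b).val‖ ≤ r := by
  have hr : 0 ≤ r := (norm_nonneg _).trans ha
  rw [← mem_normIdeal r hr] at ha hb ⊢
  exact FPt.add_mem F a b _ (isClosed_normIdeal r hr) ha hb

theorem FPt.norm_neg (F : FormalGroup (Ob K)) [F.IsComm] (a : FPt F) :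
    ‖(-a).val‖ = ‖a.val‖ := by
  have h := FPt.norm_sub F 0 a
  rw [zero_sub] at h
  rw [h, FPt.val_zero, zero_sub, _root_.norm_neg]

theorem FPt.norm_sum_le (F : FormalGroup (Ob K)) [F.IsComm] {σ : Type*} (s : Finset σ)
    (a : σ → FPt F) (r : ℝ) (hr : 0 ≤ r) (ha : ∀ i ∈ s, ‖(a i).val‖ ≤ r) :
    ‖(∑ i ∈ s, a i).val‖ ≤ r := by
  classical
  induction s using Finset.induction_on with
  | empty => simpa using hr
  | insert i s hi ih =>
    rw [Finset.sum_insert hi]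
    exact FPt.norm_add_le F _ _ r (ha i (Finset.mem_insert_self i s))
      (ih fun j hj => ha j (Finset.mem_insert_of_mem hj))

/-- `z = p^i (z^{q^{-i}})` -/
theorem HO_smul_nfr (hn : 1 ≤ n) (i : ℕ) (z : FPt (HO p n n (Ob K))) :
    (p ^ i) • nfr (-((n * i : ℕ) : ℤ)) z = z := by
  rw [HO_pow_smul hn le_rfl, ← nfr_add, add_neg_cancel, nfr_zero]

theorem tendsto_pow_tower (h1 : 1 ≤ h) {r : ℝ} (hr0 : 0 ≤ r) (hr : r < 1) :
    Filter.Tendsto (fun i : ℕ => r ^ p ^ (h * i)) Filter.atTop (𝓝 0) := by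
  have hp : 2 ≤ p := (Fact.out : p.Prime).two_le
  refine (tendsto_pow_atTop_nhds_zero_of_lt_one hr0 hr).comp ?_
  refine Filter.tendsto_atTop_mono (fun i => ?_) Filter.tendsto_id
  have h2 : i ≤ h * i := Nat.le_mul_of_pos_left i h1
  exact h2.trans (Nat.lt_pow_self (by omega)).le

/-- rigidity: two additive maps which are close are equal
(`ρ z - ρ' z = p^i (ρ (z/p^i) - ρ' (z/p^i))`). -/
theorem rho_unique (h1 : 1 ≤ h) (hh : h < n) (P : HPoint p n h K)
    (ρ ρ' : FPt (HO p n n (Ob K)) →+ FPt P.F) (r : ℝ) (hr : r < 1)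
    (hc : ∀ z, ‖(ρ z).val - (ρ' z).val‖ ≤ r) : ρ = ρ' := by
  have hr0 : 0 ≤ r := (norm_nonneg _).trans (hc 0)
  refine AddMonoidHom.ext fun z => FPt.ext ?_
  have key : ∀ i : ℕ, ‖(ρ z).val - (ρ' z).val‖ ≤ r ^ p ^ (h * i) := by
    intro i
    have hz := HO_smul_nfr (p := p) (K := K) (h1.trans hh.le) i z
    rw [← FPt.norm_sub, ← hz, map_nsmul, map_nsmul, ← nsmul_sub]
    refine (norm_pow_smul_le h1 hh P i _).trans ?_
    refine pow_le_pow_left₀ (norm_nonneg _) ?_ _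
    rw [FPt.norm_sub]
    exact hc _
  have h0 : ‖(ρ z).val - (ρ' z).val‖ ≤ 0 :=
    ge_of_tendsto' (tendsto_pow_tower h1 hr0 hr) key
  exact sub_eq_zero.1 (norm_le_zero_iff.1 h0)

/-- the `i`-th approximation of `ρ z` -/
def rhoApp (P : HPoint p n h K) (i : ℕ) (z : FPt (HO p n n (Ob K))) : FPt P.F :=
  (p ^ i) • toPt P.F (fz p (-((n * i : ℕ) : ℤ)) z.val)

theorem norm_nfr_lt (k : ℤ) (z : FPt (HO p n n (Ob K))) : ‖fz p k z.val‖ < 1 := by
  rw [← nfr_val]
  exact FPt.norm_lt _ _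

theorem toPt_nfr_val (P : HPoint p n h K) (k : ℤ) (z : FPt (HO p n n (Ob K))) :
    (toPt P.F (fz p k z.val)).val = fz p k z.val :=
  toPt_val P.F (norm_nfr_lt k z)

/-- `[p]_F(a) ≡ a^q` -/
theorem norm_smul_sub_pow_le (h1 : 1 ≤ h) (hh : h < n) (P : HPoint p n h K) (a : FPt P.F) :
    ‖((p ^ 1) • a).val - a.val ^ p ^ n‖ ≤ P.c := by
  obtain ⟨V, hV⟩ := exists_Vi h1 hh P 1
  have ha : ‖a.val ^ p ^ (h * 1)‖ < 1 :=
    (Ob_tn_iff _).1 (FPtAux.map_tn (iterateFrobenius (Ob K) p (h * 1))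
      (FPtAux.continuous_frob p _) a.tn)
  have hb : ∀ _ : Unit, ‖a.val ^ p ^ (h * 1)‖ < 1 := fun _ => ha
  have hbt : ∀ _ : Unit, IsTopologicallyNilpotent (a.val ^ p ^ (h * 1)) := fun _ =>
    (Ob_tn_iff _).2 ha
  rw [hV.ev]
  have h2 : a.val ^ p ^ n = ev₁ (a.val ^ p ^ (h * 1))
      ((PowerSeries.X : PowerSeries (Ob K)) ^ p ^ ((n - h) * 1)) := by
    rw [ev₁, ev_pow hbt]
    have h3 : ev (fun _ : Unit => a.val ^ p ^ (h * 1)) (PowerSeries.X : PowerSeries (Ob K)) =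
        a.val ^ p ^ (h * 1) := ev_X hbt ()
    rw [h3, ← pow_mul, ← pow_add]
    congr 2
    omega
  rw [h2, ev₁, ev₁, ← ev_sub hbt]
  refine norm_ev_le_of_coeff hb P.c P.c_nonneg _ fun d => ?_
  have hd : d = Finsupp.single () (d ()) := by
    ext; simp
  have h4 := hV.near (d ())
  have h5 : coeff d (V - (PowerSeries.X : PowerSeries (Ob K)) ^ p ^ ((n - h) * 1)) =
      PowerSeries.coeff (d ()) V - (if d () = p ^ ((n - h) * 1) then 1 else 0) := by
    rw [map_sub]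
    have h6 : coeff d ((PowerSeries.X : PowerSeries (Ob K)) ^ p ^ ((n - h) * 1)) =
      PowerSeries.coeff (d ()) ((PowerSeries.X : PowerSeries (Ob K)) ^ p ^ ((n - h) * 1)) := by
      rw [PowerSeries.coeff]
      rw [← hd]
    have h7 : coeff d V = PowerSeries.coeff (d ()) V := by
      rw [PowerSeries.coeff]
      rw [← hd]
    rw [h6, h7, PowerSeries.coeff_X_pow]
  rw [h5]
  exact h4

theorem fz_pow_succ (n i : ℕ) (x : Ob K) :
    fz p (-((n * (i + 1) : ℕ) : ℤ)) x ^ p ^ n = fz p (-((n * i : ℕ) : ℤ)) x := by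
  rw [← fz_natCast, ← fz_add]
  congr 2
  push_cast
  ring

theorem norm_rhoApp_succ (h1 : 1 ≤ h) (hh : h < n) (P : HPoint p n h K) (i : ℕ)
    (z : FPt (HO p n n (Ob K))) :
    ‖(rhoApp P (i + 1) z - rhoApp P i z).val‖ ≤ P.c ^ p ^ (h * i) := by
  have h2 : rhoApp P (i + 1) z - rhoApp P i z =
      (p ^ i) • ((p ^ 1) • toPt P.F (fz p (-((n * (i + 1) : ℕ) : ℤ)) z.val) -
        toPt P.F (fz p (-((n * i : ℕ) : ℤ)) z.val)) := by
    rw [nsmul_sub, ← mul_nsmul', ← pow_add]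
    rfl
  rw [h2]
  refine (norm_pow_smul_le h1 hh P i _).trans ?_
  refine pow_le_pow_left₀ (norm_nonneg _) ?_ _
  rw [FPt.norm_sub]
  have h3 := norm_smul_sub_pow_le h1 hh P (toPt P.F (fz p (-((n * (i + 1) : ℕ) : ℤ)) z.val))
  rw [toPt_nfr_val, fz_pow_succ] at h3
  rw [toPt_nfr_val P (-((n * i : ℕ) : ℤ))]
  exact h3

theorem norm_rhoApp_add (h1 : 1 ≤ h) (hh : h < n) (P : HPoint p n h K) (i j : ℕ)
    (z : FPt (HO p n n (Ob K))) :
    ‖(rhoApp P (i + j) z - rhoApp P i z).val‖ ≤ P.c ^ p ^ (h * i) := by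
  have hc0 := P.c_nonneg
  have hc1 := P.c_lt_one
  induction j with
  | zero =>
    rw [add_zero, sub_self, FPt.val_zero, norm_zero]
    positivity
  | succ j ih =>
    have h2 : rhoApp P (i + (j + 1)) z - rhoApp P i z =
        (rhoApp P (i + j + 1) z - rhoApp P (i + j) z) + (rhoApp P (i + j) z - rhoApp P i z) := by
      rw [sub_add_sub_cancel]
      rfl
    rw [h2]
    refine FPt.norm_add_le _ _ _ _ ((norm_rhoApp_succ h1 hh P (i + j) z).trans ?_) ih
    refine pow_le_pow_of_le_one hc0 hc1.le ?_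
    exact Nat.pow_le_pow_right (Fact.out : p.Prime).pos (Nat.mul_le_mul_left h (Nat.le_add_right i j))

theorem exists_rhoLim (h1 : 1 ≤ h) (hh : h < n) (P : HPoint p n h K)
    (z : FPt (HO p n n (Ob K))) :
    ∃ y : FPt P.F, ∀ i, ‖(y - rhoApp P i z).val‖ ≤ P.c ^ p ^ (h * i) := by
  have hc0 := P.c_nonneg
  have hc1 := P.c_lt_one
  have hcau : CauchySeq (fun i => (rhoApp P i z).val) := by
    refine Metric.cauchySeq_iff'.2 fun ε hε => ?_
    obtain ⟨N, hN⟩ := ((tendsto_pow_tower (p := p) h1 hc0 hc1).eventually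
      (gt_mem_nhds hε)).exists
    refine ⟨N, fun m hm => ?_⟩
    obtain ⟨j, rfl⟩ := Nat.exists_eq_add_of_le hm
    rw [dist_eq_norm, ← FPt.norm_sub]
    exact (norm_rhoApp_add h1 hh P N j z).trans_lt hN
  obtain ⟨y, hy⟩ := cauchySeq_tendsto_of_complete hcau
  have hlim : ∀ i, ‖y - (rhoApp P i z).val‖ ≤ P.c ^ p ^ (h * i) := by
    intro i
    have h2 : Filter.Tendsto (fun m => ‖(rhoApp P m z).val - (rhoApp P i z).val‖) Filter.atTop
        (𝓝 ‖y - (rhoApp P i z).val‖) := (hy.sub_const _).norm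
    refine le_of_tendsto h2 ?_
    filter_upwards [Filter.eventually_ge_atTop i] with m hm
    obtain ⟨j, rfl⟩ := Nat.exists_eq_add_of_le hm
    rw [← FPt.norm_sub]
    exact norm_rhoApp_add h1 hh P i j z
  have hylt : ‖y‖ < 1 := by
    have h2 : y = (y - (rhoApp P 0 z).val) + (rhoApp P 0 z).val := by ring
    rw [h2]
    refine (IsUltrametricDist.norm_add_le_max _ _).trans_lt (max_lt ?_ (FPt.norm_lt _ _))
    refine (hlim 0).trans_lt ?_
    simpa using hc1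
  refine ⟨mkPt P.F y hylt, fun i => ?_⟩
  rw [FPt.norm_sub, mkPt_val]
  exact hlim i

/-- approximate additivity -/
theorem norm_rhoApp_map_add (h1 : 1 ≤ h) (hh : h < n) (P : HPoint p n h K) (i : ℕ)
    (a b : FPt (HO p n n (Ob K))) :
    ‖(rhoApp P i (a + b) - (rhoApp P i a + rhoApp P i b)).val‖ ≤ P.c ^ p ^ (h * i) := by
  have h2 : rhoApp P i (a + b) - (rhoApp P i a + rhoApp P i b) =
      (p ^ i) • (toPt P.F (fz p (-((n * i : ℕ) : ℤ)) (a + b).val) -
        (toPt P.F (fz p (-((n * i : ℕ) : ℤ)) a.val) +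
          toPt P.F (fz p (-((n * i : ℕ) : ℤ)) b.val))) := by
    rw [nsmul_sub, nsmul_add]
    rfl
  rw [h2]
  refine (norm_pow_smul_le h1 hh P i _).trans ?_
  refine pow_le_pow_left₀ (norm_nonneg _) ?_ _
  rw [FPt.norm_sub, toPt_nfr_val, ← nfr_val, map_add, FPt.val_add, FPt.val_add, toPt_nfr_val,
    toPt_nfr_val, nfr_val, nfr_val]
  have hlt : ∀ j : Fin 2, ‖(![fz p (-((n * i : ℕ) : ℤ)) a.val, fz p (-((n * i : ℕ) : ℤ)) b.val] :
      Fin 2 → Ob K) j‖ < 1 := by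
    intro j
    fin_cases j
    · exact norm_nfr_lt _ a
    · exact norm_nfr_lt _ b
  have htn := fun j => (Ob_tn_iff _).2 (hlt j)
  rw [← ev_sub htn]
  refine norm_ev_le_of_coeff hlt P.c P.c_nonneg _ fun d => ?_
  rw [map_sub, ← _root_.norm_neg, neg_sub]
  exact P.coeff_F_sub d

theorem exists_rho (h1 : 1 ≤ h) (hh : h < n) (P : HPoint p n h K) : ∃ ρ, IsRho P ρ := by
  choose f hf using exists_rhoLim h1 hh P
  have hc0 := P.c_nonneg
  have hc1 := P.c_lt_one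
  have hadd : ∀ a b, f (a + b) = f a + f b := by
    intro a b
    have key : ∀ i : ℕ, ‖(f (a + b) - (f a + f b)).val‖ ≤ P.c ^ p ^ (h * i) := by
      intro i
      have h2 : f (a + b) - (f a + f b) = (f (a + b) - rhoApp P i (a + b)) +
          ((rhoApp P i (a + b) - (rhoApp P i a + rhoApp P i b)) +
            (-(f a - rhoApp P i a) + -(f b - rhoApp P i b))) := by
        abel
      rw [h2]
      refine FPt.norm_add_le _ _ _ _ (hf _ i) (FPt.norm_add_le _ _ _ _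
        (norm_rhoApp_map_add h1 hh P i a b) (FPt.norm_add_le _ _ _ _ ?_ ?_))
      · rw [FPt.norm_neg]; exact hf a i
      · rw [FPt.norm_neg]; exact hf b i
    have h0 : ‖(f (a + b) - (f a + f b)).val‖ ≤ 0 :=
      ge_of_tendsto' (tendsto_pow_tower h1 hc0 hc1) key
    have h3 : f (a + b) - (f a + f b) = 0 := FPt.ext (norm_le_zero_iff.1 h0)
    exact sub_eq_zero.1 h3
  refine ⟨AddMonoidHom.mk' f hadd, ⟨fun z => ?_⟩⟩
  have h2 := hf z 0
  rw [FPt.norm_sub] at h2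
  have h3 : (rhoApp P 0 z).val = z.val := by
    rw [rhoApp, pow_zero, one_nsmul, toPt_nfr_val, Nat.mul_zero, Nat.cast_zero, neg_zero, fz_zero]
    rfl
  rw [h3, Nat.mul_zero, pow_zero, pow_one] at h2
  exact h2

section

variable {P : HPoint p n h K} {ρ : FPt (HO p n n (Ob K)) →+ FPt P.F}

theorem IsRho.approx (h1 : 1 ≤ h) (hh : h < n) (hρ : IsRho P ρ) (i : ℕ)
    (z : FPt (HO p n n (Ob K))) :
    ‖(ρ z).val - ((p ^ i) • toPt P.F (fz p (-((n * i : ℕ) : ℤ)) z.val)).val‖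
      ≤ P.c ^ p ^ (h * i) := by
  have hz := HO_smul_nfr (p := p) (K := K) (h1.trans hh.le) i z
  have h2 : ρ z = (p ^ i) • ρ (nfr (-((n * i : ℕ) : ℤ)) z) := by
    rw [← map_nsmul, hz]
  rw [← FPt.norm_sub, h2, ← nsmul_sub]
  refine (norm_pow_smul_le h1 hh P i _).trans ?_
  refine pow_le_pow_left₀ (norm_nonneg _) ?_ _
  rw [FPt.norm_sub, toPt_nfr_val]
  exact hρ.near _

/-- same with `V_i`: `ρ z = V_i(ρ(z^{q^{-i}})^{Q^i})` -/
theorem IsRho.eq_V (h1 : 1 ≤ h) (hh : h < n) (hρ : IsRho P ρ) (i : ℕ) {V : PowerSeries (Ob K)}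
    (hV : IsVi P i V) (z : FPt (HO p n n (Ob K))) :
    (ρ z).val = ev₁ ((ρ (nfr (-((n * i : ℕ) : ℤ)) z)).val ^ p ^ (h * i)) V := by
  have hz := HO_smul_nfr (p := p) (K := K) (h1.trans hh.le) i z
  have h2 : ρ z = (p ^ i) • ρ (nfr (-((n * i : ℕ) : ℤ)) z) := by
    rw [← map_nsmul, hz]
  rw [← hV.ev, ← h2]

theorem IsRho.norm_le_max (hρ : IsRho P ρ) (z : FPt (HO p n n (Ob K))) :
    ‖(ρ z).val‖ ≤ max ‖z.val‖ P.c := by
  have h2 : (ρ z).val = z.val + ((ρ z).val - z.val) := by ring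
  rw [h2]
  exact (IsUltrametricDist.norm_add_le_max _ _).trans (max_le_max le_rfl (hρ.near z))

theorem IsRho.norm_le (h1 : 1 ≤ h) (hh : h < n) (hρ : IsRho P ρ) (i : ℕ)
    (z : FPt (HO p n n (Ob K))) (hz : ‖z.val‖ ≤ P.c ^ p ^ (n * i)) :
    ‖(ρ z).val‖ ≤ P.c ^ p ^ (h * i) := by
  have hc0 := P.c_nonneg
  have hz2 := HO_smul_nfr (p := p) (K := K) (h1.trans hh.le) i z
  have h2 : ρ z = (p ^ i) • ρ (nfr (-((n * i : ℕ) : ℤ)) z) := by
    rw [← map_nsmul, hz2]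
  rw [h2]
  refine (norm_pow_smul_le h1 hh P i _).trans ?_
  refine pow_le_pow_left₀ (norm_nonneg _) ?_ _
  refine (hρ.norm_le_max _).trans (max_le ?_ le_rfl)
  rw [nfr_val]
  have h3 := norm_fz_neg (p := p) (n * i) z.val
  rw [← h3] at hz
  exact (pow_le_pow_iff_left₀ (norm_nonneg _) hc0
    (pow_ne_zero _ (Fact.out : p.Prime).ne_zero)).1 hz

theorem coeff_mulSeries_sub (P P' : HPoint p n h K) (m k : ℕ) :
    ‖PowerSeries.coeff k (mulSeries P.F m) - PowerSeries.coeff k (mulSeries P'.F m)‖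
      ≤ P.pdist P' := by
  have h0 := P.pdist_nonneg P'
  rw [← mem_normIdeal _ h0, ← Ideal.Quotient.eq, ← PowerSeries.coeff_map, ← PowerSeries.coeff_map,
    mulSeries_map, mulSeries_map]
  congr 2
  apply FormalGroup.ext
  ext d
  change Ideal.Quotient.mk _ (coeff d P.F.toPowerSeries) =
    Ideal.Quotient.mk _ (coeff d P'.F.toPowerSeries)
  rw [Ideal.Quotient.eq, mem_normIdeal]
  exact P.coeff_F_sub_F P' d

/-- continuity of `ρ` in the point -/
theorem IsRho.dist_le (h1 : 1 ≤ h) (hh : h < n) (hρ : IsRho P ρ) {P' : HPoint p n h K}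
    {ρ' : FPt (HO p n n (Ob K)) →+ FPt P'.F} (hρ' : IsRho P' ρ') (z : FPt (HO p n n (Ob K))) :
    ‖(ρ z).val - (ρ' z).val‖ ≤ P.pdist P' := by
  have h0 := P.pdist_nonneg P'
  have key : ∀ i : ℕ, ‖(ρ z).val - (ρ' z).val‖ ≤
      max (P.c ^ p ^ (h * i)) (max (P'.c ^ p ^ (h * i)) (P.pdist P')) := by
    intro i
    have e1 := hρ.approx h1 hh i z
    have e2 := hρ'.approx h1 hh i z
    have e3 : ‖((p ^ i) • toPt P.F (fz p (-((n * i : ℕ) : ℤ)) z.val)).val -
        ((p ^ i) • toPt P'.F (fz p (-((n * i : ℕ) : ℤ)) z.val)).val‖ ≤ P.pdist P' := by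
      rw [FPt.val_nsmul, FPt.val_nsmul, toPt_nfr_val, toPt_nfr_val]
      have hlt : ∀ _ : Unit, ‖fz p (-((n * i : ℕ) : ℤ)) z.val‖ < 1 := fun _ => norm_nfr_lt _ z
      have htn := fun j => (Ob_tn_iff _).2 (hlt j)
      rw [ev₁, ev₁, ← ev_sub htn]
      refine norm_ev_le_of_coeff hlt _ h0 _ fun d => ?_
      have hd : d = Finsupp.single () (d ()) := by
        ext; simp
      have h6 := coeff_mulSeries_sub P P' (p ^ i) (d ())
      rw [PowerSeries.coeff, ← hd] at h6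
      exact h6
    have e4 : (ρ z).val - (ρ' z).val =
        ((ρ z).val - ((p ^ i) • toPt P.F (fz p (-((n * i : ℕ) : ℤ)) z.val)).val) +
        (-((ρ' z).val - ((p ^ i) • toPt P'.F (fz p (-((n * i : ℕ) : ℤ)) z.val)).val) +
        (((p ^ i) • toPt P.F (fz p (-((n * i : ℕ) : ℤ)) z.val)).val -
        ((p ^ i) • toPt P'.F (fz p (-((n * i : ℕ) : ℤ)) z.val)).val)) := by ring
    rw [e4]
    refine (IsUltrametricDist.norm_add_le_max _ _).trans (max_le_max e1 ?_)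
    refine (IsUltrametricDist.norm_add_le_max _ _).trans (max_le_max ?_ e3)
    rw [_root_.norm_neg]
    exact e2
  have hlim : Filter.Tendsto (fun i : ℕ => max (P.c ^ p ^ (h * i))
      (max (P'.c ^ p ^ (h * i)) (P.pdist P'))) Filter.atTop (𝓝 (max 0 (max 0 (P.pdist P')))) :=
    (tendsto_pow_tower h1 P.c_nonneg P.c_lt_one).max
      ((tendsto_pow_tower h1 P'.c_nonneg P'.c_lt_one).max tendsto_const_nhds)
  have h5 := ge_of_tendsto' hlim key
  rwa [max_eq_right h0, max_eq_right h0] at h5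

end

end Crest.Agent.R227
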