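import Crest.Agent.R227.CoDefs

/-! # R227 / CoRoot : zeros of power series in the open unit ball (task COROOT)

Weierstrass preparation (Mathlib `PowerSeries.IsWeierstrassDivisorAt`) with respect to the ideal
`(ϖ)`, `max_{m < m0} ‖coeff m g‖ ≤ ‖ϖ‖ < 1`; `Ob K` is `(ϖ)`-adically complete. -/

set_option autoImplicit false
set_option linter.unusedSectionVars false
set_option linter.deprecated false

noncomputable section

namespace Crest.Agent.R227

open Crest.LubinTate MvPowerSeries Topology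

variable {p : ℕ} [Fact p.Prime] {n h : ℕ}
variable {K : Type} [NontriviallyNormedField K] [IsUltrametricDist K] [CompleteSpace K]
  [IsAlgClosed K] [CharP K p]

namespace CoRootAux

theorem norm_mul' (a b : Ob K) : ‖a * b‖ = ‖a‖ * ‖b‖ := by
  change ‖((a * b : Ob K) : K)‖ = ‖(a : K)‖ * ‖(b : K)‖
  rw [Subring.coe_mul, norm_mul]

theorem norm_pow' (a : Ob K) (k : ℕ) : ‖a ^ k‖ = ‖a‖ ^ k := by
  change ‖((a ^ k : Ob K) : K)‖ = ‖(a : K)‖ ^ k
  rw [Subring.coe_pow, norm_pow]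

theorem norm_neg' (a : Ob K) : ‖-a‖ = ‖a‖ := by
  change ‖((-a : Ob K) : K)‖ = ‖(a : K)‖
  rw [Subring.coe_neg, norm_neg]

/-- divisibility is detected by the norm -/
theorem dvd_iff {a b : Ob K} (hb : b ≠ 0) : b ∣ a ↔ ‖a‖ ≤ ‖b‖ := by
  have hb' : (b : K) ≠ 0 := fun h => hb (Subtype.ext h)
  constructor
  · rintro ⟨c, rfl⟩
    rw [norm_mul']
    calc ‖b‖ * ‖c‖ ≤ ‖b‖ * 1 := mul_le_mul_of_nonneg_left (Ob_norm_le_one c) (norm_nonneg _)
      _ = ‖b‖ := mul_one _
  · intro h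
    refine ⟨⟨(a : K) / (b : K), ?_⟩, ?_⟩
    · rw [mem_Ob, norm_div]
      exact div_le_one_of_le₀ h (norm_nonneg _)
    · apply Subtype.ext
      rw [Subring.coe_mul, mul_div_cancel₀ _ hb']

theorem mem_span_pow {ϖ : Ob K} (hϖ : ϖ ≠ 0) (a : Ob K) (k : ℕ) :
    a ∈ (Ideal.span {ϖ}) ^ k • (⊤ : Submodule (Ob K) (Ob K)) ↔ ‖a‖ ≤ ‖ϖ‖ ^ k := by
  rw [Ideal.smul_top_eq_map, Algebra.algebraMap_self, Ideal.map_id,
    Submodule.restrictScalars_self, Ideal.span_singleton_pow, Ideal.mem_span_singleton,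
    dvd_iff (pow_ne_zero k hϖ), norm_pow']

end CoRootAux

open CoRootAux

/-- `Ob K` is complete for the `ϖ`-adic topology. -/
theorem isAdicComplete_span (ϖ : Ob K) (hϖ : ‖ϖ‖ < 1) : IsAdicComplete (Ideal.span {ϖ}) (Ob K) := by
  rcases eq_or_ne ϖ 0 with h0 | h0
  · rw [h0, Ideal.span_singleton_zero]; infer_instance
  · have hpow : Filter.Tendsto (fun k : ℕ => ‖ϖ‖ ^ k) Filter.atTop (𝓝 0) :=
      tendsto_pow_atTop_nhds_zero_of_lt_one (norm_nonneg _) hϖ
    refine { haus' := fun x hx => ?_, prec' := fun f hf => ?_ }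
    · have h1 : ∀ k : ℕ, ‖x‖ ≤ ‖ϖ‖ ^ k := by
        intro k
        have := hx k
        rw [SModEq.zero, mem_span_pow h0] at this
        exact this
      have h2 : ‖x‖ ≤ 0 := ge_of_tendsto' hpow h1
      exact norm_le_zero_iff.1 h2
    · have h1 : ∀ k l : ℕ, k ≤ l → ‖f k - f l‖ ≤ ‖ϖ‖ ^ k := by
        intro k l hkl
        have := hf hkl
        rw [SModEq.sub_mem, mem_span_pow h0] at this
        exact this
      have hc : CauchySeq f := by
        refine cauchySeq_of_le_tendsto_0 (fun k => ‖ϖ‖ ^ k) (fun a b N ha hb => ?_) hpow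
        rw [dist_eq_norm]
        have e : f a - f b = -(f N - f a) + (f N - f b) := by ring
        rw [e]
        refine (IsUltrametricDist.norm_add_le_max _ _).trans (max_le ?_ (h1 N b hb))
        rw [norm_neg]
        exact h1 N a ha
      obtain ⟨L, hL⟩ := cauchySeq_tendsto_of_complete hc
      refine ⟨L, fun k => ?_⟩
      rw [SModEq.sub_mem, mem_span_pow h0]
      have h2 : Filter.Tendsto (fun l => ‖f k - f l‖) Filter.atTop (𝓝 ‖f k - L‖) :=
        (tendsto_const_nhds.sub hL).norm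
      exact le_of_tendsto h2 (Filter.eventually_atTop.2 ⟨k, fun l hl => h1 k l hl⟩)

/-- an element bounding finitely many elements of norm `< 1` -/
theorem exists_bound (m0 : ℕ) (c : ℕ → Ob K) (hlt : ∀ m < m0, ‖c m‖ < 1) :
    ∃ ϖ : Ob K, ϖ ≠ 0 ∧ ‖ϖ‖ < 1 ∧ ∀ m < m0, ‖c m‖ ≤ ‖ϖ‖ := by
  induction m0 with
  | zero =>
    obtain ⟨x, hx0, hx1⟩ := NormedField.exists_norm_lt_one K
    exact ⟨⟨x, hx1.le⟩, fun h => by
      have := congrArg Subtype.val h
      simp only [ZeroMemClass.coe_zero] at this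
      rw [this, norm_zero] at hx0
      exact lt_irrefl _ hx0, hx1, fun m hm => absurd hm (Nat.not_lt_zero m)⟩
  | succ k ih =>
    obtain ⟨ϖ, h0, h1, h2⟩ := ih fun m hm => hlt m (Nat.lt_succ_of_lt hm)
    rcases le_total ‖c k‖ ‖ϖ‖ with h | h
    · refine ⟨ϖ, h0, h1, fun m hm => ?_⟩
      rcases Nat.lt_succ_iff_lt_or_eq.1 hm with h3 | h3
      · exact h2 m h3
      · rw [h3]; exact h
    · refine ⟨c k, ?_, hlt k (Nat.lt_succ_self k), fun m hm => ?_⟩
      · intro h3
        rw [h3, norm_zero] at h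
        exact h0 (norm_le_zero_iff.1 h)
      · rcases Nat.lt_succ_iff_lt_or_eq.1 hm with h3 | h3
        · exact (h2 m h3).trans h
        · rw [h3]

/-- Weierstrass preparation. -/
theorem exists_weierstrass (g : PowerSeries (Ob K)) (m0 : ℕ)
    (hlt : ∀ m < m0, ‖PowerSeries.coeff m g‖ < 1) (hm0 : ‖PowerSeries.coeff m0 g‖ = 1) :
    ∃ (q : PowerSeries (Ob K)) (P : Polynomial (Ob K)), IsUnit q ∧ P.Monic ∧ P.natDegree = m0 ∧
      (∀ m < m0, ‖P.coeff m‖ < 1) ∧ g = q * (P : PowerSeries (Ob K)) := by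
  obtain ⟨ϖ, h0, h1, h2⟩ := exists_bound m0 (fun m => PowerSeries.coeff m g) hlt
  have hI : ∀ a : Ob K, a ∈ Ideal.span {ϖ} ↔ ‖a‖ ≤ ‖ϖ‖ := fun a => by
    rw [Ideal.mem_span_singleton, dvd_iff h0]
  have := isAdicComplete_span ϖ h1
  set I : Ideal (Ob K) := Ideal.span {ϖ} with hIdef
  have hord : (g.map (Ideal.Quotient.mk I)).order = (m0 : ℕ∞) := by
    rw [PowerSeries.order_eq_nat]
    constructor
    · rw [PowerSeries.coeff_map, Ne, Ideal.Quotient.eq_zero_iff_mem, hI, hm0]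
      exact not_le.2 h1
    · intro i hi
      rw [PowerSeries.coeff_map, Ideal.Quotient.eq_zero_iff_mem, hI]
      exact h2 i hi
  have hto : (g.map (Ideal.Quotient.mk I)).order.toNat = m0 := by rw [hord]; rfl
  have hW : PowerSeries.IsWeierstrassDivisorAt g I := by
    unfold PowerSeries.IsWeierstrassDivisorAt
    rw [hto, Ob_isUnit_iff]
    exact hm0
  have hdiv := hW.isWeierstrassDivisionAt_div_mod (PowerSeries.X ^ m0)
  set q := hW.div (PowerSeries.X ^ m0)
  set r := hW.mod (PowerSeries.X ^ m0)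
  have hdeg : r.degree < m0 := by
    have := hdiv.degree_lt
    rwa [hto] at this
  have heq : (PowerSeries.X ^ m0 : PowerSeries (Ob K)) = g * q + (r : PowerSeries (Ob K)) :=
    hdiv.eq_mul_add
  have hrI : ∀ i < m0, ‖r.coeff i‖ ≤ ‖ϖ‖ := by
    intro i hi
    have := hdiv.coeff_f_sub_r_mem (i := i) (by rw [hto]; exact hi)
    rw [hI, map_sub, PowerSeries.coeff_X_pow, if_neg hi.ne, zero_sub, norm_neg,
      Polynomial.coeff_coe] at this
    exact this
  have hrm0 : r.coeff m0 = 0 := Polynomial.coeff_eq_zero_of_degree_lt hdeg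
  -- q is a unit
  have hq : IsUnit q := by
    rw [PowerSeries.isUnit_iff_constantCoeff, Ob_isUnit_iff]
    have h3 := congrArg (PowerSeries.coeff m0) heq
    rw [PowerSeries.coeff_X_pow, if_pos rfl, map_add, Polynomial.coeff_coe, hrm0, add_zero,
      PowerSeries.coeff_mul, Finset.Nat.sum_antidiagonal_eq_sum_range_succ
        (fun i j => PowerSeries.coeff i g * PowerSeries.coeff j q),
      Finset.sum_range_succ, Nat.sub_self] at h3
    have h4 : ‖∑ i ∈ Finset.range m0, PowerSeries.coeff i g * PowerSeries.coeff (m0 - i) q‖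
        ≤ ‖ϖ‖ := by
      refine IsUltrametricDist.norm_sum_le_of_forall_le_of_nonneg (norm_nonneg _) fun i hi => ?_
      rw [norm_mul']
      calc ‖PowerSeries.coeff i g‖ * ‖PowerSeries.coeff (m0 - i) q‖ ≤ ‖ϖ‖ * 1 :=
            mul_le_mul (h2 i (Finset.mem_range.1 hi)) (Ob_norm_le_one _) (norm_nonneg _)
              (norm_nonneg _)
        _ = ‖ϖ‖ := mul_one _
    have h5 : ‖PowerSeries.coeff m0 g * PowerSeries.coeff 0 q‖ = 1 := by
      have h6 : PowerSeries.coeff m0 g * PowerSeries.coeff 0 q = 1 -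
          ∑ i ∈ Finset.range m0, PowerSeries.coeff i g * PowerSeries.coeff (m0 - i) q := by
        rw [eq_sub_iff_add_eq, add_comm]; exact h3.symm
      rw [h6]
      refine le_antisymm (Ob_norm_le_one _) ?_
      by_contra hlt'
      push Not at hlt'
      have h7 : (1 : Ob K) = (1 - ∑ i ∈ Finset.range m0,
          PowerSeries.coeff i g * PowerSeries.coeff (m0 - i) q) +
          ∑ i ∈ Finset.range m0, PowerSeries.coeff i g * PowerSeries.coeff (m0 - i) q := by ring
      have h8 : ‖(1 : Ob K)‖ < 1 := by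
        conv_lhs => rw [h7]
        exact (IsUltrametricDist.norm_add_le_max _ _).trans_lt (max_lt hlt' (h4.trans_lt h1))
      have h9 : ‖(1 : Ob K)‖ = 1 := by
        change ‖((1 : Ob K) : K)‖ = 1
        simp
      rw [h9] at h8
      exact lt_irrefl _ h8
    rw [norm_mul', hm0, one_mul, PowerSeries.coeff_zero_eq_constantCoeff_apply] at h5
    exact h5
  refine ⟨↑hq.unit⁻¹, Polynomial.X ^ m0 - r, Units.isUnit _, Polynomial.monic_X_pow_sub ?_, ?_,
    fun m hm => ?_, ?_⟩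
  · exact hdeg
  · apply Polynomial.natDegree_eq_of_degree_eq_some
    rw [Polynomial.degree_sub_eq_left_of_degree_lt, Polynomial.degree_X_pow]
    rwa [Polynomial.degree_X_pow]
  · rw [Polynomial.coeff_sub, Polynomial.coeff_X_pow, if_neg hm.ne, zero_sub, norm_neg]
    exact (hrI m hm).trans_lt h1
  · have h3 : ((Polynomial.X ^ m0 - r : Polynomial (Ob K)) : PowerSeries (Ob K)) = g * q := by
      rw [Polynomial.coe_sub, Polynomial.coe_pow, Polynomial.coe_X, heq]
      ring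
    rw [h3, mul_comm g q, ← mul_assoc]
    rw [show (↑hq.unit⁻¹ : PowerSeries (Ob K)) * q = 1 from hq.val_inv_mul, one_mul]

namespace CoRootAux

theorem tn1 {x : Ob K} (hx : ‖x‖ < 1) : ∀ _ : Unit, IsTopologicallyNilpotent x :=
  fun _ => (Ob_tn_iff x).2 hx

theorem hasSum_ev₁ {x : Ob K} (hx : ‖x‖ < 1) (f : PowerSeries (Ob K)) :
    HasSum (fun k : ℕ => PowerSeries.coeff k f * x ^ k) (ev₁ x f) := by
  have h := hasSum_ev (σ := Unit) (a := fun _ : Unit => x) (fun _ => hx) f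
  have h2 := (Equiv.hasSum_iff (Finsupp.uniqueEquiv ()).symm).2 h
  convert h2 using 1
  funext k
  have e : (Finsupp.uniqueEquiv ()).symm k = Finsupp.single () k := by
    ext; simp
  rw [Function.comp_apply, e]
  simp only [Finsupp.prod_single_index (h := fun _ e => x ^ e) (pow_zero x)]
  rfl

theorem ev₁_poly {x : Ob K} (hx : ‖x‖ < 1) (P : Polynomial (Ob K)) :
    ev₁ x (P : PowerSeries (Ob K)) = P.eval x := by
  have h1 := hasSum_ev₁ hx (P : PowerSeries (Ob K))
  have h2 : HasSum (fun k : ℕ => PowerSeries.coeff k (P : PowerSeries (Ob K)) * x ^ k)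
      (∑ k ∈ Finset.range (P.natDegree + 1),
        PowerSeries.coeff k (P : PowerSeries (Ob K)) * x ^ k) := by
    refine hasSum_sum_of_ne_finset_zero fun k hk => ?_
    rw [Polynomial.coeff_coe, Polynomial.coeff_eq_zero_of_natDegree_lt, zero_mul]
    rw [Finset.mem_range] at hk
    omega
  rw [h1.unique h2, Polynomial.eval_eq_sum_range]
  simp only [Polynomial.coeff_coe]

theorem ev₁_mul {x : Ob K} (hx : ‖x‖ < 1) (f g : PowerSeries (Ob K)) :
    ev₁ x (f * g) = ev₁ x f * ev₁ x g := ev_mul (tn1 hx) f g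

/-- roots of a distinguished polynomial have norm `< 1` -/
theorem norm_root_lt {P : Polynomial (Ob K)} (hP : P.Monic) (hd : P.natDegree ≠ 0)
    (hlt : ∀ m < P.natDegree, ‖P.coeff m‖ < 1) {x : Ob K} (hx : P.eval x = 0) : ‖x‖ < 1 := by
  obtain ⟨ϖ, -, h1, h2⟩ := exists_bound P.natDegree (fun m => P.coeff m) hlt
  rw [Polynomial.eval_eq_sum_range, Finset.sum_range_succ, hP.coeff_natDegree, one_mul] at hx
  have h3 : x ^ P.natDegree = -∑ i ∈ Finset.range P.natDegree, P.coeff i * x ^ i := by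
    rw [eq_neg_iff_add_eq_zero, add_comm]; exact hx
  have h4 : ‖x‖ ^ P.natDegree ≤ ‖ϖ‖ := by
    rw [← norm_pow', h3, norm_neg]
    refine IsUltrametricDist.norm_sum_le_of_forall_le_of_nonneg (norm_nonneg _) fun i hi => ?_
    rw [norm_mul']
    calc ‖P.coeff i‖ * ‖x ^ i‖ ≤ ‖ϖ‖ * 1 :=
          mul_le_mul (h2 i (Finset.mem_range.1 hi)) (Ob_norm_le_one _) (norm_nonneg _)
            (norm_nonneg _)
      _ = ‖ϖ‖ := mul_one _
  exact (pow_lt_one_iff_of_nonneg (norm_nonneg _) hd).1 (h4.trans_lt h1)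

/-- monic polynomials over the ball split -/
theorem card_roots_eq (P : Polynomial (Ob K)) (hP : P.Monic) :
    P.roots.card = P.natDegree := by
  induction hd : P.natDegree generalizing P with
  | zero =>
    have : P = 1 := hP.natDegree_eq_zero.1 hd
    rw [this]; simp
  | succ d ih =>
    obtain ⟨a, ha⟩ := Ob_exists_root P hP (by omega)
    obtain ⟨Q, hQ⟩ := Polynomial.dvd_iff_isRoot.2 ha
    have hQm : Q.Monic := (Polynomial.monic_X_sub_C a).of_mul_monic_left (hQ ▸ hP)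
    have hdeg : Q.natDegree = d := by
      have := (Polynomial.monic_X_sub_C a).natDegree_mul hQm
      rw [← hQ, hd, Polynomial.natDegree_X_sub_C] at this
      omega
    have hne : (Polynomial.X - Polynomial.C a) * Q ≠ 0 := hQ ▸ hP.ne_zero
    rw [hQ, Polynomial.roots_mul hne, Polynomial.roots_X_sub_C, Multiset.card_add,
      Multiset.card_singleton, ih Q hQm hdeg]
    omega

end CoRootAux

theorem exists_root (g : PowerSeries (Ob K)) (m0 : ℕ) (h0 : 1 ≤ m0)
    (hlt : ∀ m < m0, ‖PowerSeries.coeff m g‖ < 1) (hm0 : ‖PowerSeries.coeff m0 g‖ = 1) :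
    ∃ x : Ob K, ‖x‖ < 1 ∧ ev₁ x g = 0 := by
  obtain ⟨q, P, hq, hP, hd, hc, rfl⟩ := exists_weierstrass g m0 hlt hm0
  obtain ⟨x, hx⟩ := Ob_exists_root P hP (by omega)
  have hx1 : ‖x‖ < 1 := norm_root_lt hP (by omega) (by rw [hd]; exact hc) hx
  exact ⟨x, hx1, by rw [ev₁_mul hx1, ev₁_poly hx1, hx, mul_zero]⟩

/-- if all zeros are simple there are exactly `m0` of them -/
theorem card_roots (g : PowerSeries (Ob K)) (m0 : ℕ)
    (hlt : ∀ m < m0, ‖PowerSeries.coeff m g‖ < 1) (hm0 : ‖PowerSeries.coeff m0 g‖ = 1)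
    (hs : ∀ x : Ob K, ‖x‖ < 1 → ev₁ x g = 0 → ev₁ x (PowerSeries.derivativeFun g) ≠ 0) :
    ∃ s : Finset (Ob K), s.card = m0 ∧ ∀ x, x ∈ s ↔ (‖x‖ < 1 ∧ ev₁ x g = 0) := by
  classical
  obtain ⟨q, P, hq, hP, hd, hc, rfl⟩ := exists_weierstrass g m0 hlt hm0
  have hne : P ≠ 0 := hP.ne_zero
  have hunit : ∀ x : Ob K, ‖x‖ < 1 → IsUnit (ev₁ x q) := by
    intro x hx
    have := hq.map (evHom (tn1 hx))
    rwa [evHom_apply] at this
  have hroot : ∀ x : Ob K, P.eval x = 0 → ‖x‖ < 1 := by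
    intro x hx
    rcases Nat.eq_zero_or_pos m0 with h0 | h0
    · have : P = 1 := hP.natDegree_eq_zero.1 (hd.trans h0)
      rw [this, Polynomial.eval_one] at hx
      exact absurd hx one_ne_zero
    · exact norm_root_lt hP (by omega) (by rw [hd]; exact hc) hx
  have hnodup : P.roots.Nodup := by
    rw [Multiset.nodup_iff_count_le_one]
    intro a
    rw [Polynomial.count_roots]
    by_contra hlt'
    push Not at hlt'
    have hr := (Polynomial.one_lt_rootMultiplicity_iff_isRoot hne).1 hlt'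
    obtain ⟨hr1, hr2⟩ := hr
    have ha : P.eval a = 0 := hr1
    have ha' : P.derivative.eval a = 0 := hr2
    have ha1 := hroot a ha
    refine hs a ha1 (by rw [ev₁_mul ha1, ev₁_poly ha1, ha, mul_zero]) ?_
    have hder : PowerSeries.derivativeFun (q * (P : PowerSeries (Ob K))) =
        q * ((Polynomial.derivative P : Polynomial (Ob K)) : PowerSeries (Ob K)) +
          (P : PowerSeries (Ob K)) * PowerSeries.derivativeFun q := by
      have hdf : ∀ f : PowerSeries (Ob K),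
          PowerSeries.derivativeFun f = PowerSeries.derivative (Ob K) f := fun _ => rfl
      rw [hdf, hdf, Derivation.leibniz, PowerSeries.derivative_coe]
      simp only [smul_eq_mul]
    rw [hder]
    have : ev₁ a (q * ((Polynomial.derivative P : Polynomial (Ob K)) : PowerSeries (Ob K)) +
          (P : PowerSeries (Ob K)) * PowerSeries.derivativeFun q) =
        ev₁ a (q * ((Polynomial.derivative P : Polynomial (Ob K)) : PowerSeries (Ob K))) +
        ev₁ a ((P : PowerSeries (Ob K)) * PowerSeries.derivativeFun q) := ev_add (tn1 ha1) _ _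
    rw [this, ev₁_mul ha1, ev₁_mul ha1, ev₁_poly ha1, ev₁_poly ha1, ha, ha', mul_zero, zero_mul,
      add_zero]
  refine ⟨P.roots.toFinset, ?_, fun x => ?_⟩
  · rw [Multiset.toFinset_card_of_nodup hnodup, card_roots_eq P hP, hd]
  · rw [Multiset.mem_toFinset, Polynomial.mem_roots hne, Polynomial.IsRoot.def]
    constructor
    · intro hx
      have hx1 := hroot x hx
      exact ⟨hx1, by rw [ev₁_mul hx1, ev₁_poly hx1, hx, mul_zero]⟩
    · rintro ⟨hx1, hx⟩
      rw [ev₁_mul hx1, ev₁_poly hx1] at hx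
      exact (hunit x hx1).mul_right_eq_zero.1 hx

/-- solvability of `f(x) = y` (rescale `f(sx) - y`, divide by a coefficient of maximal norm) -/
theorem exists_ev_eq (f : PowerSeries (Ob K)) (h0 : PowerSeries.constantCoeff f = 0) (m : ℕ)
    (hm : 1 ≤ m) (y : Ob K) (hy : ‖y‖ < ‖PowerSeries.coeff m f‖) :
    ∃ x : Ob K, ‖x‖ < 1 ∧ ev₁ x f = y := by
  classical
  have hfm : 0 < ‖PowerSeries.coeff m f‖ := (norm_nonneg _).trans_lt hy
  -- the scaling factor
  obtain ⟨s, hs1, hs⟩ : ∃ s : Ob K, ‖s‖ < 1 ∧ ‖y‖ < ‖PowerSeries.coeff m f‖ * ‖s‖ ^ m := by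
    obtain ⟨π, hπ0, hπ1⟩ := NormedField.exists_norm_lt_one K
    set ρ := ‖y‖ / ‖PowerSeries.coeff m f‖ with hρ
    have hρ0 : 0 ≤ ρ := by positivity
    have hρ1 : ρ < 1 := (div_lt_one hfm).2 hy
    obtain ⟨N, hN⟩ := exists_pow_lt_of_lt_one (pow_pos hπ0 m) hρ1
    have hN0 : 0 < N := by
      rcases Nat.eq_zero_or_pos N with h | h
      · rw [h, pow_zero] at hN
        exact absurd hN (not_lt.2 (pow_le_one₀ hπ0.le hπ1.le))
      · exact h
    obtain ⟨z, hz⟩ := IsAlgClosed.exists_pow_nat_eq π hN0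
    have hzN : ‖z‖ ^ N = ‖π‖ := by rw [← norm_pow, hz]
    have hz1 : ‖z‖ < 1 := (pow_lt_one_iff_of_nonneg (norm_nonneg _) hN0.ne').1 (by rw [hzN]; exact hπ1)
    refine ⟨⟨z, hz1.le⟩, hz1, ?_⟩
    have h1 : ρ ^ N < (‖z‖ ^ m) ^ N := by
      rw [← pow_mul, mul_comm m N, pow_mul, hzN]
      exact hN
    have h2 : ρ < ‖z‖ ^ m := lt_of_pow_lt_pow_left₀ N (by positivity) h1
    rw [hρ, div_lt_iff₀ hfm, mul_comm] at h2
    exact h2
  let c : ℕ → Ob K := fun k => if k = 0 then -y else PowerSeries.coeff k f * s ^ k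
  have hc0 : c 0 = -y := if_pos rfl
  have hck : ∀ k, k ≠ 0 → c k = PowerSeries.coeff k f * s ^ k := fun k hk => if_neg hk
  have hcm : ‖y‖ < ‖c m‖ := by
    rw [hck m (by omega), norm_mul', norm_pow']
    exact hs
  have hcpos : 0 < ‖c m‖ := (norm_nonneg _).trans_lt hcm
  have hcle : ∀ k, k ≠ 0 → ‖c k‖ ≤ ‖s‖ ^ k := by
    intro k hk
    rw [hck k hk, norm_mul', norm_pow']
    calc ‖PowerSeries.coeff k f‖ * ‖s‖ ^ k ≤ 1 * ‖s‖ ^ k :=
          mul_le_mul_of_nonneg_right (Ob_norm_le_one _) (by positivity)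
      _ = ‖s‖ ^ k := one_mul _
  obtain ⟨K0, hK0⟩ := exists_pow_lt_of_lt_one hcpos hs1
  have hbig : ∀ k, K0 ≤ k → k ≠ 0 → ‖c k‖ < ‖c m‖ := fun k hk hk0 =>
    (hcle k hk0).trans_lt ((pow_le_pow_of_le_one (norm_nonneg _) hs1.le hk).trans_lt hK0)
  obtain ⟨m1, -, hm1⟩ := Finset.exists_max_image (Finset.range (K0 + m + 1)) (fun k => ‖c k‖)
    ⟨0, Finset.mem_range.2 (by omega)⟩
  have hmax : ∀ k, ‖c k‖ ≤ ‖c m1‖ := by
    intro k
    rcases lt_or_ge k (K0 + m + 1) with h | h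
    · exact hm1 k (Finset.mem_range.2 h)
    · exact (hbig k (by omega) (by omega)).le.trans (hm1 m (Finset.mem_range.2 (by omega)))
  have hex : ∃ k, ‖c k‖ = ‖c m1‖ := ⟨m1, rfl⟩
  set m0 := Nat.find hex with hm0def
  have hm0 : ‖c m0‖ = ‖c m1‖ := Nat.find_spec hex
  have hlt : ∀ k < m0, ‖c k‖ < ‖c m0‖ := by
    intro k hk
    rw [hm0]
    exact lt_of_le_of_ne (hmax k) (Nat.find_min hex hk)
  have hm01 : 1 ≤ m0 := by
    by_contra h
    have h1 : m0 = 0 := by omega
    rw [h1, hc0, norm_neg] at hm0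
    have := hmax m
    rw [← hm0] at this
    exact absurd hcm (not_lt.2 this)
  set d := c m0 with hd
  have hdpos : 0 < ‖d‖ := by
    rw [hd, hm0]
    exact hcpos.trans_le (hmax m)
  have hd0 : d ≠ 0 := norm_pos_iff.1 hdpos
  have hdvd : ∀ k, ∃ g : Ob K, c k = d * g := fun k =>
    (dvd_iff hd0).2 (by rw [hd, hm0]; exact hmax k)
  choose g hg using hdvd
  have hgn : ∀ k, ‖d‖ * ‖g k‖ = ‖c k‖ := fun k => by rw [hg k, norm_mul']
  obtain ⟨z, hz1, hz⟩ := exists_root (PowerSeries.mk g) m0 hm01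
    (fun k hk => by
      rw [PowerSeries.coeff_mk]
      by_contra h
      push Not at h
      have h1 := hgn k
      have h2 := hlt k hk
      rw [← h1] at h2
      have h3 : ‖d‖ * 1 ≤ ‖d‖ * ‖g k‖ := mul_le_mul_of_nonneg_left h hdpos.le
      rw [mul_one] at h3
      exact absurd h2 (not_lt.2 h3))
    (by
      rw [PowerSeries.coeff_mk]
      have h1 := hgn m0
      rw [← hd] at h1
      exact (mul_right_eq_self₀.1 h1).resolve_right hdpos.ne')
  have hx1 : ‖s * z‖ < 1 := by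
    rw [norm_mul']
    calc ‖s‖ * ‖z‖ ≤ ‖s‖ * 1 := mul_le_mul_of_nonneg_left hz1.le (norm_nonneg _)
      _ = ‖s‖ := mul_one _
      _ < 1 := hs1
  refine ⟨s * z, hx1, ?_⟩
  have H1 := hasSum_ev₁ hx1 f
  have H2 := (hasSum_ev₁ hz1 (PowerSeries.mk g)).mul_left d
  rw [hz, mul_zero] at H2
  have H3 : HasSum (fun k : ℕ => if k = 0 then y else 0) y := hasSum_ite_eq 0 y
  have H4 := H1.sub H3
  have e : (fun k => PowerSeries.coeff k f * (s * z) ^ k - if k = 0 then y else 0) =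
      fun k => d * (PowerSeries.coeff k (PowerSeries.mk g) * z ^ k) := by
    funext k
    rw [PowerSeries.coeff_mk, ← mul_assoc, ← hg k]
    rcases Nat.eq_zero_or_pos k with h | h
    · subst h
      rw [hc0, if_pos rfl, pow_zero, pow_zero, mul_one, mul_one,
        PowerSeries.coeff_zero_eq_constantCoeff_apply, h0, zero_sub]
    · rw [hck k h.ne', if_neg h.ne', sub_zero, mul_pow, mul_assoc]
  rw [e] at H4
  exact sub_eq_zero.1 (H4.unique H2)

end Crest.Agent.R227
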