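import Crest.Agent.R227.VFacts

/-! # R227 / ESysEx : existence and uniqueness of the points `E_l(α)` (task ESYS) -/

set_option autoImplicit false
set_option linter.unusedSectionVars false

noncomputable section

namespace Crest.Agent.R227

open Crest.LubinTate MvPowerSeries Topology Filter

variable (p : ℕ) [Fact p.Prime] (n h : ℕ)

variable {K : Type} [NontriviallyNormedField K] [IsUltrametricDist K] [CompleteSpace K]
  [CharP K p]

namespace ESysExAux

/-- the subgroup of points of norm `≤ r` -/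
def Nb {K : Type} [NontriviallyNormedField K] [IsUltrametricDist K] [CompleteSpace K]
    (F : FormalGroup (Ob K)) [F.IsComm] (r : ℝ) (hr : 0 ≤ r) :
    AddSubgroup (FPt F) where
  carrier := {x | ‖x.val‖ ≤ r}
  add_mem' := fun {a b} ha hb =>
    FPt.add_mem F a b (normIdeal K r hr) (isClosed_normIdeal r hr) ha hb
  zero_mem' := by simpa using hr
  neg_mem' := fun {a} ha => by
    have h1 := (FPt.sub_mem_iff F 0 a (normIdeal K r hr) (isClosed_normIdeal r hr)).2 (by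
      rw [mem_normIdeal, FPt.val_zero, zero_sub, norm_neg]
      exact ha)
    rwa [zero_sub] at h1

omit [CharP K p] in
theorem mem_Nb {F : FormalGroup (Ob K)} [F.IsComm] {r : ℝ} (hr : 0 ≤ r) (x : FPt F) :
    x ∈ Nb F r hr ↔ ‖x.val‖ ≤ r := Iff.rfl

theorem sub_mem_Nb {F : FormalGroup (Ob K)} [F.IsComm] {r : ℝ} (hr : 0 ≤ r) (x y : FPt F) :
    x - y ∈ Nb F r hr ↔ ‖x.val - y.val‖ ≤ r :=
  FPt.sub_mem_iff F x y (normIdeal K r hr) (isClosed_normIdeal r hr)

theorem Nb_mono {F : FormalGroup (Ob K)} [F.IsComm] {r s : ℝ} (hr : 0 ≤ r) (hs : 0 ≤ s)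
    (h : r ≤ s) : Nb F r hr ≤ Nb F s hs := fun _ hx => le_trans hx h

variable {p n h}

omit [CompleteSpace K] in
theorem val_lt_one {F : FormalGroup (Ob K)} (P : FPt F) : ‖P.val‖ < 1 :=
  (Ob_tn_iff _).1 P.tn

omit [CompleteSpace K] in
theorem tn1 {a : Ob K} (ha : IsTopologicallyNilpotent a) :
    ∀ _ : Unit, IsTopologicallyNilpotent a := fun _ => ha

theorem norm_p_smul (h1 : 1 ≤ h) (hh : h < n) (z : Fin (n - h) → Ob K)
    (P : FPt (Hx p n h z)) (r : ℝ) (hr : 0 ≤ r) (hP : ‖P.val‖ ≤ r) :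
    ‖(p • P).val‖ ≤ r ^ p ^ h := by
  have hp : p ≠ 0 := (Fact.out : p.Prime).ne_zero
  have hph : p ^ h ≠ 0 := pow_ne_zero _ hp
  rw [FPt.val_nsmul, mulSeries_Hx p n h h1 hh z]
  have hX0 : PowerSeries.constantCoeff (PowerSeries.X ^ p ^ h : PowerSeries (Ob K)) = 0 := by
    rw [map_pow, PowerSeries.constantCoeff_X, zero_pow hph]
  rw [ev₁_subst P.tn _ hX0]
  have hX : ev₁ P.val (PowerSeries.X ^ p ^ h : PowerSeries (Ob K)) = P.val ^ p ^ h := by
    have e1 := ev_pow (tn1 P.tn) (PowerSeries.X : PowerSeries (Ob K)) (p ^ h)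
    have e2 : ev₁ P.val (PowerSeries.X : PowerSeries (Ob K)) = P.val := ev_X (tn1 P.tn) ()
    exact e1.trans (congrArg (· ^ p ^ h) e2)
  rw [hX]
  have hlt := val_lt_one P
  have hle : ‖P.val ^ p ^ h‖ ≤ r ^ p ^ h := by
    have : ‖P.val ^ p ^ h‖ = ‖P.val‖ ^ p ^ h := norm_pow (P.val : K) _
    rw [this]
    exact pow_le_pow_left₀ (norm_nonneg _) hP _
  have hlt' : ‖P.val ^ p ^ h‖ < 1 := by
    have : ‖P.val ^ p ^ h‖ = ‖P.val‖ ^ p ^ h := norm_pow (P.val : K) _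
    rw [this]
    exact pow_lt_one₀ (norm_nonneg _) hlt hph
  have := norm_ev_le_pow (a := fun _ : Unit => P.val ^ p ^ h) (fun _ => hlt') (r ^ p ^ h)
    (pow_nonneg hr _) (fun _ => hle) 1 (Vz p n h z) (by
      intro d hd
      have hd0 : d = 0 := by
        have h2 : d.degree = 0 := by omega
        exact (Finsupp.degree_eq_zero_iff d).1 h2
      rw [hd0]
      exact constantCoeff_Vz p n h z)
  rwa [pow_one] at this

theorem norm_pow_smul (h1 : 1 ≤ h) (hh : h < n) (z : Fin (n - h) → Ob K)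
    (P : FPt (Hx p n h z)) (r : ℝ) (hr : 0 ≤ r) (hP : ‖P.val‖ ≤ r) (m : ℕ) :
    ‖(p ^ m • P).val‖ ≤ r ^ p ^ (h * m) := by
  induction m with
  | zero => simpa using hP
  | succ m ih =>
    have h2 : p ^ (m + 1) • P = p • (p ^ m • P) := by
      rw [pow_succ', mul_smul]
    rw [h2, Nat.mul_succ, pow_add, pow_mul]
    exact norm_p_smul h1 hh z _ _ (pow_nonneg hr _) ih

theorem Hx_map_mk (hh : h < n) (z : Fin (n - h) → Ob K) (I : Ideal (Ob K))
    (hzI : ∀ i, z i ∈ I) (j : GaloisField p n →+* Ob K) :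
    (Hx p n h z).map (Ideal.Quotient.mk I) = ((Fn p n).map j).map (Ideal.Quotient.mk I) := by
  have e1 : (Hx p n h z).map (Ideal.Quotient.mk I) = hz p n (sp n) := by
    rw [Hx_map]
    have : (fun i => Ideal.Quotient.mk I (z i)) = fun _ => 0 := by
      funext i
      exact Ideal.Quotient.eq_zero_iff_mem.2 (hzI i)
    rw [this]
    exact Fn_map_Hx_zero p n h hh
  have e2 : ((Fn p n).map j).map (Ideal.Quotient.mk I) = hz p n (sp n) := by
    rw [hz_map, hz_map]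
    congr 1
    funext i
    unfold sp
    split_ifs <;> simp
  rw [e1, e2]

theorem ev_sub_mem_of_map_eq {σ : Type*} [Finite σ] {a : σ → Ob K}
    (ha : ∀ i, IsTopologicallyNilpotent (a i)) {I : Ideal (Ob K)} (hI : IsClosed (I : Set (Ob K)))
    {f g : MvPowerSeries σ (Ob K)}
    (hfg : f.map (Ideal.Quotient.mk I) = g.map (Ideal.Quotient.mk I)) :
    ev a f - ev a g ∈ I := by
  rw [← ev_sub ha]
  refine ev_mem_of_coeff ha I hI _ fun d => ?_
  rw [map_sub, ← Ideal.Quotient.eq, ← coeff_map, ← coeff_map, hfg]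

theorem constantCoeff_map_hom {α : PowerSeries (GaloisField p n)}
    (hα : IsFGHom (Fn p n) (Fn p n) α) (j : GaloisField p n →+* Ob K) :
    PowerSeries.constantCoeff (α.map j) = 0 := (IsFGHom.map j hα).1

theorem smul_sub_mem {G H : FormalGroup (Ob K)} [H.IsComm] (ρ : ℝ) (h0 : 0 ≤ ρ)
    (hmap : H.map (Ideal.Quotient.mk (normIdeal K ρ h0)) =
      G.map (Ideal.Quotient.mk (normIdeal K ρ h0)))
    {A : PowerSeries (Ob K)} (hA : IsFGHom G G A) (P : FPt H) :
    p • apS H A hA.1 P - apS H A hA.1 (p • P) ∈ Nb H ρ h0 := by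
  have hI : IsClosed (normIdeal K ρ h0 : Set (Ob K)) := isClosed_normIdeal ρ h0
  rw [sub_mem_Nb, FPt.val_nsmul, apS_val, apS_val, FPt.val_nsmul, ← mem_normIdeal ρ h0]
  have hPA : IsTopologicallyNilpotent (ev₁ P.val A) := FPtAux.hom_tn hA P.tn
  have hG : IsTopologicallyNilpotent (ev₁ P.val (mulSeries G p)) :=
    ev_tn (tn1 P.tn) _ (by
      have : MvPowerSeries.constantCoeff (mulSeries G p) = 0 := constantCoeff_mulSeries G p
      rw [this]; exact IsTopologicallyNilpotent.zero)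
  have hH : IsTopologicallyNilpotent (ev₁ P.val (mulSeries H p)) :=
    ev_tn (tn1 P.tn) _ (by
      have : MvPowerSeries.constantCoeff (mulSeries H p) = 0 := constantCoeff_mulSeries H p
      rw [this]; exact IsTopologicallyNilpotent.zero)
  have hms : (mulSeries H p).map (Ideal.Quotient.mk (normIdeal K ρ h0)) =
      (mulSeries G p).map (Ideal.Quotient.mk (normIdeal K ρ h0)) := by
    rw [mulSeries_map, mulSeries_map, hmap]
  have c1 := congrArg (ev₁ P.val) (IsFGHom.comm_mulSeries hA p)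
  rw [ev₁_subst P.tn _ (constantCoeff_mulSeries G p), ev₁_subst P.tn _ hA.1] at c1
  have t1 : ev₁ (ev₁ P.val A) (mulSeries H p) - ev₁ (ev₁ P.val A) (mulSeries G p) ∈
      normIdeal K ρ h0 := ev_sub_mem_of_map_eq (tn1 hPA) hI hms
  have t2 : ev₁ P.val (mulSeries H p) - ev₁ P.val (mulSeries G p) ∈ normIdeal K ρ h0 :=
    ev_sub_mem_of_map_eq (tn1 P.tn) hI hms
  have t3 : ev₁ (ev₁ P.val (mulSeries H p)) A - ev₁ (ev₁ P.val (mulSeries G p)) A ∈
      normIdeal K ρ h0 := ev_sub_ev_mem (tn1 hH) (tn1 hG) _ hI (fun _ => t2) A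
  have t4 := (normIdeal K ρ h0).sub_mem t1 t3
  rw [← c1] at t4
  have t5 : ∀ a b c : Ob K, a - b - (c - b) = a - c := fun a b c => by ring
  rwa [t5] at t4

theorem smul_apS_sub_mem (hh : h < n) (z : Fin (n - h) → Ob K) (ρ : ℝ) (h0 : 0 ≤ ρ)
    (hzρ : ∀ i, ‖z i‖ ≤ ρ) (j : GaloisField p n →+* Ob K) {α : PowerSeries (GaloisField p n)}
    (hα : IsFGHom (Fn p n) (Fn p n) α) (hc : PowerSeries.constantCoeff (α.map j) = 0)
    (P : FPt (Hx p n h z)) :
    p • apS (Hx p n h z) (α.map j) hc P - apS (Hx p n h z) (α.map j) hc (p • P) ∈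
      Nb (Hx p n h z) ρ h0 :=
  smul_sub_mem ρ h0 (Hx_map_mk hh z _ hzρ j) (IsFGHom.map j hα) P

theorem apS_fadd_sub_mem (hh : h < n) (z : Fin (n - h) → Ob K) (ρ : ℝ) (h0 : 0 ≤ ρ)
    (hzρ : ∀ i, ‖z i‖ ≤ ρ) (j : GaloisField p n →+* Ob K)
    {α β : PowerSeries (GaloisField p n)}
    (hα : IsFGHom (Fn p n) (Fn p n) α) (hβ : IsFGHom (Fn p n) (Fn p n) β)
    (hcα : PowerSeries.constantCoeff (α.map j) = 0)
    (hcβ : PowerSeries.constantCoeff (β.map j) = 0)
    (hcαβ : PowerSeries.constantCoeff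
      (PowerSeries.map j (fadd (Fn p n) α β : PowerSeries (GaloisField p n))) = 0)
    (P : FPt (Hx p n h z)) :
    apS (Hx p n h z) (PowerSeries.map j (fadd (Fn p n) α β)) hcαβ P -
      (apS (Hx p n h z) (α.map j) hcα P + apS (Hx p n h z) (β.map j) hcβ P) ∈
      Nb (Hx p n h z) ρ h0 := by
  let I := normIdeal K ρ h0
  have hI : IsClosed (I : Set (Ob K)) := isClosed_normIdeal ρ h0
  have hmap := Hx_map_mk hh z I hzρ j
  rw [sub_mem_Nb, apS_val, FPt.val_add, apS_val, apS_val, ← mem_normIdeal ρ h0]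
  have e1 : (PowerSeries.map j (fadd (Fn p n) α β : PowerSeries (GaloisField p n)) :
      PowerSeries (Ob K)) = fadd ((Fn p n).map j) (α.map j) (β.map j) :=
    map_fadd j (Fn p n) α β hα.1 hβ.1
  have hA : IsFGHom _ _ (α.map j) := IsFGHom.map j hα
  have hB : IsFGHom _ _ (β.map j) := IsFGHom.map j hβ
  have e2 : ev₁ P.val (fadd ((Fn p n).map j) (α.map j) (β.map j)) =
      padd ((Fn p n).map j) (ev₁ P.val (α.map j)) (ev₁ P.val (β.map j)) :=
    FPtAux.ev_fadd _ (tn1 P.tn) _ _ hcα hcβ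
  rw [e1, e2, padd]
  refine ev_sub_mem_of_map_eq (FPtAux.tn_pair (FPtAux.hom_tn hA P.tn) (FPtAux.hom_tn hB P.tn))
    hI ?_
  have := congrArg FormalGroup.toPowerSeries hmap
  rw [FormalGroup.map_toPowerSeries, FormalGroup.map_toPowerSeries] at this
  exact this.symm

/-- the radii -/
theorem tendsto_rad (h1 : 1 ≤ h) (ρ : ℝ) (h0 : 0 ≤ ρ) (hρ : ρ < 1) :
    Tendsto (fun m : ℕ => ρ ^ p ^ (h * m)) atTop (𝓝 0) := by
  have hp1 : 1 < p := (Fact.out : p.Prime).one_lt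
  refine squeeze_zero (fun m => pow_nonneg h0 _) (fun m => ?_)
    (tendsto_pow_atTop_nhds_zero_of_lt_one h0 hρ)
  refine pow_le_pow_of_le_one h0 hρ.le ?_
  calc m ≤ h * m := Nat.le_mul_of_pos_left m h1
    _ ≤ p ^ (h * m) := (Nat.lt_pow_self hp1).le

theorem rad_antitone (ρ : ℝ) (h0 : 0 ≤ ρ) (hρ : ρ < 1) {m k : ℕ} (hmk : m ≤ k) :
    ρ ^ p ^ (h * k) ≤ ρ ^ p ^ (h * m) := by
  have hp1 : 0 < p := (Fact.out : p.Prime).pos
  exact pow_le_pow_of_le_one h0 hρ.le (Nat.pow_le_pow_right hp1 (Nat.mul_le_mul_left h hmk))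

theorem exists_lim (h1 : 1 ≤ h) (ρ : ℝ) (h0 : 0 ≤ ρ) (hρ : ρ < 1)
    {F : FormalGroup (Ob K)} [F.IsComm] (a : ℕ → FPt F)
    (ha : ∀ m, a (m + 1) - a m ∈ Nb F (ρ ^ p ^ (h * m)) (pow_nonneg h0 _)) :
    ∃ E : FPt F, ∀ m, a m - E ∈ Nb F (ρ ^ p ^ (h * m)) (pow_nonneg h0 _) := by
  have h2 : ∀ m k, a (m + k) - a m ∈ Nb F (ρ ^ p ^ (h * m)) (pow_nonneg h0 _) := by
    intro m k
    induction k with
    | zero => simpa using (Nb F (ρ ^ p ^ (h * m)) (pow_nonneg h0 _)).zero_mem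
    | succ k ih =>
      have h3 := Nb_mono (pow_nonneg h0 _) (pow_nonneg h0 _)
        (rad_antitone (p := p) (h := h) ρ h0 hρ (Nat.le_add_right m k)) (ha (m + k))
      have h4 := add_mem h3 ih
      rwa [sub_add_sub_cancel] at h4
  have h3 : ∀ m k, m ≤ k → ‖(a k).val - (a m).val‖ ≤ ρ ^ p ^ (h * m) := by
    intro m k hmk
    obtain ⟨c, rfl⟩ := Nat.exists_eq_add_of_le hmk
    exact (sub_mem_Nb _ _ _).1 (h2 m c)
  have hcau : CauchySeq (fun k => (a k).val) := by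
    refine cauchySeq_of_le_tendsto_0' (fun m => ρ ^ p ^ (h * m)) (fun m k hmk => ?_)
      (tendsto_rad (p := p) h1 ρ h0 hρ)
    rw [dist_comm, dist_eq_norm]
    exact h3 m k hmk
  obtain ⟨x, hx⟩ := cauchySeq_tendsto_of_complete hcau
  have h4 : ∀ m, ‖(a m).val - x‖ ≤ ρ ^ p ^ (h * m) := by
    intro m
    have h5 : Tendsto (fun k => ‖(a m).val - (a k).val‖) atTop (𝓝 ‖(a m).val - x‖) :=
      (tendsto_const_nhds.sub hx).norm
    refine le_of_tendsto h5 ?_
    filter_upwards [eventually_ge_atTop m] with k hk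
    rw [norm_sub_rev]
    exact h3 m k hk
  have h5 : ‖x‖ < 1 := by
    have h6 : ‖(a 0).val + -((a 0).val - x)‖ ≤ max ‖(a 0).val‖ ‖-((a 0).val - x)‖ :=
      IsUltrametricDist.norm_add_le_max _ _
    rw [← sub_eq_add_neg, sub_sub_cancel, norm_neg] at h6
    have h7 := h4 0
    rw [Nat.mul_zero, pow_zero, pow_one] at h7
    exact h6.trans_lt (max_lt (val_lt_one _) (h7.trans_lt hρ))
  refine ⟨⟨x, (Ob_tn_iff _).2 h5⟩, fun m => ?_⟩
  rw [sub_mem_Nb]
  exact h4 m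

theorem eq_of_forall_mem (h1 : 1 ≤ h) (ρ : ℝ) (h0 : 0 ≤ ρ) (hρ : ρ < 1)
    {F : FormalGroup (Ob K)} [F.IsComm] (x y : FPt F)
    (hxy : ∀ m, x - y ∈ Nb F (ρ ^ p ^ (h * m)) (pow_nonneg h0 _)) : x = y := by
  rw [← sub_eq_zero]
  have h2 : ‖(x - y).val‖ ≤ 0 :=
    ge_of_tendsto' (tendsto_rad (p := p) h1 ρ h0 hρ) fun m => hxy m
  exact FPt.ext (norm_le_zero_iff.1 h2)

end ESysExAux

open ESysExAux in
theorem exists_ESys (h1 : 1 ≤ h) (hh : h < n) (z : Fin (n - h) → Ob K) (ρ : ℝ) (h0 : 0 ≤ ρ)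
    (hρ : ρ < 1) (hz : ∀ i, ‖z i‖ ≤ ρ) (T : Tower p n h z) (j : GaloisField p n →+* Ob K) :
    Nonempty (ESys p n h z T ρ j) := by
  classical
  have hex : ∀ (α : PowerSeries (GaloisField p n)) (hα : IsFGHom (Fn p n) (Fn p n) α)
      (l : Fin (n - h)) (i : ℕ), ∃ E : FPt (Hx p n h z), ∀ m,
      p ^ m • apS (Hx p n h z) (α.map j) (constantCoeff_map_hom hα j) (T.w (m + i) l) - E ∈
        Nb (Hx p n h z) (ρ ^ p ^ (h * m)) (pow_nonneg h0 _) := by
    intro α hα l i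
    refine exists_lim h1 ρ h0 hρ _ fun m => ?_
    have e1 : T.w (m + i) l = p • T.w (m + 1 + i) l := by
      rw [add_right_comm]; exact (T.w_succ (m + i) l).symm
    have e2 := norm_pow_smul h1 hh z _ ρ h0
      (smul_apS_sub_mem hh z ρ h0 hz j hα (constantCoeff_map_hom hα j) (T.w (m + 1 + i) l)) m
    rw [nsmul_sub, ← mul_nsmul', ← pow_succ, ← e1] at e2
    exact e2
  choose E hE using hex
  have hadd : ∀ α β (hα : IsFGHom (Fn p n) (Fn p n) α) (hβ : IsFGHom (Fn p n) (Fn p n) β) l i,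
      E (fadd (Fn p n) α β) (IsFGHom.fadd hα hβ) l i = E α hα l i + E β hβ l i := by
    intro α β hα hβ l i
    refine eq_of_forall_mem (p := p) h1 ρ h0 hρ _ _ fun m => ?_
    have t1 := hE _ (IsFGHom.fadd hα hβ) l i m
    have t2 := hE α hα l i m
    have t3 := hE β hβ l i m
    have t4 := norm_pow_smul h1 hh z _ ρ h0
      (apS_fadd_sub_mem hh z ρ h0 hz j hα hβ (constantCoeff_map_hom hα j)
        (constantCoeff_map_hom hβ j) (constantCoeff_map_hom (IsFGHom.fadd hα hβ) j) (T.w (m + i) l)) m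
    rw [nsmul_sub, nsmul_add] at t4
    have t5 := sub_mem (add_mem (show _ ∈ Nb (Hx p n h z) (ρ ^ p ^ (h * m))
      (pow_nonneg h0 _) from t4) (add_mem t2 t3)) t1
    convert t5 using 1
    abel
  have hsmul : ∀ α (hα : IsFGHom (Fn p n) (Fn p n) α) l i,
      p ^ i • E α hα l i = E α hα l 0 := by
    intro α hα l i
    refine eq_of_forall_mem (p := p) h1 ρ h0 hρ _ _ fun m => ?_
    have t1 := nsmul_mem (hE α hα l i m) (p ^ i)
    have t2 := Nb_mono (pow_nonneg h0 _) (pow_nonneg h0 _)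
      (rad_antitone (p := p) (h := h) ρ h0 hρ (Nat.le_add_right m i)) (hE α hα l 0 (m + i))
    rw [nsmul_sub, ← mul_nsmul', ← pow_add, add_comm i m] at t1
    rw [add_zero] at t2
    have t3 := sub_mem t2 t1
    convert t3 using 1
    abel
  refine ⟨{ E := fun α l i => if hα : IsFGHom (Fn p n) (Fn p n) α then E α hα l i else 0
            close := ?_
            add := ?_
            smul := ?_ }⟩
  · intro α hα hc l i m
    rw [dif_pos hα]
    exact (sub_mem_Nb _ _ _).1 (hE α hα l i m)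
  · intro α β hα hβ l i
    rw [dif_pos hα, dif_pos hβ, dif_pos (IsFGHom.fadd hα hβ)]
    exact hadd α β hα hβ l i
  · intro α hα l i
    rw [dif_pos hα, dif_pos hα]
    exact hsmul α hα l i

end Crest.Agent.R227
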