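import Crest.Agent.R227.CoRho
import Crest.Agent.R227.CoRoot
import Crest.Agent.R227.ESysEx

/-! # R227 / CoTate1 : surjectivity of `ρ`, lower bound for the lattice (part of task COTATE) -/

set_option autoImplicit false
set_option linter.unusedSectionVars false

noncomputable section

namespace Crest.Agent.R227

open Crest.LubinTate MvPowerSeries Topology

variable {p : ℕ} [Fact p.Prime] {n h : ℕ}
variable {K : Type} [NontriviallyNormedField K] [IsUltrametricDist K] [CompleteSpace K]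
  [IsAlgClosed K] [CharP K p]

namespace CoTate1Aux

theorem norm_eq_one_of_sub_lt {a : Ob K} (ha : ‖a - 1‖ < 1) : ‖a‖ = 1 := by
  refine le_antisymm (Ob_norm_le_one a) ?_
  by_contra hlt
  push Not at hlt
  have h1 : ‖a + -(a - 1)‖ ≤ max ‖a‖ ‖-(a - 1)‖ := IsUltrametricDist.norm_add_le_max _ _
  have h2 : a + -(a - 1) = 1 := by ring
  rw [h2, norm_neg] at h1
  have h3 : ‖(1 : Ob K)‖ = 1 := norm_one (α := K)
  rw [h3] at h1
  exact absurd (h1.trans_lt (max_lt hlt ha)) (lt_irrefl _)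

theorem norm_lead {P : HPoint p n h K} {i : ℕ} {V : PowerSeries (Ob K)} (hV : IsVi P i V) :
    ‖PowerSeries.coeff (p ^ ((n - h) * i)) V‖ = 1 := by
  refine norm_eq_one_of_sub_lt ?_
  have h1 := hV.near (p ^ ((n - h) * i))
  rw [if_pos rfl] at h1
  exact h1.trans_lt P.c_lt_one

theorem norm_lower {P : HPoint p n h K} {i : ℕ} {V : PowerSeries (Ob K)} (hV : IsVi P i V)
    (m : ℕ) (hm : m < p ^ ((n - h) * i)) : ‖PowerSeries.coeff m V‖ < 1 := by
  have h1 := hV.near m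
  rw [if_neg hm.ne, sub_zero] at h1
  exact h1.trans_lt P.c_lt_one

theorem norm_fz_lt (k : ℕ) {x : Ob K} (hx : ‖x‖ < 1) : ‖fz p (-(k : ℤ)) x‖ < 1 := by
  have h1 := norm_fz_neg (p := p) k x
  by_contra h2
  push Not at h2
  have h3 : (1 : ℝ) ≤ ‖fz p (-(k : ℤ)) x‖ ^ p ^ k := one_le_pow₀ h2
  rw [h1] at h3
  exact absurd hx (not_lt.2 h3)

/-- `F(m)` is `p`-divisible -/
theorem exists_smul_eq (h1 : 1 ≤ h) (hh : h < n) (P : HPoint p n h K) (y : FPt P.F) :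
    ∃ a : FPt P.F, p • a = y := by
  obtain ⟨V, hV⟩ := exists_Vi h1 hh P 1
  have hm0 : 1 ≤ p ^ ((n - h) * 1) := Nat.one_le_pow _ _ (Fact.out : p.Prime).pos
  obtain ⟨x, hx, hxy⟩ := exists_ev_eq V hV.hom.1 _ hm0 y.val
    (by rw [norm_lead hV]; exact FPt.norm_lt _ _)
  refine ⟨mkPt P.F (fz p (-((h * 1 : ℕ) : ℤ)) x) (norm_fz_lt _ hx), ?_⟩
  apply FPt.ext
  have e1 := hV.ev (mkPt P.F (fz p (-((h * 1 : ℕ) : ℤ)) x) (norm_fz_lt _ hx))
  rw [mkPt_val, fz_neg_pow, hxy, pow_one] at e1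
  exact e1

/-- a sequence of `p`-divisions -/
def divSeq (h1 : 1 ≤ h) (hh : h < n) (P : HPoint p n h K) (y : FPt P.F) : ℕ → FPt P.F
  | 0 => y
  | i + 1 => Classical.choose (exists_smul_eq h1 hh P (divSeq h1 hh P y i))

theorem smul_divSeq (h1 : 1 ≤ h) (hh : h < n) (P : HPoint p n h K) (y : FPt P.F) (i : ℕ) :
    p • divSeq h1 hh P y (i + 1) = divSeq h1 hh P y i :=
  Classical.choose_spec (exists_smul_eq h1 hh P (divSeq h1 hh P y i))

theorem pow_smul_divSeq (h1 : 1 ≤ h) (hh : h < n) (P : HPoint p n h K) (y : FPt P.F) (i : ℕ) :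
    p ^ i • divSeq h1 hh P y i = y := by
  induction i with
  | zero => rw [pow_zero, one_nsmul]; rfl
  | succ i ih => rw [pow_succ, mul_nsmul', smul_divSeq, ih]

end CoTate1Aux

open CoTate1Aux in
/-- `ρ` is surjective: choose `y = y_0`, `p y_{i+1} = y_i`, then `z = lim y_i^{q^i}`. -/
theorem IsRho.surjective {P : HPoint p n h K} {ρ : FPt (HO p n n (Ob K)) →+ FPt P.F}
    (h1 : 1 ≤ h) (hh : h < n) (hρ : IsRho P ρ) : Function.Surjective ρ := by
  intro y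
  have hn : 1 ≤ n := h1.trans hh.le
  let Y := divSeq h1 hh P y
  let Z : ℕ → FPt (HO p n n (Ob K)) := fun i => ⟨(Y i).val, (Y i).tn⟩
  have hZ : ∀ i, ‖((p ^ 1) • Z (i + 1)).val - (Z i).val‖ ≤ P.c := by
    intro i
    have e1 := norm_smul_sub_pow_le h1 hh P (Y (i + 1))
    have e2 : (p ^ 1) • Y (i + 1) = Y i := by rw [pow_one]; exact smul_divSeq h1 hh P y i
    rw [e2] at e1
    rw [HO_pow_smul hn le_rfl, nfr_val, fz_natCast, Nat.mul_one, norm_sub_rev]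
    exact e1
  obtain ⟨z, hz⟩ := ESysExAux.exists_lim (p := p) hn P.c P.c_nonneg P.c_lt_one
    (fun i => (p ^ i) • Z i) (fun i => by
      have e1 : (p ^ (i + 1)) • Z (i + 1) - (p ^ i) • Z i =
          (p ^ i) • ((p ^ 1) • Z (i + 1) - Z i) := by
        rw [nsmul_sub, ← mul_nsmul', ← pow_add]
      rw [e1, ESysExAux.mem_Nb, HO_pow_smul hn le_rfl, nfr_val, norm_fz_natCast]
      refine pow_le_pow_left₀ (norm_nonneg _) ?_ _
      rw [FPt.norm_sub]
      exact hZ i)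
  refine ⟨z, ?_⟩
  refine ESysExAux.eq_of_forall_mem (p := p) h1 P.c P.c_nonneg P.c_lt_one _ _ fun i => ?_
  have e1 : ρ z - y = (p ^ i) • (ρ (Z i) - Y i) - ρ ((p ^ i) • Z i - z) := by
    rw [nsmul_sub, map_sub, map_nsmul, pow_smul_divSeq h1 hh P y i]
    abel
  rw [e1]
  refine sub_mem ?_ ?_
  · rw [ESysExAux.mem_Nb]
    refine (norm_pow_smul_le h1 hh P i _).trans (pow_le_pow_left₀ (norm_nonneg _) ?_ _)
    rw [FPt.norm_sub]
    exact hρ.near (Z i)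
  · rw [ESysExAux.mem_Nb]
    exact hρ.norm_le h1 hh i _ ((ESysExAux.mem_Nb _ _).1 (hz i))

open CoTate1Aux in
/-- lower bound for integral combinations not divisible by `p` -/
theorem IsTBasis.lower {P : HPoint p n h K} {ρ : FPt (HO p n n (Ob K)) →+ FPt P.F}
    {t : Fin (n - h) → FPt (HO p n n (Ob K))} (h1 : 1 ≤ h) (hh : h < n) (hρ : IsRho P ρ)
    (ht : IsTBasis P ρ t) :
    ∃ δ : ℝ, 0 < δ ∧ ∀ m : Fin (n - h) → ℤ, (∃ l, ¬ (p : ℤ) ∣ m l) →
      δ ≤ ‖(∑ l, m l • t l).val‖ := by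
  classical
  have hn : 1 ≤ n := h1.trans hh.le
  have hp : p ≠ 0 := (Fact.out : p.Prime).ne_zero
  obtain ⟨V, hV⟩ := exists_Vi h1 hh P 1
  obtain ⟨s, -, hs⟩ := card_roots V (p ^ ((n - h) * 1)) (norm_lower hV) (norm_lead hV)
    (fun x hx _ => hV.deriv_ne x hx)
  -- lower bound for the nonzero roots
  obtain ⟨d, hd0, hd⟩ : ∃ d : ℝ, 0 < d ∧ ∀ x ∈ s, x ≠ 0 → d ≤ ‖x‖ := by
    rcases (s.filter (fun x => x ≠ 0)).eq_empty_or_nonempty with he | hne
    · refine ⟨1, one_pos, fun x hx hx0 => ?_⟩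
      have : x ∈ s.filter (fun x => x ≠ 0) := Finset.mem_filter.2 ⟨hx, hx0⟩
      rw [he] at this
      exact absurd this (Finset.notMem_empty _)
    · obtain ⟨x0, hx0, hmin⟩ := Finset.exists_min_image _ (fun x : Ob K => ‖x‖) hne
      refine ⟨‖x0‖, norm_pos_iff.2 (Finset.mem_filter.1 hx0).2, fun x hx hxn => ?_⟩
      exact hmin x (Finset.mem_filter.2 ⟨hx, hxn⟩)
  have hlim := (ESysExAux.tendsto_rad (p := p) h1 P.c P.c_nonneg P.c_lt_one).pow (p ^ (h * 1))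
  rw [zero_pow (pow_ne_zero _ hp)] at hlim
  obtain ⟨i, hi⟩ := ((hlim.eventually (gt_mem_nhds hd0))).exists
  refine ⟨(P.c ^ p ^ (n * i)) ^ p ^ (n * 1), pow_pos (pow_pos (P.c_pos h1 hh) _) _, ?_⟩
  intro m hm
  by_contra hlt
  push Not at hlt
  set z := ∑ l, m l • t l with hz
  have hρz : ρ z = 0 := by
    rw [hz, map_sum]
    exact Finset.sum_eq_zero fun l _ => by rw [map_zsmul, ht.mem l, zsmul_zero]
  set w := nfr (-((n * 1 : ℕ) : ℤ)) z with hw
  have hpw : (p ^ 1) • w = z := HO_smul_nfr (p := p) (K := K) hn 1 z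
  have hwn : ‖w.val‖ ≤ P.c ^ p ^ (n * i) := by
    have e1 := norm_fz_neg (p := p) (n * 1) z.val
    refine (pow_le_pow_iff_left₀ (norm_nonneg _) (pow_nonneg P.c_nonneg _)
      (pow_ne_zero (n * 1) hp)).1 ?_
    rw [hw, nfr_val, e1]
    exact hlt.le
  have hρw : ‖(ρ w).val‖ ≤ P.c ^ p ^ (h * i) := hρ.norm_le h1 hh i w hwn
  set κ := (ρ w).val ^ p ^ (h * 1) with hκ
  have hκn : ‖κ‖ < d := by
    have e1 : ‖κ‖ = ‖(ρ w).val‖ ^ p ^ (h * 1) := norm_pow ((ρ w).val : K) _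
    rw [e1]
    exact (pow_le_pow_left₀ (norm_nonneg _) hρw _).trans_lt hi
  have hκlt : ‖κ‖ < 1 := by
    have e1 : ‖κ‖ = ‖(ρ w).val‖ ^ p ^ (h * 1) := norm_pow ((ρ w).val : K) _
    rw [e1]
    exact pow_lt_one₀ (norm_nonneg _) (FPt.norm_lt _ _) (pow_ne_zero _ hp)
  have hκV : ev₁ κ V = 0 := by
    have e1 := hρ.eq_V h1 hh 1 hV z
    rw [hρz, FPt.val_zero] at e1
    exact e1.symm
  have hκ0 : κ = 0 := by
    by_contra hne
    exact absurd (hd κ ((hs κ).2 ⟨hκlt, hκV⟩) hne) (not_le.2 hκn)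
  have hρw0 : ρ w = 0 := by
    apply FPt.ext
    have e1 : ((ρ w).val : K) ^ p ^ (h * 1) = 0 := by
      have := congrArg (fun x : Ob K => (x : K)) hκ0
      simpa [hκ] using this
    exact Subtype.ext (pow_eq_zero_iff (pow_ne_zero _ hp) |>.1 e1)
  obtain ⟨l, hl⟩ := hm
  refine hl (ht.indep m ⟨w, hρw0, ?_⟩ l)
  rw [← hz, natCast_zsmul, ← hpw, pow_one]

end Crest.Agent.R227
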