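import Crest.Agent.R227.CoTate1

/-! # R227 / CoTate2 : level points (part of task COTATE) -/

set_option autoImplicit false
set_option linter.unusedSectionVars false
set_option linter.unusedVariables false

noncomputable section

namespace Crest.Agent.R227

open Crest.LubinTate MvPowerSeries Topology

variable {p : ℕ} [Fact p.Prime] {n h : ℕ}
variable {K : Type} [NontriviallyNormedField K] [IsUltrametricDist K] [CompleteSpace K]
  [IsAlgClosed K] [CharP K p]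

variable {P : HPoint p n h K} {ρ : FPt (HO p n n (Ob K)) →+ FPt P.F}
variable {t : Fin (n - h) → FPt (HO p n n (Ob K))}

namespace CoTate2Aux

/-- `p` is injective on the points of the Honda law -/
theorem smul_injective (hn : 1 ≤ n) {z w : FPt (HO p n n (Ob K))} (hzw : p • z = p • w) :
    z = w := by
  have e : ∀ z : FPt (HO p n n (Ob K)), z = nfr (-((n * 1 : ℕ) : ℤ)) (p • z) := by
    intro z
    conv_rhs => rw [show p • z = (p ^ 1) • z by rw [pow_one]]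
    rw [HO_pow_smul hn le_rfl, ← nfr_add, neg_add_cancel, nfr_zero]
  rw [e z, e w, hzw]

theorem pow_smul_nfr (hn : 1 ≤ n) (i : ℕ) (z : FPt (HO p n n (Ob K))) :
    (p ^ i) • nfr (-((n * i : ℕ) : ℤ)) z = z := HO_smul_nfr (p := p) (K := K) hn i z

theorem rho_sum_nat (ht : IsTBasis P ρ t) (a : Fin (n - h) → ℕ) : ρ (∑ l, a l • t l) = 0 := by
  rw [map_sum]
  exact Finset.sum_eq_zero fun l _ => by rw [map_nsmul, ht.mem l, nsmul_zero]

theorem rho_sum_int (ht : IsTBasis P ρ t) (a : Fin (n - h) → ℤ) : ρ (∑ l, a l • t l) = 0 := by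
  rw [map_sum]
  exact Finset.sum_eq_zero fun l _ => by rw [map_zsmul, ht.mem l, zsmul_zero]

end CoTate2Aux

open CoTate2Aux

theorem IsTBasis.indep_pow (h1 : 1 ≤ h) (hh : h < n) (ht : IsTBasis P ρ t) (i : ℕ)
    (a : Fin (n - h) → ℤ) (ha : ∃ z, ρ z = 0 ∧ ∑ l, a l • t l = ((p ^ i : ℕ) : ℤ) • z) :
    ∀ l, ((p ^ i : ℕ) : ℤ) ∣ a l := by
  have hn : 1 ≤ n := h1.trans hh.le
  induction i generalizing a with
  | zero => intro l; simp
  | succ i ih =>
    obtain ⟨z, hz0, hz⟩ := ha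
    have hp : ∀ l, (p : ℤ) ∣ a l := by
      refine ht.indep a ⟨((p ^ i : ℕ) : ℤ) • z, ?_, ?_⟩
      · rw [map_zsmul, hz0, zsmul_zero]
      · rw [hz, ← mul_zsmul', pow_succ, Nat.cast_mul, mul_comm]
    choose b hb using hp
    have h2 : ∑ l, b l • t l = ((p ^ i : ℕ) : ℤ) • z := by
      apply smul_injective hn
      rw [← natCast_zsmul, ← natCast_zsmul, Finset.smul_sum]
      have e1 : ∀ l, ((p : ℕ) : ℤ) • b l • t l = a l • t l := fun l => by
        rw [hb l, mul_zsmul']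
        exact (zsmul_comm _ _ _)
      simp only [e1]
      rw [hz, ← mul_zsmul', pow_succ, Nat.cast_mul]
    have h3 := ih b ⟨z, hz0, h2⟩
    intro l
    rw [hb l, pow_succ', Nat.cast_mul]
    exact mul_dvd_mul_left _ (h3 l)

/-- the level points `([a] κ^i)_a` are distinct zeros of `V_i` -/
theorem IsTBasis.level_zero (h1 : 1 ≤ h) (hh : h < n) (hρ : IsRho P ρ) (ht : IsTBasis P ρ t)
    (i : ℕ) {V : PowerSeries (Ob K)} (hV : IsVi P i V) (a : Fin (n - h) → ℕ) :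
    ev₁ ((ρ (nfr (-((n * i : ℕ) : ℤ)) (∑ l, a l • t l))).val ^ p ^ (h * i)) V = 0 := by
  rw [← hρ.eq_V h1 hh i hV, rho_sum_nat ht a]
  rfl

theorem IsTBasis.level_inj (h1 : 1 ≤ h) (hh : h < n) (hρ : IsRho P ρ) (ht : IsTBasis P ρ t)
    (i : ℕ) (a b : Fin (n - h) → ℕ) (ha : ∀ l, a l < p ^ i) (hb : ∀ l, b l < p ^ i)
    (hab : (ρ (nfr (-((n * i : ℕ) : ℤ)) (∑ l, a l • t l))).val ^ p ^ (h * i) =
      (ρ (nfr (-((n * i : ℕ) : ℤ)) (∑ l, b l • t l))).val ^ p ^ (h * i)) : a = b := by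
  have hn : 1 ≤ n := h1.trans hh.le
  have e1 : (ρ (nfr (-((n * i : ℕ) : ℤ)) (∑ l, a l • t l))).val =
      (ρ (nfr (-((n * i : ℕ) : ℤ)) (∑ l, b l • t l))).val := by
    rw [← fz_natCast, ← fz_natCast] at hab
    exact (fz p ((h * i : ℕ) : ℤ) : Ob K ≃+* Ob K).injective hab
  have e2 := FPt.ext e1
  set u := nfr (-((n * i : ℕ) : ℤ)) (∑ l, ((a l : ℤ) - (b l : ℤ)) • t l) with hu
  have hs : ∑ l, ((a l : ℤ) - (b l : ℤ)) • t l = ∑ l, a l • t l - ∑ l, b l • t l := by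
    rw [← Finset.sum_sub_distrib]
    refine Finset.sum_congr rfl fun l _ => ?_
    rw [sub_zsmul, natCast_zsmul, natCast_zsmul, ← sub_eq_add_neg]
  have hu0 : ρ u = 0 := by
    rw [hu, hs, map_sub, map_sub, e2, sub_self]
  have hup : ∑ l, ((a l : ℤ) - (b l : ℤ)) • t l = ((p ^ i : ℕ) : ℤ) • u := by
    rw [natCast_zsmul, hu, pow_smul_nfr hn]
  have h3 := ht.indep_pow h1 hh i (fun l => (a l : ℤ) - (b l : ℤ)) ⟨u, hu0, hup⟩
  funext l
  have h4 : (a l : ℤ) ≡ (b l : ℤ) [ZMOD ((p ^ i : ℕ) : ℤ)] :=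
    (Int.modEq_iff_dvd.2 (by
      have := h3 l
      rw [← neg_sub]
      exact (dvd_neg).2 this))
  exact Nat.ModEq.eq_of_lt_of_lt ((Int.natCast_modEq_iff).1 h4) (ha l) (hb l)

namespace CoTate2Aux

/-- `p T` in `T = ker ρ` -/
def pT (ρ : FPt (HO p n n (Ob K)) →+ FPt P.F) : AddSubgroup ρ.ker :=
  (nsmulAddMonoidHom p : ρ.ker →+ ρ.ker).range

/-- `κ(t) = ρ(t^{1/q})^Q` -/
def kmap (ρ : FPt (HO p n n (Ob K)) →+ FPt P.F) (t : ρ.ker) : Ob K :=
  (ρ (nfr (-((n * 1 : ℕ) : ℤ)) t.1)).val ^ p ^ (h * 1)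

theorem kmap_eq_iff (hn : 1 ≤ n) (a b : ρ.ker) :
    kmap ρ a = kmap ρ b ↔ (QuotientAddGroup.mk a : ρ.ker ⧸ pT ρ) = QuotientAddGroup.mk b := by
  rw [QuotientAddGroup.eq]
  constructor
  · intro hab
    have e1 : (ρ (nfr (-((n * 1 : ℕ) : ℤ)) a.1)).val = (ρ (nfr (-((n * 1 : ℕ) : ℤ)) b.1)).val := by
      rw [kmap, kmap, ← fz_natCast, ← fz_natCast] at hab
      exact (fz p ((h * 1 : ℕ) : ℤ) : Ob K ≃+* Ob K).injective hab
    have e2 := FPt.ext e1
    have hw : nfr (-((n * 1 : ℕ) : ℤ)) (-a.1 + b.1) ∈ ρ.ker := by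
      rw [AddMonoidHom.mem_ker, map_add, map_neg, map_add, map_neg, e2, neg_add_cancel]
    refine ⟨⟨_, hw⟩, Subtype.ext ?_⟩
    have := pow_smul_nfr hn 1 (-a.1 + b.1)
    rw [pow_one] at this
    exact this
  · rintro ⟨w, hw⟩
    have hw' : p • w.1 = -a.1 + b.1 := congrArg Subtype.val hw
    have e1 : b.1 = a.1 + p • w.1 := by rw [hw']; abel
    have e2 : nfr (-((n * 1 : ℕ) : ℤ)) (p • w.1) = w.1 := by
      rw [show p • w.1 = (p ^ 1) • w.1 by rw [pow_one], HO_pow_smul hn le_rfl, ← nfr_add,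
        neg_add_cancel, nfr_zero]
    have hw0 : ρ w.1 = 0 := w.2
    rw [kmap, kmap, e1, map_add, map_add, e2, hw0, add_zero]

theorem range_kmap (h1 : 1 ≤ h) (hh : h < n) (hρ : IsRho P ρ) {V : PowerSeries (Ob K)}
    (hV : IsVi P 1 V) : Set.range (kmap ρ) = {x : Ob K | ‖x‖ < 1 ∧ ev₁ x V = 0} := by
  have hn : 1 ≤ n := h1.trans hh.le
  have hp : p ≠ 0 := (Fact.out : p.Prime).ne_zero
  ext x
  constructor
  · rintro ⟨t, rfl⟩
    refine ⟨?_, ?_⟩
    · have e1 : ‖kmap ρ t‖ = ‖(ρ (nfr (-((n * 1 : ℕ) : ℤ)) t.1)).val‖ ^ p ^ (h * 1) :=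
        norm_pow ((ρ (nfr (-((n * 1 : ℕ) : ℤ)) t.1)).val : K) _
      rw [e1]
      exact pow_lt_one₀ (norm_nonneg _) (FPt.norm_lt _ _) (pow_ne_zero _ hp)
    · have e1 := hρ.eq_V h1 hh 1 hV t.1
      have e2 : ρ t.1 = 0 := t.2
      rw [e2, FPt.val_zero] at e1
      exact e1.symm
  · rintro ⟨hx, hxV⟩
    let a : FPt P.F := mkPt P.F (fz p (-((h * 1 : ℕ) : ℤ)) x) (CoTate1Aux.norm_fz_lt _ hx)
    have ha : (p ^ 1) • a = 0 := by
      apply FPt.ext
      have e1 := hV.ev a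
      rw [mkPt_val, fz_neg_pow, hxV] at e1
      exact e1
    obtain ⟨w, hw⟩ := hρ.surjective h1 hh a
    have ht : (p ^ 1) • w ∈ ρ.ker := by
      rw [AddMonoidHom.mem_ker, map_nsmul, hw, ha]
    refine ⟨⟨(p ^ 1) • w, ht⟩, ?_⟩
    have e2 : nfr (-((n * 1 : ℕ) : ℤ)) ((p ^ 1) • w) = w := by
      rw [HO_pow_smul hn le_rfl, ← nfr_add, neg_add_cancel, nfr_zero]
    rw [kmap, e2, hw, mkPt_val, fz_neg_pow]

theorem card_quot (h1 : 1 ≤ h) (hh : h < n) (hρ : IsRho P ρ) :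
    Nat.card (ρ.ker ⧸ pT ρ) = p ^ (n - h) := by
  have hn : 1 ≤ n := h1.trans hh.le
  obtain ⟨V, hV⟩ := exists_Vi h1 hh P 1
  obtain ⟨s, hs1, hs⟩ := card_roots V (p ^ ((n - h) * 1)) (CoTate1Aux.norm_lower hV)
    (CoTate1Aux.norm_lead hV) (fun x hx _ => hV.deriv_ne x hx)
  let f : ρ.ker ⧸ pT ρ → Ob K := Quotient.lift (s := QuotientAddGroup.leftRel (pT ρ)) (kmap ρ)
    (fun a b hab => (kmap_eq_iff hn a b).2 (Quotient.sound hab))
  have hf : ∀ a : ρ.ker, f (QuotientAddGroup.mk a) = kmap ρ a := fun a => rfl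
  have hinj : Function.Injective f := by
    intro a b hab
    obtain ⟨a, rfl⟩ := QuotientAddGroup.mk_surjective a
    obtain ⟨b, rfl⟩ := QuotientAddGroup.mk_surjective b
    rw [hf, hf] at hab
    exact (kmap_eq_iff hn a b).1 hab
  have hrange : Set.range f = (s : Set (Ob K)) := by
    have e1 : Set.range f = Set.range (kmap ρ) := by
      ext x
      constructor
      · rintro ⟨a, rfl⟩
        obtain ⟨a, rfl⟩ := QuotientAddGroup.mk_surjective a
        exact ⟨a, rfl⟩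
      · rintro ⟨a, rfl⟩
        exact ⟨QuotientAddGroup.mk a, rfl⟩
    rw [e1, range_kmap h1 hh hρ hV]
    ext x
    exact (hs x).symm
  rw [Nat.card_congr (Equiv.ofInjective f hinj), hrange, Nat.card_coe_set_eq, Set.ncard_coe_finset,
    hs1, Nat.mul_one]

end CoTate2Aux

namespace CoTate2Aux

theorem exists_indep₀ {G : Type} [AddCommGroup G] [Module (ZMod p) G] (r : ℕ)
    (hcard : Nat.card G = p ^ r) :
    ∃ b : Fin r → G, ∀ a : Fin r → ℤ, ∑ l, a l • b l = 0 → ∀ l, (p : ℤ) ∣ a l := by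
  have hp : p.Prime := Fact.out
  have hfin : Finite G := Nat.finite_of_card_ne_zero (by
    rw [hcard]; exact pow_ne_zero _ hp.ne_zero)
  have hmf : Module.Finite (ZMod p) G := Module.Finite.of_finite
  have hdim : Module.finrank (ZMod p) G = r := by
    have e1 := Module.natCard_eq_pow_finrank (K := ZMod p) (V := G)
    rw [hcard, Nat.card_zmod] at e1
    exact (Nat.pow_right_injective hp.two_le e1).symm
  let b := Module.finBasisOfFinrankEq (ZMod p) G hdim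
  refine ⟨fun l => b l, fun a ha => ?_⟩
  have e5 : ∑ l, ((a l : ℤ) : ZMod p) • b l = 0 := by
    rw [← ha]
    exact Finset.sum_congr rfl fun l _ => Int.cast_smul_eq_zsmul (ZMod p) (a l) (b l)
  have e6 := Fintype.linearIndependent_iff.1 b.linearIndependent _ e5
  intro l
  exact (ZMod.intCast_zmod_eq_zero_iff_dvd _ _).1 (e6 l)

theorem exists_indep {G : Type} [AddCommGroup G] (r : ℕ) (hG : ∀ x : G, p • x = 0)
    (hcard : Nat.card G = p ^ r) :
    ∃ b : Fin r → G, ∀ a : Fin r → ℤ, ∑ l, a l • b l = 0 → ∀ l, (p : ℤ) ∣ a l := by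
  let _ : Module (ZMod p) G := AddCommGroup.zmodModule hG
  exact exists_indep₀ r hcard

end CoTate2Aux

theorem exists_tbasis (h1 : 1 ≤ h) (hh : h < n) (hρ : IsRho P ρ) : ∃ t, IsTBasis P ρ t := by
  obtain ⟨b, hb⟩ := exists_indep (p := p) (G := ρ.ker ⧸ pT ρ) (n - h) (by
    intro x
    obtain ⟨x, rfl⟩ := QuotientAddGroup.mk_surjective x
    rw [← QuotientAddGroup.mk_nsmul, QuotientAddGroup.eq_zero_iff]
    exact ⟨x, rfl⟩) (card_quot h1 hh hρ)
  have hsur : ∀ l, ∃ t : ρ.ker, (QuotientAddGroup.mk t : ρ.ker ⧸ pT ρ) = b l := fun l =>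
    QuotientAddGroup.mk_surjective (b l)
  choose t ht using hsur
  refine ⟨fun l => (t l).1, fun l => (t l).2, ?_⟩
  rintro a ⟨z, hz0, hz⟩
  have e1 : ∑ l, a l • t l = p • (⟨z, hz0⟩ : ρ.ker) := by
    apply Subtype.ext
    have : ((∑ l, a l • t l : ρ.ker) : FPt (HO p n n (Ob K))) = ∑ l, a l • (t l).1 := by
      rw [AddSubgroup.val_finsetSum]
      rfl
    rw [this, hz, natCast_zsmul]
    rfl
  refine hb a ?_
  have e3 := congrArg (QuotientAddGroup.mk' (pT ρ)) e1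
  rw [map_sum] at e3
  have e4 : (QuotientAddGroup.mk' (pT ρ)) (p • (⟨z, hz0⟩ : ρ.ker)) = 0 := by
    rw [QuotientAddGroup.mk'_apply, QuotientAddGroup.eq_zero_iff]
    exact ⟨_, rfl⟩
  rw [e4] at e3
  rw [← e3]
  refine Finset.sum_congr rfl fun l _ => ?_
  rw [map_zsmul, QuotientAddGroup.mk'_apply, ht l]

end Crest.Agent.R227
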