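import Crest.Agent.R227.Ball
import Mathlib.Analysis.Normed.Field.Dense
import Mathlib.RingTheory.LaurentSeries
import Mathlib.Analysis.Normed.Module.Completion
import Mathlib.Topology.Algebra.Valued.NormedValued

/-!
# R227 / CpField : complete algebraically closed nonarchimedean fields of characteristic `p`
-/

set_option autoImplicit false

noncomputable section

namespace Crest.Agent.R227.CpF

open Polynomial

/-- Variant of `IsAlgClosed.of_denseRange` with `CharZero` replaced by `PerfectField`. -/
theorem isAlgClosed_of_denseRange {K L : Type*} [Field K] [NontriviallyNormedField L]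
    [CompleteSpace L] [PerfectField L] [IsUltrametricDist L] [Algebra K L]
    (hi : DenseRange (algebraMap K L)) [IsAlgClosed K] : IsAlgClosed L := by
  apply IsAlgClosed.of_exists_root
  intro f fmon firr
  have fnatdeg0 : f.natDegree ≠ 0 := (Irreducible.natDegree_pos firr).ne'
  let F := f.SplittingField
  let : NormedField F := spectralNorm.normedField L F
  let : NormedAlgebra L F := spectralNorm.normedAlgebra L F
  let a := rootOfSplits (SplittingField.splits f)
      (by simpa using degree_ne_of_natDegree_ne fnatdeg0)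
  have fa0 : f.aeval a = 0 := by
    rw [← eval_map_algebraMap]
    exact eval_rootOfSplits (Polynomial.SplittingField.splits f)
      (by simpa using degree_ne_of_natDegree_ne fnatdeg0)
  classical
    let S : Finset F := {x ∈ (f.rootSet F).toFinset | x ≠ a}
  let δ : ℝ := if hS : S.Nonempty then Finset.min' (S.image fun x => ‖a - x‖)
      (Finset.image_nonempty.mpr hS) else 1
  have norm_sub_le : ∀ a' : F, IsConjRoot L a a' → a ≠ a' → δ ≤ ‖a - a'‖ := by
    intro a' conj ne
    by_cases hS : S.Nonempty <;> simp only [hS, ↓reduceDIte, δ]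
    · apply Finset.min'_le (S.image fun x => ‖a - x‖) (‖a - a'‖)
      apply Finset.mem_image_of_mem
      simp only [minpoly.eq_of_irreducible_of_monic firr fa0 fmon, Finset.mem_filter,
        Set.mem_toFinset, S]
      rw [← (isConjRoot_iff_mem_minpoly_rootSet ⟨f, fmon, fa0⟩)]
      exact ⟨conj, ne.symm⟩
    · simp only [ne_eq, Finset.not_nonempty_iff_eq_empty, Finset.filter_eq_empty_iff,
      Set.mem_toFinset, not_not, S] at hS
      rw [isConjRoot_iff_mem_minpoly_rootSet ⟨f, fmon, fa0⟩,
          ← minpoly.eq_of_irreducible_of_monic firr fa0 fmon] at conj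
      exact (ne (hS conj).symm).elim
  have δpos : δ > 0 := by
    by_cases hS : S.Nonempty <;> simp only [hS, ↓reduceDIte, δ]
    · simp only [gt_iff_lt, Finset.lt_min'_iff, Finset.mem_image, forall_exists_index, and_imp,
        forall_apply_eq_imp_iff₂]
      rintro a' ha'
      simp only [Finset.mem_filter, Set.mem_toFinset, S] at ha'
      rw [norm_pos_iff, sub_ne_zero]
      exact ha'.2.symm
    · linarith
  have hε : (δ / (max ‖a‖ 1)) ^ f.natDegree / (f.natDegree + 1) > 0 := by positivity
  obtain ⟨g, gmon, gdeg, gcoeff⟩ :=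
    exists_monic_and_natDegree_eq_and_norm_map_algebraMap_coeff_sub_lt hi fmon hε
  let ⟨b, hb, hab⟩ := exists_aroots_norm_sub_lt_of_norm_coeff_sub_lt
      hε fa0 fmon (gmon.map _) (gdeg ▸ (g.natDegree_map _)) gcoeff
      (by simpa [Polynomial.map_map] using (IsAlgClosed.splits g).map ((algebraMap L F).comp _))
  have hab : ‖a - b‖ < δ := by
    rw [← Real.rpow_natCast, ← mul_comm_div, div_self, one_mul,
        ← Real.rpow_mul (div_pos δpos (by positivity)).le, mul_inv_cancel₀] at hab
    · simpa [mul_assoc, div_mul_cancel₀ _ (by positivity : (max ‖a‖ 1) > 0).ne'] using hab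
    · simp [fnatdeg0]
    · positivity
  have bbot : b ∈ (⊥ : IntermediateField L F) := by
    rw [Polynomial.aroots_def, Splits.roots_map ((IsAlgClosed.splits g).map _),
        Multiset.mem_map] at hb
    obtain ⟨bCp, _, hbCp⟩ := hb
    rw [IntermediateField.mem_bot]
    exact ⟨bCp, hbCp⟩
  simp only [Polynomial.mem_roots', ne_eq, Polynomial.map_eq_zero, Polynomial.IsRoot.def,
    Polynomial.eval_map_algebraMap] at hb
  have abot : a ∈ (⊥ : IntermediateField L F) := by
    have masp : ((minpoly L a).map (algebraMap L F)).Splits := by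
      simpa [minpoly.eq_of_irreducible_of_monic firr fa0 fmon] using
        (Polynomial.SplittingField.splits f)
    simpa [IntermediateField.adjoin_simple_eq_bot_iff.mpr bbot] using
      IsKrasner.krasner (PerfectField.separable_of_irreducible (minpoly.irreducible ⟨f, fmon, fa0⟩))
        masp ⟨(g.map _), gmon.map _, hb.2⟩ fun a' h1 h2 ↦ lt_of_lt_of_le hab (norm_sub_le a' h1 h2)
  obtain ⟨aCp, haCp⟩ := IntermediateField.mem_bot.mp abot
  use aCp
  apply_fun algebraMap L F
  · rwa [← Polynomial.aeval_algebraMap_apply_eq_algebraMap_eval, haCp, map_zero]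
  · exact RingHom.injective _

/-- The completion (dense complete extension) of a perfect ultrametric field of characteristic `p`
is perfect. -/
theorem perfectRing_of_denseRange (p : ℕ) [Fact p.Prime] {K L : Type*} [Field K]
    [NormedField L] [CompleteSpace L] [CharP K p] [CharP L p] [PerfectRing K p] [Algebra K L]
    (hi : DenseRange (algebraMap K L)) : PerfectRing L p := by
  refine PerfectRing.ofSurjective L p ?_
  have hnorm : ∀ x y : L, ‖x ^ p - y ^ p‖ = ‖x - y‖ ^ p := by
    intro x y
    rw [← sub_pow_char, norm_pow]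
  intro y
  -- choose a sequence in K converging to y
  have hmem : y ∈ closure (Set.range (algebraMap K L)) := hi y
  obtain ⟨u, hu, hlim⟩ := mem_closure_iff_seq_limit.mp hmem
  choose w hw using hu
  -- p-th roots
  let r : ℕ → K := fun k => (frobeniusEquiv K p).symm (w k)
  have hr : ∀ k, (algebraMap K L (r k)) ^ p = u k := by
    intro k
    rw [← map_pow, ← hw k]
    congr 1
    exact (frobeniusEquiv K p).apply_symm_apply (w k)
  have hp : (p : ℕ) ≠ 0 := (Fact.out : p.Prime).ne_zero
  have hcau : CauchySeq fun k => algebraMap K L (r k) := by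
    have huc : CauchySeq u := hlim.cauchySeq
    rw [Metric.cauchySeq_iff] at huc ⊢
    intro ε hε
    obtain ⟨N, hN⟩ := huc (ε ^ p) (by positivity)
    refine ⟨N, fun m hm k hk => ?_⟩
    have h1 := hN m hm k hk
    rw [dist_eq_norm, ← hr m, ← hr k, hnorm] at h1
    rw [dist_eq_norm]
    exact lt_of_pow_lt_pow_left₀ p hε.le h1
  obtain ⟨x, hx⟩ := cauchySeq_tendsto_of_complete hcau
  refine ⟨x, ?_⟩
  have h2 : Filter.Tendsto (fun k => (algebraMap K L (r k)) ^ p) Filter.atTop (nhds (x ^ p)) :=
    hx.pow p
  have h3 : (fun k => (algebraMap K L (r k)) ^ p) = u := funext hr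
  rw [h3] at h2
  exact tendsto_nhds_unique h2 hlim

section laurent

open scoped WithZero NNReal

variable (F : Type*) [Field F]

theorem laurent_isRankOneDiscrete :
    ((Valued.v : Valuation (LaurentSeries F) ℤᵐ⁰)).IsRankOneDiscrete := by
  have : Nontrivial (MonoidWithZeroHom.valueGroup
      (.ofClass (Valued.v : Valuation (LaurentSeries F) ℤᵐ⁰))) := by
    rw [Subgroup.nontrivial_iff_exists_ne_one]
    obtain ⟨x, hx⟩ := LaurentSeries.valuation_surjective F (WithZero.exp (-1))
    refine ⟨Units.mk0 (Valued.v x) (by simp [hx]), ?_, ?_⟩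
    · apply MonoidWithZeroHom.mem_valueGroup
      exact ⟨x, rfl⟩
    · intro h
      have := congrArg Units.val h
      simp only [Units.val_mk0, Units.val_one, hx] at this
      have h2 := WithZero.exp_injective (this.trans WithZero.exp_zero.symm)
      omega
  infer_instance

@[instance_reducible] def laurent_rankOne :
    ((Valued.v : Valuation (LaurentSeries F) ℤᵐ⁰)).RankOne :=
  have := laurent_isRankOneDiscrete F
  Valuation.IsRankOneDiscrete.rankOne _ (e := 2) (by norm_num)

end laurent

/-- Every complete nonarchimedean field of characteristic `p` has a complete algebraically closed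
isometric extension. -/
theorem exists_complete_algClosed (p : ℕ) [Fact p.Prime] (K0 : Type) [NontriviallyNormedField K0]
    [IsUltrametricDist K0] [CompleteSpace K0] [CharP K0 p] :
    ∃ (K : Type) (_ : NontriviallyNormedField K) (_ : IsUltrametricDist K)
      (_ : CompleteSpace K) (_ : IsAlgClosed K) (_ : CharP K p) (ι : K0 →+* K),
      ∀ x, ‖ι x‖ = ‖x‖ := by
  let A := AlgebraicClosure K0
  let : NormedField A := spectralNorm.normedField K0 A
  let : NormedAlgebra K0 A := spectralNorm.normedAlgebra K0 A
  have hna : IsNonarchimedean (norm : A → ℝ) := isNonarchimedean_spectralNorm (K := K0) (L := A)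
  have : IsUltrametricDist A :=
    IsUltrametricDist.isUltrametricDist_of_forall_norm_add_le_max_norm hna
  have : CharP A p := charP_of_injective_algebraMap (algebraMap K0 A).injective p
  let : NontriviallyNormedField A :=
    { (inferInstance : NormedField A) with
      non_trivial := by
        obtain ⟨x, hx⟩ := NontriviallyNormedField.non_trivial (α := K0)
        exact ⟨algebraMap K0 A x, by rw [norm_algebraMap']; exact hx⟩ }
  let K := UniformSpace.Completion A
  have hext : ∀ x : A, ‖(algebraMap A K x)‖ = ‖x‖ := fun x => UniformSpace.Completion.norm_coe x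
  let : NontriviallyNormedField K :=
    { (inferInstance : NormedField K) with
      non_trivial := by
        obtain ⟨x, hx⟩ := NontriviallyNormedField.non_trivial (α := A)
        refine ⟨algebraMap A K x, ?_⟩
        exact (UniformSpace.Completion.norm_coe x).symm ▸ hx }
  have hcp : CharP K p := charP_of_injective_algebraMap (algebraMap A K).injective p
  have hu : IsUltrametricDist K := IsUltrametricDist.of_normedAlgebra A
  have hperf : PerfectRing K p := perfectRing_of_denseRange p (K := A)
    UniformSpace.Completion.denseRange_coe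
  have hpf : PerfectField K := PerfectRing.toPerfectField K p
  have hcl : IsAlgClosed K := isAlgClosed_of_denseRange (K := A)
    UniformSpace.Completion.denseRange_coe
  refine ⟨K, inferInstance, hu, inferInstance, hcl, hcp, (algebraMap A K).comp (algebraMap K0 A),
    fun x => ?_⟩
  rw [RingHom.comp_apply]
  exact (UniformSpace.Completion.norm_coe _).trans (norm_algebraMap' A x)

/-- Elements of `K` integral over a subring of the unit ball have norm at most `1`. -/
theorem norm_le_one_of_isIntegral {K : Type*} [NormedField K] [IsUltrametricDist K]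
    {R : Type*} [CommRing R] (φ : R →+* K) (hφ : ∀ r, ‖φ r‖ ≤ 1) (x : K)
    (hx : φ.IsIntegralElem x) : ‖x‖ ≤ 1 := by
  obtain ⟨P, hP, hP0⟩ := hx
  by_contra hlt
  push Not at hlt
  have hd : P.natDegree ≠ 0 := by
    intro h0
    have h1 := hP.natDegree_eq_zero.mp h0
    rw [h1] at hP0
    simp at hP0
  rw [Polynomial.eval₂_eq_sum_range, Finset.sum_range_succ, hP.coeff_natDegree, map_one,
    one_mul] at hP0
  have h1 : x ^ P.natDegree = -∑ i ∈ Finset.range P.natDegree, φ (P.coeff i) * x ^ i :=
    eq_neg_of_add_eq_zero_right hP0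
  have h2 : ‖∑ i ∈ Finset.range P.natDegree, φ (P.coeff i) * x ^ i‖ ≤ ‖x‖ ^ (P.natDegree - 1) := by
    apply IsUltrametricDist.norm_sum_le_of_forall_le_of_nonneg (by positivity)
    intro i hi
    rw [norm_mul, norm_pow]
    have hi' : i ≤ P.natDegree - 1 := by
      have := Finset.mem_range.mp hi
      omega
    calc ‖φ (P.coeff i)‖ * ‖x‖ ^ i ≤ 1 * ‖x‖ ^ i := by
          gcongr
          exact hφ _
      _ = ‖x‖ ^ i := one_mul _
      _ ≤ ‖x‖ ^ (P.natDegree - 1) := pow_le_pow_right₀ hlt.le hi'
  rw [← norm_neg, ← h1, norm_pow] at h2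
  have h3 : ‖x‖ ^ (P.natDegree - 1) < ‖x‖ ^ P.natDegree :=
    pow_lt_pow_right₀ hlt (by omega)
  linarith

end Crest.Agent.R227.CpF

namespace Crest.Agent.R227

open Polynomial CpF

/-- The main field existence result used for characteristic `p` points. -/
theorem exists_embedding (p : ℕ) [Fact p.Prime] (D : Type) [CommRing D] [IsDomain D]
    (j : PowerSeries (ZMod p) →+* D) (hj : Function.Injective j) (hint : j.IsIntegral) :
    ∃ (K : Type) (_ : NontriviallyNormedField K) (_ : IsUltrametricDist K)
      (_ : CompleteSpace K) (_ : IsAlgClosed K) (_ : CharP K p) (ι : D →+* Ob K),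
      Function.Injective ι ∧ ‖(ι (j PowerSeries.X) : K)‖ < 1 := by
  let v : Valued (LaurentSeries (ZMod p)) (WithZero (Multiplicative ℤ)) := inferInstance
  let hr := laurent_rankOne (ZMod p)
  let nf : NontriviallyNormedField (LaurentSeries (ZMod p)) :=
    Valued.toNontriviallyNormedField (LaurentSeries (ZMod p)) (WithZero (Multiplicative ℤ))
  have hu : @IsUltrametricDist (LaurentSeries (ZMod p)) nf.toNormedField.toDist := by
    infer_instance
  have hcomp : @CompleteSpace (LaurentSeries (ZMod p)) nf.toUniformSpace :=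
    LaurentSeries.instLaurentSeriesComplete
  have hcp : CharP (LaurentSeries (ZMod p)) p :=
    charP_of_injective_algebraMap (algebraMap (ZMod p) (LaurentSeries (ZMod p))).injective p
  have hle : ∀ f : PowerSeries (ZMod p), ‖(f : LaurentSeries (ZMod p))‖ ≤ 1 := by
    intro f
    rw [Valued.toNormedField.norm_le_one_iff]
    exact (LaurentSeries.val_le_one_iff_eq_coe _ _).mpr ⟨f, rfl⟩
  have hX : ‖((PowerSeries.X : PowerSeries (ZMod p)) : LaurentSeries (ZMod p))‖ < 1 := by
    rw [Valued.toNormedField.norm_lt_one_iff]
    have := LaurentSeries.valuation_X_pow (ZMod p) 1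
    rw [pow_one] at this
    rw [this]
    exact WithZero.exp_lt_exp.mpr (by norm_num) |>.trans_eq WithZero.exp_zero
  obtain ⟨K, i1, i2, i3, i4, i5, ι0, hι0⟩ := exists_complete_algClosed p (LaurentSeries (ZMod p))
  let φ : PowerSeries (ZMod p) →+* K := ι0.comp (HahnSeries.ofPowerSeries ℤ (ZMod p))
  have hφ1 : ∀ r, ‖φ r‖ ≤ 1 := fun r => (hι0 _).trans_le (hle r)
  have hφX : ‖φ PowerSeries.X‖ < 1 := (hι0 _).trans_lt hX
  have hφinj : Function.Injective φ := ι0.injective.comp HahnSeries.ofPowerSeries_injective
  let a1 : Algebra (PowerSeries (ZMod p)) D := j.toAlgebra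
  let a2 : Algebra (PowerSeries (ZMod p)) K := φ.toAlgebra
  have hf1 : FaithfulSMul (PowerSeries (ZMod p)) D :=
    (faithfulSMul_iff_algebraMap_injective _ _).mpr hj
  have hf2 : FaithfulSMul (PowerSeries (ZMod p)) K :=
    (faithfulSMul_iff_algebraMap_injective _ _).mpr hφinj
  have hi1 : Algebra.IsIntegral (PowerSeries (ZMod p)) D := ⟨hint⟩
  have ht1 : Module.IsTorsionFree (PowerSeries (ZMod p)) D := inferInstance
  have ht2 : Module.IsTorsionFree (PowerSeries (ZMod p)) K := inferInstance
  let L : D →ₐ[PowerSeries (ZMod p)] K := IsAlgClosed.lift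
  have hLj : ∀ r, L (j r) = φ r := fun r => L.commutes r
  have hLnorm : ∀ d, ‖L d‖ ≤ 1 := by
    intro d
    apply norm_le_one_of_isIntegral φ hφ1
    obtain ⟨P, hP, hP0⟩ := hint d
    refine ⟨P, hP, ?_⟩
    have := congrArg (L : D →+* K) hP0
    rw [map_zero, Polynomial.hom_eval₂] at this
    have hcomp : (L : D →+* K).comp j = φ := RingHom.ext hLj
    rw [hcomp] at this
    exact this
  have hLinj : Function.Injective L := by
    have hker : RingHom.ker (L : D →+* K) = ⊥ := by
      apply Ideal.eq_bot_of_comap_eq_bot (R := PowerSeries (ZMod p))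
      rw [eq_bot_iff]
      intro r hr
      rw [Ideal.mem_comap, RingHom.mem_ker] at hr
      have h0 : φ r = 0 := (hLj r).symm.trans hr
      exact (map_eq_zero_iff φ hφinj).mp h0
    exact (RingHom.injective_iff_ker_eq_bot (L : D →+* K)).mpr hker
  refine ⟨K, i1, i2, i3, i4, i5, (L : D →+* K).codRestrict (Ob K) (fun d => hLnorm d), ?_, ?_⟩
  · intro a b hab
    exact hLinj (congrArg Subtype.val hab)
  · exact (congrArg norm (hLj PowerSeries.X)).trans_lt hφX

end Crest.Agent.R227
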