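import Crest.Agent.R227.FEAux

/-!
# R227 / FE : the universal p-typical law `hz` (task FE3)
-/

set_option autoImplicit false

noncomputable section

namespace Crest.Agent.R227

open Crest.LubinTate MvPowerSeries

variable {p : ℕ} [Fact p.Prime] {A B : Type*} [CommRing A] [CommRing B] [Algebra A B]
  [Algebra ℚ B]

variable (p)

/-- Existence of the universal `p`-typical law (apply `fe_integral` to
`A = MvPolynomial ℕ ℤ`, `B = MvPolynomial ℕ ℚ`, `σ = expand p`, `x = X`). -/
theorem hzU_exists (n : ℕ) : ∃ F : FormalGroup (MvPolynomial ℕ ℤ), F.IsComm ∧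
    PowerSeries.subst (F.toPowerSeries.map (MvPolynomial.map (Int.castRingHom ℚ))) (logU p n) =
      PowerSeries.subst (X 0 : MvPowerSeries (Fin 2) (MvPolynomial ℕ ℚ)) (logU p n) +
      PowerSeries.subst (X 1 : MvPowerSeries (Fin 2) (MvPolynomial ℕ ℚ)) (logU p n) :=
  FEAux.hzU_exists_aux p n

/-- The universal `p`-typical formal group law over `ℤ[u_1,u_2,…]` (only `u_1..u_n` occur). -/
def hzU (n : ℕ) : FormalGroup (MvPolynomial ℕ ℤ) := (hzU_exists p n).choose

namespace FEAux

theorem hzU_isComm (n : ℕ) : (hzU p n).IsComm := (hzU_exists p n).choose_spec.1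

theorem log_hzU (n : ℕ) :
    PowerSeries.subst ((hzU p n).toPowerSeries.map (MvPolynomial.map (Int.castRingHom ℚ)))
      (logU p n) =
      PowerSeries.subst (X 0 : MvPowerSeries (Fin 2) (MvPolynomial ℕ ℚ)) (logU p n) +
      PowerSeries.subst (X 1 : MvPowerSeries (Fin 2) (MvPolynomial ℕ ℚ)) (logU p n) :=
  (hzU_exists p n).choose_spec.2

end FEAux

/-- The law at the point `x` of a ring `R`. -/
def hz (n : ℕ) {R : Type*} [CommRing R] (x : ℕ → R) : FormalGroup R :=
  (hzU p n).map (MvPolynomial.eval₂Hom (Int.castRingHom R) x)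

instance hz_isComm (n : ℕ) {R : Type*} [CommRing R] (x : ℕ → R) : (hz p n x).IsComm := by
  have h := (FEAux.hzU_isComm p n).comm
  constructor
  change (hzU p n).toPowerSeries.map _ =
    MvPowerSeries.subst ![X 1, X 0] ((hzU p n).toPowerSeries.map _)
  conv_lhs => rw [h]
  rw [FEAux.map_subst2 _ _ (by simp) (by simp), map_X, map_X]

namespace FEAux

theorem map_map_hzU (n : ℕ) {R S : Type*} [CommRing R] [CommRing S]
    (f : MvPolynomial ℕ ℤ →+* R) (g : R →+* S) :
    ((hzU p n).map f).map g = (hzU p n).map (g.comp f) := by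
  apply FormalGroup.ext
  ext d
  simp only [FormalGroup.map_toPowerSeries, coeff_map, RingHom.comp_apply]

end FEAux

theorem hz_map (n : ℕ) {R S : Type*} [CommRing R] [CommRing S] (f : R →+* S) (x : ℕ → R) :
    (hz p n x).map f = hz p n (fun i => f (x i)) := by
  rw [hz, hz, FEAux.map_map_hzU]
  congr 1
  ext i
  · simp
  · simp

namespace FEAux

theorem hle_congr (n : ℕ) (x y : ℕ → B) (h : ∀ i, 1 ≤ i → i ≤ n → x i = y i) (k : ℕ) :
    hle p n x k = hle p n y k := by
  induction k using Nat.strong_induction_on with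
  | _ k ih =>
    rcases k with _ | k
    · simp [hle, hl]
    · have h1 := hle_succ (p := p) n x k
      have h2 := hle_succ (p := p) n y k
      have h3 : (p : B) * hle p n x (k + 1) = (p : B) * hle p n y (k + 1) := by
        rw [h1, h2]
        refine Finset.sum_congr rfl fun i hi => ?_
        split_ifs with hin
        · rw [ih _ (by omega), h _ (by omega) hin]
        · rfl
      have h4 : (algebraMap ℚ B) ((p : ℚ)⁻¹) * (p : B) = 1 := by
        rw [← map_natCast (algebraMap ℚ B), ← map_mul, inv_mul_cancel₀, map_one]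
        exact Nat.cast_ne_zero.mpr (Fact.out : p.Prime).ne_zero
      have h5 := congrArg (fun z => (algebraMap ℚ B) ((p : ℚ)⁻¹) * z) h3
      simpa only [← mul_assoc, h4, one_mul] using h5

theorem logAt_congr (n : ℕ) (x y : ℕ → B) (h : ∀ i, 1 ≤ i → i ≤ n → x i = y i) :
    logAt p n x = logAt p n y := by
  rw [logAt, logAt]
  congr 1
  ext1 k
  exact hle_congr p n x y h k

theorem constantCoeff_logAt (n : ℕ) (x : ℕ → B) :
    PowerSeries.constantCoeff (logAt p n x) = 0 := FEAux.constantCoeff_pSeries _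

theorem coeff_one_logAt (n : ℕ) (x : ℕ → B) : PowerSeries.coeff 1 (logAt p n x) = 1 := by
  rw [logAt, FEAux.coeff_one_pSeries]
  simp [hle, hl]

theorem map_logAt (n : ℕ) {B' : Type*} [CommRing B'] [Algebra ℚ B'] (f : B →+* B') (x : ℕ → B) :
    PowerSeries.map f (logAt p n x) = logAt p n (fun i => f (x i)) := by
  rw [logAt, logAt, FEAux.map_pSeries]
  congr 1
  ext1 k
  rw [hle, hle]
  have : f.toRatAlgHom.comp (MvPolynomial.aeval x) = MvPolynomial.aeval (fun i => f (x i)) := by
    ext i
    simp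
  exact DFunLike.congr_fun this _

end FEAux

/-- logarithm of `hz` over a `ℚ`-algebra -/
theorem log_hz (n : ℕ) (x : ℕ → B) :
    PowerSeries.subst (hz p n x).toPowerSeries (logAt p n x) =
      PowerSeries.subst (X 0 : MvPowerSeries (Fin 2) B) (logAt p n x) +
      PowerSeries.subst (X 1 : MvPowerSeries (Fin 2) B) (logAt p n x) := by
  have hF : (hz p n x).toPowerSeries =
      ((hzU p n).toPowerSeries.map (MvPolynomial.map (Int.castRingHom ℚ))).map
        (MvPolynomial.aeval x : MvPolynomial ℕ ℚ →ₐ[ℚ] B).toRingHom := by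
    rw [hz]
    ext d
    simp only [FormalGroup.map_toPowerSeries, coeff_map]
    rw [← RingHom.comp_apply]
    congr 1
    ext i
    · simp
    · simp
  have hL : logAt p n x = PowerSeries.map
      (MvPolynomial.aeval x : MvPolynomial ℕ ℚ →ₐ[ℚ] B).toRingHom (logU p n) := by
    rw [← FEAux.logAt_X, FEAux.map_logAt]
    simp
  have hc : constantCoeff ((hzU p n).toPowerSeries.map (MvPolynomial.map (Int.castRingHom ℚ))) = 0 :=
    FEAux.cc_map (hzU p n).zero_constantCoeff
  have h := congrArg (MvPowerSeries.map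
    (MvPolynomial.aeval x : MvPolynomial ℕ ℚ →ₐ[ℚ] B).toRingHom) (FEAux.log_hzU p n)
  rw [PowerSeries.map_subst (FEAux.hs hc), map_add,
    PowerSeries.map_subst (PowerSeries.HasSubst.X _), PowerSeries.map_subst
    (PowerSeries.HasSubst.X _), ← hF, ← hL, map_X, map_X] at h
  exact h

namespace FEAux

theorem hz_congr_rat (n : ℕ) (x y : ℕ → B) (h : ∀ i, 1 ≤ i → i ≤ n → x i = y i) :
    hz p n x = hz p n y := by
  apply FormalGroup.ext
  refine FEAux.psubst_inj (constantCoeff_logAt p n x) (coeff_one_logAt p n x)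
    (hz p n x).zero_constantCoeff (hz p n y).zero_constantCoeff ?_
  rw [log_hz, logAt_congr p n x y h, log_hz]

theorem map_injective_of_injective {R S : Type*} [CommRing R] [CommRing S] (f : R →+* S)
    (hf : Function.Injective f) (F G : FormalGroup R) (h : F.map f = G.map f) : F = G := by
  apply FormalGroup.ext
  ext d
  apply hf
  have := congrArg (fun H : FormalGroup S => coeff d H.toPowerSeries) h
  simpa only [FormalGroup.map_toPowerSeries, coeff_map] using this

theorem hzU_eq_hz (n : ℕ) : hzU p n = hz p n (MvPolynomial.X : ℕ → MvPolynomial ℕ ℤ) := by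
  have : MvPolynomial.eval₂Hom (Int.castRingHom (MvPolynomial ℕ ℤ)) MvPolynomial.X =
      RingHom.id _ := by
    ext i <;> simp
  rw [hz, this]
  apply FormalGroup.ext
  ext d
  simp

theorem hzU_trunc (n : ℕ) : hzU p n = hz p n (fun i =>
    if 1 ≤ i ∧ i ≤ n then (MvPolynomial.X i : MvPolynomial ℕ ℤ) else 0) := by
  rw [hzU_eq_hz]
  apply map_injective_of_injective (MvPolynomial.map (Int.castRingHom ℚ))
    (MvPolynomial.map_injective _ (RingHom.injective_int _))
  rw [hz_map, hz_map]
  refine hz_congr_rat p n _ _ fun i h1 h2 => ?_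
  rw [if_pos ⟨h1, h2⟩]

end FEAux

/-- the law only depends on `x 1, …, x n` -/
theorem hz_congr (n : ℕ) {R : Type*} [CommRing R] (x y : ℕ → R)
    (h : ∀ i, 1 ≤ i → i ≤ n → x i = y i) : hz p n x = hz p n y := by
  rw [hz, hz, FEAux.hzU_trunc, hz_map, hz_map]
  congr 1
  ext1 i
  split_ifs with hi
  · simp [h i hi.1 hi.2]
  · simp

namespace FEAux

section log

variable {R : Type*} [CommRing R] {τ : Type*}

theorem cc_mulSeries (F : FormalGroup R) (m : ℕ) :
    MvPowerSeries.constantCoeff (mulSeries F m) = 0 := by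
  induction m with
  | zero => exact map_zero _
  | succ m ih => exact FEAux.cc_fadd F ih (by exact MvPowerSeries.constantCoeff_X _)

theorem cc_fsum (F : FormalGroup R) (l : List (MvPowerSeries τ R))
    (hl : ∀ a ∈ l, constantCoeff a = 0) : constantCoeff (fsum F l) = 0 := by
  induction l with
  | nil => exact map_zero _
  | cons a l ih =>
    exact FEAux.cc_fadd F (hl a (by simp)) (ih fun b hb => hl b (by simp [hb]))

theorem map_mulSeries' {S : Type*} [CommRing S] (f : R →+* S) (F : FormalGroup R) (m : ℕ) :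
    MvPowerSeries.map f (mulSeries F m) = mulSeries (F.map f) m := by
  induction m with
  | zero => exact map_zero _
  | succ m ih =>
    refine (FEAux.mv_map_fadd f F (cc_mulSeries F m) (by exact MvPowerSeries.constantCoeff_X _)).trans ?_
    rw [ih]
    have : MvPowerSeries.map f (PowerSeries.X : PowerSeries R) = (PowerSeries.X : PowerSeries S) :=
      MvPowerSeries.map_X _ _
    rw [this]
    rfl

theorem map_fsum {S : Type*} [CommRing S] (f : R →+* S) (F : FormalGroup R)
    (l : List (MvPowerSeries τ R)) (hl : ∀ a ∈ l, constantCoeff a = 0) :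
    MvPowerSeries.map f (fsum F l) = fsum (F.map f) (l.map (MvPowerSeries.map f)) := by
  induction l with
  | nil => exact map_zero _
  | cons a l ih =>
    refine (FEAux.mv_map_fadd f F (hl a (by simp))
      (cc_fsum F l fun b hb => hl b (by simp [hb]))).trans ?_
    rw [ih fun b hb => hl b (by simp [hb])]
    rfl

variable {F : FormalGroup R} {L : PowerSeries R}

theorem log_mulSeries (h0 : PowerSeries.constantCoeff L = 0)
    (h : PowerSeries.subst F.toPowerSeries L = PowerSeries.subst (X 0 : MvPowerSeries (Fin 2) R) L +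
      PowerSeries.subst (X 1 : MvPowerSeries (Fin 2) R) L) (m : ℕ) :
    PowerSeries.subst (mulSeries F m) L = (m : PowerSeries R) * L := by
  induction m with
  | zero =>
    rw [Nat.cast_zero, zero_mul]
    exact PowerSeries.subst_zero_of_constantCoeff_zero h0
  | succ m ih =>
    refine (FEAux.log_subst F.zero_constantCoeff h (cc_mulSeries F m)
      (by exact MvPowerSeries.constantCoeff_X _)).trans ?_
    rw [ih, PowerSeries.X_subst, Nat.cast_succ, add_mul, one_mul]

theorem log_fsum (h0 : PowerSeries.constantCoeff L = 0)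
    (h : PowerSeries.subst F.toPowerSeries L = PowerSeries.subst (X 0 : MvPowerSeries (Fin 2) R) L +
      PowerSeries.subst (X 1 : MvPowerSeries (Fin 2) R) L) (l : List (MvPowerSeries τ R))
    (hl : ∀ a ∈ l, constantCoeff a = 0) :
    PowerSeries.subst (fsum F l) L = (l.map fun a => PowerSeries.subst a L).sum := by
  induction l with
  | nil => exact PowerSeries.subst_zero_of_constantCoeff_zero h0
  | cons a l ih =>
    refine (FEAux.log_subst F.zero_constantCoeff h (hl a (by simp))
      (cc_fsum F l fun b hb => hl b (by simp [hb]))).trans ?_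
    rw [ih fun b hb => hl b (by simp [hb]), List.map_cons, List.sum_cons]

end log

theorem coeff_psubst_C_mul_X_pow {R : Type*} [CommRing R] (u : R) (q : ℕ) (hq : q ≠ 0)
    (L : PowerSeries R) (m : ℕ) :
    PowerSeries.coeff m (PowerSeries.subst
      (PowerSeries.C u * PowerSeries.X ^ q : PowerSeries R) L) =
      if q ∣ m then u ^ (m / q) * PowerSeries.coeff (m / q) L else 0 := by
  have h1 : PowerSeries.subst (PowerSeries.C u * PowerSeries.X ^ q : PowerSeries R) L =
      PowerSeries.subst (PowerSeries.X ^ q : PowerSeries R) (PowerSeries.rescale u L) := by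
    rw [PowerSeries.rescale_eq_subst, PowerSeries.subst_comp_subst_apply
      (PowerSeries.HasSubst.smul_X' u) (PowerSeries.HasSubst.X_pow hq),
      PowerSeries.subst_smul (PowerSeries.HasSubst.X_pow hq),
      PowerSeries.subst_X (PowerSeries.HasSubst.X_pow hq), PowerSeries.smul_eq_C_mul]
  rw [h1, PowerSeries.coeff_subst_X_pow hq, PowerSeries.coeff_rescale]
  simp

theorem list_sum_range {M : Type*} [AddCommMonoid M] (f : ℕ → M) (n : ℕ) :
    ((List.range n).map f).sum = ∑ i ∈ Finset.range n, f i := by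
  induction n with
  | zero => simp
  | succ n ih => rw [List.range_succ, List.map_append, List.sum_append, ih, Finset.sum_range_succ]; simp

/-- `p L(X) = ∑ L(x_i X^{p^i}) + p X`. -/
theorem p_mul_logAt (n : ℕ) (x : ℕ → B) :
    (p : PowerSeries B) * logAt p n x =
      ((List.range n).map fun i => PowerSeries.subst
        (PowerSeries.C (x (i + 1)) * PowerSeries.X ^ p ^ (i + 1) : PowerSeries B)
          (logAt p n x)).sum + PowerSeries.C (p : B) * PowerSeries.X := by
  have hp : p.Prime := Fact.out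
  have hsum : ((List.range n).map fun i => PowerSeries.subst
        (PowerSeries.C (x (i + 1)) * PowerSeries.X ^ p ^ (i + 1) : PowerSeries B)
          (logAt p n x)).sum = ∑ i ∈ Finset.range n, PowerSeries.subst
        (PowerSeries.C (x (i + 1)) * PowerSeries.X ^ p ^ (i + 1) : PowerSeries B)
          (logAt p n x) := by
    exact list_sum_range _ n
  rw [hsum]
  ext1 m
  have hpC : (p : PowerSeries B) = PowerSeries.C (p : B) := by simp
  rw [hpC, PowerSeries.coeff_C_mul, map_add, PowerSeries.coeff_C_mul, map_sum, PowerSeries.coeff_X]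
  simp only [coeff_psubst_C_mul_X_pow _ _ (pow_ne_zero _ hp.ne_zero)]
  by_cases hm : ∃ k, m = p ^ k
  · obtain ⟨k, rfl⟩ := hm
    rcases k with _ | k
    · rw [pow_zero, if_pos rfl, coeff_one_logAt, Finset.sum_eq_zero, zero_add]
      intro i _
      rw [if_neg]
      rw [Nat.dvd_one]
      exact (Nat.one_lt_pow (by omega) hp.one_lt).ne'
    · rw [if_neg (Nat.one_lt_pow (by omega) hp.one_lt).ne', mul_zero, add_zero, logAt,
        FEAux.coeff_pow_pSeries, hle_succ]
      have e1 : ∀ i ∈ Finset.range n, (if p ^ (i + 1) ∣ p ^ (k + 1) then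
          x (i + 1) ^ (p ^ (k + 1) / p ^ (i + 1)) *
            PowerSeries.coeff (p ^ (k + 1) / p ^ (i + 1)) (pSeries p (hle p n x)) else 0) =
          if i + 1 ≤ k + 1 then hle p n x (k - i) * x (i + 1) ^ p ^ (k - i) else 0 := by
        intro i _
        by_cases hik : i + 1 ≤ k + 1
        · rw [if_pos (pow_dvd_pow p hik), if_pos hik, Nat.pow_div hik hp.pos,
            Nat.add_sub_add_right, FEAux.coeff_pow_pSeries, mul_comm]
        · rw [if_neg, if_neg hik]
          rwa [Nat.pow_dvd_pow_iff_le_right hp.one_lt]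
      rw [Finset.sum_congr rfl e1, ← Finset.sum_filter, ← Finset.sum_filter]
      refine Finset.sum_congr ?_ fun _ _ => rfl
      ext i
      simp only [Finset.mem_filter, Finset.mem_range]
      omega
  · have hm' : ∀ k, m ≠ p ^ k := fun k h => hm ⟨k, h⟩
    rw [logAt, FEAux.coeff_pSeries_of_forall_ne _ _ hm', mul_zero,
      if_neg (by simpa using hm' 0), mul_zero, add_zero, Finset.sum_eq_zero]
    intro i _
    split_ifs with h
    · rw [FEAux.coeff_pSeries_of_forall_ne, mul_zero]
      intro k hk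
      apply hm' (k + (i + 1))
      rw [pow_add, ← hk, Nat.div_mul_cancel h]
    · rfl

section mulSeries

attribute [local instance] MvPolynomial.algebraMvPolynomial

theorem cc_terms {R : Type*} [CommRing R] (x : ℕ → R) (n : ℕ) :
    ∀ a ∈ ((List.range n).map fun i =>
      (PowerSeries.C (x (i + 1)) * PowerSeries.X ^ p ^ (i + 1) : PowerSeries R)),
      MvPowerSeries.constantCoeff a = 0 := by
  intro a ha
  rw [List.mem_map] at ha
  obtain ⟨i, _, rfl⟩ := ha
  change PowerSeries.constantCoeff (PowerSeries.C (x (i + 1)) * PowerSeries.X ^ p ^ (i + 1)) = 0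
  rw [map_mul, map_pow, PowerSeries.constantCoeff_X, zero_pow
    (pow_ne_zero _ (Fact.out : p.Prime).ne_zero), mul_zero]

omit [Fact (Nat.Prime p)] in
theorem map_terms {R S : Type*} [CommRing R] [CommRing S] (f : R →+* S) (x : ℕ → R) (n : ℕ) :
    ((List.range n).map fun i =>
      (PowerSeries.C (x (i + 1)) * PowerSeries.X ^ p ^ (i + 1) : PowerSeries R)).map
        (MvPowerSeries.map f) = ((List.range n).map fun i =>
      (PowerSeries.C (f (x (i + 1))) * PowerSeries.X ^ p ^ (i + 1) : PowerSeries S)) := by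
  rw [List.map_map]
  refine List.map_congr_left fun i _ => ?_
  change PowerSeries.map f (PowerSeries.C (x (i + 1)) * PowerSeries.X ^ p ^ (i + 1)) = _
  rw [map_mul, map_pow, PowerSeries.map_C, PowerSeries.map_X]

theorem mulSeries_hzU (n : ℕ) : ∃ c : PowerSeries (MvPolynomial ℕ ℤ),
    mulSeries (hz p n (MvPolynomial.X : ℕ → MvPolynomial ℕ ℤ)) p =
      fsum (hz p n (MvPolynomial.X : ℕ → MvPolynomial ℕ ℤ)) ((List.range n).map fun i =>
        (PowerSeries.C (MvPolynomial.X (i + 1) : MvPolynomial ℕ ℤ) *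
          PowerSeries.X ^ p ^ (i + 1) : PowerSeries (MvPolynomial ℕ ℤ))) +
      C (p : MvPolynomial ℕ ℤ) * c := by
  have hinj : Function.Injective (algebraMap (MvPolynomial ℕ ℤ) (MvPolynomial ℕ ℚ)) :=
    (FEAux.frobU p).inj
  refine congr_of_log_congr (p := p) (B := MvPolynomial ℕ ℚ) n MvPolynomial.X hinj _ _
    PowerSeries.X (cc_fsum _ _ (cc_terms p _ n)) (cc_mulSeries _ _) ?_
  rw [map_mulSeries', map_fsum _ _ _ (cc_terms p _ n), map_terms, hz_map]
  generalize hy : (fun i => algebraMap (MvPolynomial ℕ ℤ) (MvPolynomial ℕ ℚ)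
    (MvPolynomial.X i : MvPolynomial ℕ ℤ)) = y
  have hy' : ∀ i, algebraMap (MvPolynomial ℕ ℤ) (MvPolynomial ℕ ℚ)
    (MvPolynomial.X i : MvPolynomial ℕ ℤ) = y i := fun i => congrFun hy i
  simp only [hy']
  refine (log_mulSeries (constantCoeff_logAt p n y) (log_hz p n y) p).trans ?_
  refine Eq.trans ?_ (congrArg₂ (· + ·) (log_fsum (constantCoeff_logAt p n y)
    (log_hz p n y) _ (cc_terms p y n)).symm rfl)
  rw [p_mul_logAt, List.map_map, map_mul, map_C]
  refine congrArg₂ (· + ·) rfl (congrArg₂ (· * ·) ?_ ?_)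
  · rw [map_natCast (algebraMap (MvPolynomial ℕ ℤ) (MvPolynomial ℕ ℚ))]
    rfl
  · exact (MvPowerSeries.map_X _ _).symm

end mulSeries

end FEAux

/-- In characteristic `p`, `[p](X) = ∑^F x_i X^{p^i}`. -/
theorem mulSeries_hz (n : ℕ) {R : Type*} [CommRing R] [CharP R p] (x : ℕ → R) :
    mulSeries (hz p n x) p = fsum (hz p n x) ((List.range n).map fun i =>
      (PowerSeries.C (x (i + 1)) * PowerSeries.X ^ p ^ (i + 1) : PowerSeries R)) := by
  obtain ⟨c, hc⟩ := FEAux.mulSeries_hzU p n
  have h := congrArg (MvPowerSeries.map (MvPolynomial.eval₂Hom (Int.castRingHom R) x)) hc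
  rw [FEAux.map_mulSeries', map_add, map_mul, map_C, map_natCast, CharP.cast_eq_zero, map_zero, zero_mul,
    add_zero, FEAux.map_fsum _ _ _ (FEAux.cc_terms p _ n), FEAux.map_terms, hz_map] at h
  simpa using h

/-- The series `V` with `[p](X) = V(X^{p^h})` when `x i = 0` for `i < h`. -/
def Vs (n h : ℕ) {R : Type*} [CommRing R] (x : ℕ → R) : PowerSeries R :=
  fsum (hz p n x) ((List.range (n - h + 1)).map fun i =>
    (PowerSeries.C (x (h + i)) * PowerSeries.X ^ p ^ i : PowerSeries R))

namespace FEAux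

theorem hle_sp (n h : ℕ) (hh : 1 ≤ h) (k : ℕ) (hk : ¬ h ∣ k) :
    hle p n (sp h : ℕ → B) k = 0 := by
  have hp : p.Prime := Fact.out
  induction k using Nat.strong_induction_on with
  | _ k ih =>
    rcases k with _ | k
    · exact absurd (dvd_zero h) hk
    · have h1 := hle_succ (p := p) n (sp h : ℕ → B) k
      have h2 : (p : B) * hle p n (sp h : ℕ → B) (k + 1) = 0 := by
        rw [h1]
        refine Finset.sum_eq_zero fun i hi => ?_
        rw [Finset.mem_range] at hi
        by_cases hih : i + 1 = h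
        · rw [ih (k - i) (by omega), zero_mul, ite_self]
          intro hd
          apply hk
          have : k + 1 = (k - i) + h := by omega
          rw [this]
          exact dvd_add hd dvd_rfl
        · rw [sp, if_neg hih, zero_pow (pow_ne_zero _ hp.ne_zero), mul_zero, ite_self]
      have h4 : (algebraMap ℚ B) ((p : ℚ)⁻¹) * (p : B) = 1 := by
        rw [← map_natCast (algebraMap ℚ B), ← map_mul, inv_mul_cancel₀, map_one]
        exact Nat.cast_ne_zero.mpr hp.ne_zero
      have h5 := congrArg (fun z => (algebraMap ℚ B) ((p : ℚ)⁻¹) * z) h2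
      simpa only [← mul_assoc, h4, one_mul, mul_zero] using h5

omit [Fact p.Prime] in
theorem pow_pow_eq {R : Type*} [CommRing R] (h : ℕ) (ω : R) (hω : ω ^ p ^ h = ω) (m : ℕ) :
    ω ^ p ^ (h * m) = ω := by
  induction m with
  | zero => simp
  | succ m ih => rw [Nat.mul_succ, pow_add, pow_mul, ih, hω]

theorem rescale_logAt_sp (n h : ℕ) (hh : 1 ≤ h) (ω : B) (hω : ω ^ p ^ h = ω) :
    PowerSeries.rescale ω (logAt p n (sp h : ℕ → B)) =
      PowerSeries.C ω * logAt p n (sp h : ℕ → B) := by
  ext1 m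
  rw [PowerSeries.coeff_rescale, PowerSeries.coeff_C_mul]
  by_cases hm : ∃ k, m = p ^ k
  · obtain ⟨k, rfl⟩ := hm
    rw [logAt, FEAux.coeff_pow_pSeries]
    by_cases hk : h ∣ k
    · obtain ⟨j, rfl⟩ := hk
      rw [pow_pow_eq p h ω hω]
    · rw [hle_sp p n h hh k hk, mul_zero, mul_zero]
  · have hm' : ∀ k, m ≠ p ^ k := fun k h => hm ⟨k, h⟩
    rw [logAt, FEAux.coeff_pSeries_of_forall_ne _ _ hm', mul_zero, mul_zero]

theorem psubst_C_mul {R : Type*} [CommRing R] {τ : Type*} (L : PowerSeries R) (ω : R)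
    (hL : PowerSeries.rescale ω L = PowerSeries.C ω * L) (a : MvPowerSeries τ R)
    (ha : constantCoeff a = 0) :
    PowerSeries.subst (C ω * a) L = C ω * PowerSeries.subst a L := by
  have hs := FEAux.hs ha
  have h1 : PowerSeries.subst a (PowerSeries.rescale ω L) = PowerSeries.subst (C ω * a) L := by
    rw [PowerSeries.rescale_eq_subst, PowerSeries.subst_comp_subst_apply
      (PowerSeries.HasSubst.smul_X' ω) hs,
      PowerSeries.subst_smul hs, PowerSeries.subst_X hs, smul_eq_C_mul]
  rw [← h1, hL, PowerSeries.subst_mul hs, PowerSeries.subst_C]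

theorem hz_sp_smul_rat (n h : ℕ) (hh : 1 ≤ h) (ω : B) (hω : ω ^ p ^ h = ω) :
    (hz p n (sp h : ℕ → B)).toPowerSeries.subst
      ![C ω * X 0, (C ω * X 1 : MvPowerSeries (Fin 2) B)] =
      C ω * (hz p n (sp h : ℕ → B)).toPowerSeries := by
  have hL := rescale_logAt_sp p n h hh ω hω
  have c0 : ∀ i : Fin 2, constantCoeff (C ω * X i : MvPowerSeries (Fin 2) B) = 0 := fun i => by simp
  have cF := (hz p n (sp h : ℕ → B)).zero_constantCoeff
  refine FEAux.psubst_inj (constantCoeff_logAt p n (sp h)) (coeff_one_logAt p n (sp h))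
    (FEAux.cc_subst2 cF (c0 0) (c0 1)) (by rw [map_mul, cF, mul_zero]) ?_
  rw [FEAux.log_subst cF (log_hz p n _) (c0 0) (c0 1), psubst_C_mul _ _ hL _ (by simp),
    psubst_C_mul _ _ hL _ (by simp), psubst_C_mul _ _ hL _ cF, log_hz, mul_add]

theorem coeff_subst_C_mul {R : Type*} [CommRing R] (ω : R) (F : MvPowerSeries (Fin 2) R)
    (e : Fin 2 →₀ ℕ) :
    coeff e (F.subst ![C ω * X 0, (C ω * X 1 : MvPowerSeries (Fin 2) R)]) =
      ω ^ e.degree * coeff e F := by
  have h1 : (![C ω * X 0, (C ω * X 1 : MvPowerSeries (Fin 2) R)] : Fin 2 → MvPowerSeries (Fin 2) R)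
      = (fun _ => ω : Fin 2 → R) • (X : Fin 2 → MvPowerSeries (Fin 2) R) := by
    ext1 i
    fin_cases i <;> simp [smul_eq_C_mul]
  rw [h1, ← rescale_eq_subst, coeff_rescale]
  congr 1
  rw [Finsupp.prod, Finset.prod_pow_eq_pow_sum]
  rfl

/-- over `ℤ`, only monomials of degree `≡ 1 mod p^h - 1` occur -/
theorem degree_modEq (n h : ℕ) (hh : 1 ≤ h) (e : Fin 2 →₀ ℕ)
    (he : coeff e (hz p n (sp h : ℕ → ℤ)).toPowerSeries ≠ 0) :
    e.degree ≡ 1 [MOD p ^ h - 1] := by
  have hp : p.Prime := Fact.out
  have hq : 1 < p ^ h := Nat.one_lt_pow (by omega) hp.one_lt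
  have hprim := Complex.isPrimitiveRoot_exp (p ^ h - 1) (by omega)
  set ω := Complex.exp (2 * Real.pi * Complex.I / ((p ^ h - 1 : ℕ) : ℂ)) with hωdef
  have hω : ω ^ p ^ h = ω := by
    have : p ^ h = (p ^ h - 1) + 1 := by omega
    rw [this, pow_succ, hprim.pow_eq_one, one_mul]
  have h1 := congrArg (coeff e) (hz_sp_smul_rat p n h hh ω hω)
  have h2 : (hz p n (sp h : ℕ → ℂ)) = (hz p n (sp h : ℕ → ℤ)).map (Int.castRingHom ℂ) := by
    rw [hz_map]
    congr 1
    ext1 i
    simp only [sp]
    split_ifs <;> simp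
  rw [coeff_subst_C_mul, coeff_C_mul, h2, FormalGroup.map_toPowerSeries, coeff_map] at h1
  have h3 : (Int.castRingHom ℂ) (coeff e (hz p n (sp h : ℕ → ℤ)).toPowerSeries) ≠ 0 := by
    simpa using he
  have h4 := mul_right_cancel₀ h3 h1
  rw [hprim.eq_orderOf, ← (hprim.isOfFinOrder (by omega)).pow_eq_pow_iff_modEq, pow_one]
  exact h4

end FEAux

/-- multiplication by `ω` with `ω^{p^n-1} = 1` is an endomorphism of the Honda law:
`F(ωX, ωY) = ω F(X,Y)` for `x = sp n`; more generally for `sp h` and `ω ^ p ^ h = ω`. -/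
theorem hz_sp_smul (n h : ℕ) (hh : 1 ≤ h) {R : Type*} [CommRing R] (ω : R)
    (hω : ω ^ p ^ h = ω) :
    (hz p n (sp h : ℕ → R)).toPowerSeries.subst
      ![C ω * X 0, (C ω * X 1 : MvPowerSeries (Fin 2) R)] =
      C ω * (hz p n (sp h : ℕ → R)).toPowerSeries := by
  have hp : p.Prime := Fact.out
  have hq : 1 < p ^ h := Nat.one_lt_pow (by omega) hp.one_lt
  have h2 : (hz p n (sp h : ℕ → R)) = (hz p n (sp h : ℕ → ℤ)).map (Int.castRingHom R) := by
    rw [hz_map]
    congr 1
    ext1 i
    simp only [sp]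
    split_ifs <;> simp
  ext e
  rw [FEAux.coeff_subst_C_mul, coeff_C_mul, h2, FormalGroup.map_toPowerSeries, coeff_map]
  by_cases he : coeff e (hz p n (sp h : ℕ → ℤ)).toPowerSeries = 0
  · rw [he, map_zero, mul_zero, mul_zero]
  · congr 1
    have hm := FEAux.degree_modEq p n h hh e he
    have he0 : e.degree ≠ 0 := by
      intro h0
      rw [Finsupp.degree_eq_zero_iff] at h0
      rw [h0, coeff_zero_eq_constantCoeff_apply] at he
      exact he (hz p n (sp h : ℕ → ℤ)).zero_constantCoeff
    obtain ⟨m, hm⟩ := (Nat.modEq_iff_dvd' (by omega : 1 ≤ e.degree)).mp hm.symm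
    have hdeg : e.degree = 1 + (p ^ h - 1) * m := by omega
    rw [hdeg]
    clear hdeg hm
    induction m with
    | zero => simp
    | succ m ih =>
      rw [Nat.mul_succ, ← add_assoc, pow_add, ih, ← pow_succ']
      have : p ^ h - 1 + 1 = p ^ h := by omega
      rw [this, hω]

end Crest.Agent.R227
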