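import Crest.Agent.R227.D0Per
import Crest.Agent.R227.FE
import Crest.Agent.R227.FG2
import Crest.Agent.R227.Ball

/-!
# R227 / D0Eq : comparison of logarithms along a homomorphism congruent to `X + ω X^{p^i}`
-/

set_option autoImplicit false

noncomputable section

namespace Crest.Agent.R227

open Crest.LubinTate MvPowerSeries Topology

variable {p : ℕ} [Fact p.Prime]

namespace D0Eq

theorem cc_one {B : Type*} [CommRing B] {f : PowerSeries B}
    (h : PowerSeries.constantCoeff f = 0) : MvPowerSeries.constantCoeff (σ := Unit) f = 0 := h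

/-- an additive series over a `ℚ`-algebra without linear term is zero -/
theorem additive_eq_zero {B : Type*} [CommRing B] [Algebra ℚ B] (ν : PowerSeries B)
    (h0 : PowerSeries.constantCoeff ν = 0) (h1 : PowerSeries.coeff 1 ν = 0)
    (h : PowerSeries.subst ((2 : B) • (PowerSeries.X : PowerSeries B)) ν = ν + ν) : ν = 0 := by
  rw [← PowerSeries.rescale_eq_subst] at h
  ext1 m
  have hm := congrArg (PowerSeries.coeff m) h
  rw [PowerSeries.coeff_rescale, map_add] at hm
  rw [map_zero]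
  rcases m with _ | _ | m
  · simpa using h0
  · exact h1
  · have h2 : ((2 : B) ^ (m + 1 + 1) - 2) * PowerSeries.coeff (m + 1 + 1) ν = 0 := by
      rw [sub_mul, hm]; ring
    have h3 : (algebraMap ℚ B ((2 ^ (m + 1 + 1) - 2 : ℚ)⁻¹)) * ((2 : B) ^ (m + 1 + 1) - 2) = 1 := by
      have : ((2 : B) ^ (m + 1 + 1) - 2) = algebraMap ℚ B (2 ^ (m + 1 + 1) - 2 : ℚ) := by
        rw [map_sub, map_pow, map_ofNat]
      rw [this, ← map_mul, inv_mul_cancel₀, map_one]
      have h4 : (2 : ℚ) < 2 ^ (m + 1 + 1) := by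
        calc (2 : ℚ) = 2 ^ 1 := by norm_num
          _ < 2 ^ (m + 1 + 1) := pow_lt_pow_right₀ (by norm_num) (by omega)
      exact ne_of_gt (by linarith)
    calc PowerSeries.coeff (m + 1 + 1) ν
        = (algebraMap ℚ B ((2 ^ (m + 1 + 1) - 2 : ℚ)⁻¹)) *
          (((2 : B) ^ (m + 1 + 1) - 2) * PowerSeries.coeff (m + 1 + 1) ν) := by
            rw [← mul_assoc, h3, one_mul]
      _ = 0 := by rw [h2, mul_zero]

end D0Eq

/-- uniqueness of the logarithm: `log_G ∘ ψ = ψ'(0) log_F` for a homomorphism `ψ : F → G` over a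
`ℚ`-algebra, when `log_F`, `log_G` are additive for `F`, `G` and have linear coefficient `1`. -/
theorem log_hom {B : Type*} [CommRing B] [Algebra ℚ B] (F G : FormalGroup B) (ψ : PowerSeries B)
    (hψ : IsFGHom F G ψ) (lF lG : PowerSeries B) (hF1 : PowerSeries.coeff 1 lF = 1)
    (hG1 : PowerSeries.coeff 1 lG = 1) (hF0 : PowerSeries.constantCoeff lF = 0)
    (hG0 : PowerSeries.constantCoeff lG = 0)
    (hF : PowerSeries.subst F.toPowerSeries lF =
      PowerSeries.subst (X 0 : MvPowerSeries (Fin 2) B) lF +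
        PowerSeries.subst (X 1 : MvPowerSeries (Fin 2) B) lF)
    (hG : PowerSeries.subst G.toPowerSeries lG =
      PowerSeries.subst (X 0 : MvPowerSeries (Fin 2) B) lG +
        PowerSeries.subst (X 1 : MvPowerSeries (Fin 2) B) lG) :
    PowerSeries.subst ψ lG = PowerSeries.C (PowerSeries.coeff 1 ψ) * lF := by
  have hFc : constantCoeff F.toPowerSeries = 0 := F.zero_constantCoeff
  have hGc : constantCoeff G.toPowerSeries = 0 := G.zero_constantCoeff
  have hψ0 := hψ.1
  -- the inverse of `lF`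
  have hinv : Invertible (PowerSeries.coeff 1 lF) := hF1 ▸ invertibleOne
  set e : PowerSeries B := lF.substInv with he
  have he0 : MvPowerSeries.constantCoeff (σ := Unit) e = 0 := PowerSeries.constantCoeff_substInv _
  have hle : PowerSeries.subst e lF = PowerSeries.X := PowerSeries.subst_substInv_right _ hF0
  have hel : PowerSeries.subst lF e = PowerSeries.X := PowerSeries.subst_substInv_left _ hF0
  -- the two-fold sum
  set s : PowerSeries B := fadd F e e with hs
  have hs0 : MvPowerSeries.constantCoeff (σ := Unit) s = 0 := constantCoeff_fadd F e e he0 he0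
  have hls : PowerSeries.subst s lF = (PowerSeries.X + PowerSeries.X : PowerSeries B) := by
    rw [hs, fadd]
    refine (FEAux.log_subst hFc hF he0 he0).trans ?_
    rw [hle]
  have h2X : MvPowerSeries.constantCoeff (σ := Unit) ((2 : B) • (PowerSeries.X : PowerSeries B)) = 0 := by
    change PowerSeries.constantCoeff ((2 : B) • (PowerSeries.X : PowerSeries B)) = 0
    simp
  have hse : s = PowerSeries.subst ((2 : B) • (PowerSeries.X : PowerSeries B)) e := by
    refine FEAux.psubst_inj hF0 hF1 hs0 (constantCoeff_psubst h2X he0) ?_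
    rw [hls, ← psubst_psubst he0 h2X, hle, psubst_X h2X]
    simp [two_smul]
  -- the difference
  set μ : PowerSeries B := PowerSeries.subst ψ lG - PowerSeries.C (PowerSeries.coeff 1 ψ) * lF with hμ
  have hμ0 : PowerSeries.constantCoeff μ = 0 := by
    rw [hμ, map_sub, map_mul, hF0, mul_zero, sub_zero]
    exact constantCoeff_psubst (D0Eq.cc_one hψ0) hG0
  have hμs : ∀ {τ : Type} (a : MvPowerSeries τ B), constantCoeff a = 0 →
      PowerSeries.subst a μ = PowerSeries.subst (PowerSeries.subst a ψ) lG -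
        C (PowerSeries.coeff 1 ψ) * PowerSeries.subst a lF := by
    intro τ a ha
    have hsub := PowerSeries.HasSubst.of_constantCoeff_zero ha
    rw [hμ, PowerSeries.subst_sub hsub, psubst_psubst hψ0 ha, PowerSeries.subst_mul hsub,
      PowerSeries.subst_C]
  have hμadd : PowerSeries.subst s μ = PowerSeries.subst e μ + PowerSeries.subst e μ := by
    rw [hμs s hs0, hμs e he0, hls, hle, hs, IsFGHom.subst_fadd hψ e e he0 he0, fadd,
      FEAux.log_subst hGc hG (constantCoeff_psubst he0 hψ0) (constantCoeff_psubst he0 hψ0)]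
    ring
  set ν : PowerSeries B := PowerSeries.subst e μ with hν
  have hν0 : PowerSeries.constantCoeff ν = 0 := constantCoeff_psubst he0 hμ0
  have hν2 : PowerSeries.subst ((2 : B) • (PowerSeries.X : PowerSeries B)) ν = ν + ν := by
    rw [← hμadd, hν, psubst_psubst he0 h2X, ← hse]
  have hc1 : ∀ (L a : PowerSeries B), PowerSeries.constantCoeff a = 0 →
      PowerSeries.coeff 1 (PowerSeries.subst a L) = PowerSeries.coeff 1 L * PowerSeries.coeff 1 a := by
    intro L a ha
    exact FEAux.coeff_single_psubst L (D0Eq.cc_one ha) ()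
  have hν1 : PowerSeries.coeff 1 ν = 0 := by
    rw [hν, hc1 _ _ he0, hμ, map_sub, hc1 _ _ hψ0, PowerSeries.coeff_C_mul, hF1, hG1]
    ring
  have hνz := D0Eq.additive_eq_zero ν hν0 hν1 hν2
  have hμz : μ = 0 := by
    have h1 : PowerSeries.subst lF ν = μ := by
      rw [hν, psubst_psubst he0 (D0Eq.cc_one hF0), hel]
      exact PowerSeries.X_subst μ
    rw [← h1, hνz, psubst_zero _ (D0Eq.cc_one hF0)]
  rwa [hμ, sub_eq_zero] at hμz


variable {K : Type*} [NontriviallyNormedField K] [IsUltrametricDist K] [Algebra ℚ K]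

namespace D0Eq

/-- the closed ball ideal -/
def cball (K : Type*) [NormedField K] [IsUltrametricDist K] (c : ℝ) (hc : 0 ≤ c) :
    Ideal (Ob K) where
  carrier := {x | ‖(x : K)‖ ≤ c}
  add_mem' := by
    intro a b ha hb
    simp only [Set.mem_ofPred_eq, Subring.coe_add] at *
    exact (IsUltrametricDist.norm_add_le_max _ _).trans (max_le ha hb)
  zero_mem' := by simpa using hc
  smul_mem' := by
    intro a x hx
    simp only [Set.mem_ofPred_eq, smul_eq_mul, Subring.coe_mul, norm_mul] at *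
    have ha : ‖(a : K)‖ ≤ 1 := a.2
    calc ‖(a : K)‖ * ‖(x : K)‖ ≤ 1 * ‖(x : K)‖ := by gcongr
      _ = ‖(x : K)‖ := one_mul _
      _ ≤ c := hx

omit [Algebra ℚ K] in
/-- ultrametric bound for the coefficients of a product -/
theorem norm_coeff_mul_le {τ : Type*} {a b : MvPowerSeries τ K} {u v : ℝ} (hu : 0 ≤ u)
    (ha : ∀ d, ‖coeff d a‖ ≤ u) (hb : ∀ d, ‖coeff d b‖ ≤ v) (hv : 0 ≤ v) (d : τ →₀ ℕ) :
    ‖coeff d (a * b)‖ ≤ u * v := by
  classical
  rw [coeff_mul]
  refine IsUltrametricDist.norm_sum_le_of_forall_le_of_nonneg (mul_nonneg hu hv) fun x _ => ?_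
  rw [norm_mul]
  exact mul_le_mul (ha _) (hb _) (norm_nonneg _) hu

omit [Algebra ℚ K] in
theorem norm_coeff_pow_le {τ : Type*} {a : MvPowerSeries τ K} {u : ℝ} (hu : 0 ≤ u)
    (ha : ∀ d, ‖coeff d a‖ ≤ u) (k : ℕ) (d : τ →₀ ℕ) :
    ‖coeff d (a ^ k)‖ ≤ u ^ k := by
  classical
  induction k generalizing d with
  | zero =>
    rw [pow_zero, pow_zero, coeff_one]
    split_ifs <;> simp
  | succ k ih =>
    rw [pow_succ, pow_succ]
    exact norm_coeff_mul_le (pow_nonneg hu _) ih ha hu d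

/-- `r^j c^{p^j}` is bounded -/
theorem exists_bound (p : ℕ) (hp : 2 ≤ p) (r c : ℝ) (hr : 0 ≤ r) (hc0 : 0 ≤ c) (hc : c < 1) :
    ∃ B : ℝ, 0 ≤ B ∧ ∀ j : ℕ, r ^ j * c ^ p ^ j ≤ B := by
  obtain ⟨k, hk⟩ : ∃ k : ℕ, r ≤ (p : ℝ) ^ k := by
    obtain ⟨k, hk⟩ := pow_unbounded_of_one_lt r (show (1 : ℝ) < p by exact_mod_cast hp)
    exact ⟨k, hk.le⟩
  have ht := tendsto_pow_const_mul_const_pow_of_abs_lt_one k (r := c) (by rwa [abs_of_nonneg hc0])
  obtain ⟨B, hB⟩ := ht.bddAbove_range
  have hB' : ∀ n : ℕ, (n : ℝ) ^ k * c ^ n ≤ B := fun n => hB ⟨n, rfl⟩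
  refine ⟨max B 0, le_max_right _ _, fun j => le_trans ?_ (le_max_left _ _)⟩
  calc r ^ j * c ^ p ^ j ≤ ((p : ℝ) ^ k) ^ j * c ^ p ^ j := by gcongr
    _ = ((p ^ j : ℕ) : ℝ) ^ k * c ^ (p ^ j) := by
        push_cast; rw [← pow_mul, ← pow_mul, mul_comm k j]
    _ ≤ B := hB' _

end D0Eq

/-- If `ψ : F_y → F_x` is a homomorphism over the unit ball and
`ψ ≡ X +_{F_x} ω X^{p^i} mod c` with `c < 1`, then
`ψ'(0) l_k(y) = l_k(x) + ω^{p^{k-i}} l_{k-i}(x) + O(1)`. -/
theorem coeff_rel {n : ℕ} (hn : 1 ≤ n) (hp : ‖(p : K)‖ < 1) {c : ℝ} (hc0 : 0 ≤ c) (hc : c < 1)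
    (x y : ℕ → Ob K) (hx : Adm n c (fun i => (x i : K))) (hy : Adm n c (fun i => (y i : K)))
    (ψ : PowerSeries (Ob K)) (hψ : IsFGHom (hz p n y) (hz p n x) ψ) (ω : Ob K) (i : ℕ)
    (hcong : ∀ d, ‖PowerSeries.coeff d ψ - PowerSeries.coeff d
      (fadd (hz p n x) PowerSeries.X (PowerSeries.C ω * PowerSeries.X ^ p ^ i) :
        PowerSeries (Ob K))‖ ≤ c) :
    ∃ B : ℝ, ∀ k, i ≤ k → ‖((PowerSeries.coeff 1 ψ : Ob K) : K) * hle p n (fun i => (y i : K)) k -
      hle p n (fun i => (x i : K)) k -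
      hle p n (fun i => (x i : K)) (k - i) * (ω : K) ^ p ^ (k - i)‖ ≤ B := by
  have hp2 : 2 ≤ p := (Fact.out : p.Prime).two_le
  have hpi : p ^ i ≠ 0 := pow_ne_zero _ (by omega)
  set m : PowerSeries (Ob K) := PowerSeries.C ω * PowerSeries.X ^ p ^ i with hm
  have hm0 : MvPowerSeries.constantCoeff (σ := Unit) m = 0 := by
    change PowerSeries.constantCoeff m = 0
    rw [hm, map_mul, map_pow, PowerSeries.constantCoeff_X, zero_pow hpi, mul_zero]
  set g : PowerSeries (Ob K) := fadd (hz p n x) PowerSeries.X m with hg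
  have hg0 : MvPowerSeries.constantCoeff (σ := Unit) g = 0 :=
    constantCoeff_fadd _ _ _ mvConstantCoeff_X hm0
  have hψ0 : MvPowerSeries.constantCoeff (σ := Unit) ψ = 0 := hψ.1
  set ε : PowerSeries (Ob K) := fadd (hz p n x) ψ (fneg (hz p n x) g) with hε
  have hng := constantCoeff_fneg (hz p n x) g hg0
  have hε0 : MvPowerSeries.constantCoeff (σ := Unit) ε = 0 := constantCoeff_fadd _ _ _ hψ0 hng
  have hεI : ∀ d, coeff d ε ∈ D0Eq.cball K c hc0 := by
    rw [hε]
    rw [fsub_mem_iff (hz p n x) ψ g hψ0 hg0]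
    intro d
    rw [map_sub]
    have := hcong (d ())
    have hd : d = Finsupp.single () (d ()) := by
      ext; simp
    rw [hd]
    exact this
  have hψe : fadd (hz p n x) g ε = ψ := by
    rw [fadd_comm _ g ε hg0 hε0, hε, fadd_assoc _ ψ _ g hψ0 hng hg0, fneg_fadd _ g hg0,
      fadd_zero _ ψ hψ0]
  -- everything over `K`
  set xK : ℕ → K := fun i => (x i : K) with hxK
  set yK : ℕ → K := fun i => (y i : K) with hyK
  set ι : Ob K →+* K := (Ob K).subtype with hι
  have hmapx : (hz p n x).map ι = hz p n xK := hz_map p n ι x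
  have hmapy : (hz p n y).map ι = hz p n yK := hz_map p n ι y
  have hψK : IsFGHom (hz p n yK) (hz p n xK) (PowerSeries.map ι ψ) := by
    rw [← hmapx, ← hmapy]
    exact IsFGHom.map ι hψ
  have hlog := log_hom (hz p n yK) (hz p n xK) (PowerSeries.map ι ψ) hψK (logAt p n yK)
    (logAt p n xK) (coeff_one_logAt n yK) (coeff_one_logAt n xK) (constantCoeff_logAt n yK)
    (constantCoeff_logAt n xK) (log_hz p n yK) (log_hz p n xK)
  set mK : PowerSeries K := PowerSeries.C (ω : K) * PowerSeries.X ^ p ^ i with hmK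
  have hmK' : MvPowerSeries.map ι m = mK := by
    change PowerSeries.map ι m = mK
    rw [hm, hmK, map_mul, map_pow, PowerSeries.map_X, PowerSeries.map_C]
    rfl
  have hmK0 : MvPowerSeries.constantCoeff (σ := Unit) mK = 0 := by
    rw [← hmK']; exact FEAux.cc_map hm0
  set εK : PowerSeries K := MvPowerSeries.map ι ε with hεK
  have hεK0 : MvPowerSeries.constantCoeff (σ := Unit) εK = 0 := FEAux.cc_map hε0
  have hεKn : ∀ d, ‖coeff d εK‖ ≤ c := by
    intro d
    rw [hεK, coeff_map]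
    exact hεI d
  have hgK : (MvPowerSeries.map ι g : PowerSeries K) = fadd (hz p n xK) PowerSeries.X mK := by
    rw [hg, map_fadd ι _ _ _ mvConstantCoeff_X hm0, hmapx, hmK']
    congr 1
    exact PowerSeries.map_X ι
  have hgK0 : MvPowerSeries.constantCoeff (σ := Unit) (MvPowerSeries.map ι g) = 0 :=
    FEAux.cc_map hg0
  have hψKe : PowerSeries.map ι ψ = fadd (hz p n xK) (MvPowerSeries.map ι g) εK := by
    rw [← hψe]
    change MvPowerSeries.map ι _ = _
    rw [map_fadd ι _ _ _ hg0 hε0, hmapx]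
  have hadd : ∀ a b : PowerSeries K, MvPowerSeries.constantCoeff (σ := Unit) a = 0 →
      MvPowerSeries.constantCoeff (σ := Unit) b = 0 →
      PowerSeries.subst (fadd (hz p n xK) a b : PowerSeries K) (logAt p n xK) =
        PowerSeries.subst a (logAt p n xK) + PowerSeries.subst b (logAt p n xK) := fun a b ha hb =>
    FEAux.log_subst (hz p n xK).zero_constantCoeff (log_hz p n xK) ha hb
  rw [PowerSeries.coeff_map, hψKe, hadd _ _ hgK0 hεK0, hgK, hadd _ _ mvConstantCoeff_X hmK0,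
    PowerSeries.X_subst] at hlog
  obtain ⟨B, hB0, hB⟩ := D0Eq.exists_bound p hp2 ‖(p : K)‖⁻¹ c (inv_nonneg.2 (norm_nonneg _)) hc0 hc
  refine ⟨B, fun k hk => ?_⟩
  have hco := congrArg (PowerSeries.coeff (p ^ k)) hlog
  rw [map_add, map_add, PowerSeries.coeff_C_mul] at hco
  have e1 : ∀ z : ℕ → K, PowerSeries.coeff (p ^ k) (logAt p n z) = hle p n z k := fun z =>
    FEAux.coeff_pow_pSeries _ _
  have e2 : PowerSeries.coeff (p ^ k) (PowerSeries.subst mK (logAt p n xK)) =
      hle p n xK (k - i) * (ω : K) ^ p ^ (k - i) := by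
    rw [hmK, FEAux.coeff_psubst_C_mul_X_pow _ _ hpi, if_pos (pow_dvd_pow p hk),
      Nat.pow_div hk (by omega), logAt, FEAux.coeff_pow_pSeries, mul_comm]
  rw [e1, e1, e2] at hco
  have e3 : ‖PowerSeries.coeff (p ^ k) (PowerSeries.subst εK (logAt p n xK))‖ ≤ B := by
    change ‖coeff (Finsupp.single () (p ^ k)) (PowerSeries.subst εK (pSeries p (hle p n xK)))‖ ≤ B
    rw [coeff_subst_pSeries _ hεK0 _ _ le_rfl]
    refine IsUltrametricDist.norm_sum_le_of_forall_le_of_nonneg hB0 fun j _ => ?_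
    rw [norm_mul]
    refine le_trans (mul_le_mul (norm_hle_le hn hp hc.le hx j)
      (D0Eq.norm_coeff_pow_le hc0 hεKn _ _) (norm_nonneg _) (by positivity)) (hB j)
  have e4 : ((PowerSeries.coeff 1 ψ : Ob K) : K) * hle p n yK k - hle p n xK k -
      hle p n xK (k - i) * (ω : K) ^ p ^ (k - i) =
      PowerSeries.coeff (p ^ k) (PowerSeries.subst εK (logAt p n xK)) := by
    have : ι (PowerSeries.coeff 1 ψ) = ((PowerSeries.coeff 1 ψ : Ob K) : K) := rfl
    rw [← this, ← hco]
    ring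
  rw [e4]
  exact e3

end Crest.Agent.R227
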