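import Crest.Agent.R227.D0Lin
import Crest.Agent.R227.D0Eq
import Crest.Agent.R227.D0Cont
import Crest.Agent.R227.D0Tay
import Crest.Agent.R227.Easy

/-!
# R227 / D0Core : assembly of the characteristic zero core
-/

set_option autoImplicit false
set_option linter.unusedSectionVars false
set_option linter.unusedVariables false

noncomputable section

namespace Crest.Agent.R227

open Crest.LubinTate MvPowerSeries Topology Filter

namespace D0Core

variable (p : ℕ) [Fact p.Prime] (n : ℕ)
variable {K : Type*} [NontriviallyNormedField K] [IsUltrametricDist K] [CompleteSpace K]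
  [Algebra ℚ K] [CharZero K]

theorem exists_c (hn : 1 ≤ n) (X : LTRing p n →+* Ob K)
    (hX : ∀ a, LTRing.residue p n a = 0 → ‖X a‖ < 1) :
    ∃ c : ℝ, 0 < c ∧ c < 1 ∧ ∀ a, LTRing.residue p n a = 0 → ‖X a‖ ≤ c := by
  have h1 : ∀ i ∈ Finset.range n, ‖X (uu p n i)‖ < 1 := by
    intro i hi
    refine hX _ ((mem_II_n p n hn _).1 (Ideal.subset_span ⟨i, Finset.mem_range.1 hi, rfl⟩))
  set s : ℝ := (Finset.range n).sup' ⟨0, Finset.mem_range.2 hn⟩ (fun i => ‖X (uu p n i)‖) with hs
  have hs1 : s < 1 := (Finset.sup'_lt_iff _).2 h1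
  obtain ⟨c, hc1, hc2⟩ := exists_between (max_lt hs1 one_pos)
  refine ⟨c, (le_max_right _ _).trans_lt hc1, hc2, fun a ha => ?_⟩
  have hc0 : 0 ≤ c := ((le_max_right _ _).trans_lt hc1).le
  have ha' := (mem_II_n p n hn a).2 ha
  rw [II] at ha'
  refine Submodule.span_induction (p := fun a _ => ‖X a‖ ≤ c) ?_ ?_ ?_ ?_ ha'
  · rintro _ ⟨i, hi, rfl⟩
    refine le_trans ?_ ((le_max_left _ _).trans hc1.le)
    exact Finset.le_sup' (fun i => ‖X (uu p n i)‖) (Finset.mem_range.2 hi)
  · rw [map_zero, norm_zero]; exact hc0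
  · intro a b _ _ ha hb
    rw [map_add]
    exact (IsUltrametricDist.norm_add_le_max _ _).trans (max_le ha hb)
  · intro a b _ hb
    rw [smul_eq_mul, map_mul]
    calc ‖X a * X b‖ ≤ ‖X a‖ * ‖X b‖ := norm_mul_le _ _
      _ ≤ 1 * c := mul_le_mul (X a).2 hb (norm_nonneg _) zero_le_one
      _ = c := one_mul c

theorem norm_pow_le (X : LTRing p n →+* Ob K) (c : ℝ) (hc0 : 0 ≤ c)
    (hc : ∀ a, LTRing.residue p n a = 0 → ‖X a‖ ≤ c) (k : ℕ) :
    ∀ a ∈ RingHom.ker (LTRing.residue p n) ^ k, ‖X a‖ ≤ c ^ k := by
  induction k with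
  | zero =>
    intro a _
    rw [pow_zero]
    exact (X a).2
  | succ k ih =>
    intro a ha
    rw [pow_succ] at ha
    refine Submodule.mul_induction_on ha ?_ ?_
    · intro a ha b hb
      rw [map_mul, pow_succ]
      exact (norm_mul_le _ _).trans (mul_le_mul (ih a ha) (hc b hb) (norm_nonneg _)
        (pow_nonneg hc0 _))
    · intro a b ha hb
      rw [map_add]
      exact (IsUltrametricDist.norm_add_le_max _ _).trans (max_le ha hb)

/-- functional with prescribed values on the basis `Λ, ∂₁Λ, …` -/
theorem exists_functional (hn : 1 ≤ n) (L0 : Fin n → K) (L1 : ℕ → Fin n → K)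
    (hind : ∀ s : ℕ → K, (∀ r, s 0 * L0 r + ∑ m ∈ Finset.Ico 1 n, s m * L1 m r = 0) →
      ∀ m < n, s m = 0) (γ : ℕ → K) :
    ∃ l : Fin n → K, ∑ r, l r * L0 r = 0 ∧ ∀ m, 1 ≤ m → m < n → ∑ r, l r * L1 m r = γ m := by
  set b : Fin n → (Fin n → K) := fun m => if (m : ℕ) = 0 then L0 else L1 m with hb
  have hli : LinearIndependent K b := by
    rw [Fintype.linearIndependent_iff]
    intro g hg m
    let s : ℕ → K := fun k => if hk : k < n then g ⟨k, hk⟩ else 0
    have hs := hind s (by
      intro r
      have h1 := congrFun hg r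
      simp only [Finset.sum_apply, Pi.smul_apply, smul_eq_mul, Pi.zero_apply] at h1
      rw [← h1]
      have h2 : ∑ x : Fin n, g x * b x r = ∑ k ∈ Finset.range n,
          (s k * (if k = 0 then L0 else L1 k) r) := by
        rw [Finset.sum_range]
        refine Finset.sum_congr rfl fun x _ => ?_
        simp only [s, b, x.2, dite_true]
      rw [h2, Finset.range_eq_Ico, Finset.sum_eq_sum_Ico_succ_bot (by omega : 0 < n)]
      simp only [if_true, zero_add]
      congr 1
      refine Finset.sum_congr rfl fun k hk => ?_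
      rw [if_neg (by have := (Finset.mem_Ico.1 hk).1; omega)]) m m.2
    simpa [s, m.2] using hs
  have : Nonempty (Fin n) := ⟨⟨0, hn⟩⟩
  have hcard : Fintype.card (Fin n) = Module.finrank K (Fin n → K) := by simp
  set B := basisOfLinearIndependentOfCardEqFinrank hli hcard with hB
  set L : (Fin n → K) →ₗ[K] K := B.constr K (fun m => if (m : ℕ) = 0 then 0 else γ m) with hL
  have hLb : ∀ m, L (b m) = if (m : ℕ) = 0 then 0 else γ m := by
    intro m
    have : b m = B m := by rw [hB, coe_basisOfLinearIndependentOfCardEqFinrank]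
    rw [this, hL, Module.Basis.constr_basis]
  have hLs : ∀ v : Fin n → K, ∑ r, L (Pi.single r 1) * v r = L v := by
    intro v
    conv_rhs => rw [pi_eq_sum_univ' v, map_sum]
    refine Finset.sum_congr rfl fun r _ => ?_
    rw [map_smul, smul_eq_mul, mul_comm]
  refine ⟨fun r => L (Pi.single r 1), ?_, fun m hm1 hmn => ?_⟩
  · rw [hLs]
    have := hLb ⟨0, hn⟩
    simpa [hb] using this
  · rw [hLs]
    have := hLb ⟨m, hmn⟩
    have hm0 : m ≠ 0 := by omega
    simpa [hb, hm0] using this

/-- the character `ω ↦ X([ω])` -/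
def tau (X : LTRing p n →+* Ob K) : GaloisField p n →* K :=
  ((Ob K).subtype.comp (X.comp MvPowerSeries.C)).toMonoidHom.comp (WittVector.teichmuller p)

theorem tau_apply (X : LTRing p n →+* Ob K) (ω : GaloisField p n) :
    tau p n X ω = (X (MvPowerSeries.C (WittVector.teichmuller p ω)) : K) := rfl

theorem tau_injective (X : LTRing p n →+* Ob K) : Function.Injective (tau p n X) := by
  have : CharZero (Ob K) := inferInstance
  intro a b hab
  rw [tau_apply, tau_apply] at hab
  have h1 := witt_hom_injective p n (X.comp MvPowerSeries.C) (Subtype.ext hab)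
  have h2 := congrArg WittVector.constantCoeff h1
  simpa using h2

theorem residue_X (m : Fin (n - 1)) : LTRing.residue p n (MvPowerSeries.X m) = 0 := by
  simp [LTRing.residue]

theorem residue_C_teich (ω : GaloisField p n) :
    LTRing.residue p n (MvPowerSeries.C (WittVector.teichmuller p ω)) = ω := by
  simp [LTRing.residue]

theorem upt_of_lt {i : ℕ} (h1 : 1 ≤ i) (h2 : i < n) :
    upt p n i = MvPowerSeries.X ⟨i - 1, by omega⟩ := by
  rw [upt, dif_pos ⟨h1, h2⟩]

theorem upt_n : upt p n n = 1 := by
  rw [upt, dif_neg (by omega), if_pos rfl]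

theorem sum_Ico_eq (f : ℕ → K) (g : Fin (n - 1) → K) (h : ∀ m : Fin (n - 1), f (m + 1) = g m) :
    ∑ m ∈ Finset.Ico 1 n, f m = ∑ m, g m := by
  rw [Finset.sum_Ico_eq_sum_range, Finset.sum_range]
  exact Finset.sum_congr rfl fun m _ => by rw [← h m, add_comm]

theorem adm_point (X : LTRing p n →+* Ob K) (c : ℝ)
    (hc : ∀ a, LTRing.residue p n a = 0 → ‖X a‖ ≤ c)
    (φ : LTRing p n →+* LTRing p n) (hφ : (LTRing.residue p n).comp φ = LTRing.residue p n) :
    Adm n c (fun i => (X (φ (upt p n i)) : K)) where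
  le i h1 h2 := by
    refine hc _ ?_
    rw [← RingHom.comp_apply, hφ, upt_of_lt p n h1 h2, residue_X]
  one := by simp only [upt_n, map_one]; rfl

theorem step_data (hn : 1 ≤ n) (hU : IsUniversalDeformation p n (Fn p n) (H1 p n))
    (hp : ‖(p : K)‖ < 1) (X : LTRing p n →+* Ob K) (c : ℝ) (hc0 : 0 ≤ c) (hc1 : c < 1)
    (hc : ∀ a, LTRing.residue p n a = 0 → ‖X a‖ ≤ c) (ω : GaloisField p n) (i J : ℕ) (hi : i < n)
    (hJ : 1 ≤ i + n * J) :
    ∃ φ, IsStabilizerMap p n (H1 p n) (gAut p n ω (i + n * J)) φ ∧ ∃ a : K, ‖a‖ = 1 ∧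
      ∀ r, a * Lam p n (fun k => (X (φ (upt p n k)) : K)) r =
        Lam p n (fun k => (X (upt p n k) : K)) r +
        (p : K) ^ J * actM p n (tau p n X ω) i (Lam p n (fun k => (X (upt p n k) : K))) r := by
  obtain ⟨φ, hφ⟩ := exists_stab p n hn hU _ (gAut_isFGAut p n hn ω (i + n * J) hJ)
  refine ⟨φ, hφ, ?_⟩
  obtain ⟨hres, θ, hθ, hθg⟩ := hφ
  have hx : Adm n c (fun k => (X (upt p n k) : K)) :=
    adm_point p n X c hc (RingHom.id _) (RingHom.comp_id _)
  have hy : Adm n c (fun k => (X (φ (upt p n k)) : K)) := adm_point p n X c hc φ.toRingHom hres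
  set ψ : PowerSeries (Ob K) := PowerSeries.map X θ with hψ
  have hψhom : IsFGHom (hz p n (fun k => X (φ (upt p n k)))) (hz p n (fun k => X (upt p n k))) ψ := by
    have h1 := IsFGHom.map X hθ
    rw [H1, hz_map, hz_map, hz_map] at h1
    exact h1
  have hcong : ∀ d, ‖PowerSeries.coeff d ψ - PowerSeries.coeff d
      (fadd (hz p n (fun k => X (upt p n k))) PowerSeries.X
        (PowerSeries.C (X (MvPowerSeries.C (WittVector.teichmuller p ω))) *
          PowerSeries.X ^ p ^ (i + n * J)) : PowerSeries (Ob K))‖ ≤ c := by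
    intro d
    have hpi : p ^ (i + n * J) ≠ 0 := pow_ne_zero _ (Fact.out : p.Prime).ne_zero
    have h1 : (fadd (hz p n (fun k => X (upt p n k))) PowerSeries.X
        (PowerSeries.C (X (MvPowerSeries.C (WittVector.teichmuller p ω))) *
          PowerSeries.X ^ p ^ (i + n * J)) : PowerSeries (Ob K)) =
        PowerSeries.map X (fadd (H1 p n) PowerSeries.X
          (PowerSeries.C (MvPowerSeries.C (WittVector.teichmuller p ω)) *
          PowerSeries.X ^ p ^ (i + n * J)) : PowerSeries (LTRing p n)) := by
      have h2 := map_fadd X (H1 p n) (PowerSeries.X : PowerSeries (LTRing p n))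
        (PowerSeries.C (MvPowerSeries.C (WittVector.teichmuller p ω)) *
          PowerSeries.X ^ p ^ (i + n * J) : PowerSeries (LTRing p n))
        (PowerSeries.constantCoeff_X) (by
          change PowerSeries.constantCoeff _ = 0
          rw [map_mul, map_pow, PowerSeries.constantCoeff_X, zero_pow hpi, mul_zero])
      refine Eq.trans ?_ h2.symm
      rw [H1, hz_map]
      change _ = fadd _ (PowerSeries.map X PowerSeries.X) (PowerSeries.map X _)
      simp
    have h3 : LTRing.residue p n (PowerSeries.coeff d θ - PowerSeries.coeff d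
        (fadd (H1 p n) PowerSeries.X
          (PowerSeries.C (MvPowerSeries.C (WittVector.teichmuller p ω)) *
          PowerSeries.X ^ p ^ (i + n * J)) : PowerSeries (LTRing p n))) = 0 := by
      rw [map_sub, sub_eq_zero, ← PowerSeries.coeff_map, ← PowerSeries.coeff_map, hθg]
      congr 1
      rw [gAut]
      have h2 := map_fadd (LTRing.residue p n) (H1 p n)
        (PowerSeries.X : PowerSeries (LTRing p n))
        (PowerSeries.C (MvPowerSeries.C (WittVector.teichmuller p ω)) *
          PowerSeries.X ^ p ^ (i + n * J) : PowerSeries (LTRing p n))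
        (PowerSeries.constantCoeff_X) (by
          change PowerSeries.constantCoeff _ = 0
          rw [map_mul, map_pow, PowerSeries.constantCoeff_X, zero_pow hpi, mul_zero])
      refine Eq.trans ?_ h2.symm
      rw [hU.1]
      change _ = fadd _ (PowerSeries.map (LTRing.residue p n) PowerSeries.X)
        (PowerSeries.map (LTRing.residue p n) _)
      simp [residue_C_teich]
    rw [h1, hψ, PowerSeries.coeff_map, PowerSeries.coeff_map, ← map_sub]
    exact hc _ h3
  obtain ⟨B, hB⟩ := coeff_rel hn hp hc0 hc1 (fun k => X (upt p n k)) (fun k => X (φ (upt p n k)))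
    hx hy ψ hψhom (X (MvPowerSeries.C (WittVector.teichmuller p ω))) (i + n * J) hcong
  refine ⟨((PowerSeries.coeff 1 ψ : Ob K) : K), ?_, fun r => ?_⟩
  · -- norm one
    have h1 : LTRing.residue p n (PowerSeries.coeff 1 θ - 1) = 0 := by
      rw [map_sub, map_one, ← PowerSeries.coeff_map, hθg, gAut_coeff p n hn ω (i + n * J) 2 ?_ 1
        (by omega), PowerSeries.coeff_one_X, sub_self]
      calc 2 ≤ p := (Fact.out : p.Prime).two_le
        _ = p ^ 1 := (pow_one p).symm
        _ ≤ p ^ (i + n * J) := Nat.pow_le_pow_right (Fact.out : p.Prime).pos hJ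
    have h2 := hc _ h1
    rw [map_sub, map_one] at h2
    have h3 : ‖((PowerSeries.coeff 1 ψ : Ob K) : K) - 1‖ < 1 := by
      rw [hψ, PowerSeries.coeff_map]
      exact lt_of_le_of_lt h2 hc1
    have h4 : ((PowerSeries.coeff 1 ψ : Ob K) : K) =
        1 + (((PowerSeries.coeff 1 ψ : Ob K) : K) - 1) := by ring
    rw [h4, IsUltrametricDist.norm_add_eq_max_of_norm_ne_norm (by rw [norm_one]; exact h3.ne'),
      norm_one, max_eq_left h3.le]
  · refine Lam_equivariant hn hp hc0 hc1 hx hy _ _ ?_ i J hi B (fun k hk => hB k hk) r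
    have h1 : tau p n X ω ^ p ^ n = tau p n X ω := by
      rw [← map_pow, D0Cont.galois_pow p n hn]
    exact h1

/-- key: derivatives of functions vanishing on the orbit vanish -/
theorem key (hn : 1 ≤ n) (hU : IsUniversalDeformation p n (Fn p n) (H1 p n)) (M : ℕ)
    (hM : 1 ≤ M) (X : LTRing p n →+* Ob K)
    (hX : ∀ a, LTRing.residue p n a = 0 → ‖X a‖ < 1) (g : LTRing p n)
    (hg : ∀ φ, IsStab p n M φ → X (φ g) = 0) (m0 : Fin (n - 1)) :
    X (pderiv _ m0 g) = 0 := by
  have hn2 : 2 ≤ n := by have := m0.2; omega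
  obtain ⟨c, hc0, hc1, hc⟩ := exists_c p n hn X hX
  have hp : ‖(p : K)‖ < 1 := by
    have h1 : LTRing.residue p n (p : LTRing p n) = 0 := by
      rw [map_natCast, CharP.cast_eq_zero]
    have h2 := hX _ h1
    rw [map_natCast] at h2
    exact h2
  set xK : ℕ → K := fun k => (X (upt p n k) : K) with hxK
  have hx : Adm n c xK := adm_point p n X c hc (RingHom.id _) (RingHom.comp_id _)
  have hind := Lam_indep hn hp hc0.le hc1 hx
  set γ : ℕ → K := fun k => if h : 1 ≤ k ∧ k < n then
    (X (pderiv _ (⟨k - 1, by omega⟩ : Fin (n - 1)) g) : K) else 0 with hγ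
  have hγm : ∀ m : Fin (n - 1), γ (m + 1) = (X (pderiv _ m g) : K) := by
    intro m
    have := m.2
    simp only [hγ]
    rw [dif_pos ⟨by omega, by omega⟩]
    rfl
  obtain ⟨l, hl0, hl1⟩ := exists_functional n hn (Lam p n xK) (fun m => dLam p n m xK) hind γ
  -- `l` kills all `actM`
  have hl : l = 0 := by
    refine actM_span hn (tau p n X) (tau_injective p n X) (Lam p n xK) ?_ l ?_
    · intro h0
      have := hind (fun k => if k = 0 then 1 else 0) (fun r => by
        rw [h0]
        simp only [Pi.zero_apply, mul_zero, zero_add]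
        refine Finset.sum_eq_zero fun m hm => ?_
        rw [if_neg (by have := (Finset.mem_Ico.1 hm).1; omega), zero_mul]) 0 (by omega)
      simp at this
    · intro ω i hi
      -- data
      have hJ : ∀ j : ℕ, 1 ≤ i + n * (j + (M + 1)) := by
        intro j
        nlinarith
      choose φ hφ a ha hrel using fun j : ℕ =>
        step_data p n hn hU hp X c hc0.le hc1 hc ω i (j + (M + 1)) hi (hJ j)
      have hstab : ∀ j, IsStab p n M (φ j) := by
        intro j
        refine ⟨gAut p n ω (i + n * (j + (M + 1))), gAut_isFGAut p n hn ω _ (hJ j), ?_, hφ j⟩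
        refine gAut_coeff p n hn ω _ M ?_
        have h1 : M ≤ i + n * (j + (M + 1)) := by nlinarith
        exact h1.trans (Nat.lt_pow_self (Fact.out : p.Prime).one_lt).le
      have hclose : ∀ j, ∀ b : LTRing p n, ‖X (φ j b) - X b‖ ≤ c ^ (j + (M + 1) + 1) := by
        intro j b
        rw [← map_sub]
        exact norm_pow_le p n X c hc0.le hc _ _
          (gAut_close p n hn hU ω i (j + (M + 1)) (hJ j) (φ j) (hφ j) b)
      set d : ℕ → ℕ → K := fun j m => (X (φ j (upt p n m)) : K) - xK m with hd
      have hne : (Finset.Ico 1 n).Nonempty := ⟨1, Finset.mem_Ico.2 ⟨le_rfl, by omega⟩⟩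
      set δ : ℕ → ℝ := fun j => (Finset.Ico 1 n).sup' hne (fun m => ‖d j m‖) with hδdef
      have hδle : ∀ j m, 1 ≤ m → m < n → ‖d j m‖ ≤ δ j := fun j m h1 h2 =>
        Finset.le_sup' (fun m => ‖d j m‖) (Finset.mem_Ico.2 ⟨h1, h2⟩)
      have hδex : ∀ j, ∃ m, 1 ≤ m ∧ m < n ∧ δ j = ‖d j m‖ := by
        intro j
        obtain ⟨m, hm, hm'⟩ := Finset.exists_mem_eq_sup' hne (fun m => ‖d j m‖)
        exact ⟨m, (Finset.mem_Ico.1 hm).1, (Finset.mem_Ico.1 hm).2, hm'⟩
      have hδnn : ∀ j, 0 ≤ δ j := fun j => by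
        obtain ⟨m, _, _, h⟩ := hδex j
        rw [h]; exact norm_nonneg _
      have hδ0 : Tendsto δ atTop (𝓝 0) := by
        refine squeeze_zero (g := fun j => c ^ j) hδnn (fun j => ?_)
          (tendsto_pow_atTop_nhds_zero_of_lt_one hc0.le hc1)
        obtain ⟨m, _, _, h⟩ := hδex j
        rw [h]
        exact (hclose j _).trans (pow_le_pow_of_le_one hc0.le hc1.le (by omega))
      obtain ⟨C1, hC1, hT⟩ := Lam_taylor (K := K) (p := p) hn hp hc0 hc1
      have hfo := first_order hn hp (Lam p n xK) (fun m => dLam p n m xK)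
        (fun r => (p : K) ^ (M + 1) * actM p n (tau p n X ω) i (Lam p n xK) r) hind γ (max C1 1)
        (by positivity) a ha d δ hδle hδex hδ0
        (fun j r => Lam p n (fun k => (X (φ j (upt p n k)) : K)) r - Lam p n xK r)
        (fun j r => by
          have := hrel j r
          rw [mul_sub, this, pow_add]
          ring)
        (fun j r => by
          have hy : Adm n c (fun k => (X (φ j (upt p n k)) : K)) :=
            adm_point p n X c hc (φ j).toRingHom (hφ j).1
          refine (hT xK _ hx hy (δ j) (hδle j) r).trans ?_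
          exact mul_le_mul_of_nonneg_right (le_max_left _ _) (by positivity))
        (fun j => by
          have h1 := X_taylor p n X (X.comp (φ j).toRingHom) hX
            (fun b hb => hX _ (by
              have h2 := RingHom.congr_fun (hφ j).1 b
              rw [hb] at h2
              exact h2))
            (fun b => by
              have h2 : (φ j) (MvPowerSeries.C b) = MvPowerSeries.C b := (φ j).commutes b
              change X (MvPowerSeries.C b) = X ((φ j) (MvPowerSeries.C b))
              rw [h2])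
            (δ j) (fun m => by
              have h2 := hδle j (m + 1) (by omega) (by have := m.2; omega)
              simp only [hd, hxK] at h2
              rw [upt_of_lt p n (by omega : 1 ≤ (m : ℕ) + 1) (by have := m.2; omega)] at h2
              exact h2) g
          have h3 : (X.comp (φ j).toRingHom) g = 0 := hg (φ j) (hstab j)
          have h4 : X g = 0 := hg (AlgHom.id _ _) (isStab_id p n M)
          rw [h3, h4, sub_zero, zero_sub, norm_neg] at h1
          refine le_trans ?_ (h1.trans ?_)
          · refine le_of_eq ?_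
            change _ = ‖((∑ m : Fin (n - 1), _ : Ob K) : K)‖
            rw [sum_Ico_eq n (fun m => d j m * γ m) (fun m => d j (m + 1) * γ (m + 1))
              (fun m => rfl)]
            rw [← Subring.subtype_apply, map_sum]
            congr 1
            refine Finset.sum_congr rfl fun m _ => ?_
            rw [hγm, map_mul]
            congr 1
            simp only [hd, hxK]
            rw [upt_of_lt p n (by omega : 1 ≤ (m : ℕ) + 1) (by have := m.2; omega)]
            rfl
          · calc δ j ^ 2 = 1 * δ j ^ 2 := (one_mul _).symm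
              _ ≤ _ := mul_le_mul_of_nonneg_right (le_max_right _ _) (by positivity))
        l hl0 hl1
      have hpne : (p : K) ^ (M + 1) ≠ 0 := pow_ne_zero _
        (Nat.cast_ne_zero.2 (Fact.out : p.Prime).ne_zero)
      have h5 : (p : K) ^ (M + 1) * ∑ r, l r * actM p n (tau p n X ω) i (Lam p n xK) r = 0 := by
        rw [← hfo, Finset.mul_sum]
        exact Finset.sum_congr rfl fun r _ => by ring
      exact (mul_eq_zero.1 h5).resolve_left hpne
  have h6 := hl1 (m0 + 1) (by omega) (by have := m0.2; omega)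
  rw [hl, hγm] at h6
  simp only [Pi.zero_apply, zero_mul, Finset.sum_const_zero] at h6
  exact Subtype.ext h6.symm

end D0Core

end Crest.Agent.R227
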