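import Crest.Agent.R227.Small
import Crest.Agent.R227.D0Core

/-!
# R227 / D0 (task D0)
-/

set_option autoImplicit false

noncomputable section

namespace Crest.Agent.R227

open Crest.LubinTate MvPowerSeries Topology

variable (p : ℕ) [Fact p.Prime] (n : ℕ)

/-- the characteristic zero core over a general complete ultrametric field -/
theorem thmD0_general {K : Type*} [NontriviallyNormedField K] [IsUltrametricDist K]
    [CompleteSpace K] [Algebra ℚ K] [CharZero K] (hn : 1 ≤ n)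
    (hU : IsUniversalDeformation p n (Fn p n) (H1 p n)) (M : ℕ)
    (hM : 1 ≤ M) (X : LTRing p n →+* Ob K)
    (hX : ∀ a, LTRing.residue p n a = 0 → ‖X a‖ < 1) (f : LTRing p n)
    (hf : ∀ φ, IsStab p n M φ → X (φ f) = 0) : f = 0 := by
  refine eq_zero_of_pderiv_closed p n X hX {g | ∀ φ, IsStab p n M φ → X (φ g) = 0} ?_ ?_ f hf
  · intro g hg
    exact hg (AlgHom.id _ _) (isStab_id p n M)
  · intro g hg m φ₁ hφ₁
    obtain ⟨g₁, hg₁, hg₁', hr, hθ⟩ := hφ₁
    have hφ₁ : IsStab p n M φ₁ := ⟨g₁, hg₁, hg₁', hr, hθ⟩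
    refine D0Core.key p n hn hU M hM (X.comp φ₁.toRingHom) ?_ g ?_ m
    · intro a ha
      refine hX _ ?_
      have h2 := RingHom.congr_fun hr a
      rw [ha] at h2
      exact h2
    · intro φ hφ
      exact hg (φ₁.comp φ) (isStab_comp p n hn M hM φ₁ φ hφ₁ hφ)

theorem thmD0 (hn : 1 ≤ n) (hU : IsUniversalDeformation p n (Fn p n) (H1 p n)) (M : ℕ)
    (hM : 1 ≤ M) (X : LTRing p n →+* Ob ℂ_[p])
    (hX : ∀ a, LTRing.residue p n a = 0 → ‖X a‖ < 1) (f : LTRing p n)
    (hf : ∀ φ, IsStab p n M φ → X (φ f) = 0) : f = 0 :=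
  thmD0_general p n hn hU M hM X hX f hf

end Crest.Agent.R227
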