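import Crest.Agent.R227.D0Per

/-!
# R227 / D0Lin : characters and the first order argument
-/

set_option autoImplicit false

noncomputable section

namespace Crest.Agent.R227

open Filter Topology

variable {K : Type*} [NontriviallyNormedField K] [IsUltrametricDist K] [Algebra ℚ K]
variable {p : ℕ} [Fact p.Prime] {n : ℕ}

private theorem pow_p_lt (p : ℕ) [Fact p.Prime] {t n : ℕ} (ht0 : 1 ≤ t) (ht : t < n) :
    p ^ t < p ^ n - 1 := by
  have hp2 : 2 ≤ p := (Fact.out : p.Prime).two_le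
  have h1 : p ^ (t + 1) ≤ p ^ n := Nat.pow_le_pow_right (by omega) ht
  have h2 : p ^ (t + 1) = p ^ t * p := pow_succ _ _
  have h3 : 2 ≤ p ^ t := by
    calc 2 ≤ p := hp2
      _ = p ^ 1 := (pow_one p).symm
      _ ≤ p ^ t := Nat.pow_le_pow_right (by omega) ht0
  have h4 : p ^ t * 2 ≤ p ^ t * p := Nat.mul_le_mul_left _ hp2
  omega

omit [IsUltrametricDist K] [Algebra ℚ K] in
/-- the characters `ω ↦ τ(ω)^(p^s)` are distinct for `s < n` -/
private theorem frob_ne (hn : 1 ≤ n) (τ : GaloisField p n →* K) (hτ : Function.Injective τ)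
    {s t : ℕ} (hst : s < t) (ht : t < n) (h : ∀ ω, τ ω ^ p ^ s = τ ω ^ p ^ t) : False := by
  obtain ⟨g, hg⟩ := IsCyclic.exists_generator (α := (GaloisField p n)ˣ)
  have ho : orderOf g = p ^ n - 1 := by
    rw [orderOf_eq_card_of_forall_mem_zpowers hg, Nat.card_units,
      GaloisField.card p n (by omega)]
  have h1 := h (g : GaloisField p n)
  rw [← map_pow, ← map_pow] at h1
  have h2 := hτ h1
  rw [← Units.val_pow_eq_pow_val, ← Units.val_pow_eq_pow_val] at h2
  have h3 : g ^ p ^ s = g ^ p ^ t := Units.ext h2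
  have ht1 : p ^ t < orderOf g := by rw [ho]; exact pow_p_lt p (by omega) ht
  have hs1 : p ^ s < p ^ t :=
    Nat.pow_lt_pow_right (Fact.out : p.Prime).one_lt hst
  have := pow_injOn_Iio_orderOf (x := g) (Set.mem_Iio.2 (hs1.trans ht1)) (Set.mem_Iio.2 ht1) h3
  omega

private theorem mod_sub {n : ℕ} (r : Fin n) {i : ℕ} (hi : i < n) :
    (((r : ℕ) + n - i) % n : ℕ) = if (r : ℕ) < i then (r : ℕ) + n - i else (r : ℕ) - i := by
  have := r.2
  split_ifs with h
  · exact Nat.mod_eq_of_lt (by omega)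
  · have : (r : ℕ) + n - i = ((r : ℕ) - i) + n := by omega
    rw [this, Nat.add_mod_right]
    exact Nat.mod_eq_of_lt (by omega)

/-- The vectors `actM ω i v` span everything. -/
theorem actM_span (hn : 1 ≤ n) (τ : GaloisField p n →* K) (hτ : Function.Injective τ)
    (v : Fin n → K) (hv : v ≠ 0) (l : Fin n → K)
    (hl : ∀ ω : GaloisField p n, ∀ i < n, ∑ r, l r * actM p n (τ ω) i v r = 0) : l = 0 := by
  have hp0 : (p : K) ≠ 0 := by
    have : CharZero K := algebraRat.charZero K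
    exact Nat.cast_ne_zero.2 (Fact.out : p.Prime).ne_zero
  obtain ⟨s, hs⟩ : ∃ s, v s ≠ 0 := by
    by_contra hcon
    push Not at hcon
    exact hv (funext hcon)
  funext r
  -- the good index
  have hr := r.2
  have hs2 := s.2
  set i : ℕ := if (s : ℕ) ≤ r then (r : ℕ) - s else (r : ℕ) + n - s with hi
  have hin : i < n := by rw [hi]; split_ifs <;> omega
  have hir : (((r : ℕ) + n - i) % n : ℕ) = s := by
    rw [mod_sub r hin, hi]
    split_ifs <;> omega
  -- characters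
  let χ : Fin n → (GaloisField p n →* K) := fun r' =>
    (powMonoidHom (p ^ (((r' : ℕ) + n - i) % n))).comp τ
  have hχ : Function.Injective χ := by
    intro a b hab
    have hab' : ∀ ω, τ ω ^ p ^ (((a : ℕ) + n - i) % n) = τ ω ^ p ^ (((b : ℕ) + n - i) % n) := by
      intro ω
      exact DFunLike.congr_fun hab ω
    have ha := a.2
    have hb := b.2
    rcases lt_trichotomy (((a : ℕ) + n - i) % n) (((b : ℕ) + n - i) % n) with h | h | h
    · exact (frob_ne hn τ hτ h (Nat.mod_lt _ (by omega)) hab').elim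
    · rw [mod_sub a hin, mod_sub b hin] at h
      ext
      split_ifs at h <;> omega
    · exact (frob_ne hn τ hτ h (Nat.mod_lt _ (by omega)) (fun ω => (hab' ω).symm)).elim
  have hind : LinearIndependent K (fun r' : Fin n => ((χ r' : GaloisField p n →* K) :
      GaloisField p n → K)) :=
    (linearIndependent_monoidHom (GaloisField p n) K).comp χ hχ
  rw [Fintype.linearIndependent_iff] at hind
  have key := hind (fun r' => l r' * ((if (r' : ℕ) < i then (p : K) else 1) *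
    v ⟨((r' : ℕ) + n - i) % n, Nat.mod_lt _ (by have := r'.2; omega)⟩)) (by
      funext ω
      have := hl ω i hin
      simp only [actM] at this
      simp only [Finset.sum_apply, Pi.smul_apply, smul_eq_mul, Pi.zero_apply]
      rw [← this]
      refine Finset.sum_congr rfl fun r' _ => ?_
      simp only [χ, MonoidHom.comp_apply, powMonoidHom_apply]
      ring) r
  simp only [Pi.zero_apply]
  have hvs : v ⟨((r : ℕ) + n - i) % n, Nat.mod_lt _ (by omega)⟩ ≠ 0 := by
    have : (⟨((r : ℕ) + n - i) % n, Nat.mod_lt _ (by omega)⟩ : Fin n) = s := Fin.ext hir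
    rw [this]; exact hs
  have hc : (if (r : ℕ) < i then (p : K) else 1) ≠ 0 := by
    split_ifs
    · exact hp0
    · exact one_ne_zero
  rcases mul_eq_zero.1 key with h | h
  · exact h
  · rcases mul_eq_zero.1 h with h | h
    · exact (hc h).elim
    · exact (hvs h).elim

omit [IsUltrametricDist K] [Algebra ℚ K] in
private theorem lin_bound (f : (Fin n → K) →ₗ[K] K) :
    ∃ M : ℝ, 0 ≤ M ∧ ∀ (x : Fin n → K) (ε : ℝ), (∀ r, ‖x r‖ ≤ ε) → ‖f x‖ ≤ M * ε := by
  refine ⟨∑ i, ‖f fun j => if i = j then 1 else 0‖, Finset.sum_nonneg fun _ _ => norm_nonneg _,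
    fun x ε hx => ?_⟩
  rw [f.pi_apply_eq_sum_univ x, Finset.sum_mul]
  refine (norm_sum_le _ _).trans (Finset.sum_le_sum fun i _ => ?_)
  rw [norm_smul, mul_comm]
  exact mul_le_mul_of_nonneg_left (hx i) (norm_nonneg _)

omit [IsUltrametricDist K] [Algebra ℚ K] [Fact p.Prime] in
/-- a functional killing `L0`, applied to the relation -/
private theorem fun_est (L0 : Fin n → K) (L1 : ℕ → Fin n → K) (v : Fin n → K)
    (C : ℝ) (a : ℕ → K) (d : ℕ → ℕ → K) (δ : ℕ → ℝ)
    (w : ℕ → Fin n → K) (hw : ∀ j r, a j * w j r = (1 - a j) * L0 r + (p : K) ^ j * v r)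
    (hwT : ∀ j r, ‖w j r - ∑ m ∈ Finset.Ico 1 n, d j m * L1 m r‖ ≤ C * δ j ^ 2)
    (f : (Fin n → K) →ₗ[K] K) (hf0 : f L0 = 0) :
    ∃ M : ℝ, 0 ≤ M ∧ ∀ j, a j * f (w j) = (p : K) ^ j * f v ∧
      ‖f (w j) - ∑ m ∈ Finset.Ico 1 n, d j m * f (L1 m)‖ ≤ M * (C * δ j ^ 2) := by
  obtain ⟨M, hM, hb⟩ := lin_bound f
  refine ⟨M, hM, fun j => ⟨?_, ?_⟩⟩
  · have : a j • w j = (1 - a j) • L0 + ((p : K) ^ j) • v := by
      funext r
      simpa using hw j r
    have h2 := congrArg f this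
    simpa [hf0] using h2
  · have h1 := hb (w j - ∑ m ∈ Finset.Ico 1 n, d j m • L1 m) (C * δ j ^ 2) (by
      intro r
      simpa [Finset.sum_apply] using hwT j r)
    simpa [map_sub, map_sum] using h1

/-- The first order argument. -/
theorem first_order (hn : 1 ≤ n) (hp : ‖(p : K)‖ < 1)
    (L0 : Fin n → K) (L1 : ℕ → Fin n → K) (v : Fin n → K)
    (hind : ∀ s : ℕ → K, (∀ r, s 0 * L0 r + ∑ m ∈ Finset.Ico 1 n, s m * L1 m r = 0) →
      ∀ m < n, s m = 0)
    (γ : ℕ → K) (C : ℝ) (hC : 0 ≤ C) (a : ℕ → K) (ha : ∀ j, ‖a j‖ = 1) (d : ℕ → ℕ → K) (δ : ℕ → ℝ)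
    (hδ : ∀ j m, 1 ≤ m → m < n → ‖d j m‖ ≤ δ j) (hδ' : ∀ j, ∃ m, 1 ≤ m ∧ m < n ∧ δ j = ‖d j m‖)
    (hδ0 : Tendsto δ atTop (𝓝 0))
    (w : ℕ → Fin n → K) (hw : ∀ j r, a j * w j r = (1 - a j) * L0 r + (p : K) ^ j * v r)
    (hwT : ∀ j r, ‖w j r - ∑ m ∈ Finset.Ico 1 n, d j m * L1 m r‖ ≤ C * δ j ^ 2)
    (hf : ∀ j, ‖∑ m ∈ Finset.Ico 1 n, d j m * γ m‖ ≤ C * δ j ^ 2)
    (l : Fin n → K) (hl0 : ∑ r, l r * L0 r = 0)
    (hl1 : ∀ m, 1 ≤ m → m < n → ∑ r, l r * L1 m r = γ m) : ∑ r, l r * v r = 0 := by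
  classical
  have hp0 : (p : K) ≠ 0 := by
    have : CharZero K := algebraRat.charZero K
    exact Nat.cast_ne_zero.2 (Fact.out : p.Prime).ne_zero
  have hpn : 0 < ‖(p : K)‖ := norm_pos_iff.2 hp0
  -- the basis
  let b : Fin n → (Fin n → K) := fun m => if (m : ℕ) = 0 then L0 else L1 m
  have hbI : LinearIndependent K b := by
    rw [Fintype.linearIndependent_iff]
    intro g hg m
    let s : ℕ → K := fun k => if hk : k < n then g ⟨k, hk⟩ else 0
    have hs := hind s (by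
      intro r
      have h1 := congrFun hg r
      simp only [Finset.sum_apply, Pi.smul_apply, smul_eq_mul, Pi.zero_apply] at h1
      rw [← h1]
      have h2 : ∑ x : Fin n, g x * b x r = ∑ k ∈ Finset.range n,
          (s k * (if k = 0 then L0 else L1 k) r) := by
        rw [Finset.sum_range]
        refine Finset.sum_congr rfl fun x _ => ?_
        simp only [s, b, x.2, dite_true]
      rw [h2, Finset.range_eq_Ico, Finset.sum_eq_sum_Ico_succ_bot (by omega : 0 < n)]
      simp only [if_true, zero_add]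
      congr 1
      refine Finset.sum_congr rfl fun k hk => ?_
      rw [if_neg (by have := (Finset.mem_Ico.1 hk).1; omega)]) m m.2
    simpa [s, m.2] using hs
  have hcard : Fintype.card (Fin n) = Module.finrank K (Fin n → K) := by simp
  have : Nonempty (Fin n) := ⟨⟨0, by omega⟩⟩
  let B := basisOfLinearIndependentOfCardEqFinrank hbI hcard
  have hB : ∀ m, B m = b m := fun m => by
    simp [B]
  -- the dual functionals bound the differences
  have hstep : ∀ m : Fin n, (m : ℕ) ≠ 0 → ∃ A M : ℝ, 0 ≤ A ∧ 0 ≤ M ∧ ∀ j,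
      ‖d j m‖ ≤ A * ‖(p : K)‖ ^ j + M * δ j ^ 2 := by
    intro m hm
    have hc0 : B.coord m L0 = 0 := by
      have h0 : L0 = B ⟨0, by omega⟩ := by rw [hB]; simp [b]
      rw [h0, Module.Basis.coord_apply, Module.Basis.repr_self, Finsupp.single_apply,
        if_neg (fun h => hm (by rw [← h]))]
    obtain ⟨M, hM, hest⟩ := fun_est L0 L1 v C a d δ w hw hwT (B.coord m) hc0
    refine ⟨‖B.coord m v‖, M * C, norm_nonneg _, mul_nonneg hM hC, fun j => ?_⟩
    obtain ⟨e1, e2⟩ := hest j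
    have hsum : ∑ k ∈ Finset.Ico 1 n, d j k * B.coord m (L1 k) = d j m := by
      rw [Finset.sum_eq_single (m : ℕ)]
      · have h0 : L1 m = B m := by rw [hB]; simp [b, hm]
        rw [h0, Module.Basis.coord_apply, Module.Basis.repr_self, Finsupp.single_eq_same, mul_one]
      · intro k hk hkm
        have hk1 := Finset.mem_Ico.1 hk
        have h0 : L1 k = B ⟨k, hk1.2⟩ := by
          rw [hB]; simp only [b]; rw [if_neg (by omega)]
        rw [h0, Module.Basis.coord_apply, Module.Basis.repr_self, Finsupp.single_apply,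
          if_neg (fun h => hkm (by rw [← h])), mul_zero]
      · intro hk
        exact (hk (Finset.mem_Ico.2 ⟨by omega, m.2⟩)).elim
    rw [hsum] at e2
    have e3 : ‖B.coord m (w j)‖ = ‖(p : K)‖ ^ j * ‖B.coord m v‖ := by
      rw [← norm_pow, ← norm_mul, ← e1, norm_mul, ha, one_mul]
    calc ‖d j m‖ = ‖B.coord m (w j) - (B.coord m (w j) - d j m)‖ := by rw [sub_sub_cancel]
      _ ≤ ‖B.coord m (w j)‖ + ‖B.coord m (w j) - d j m‖ := norm_sub_le _ _
      _ ≤ ‖(p : K)‖ ^ j * ‖B.coord m v‖ + M * (C * δ j ^ 2) := by rw [e3]; gcongr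
      _ = _ := by ring
  choose! A M hA hM hdm using hstep
  -- uniform constants
  let A' : ℝ := ∑ m, |A m|
  let M' : ℝ := ∑ m, |M m|
  have hA' : 0 ≤ A' := Finset.sum_nonneg fun _ _ => abs_nonneg _
  have hM' : 0 ≤ M' := Finset.sum_nonneg fun _ _ => abs_nonneg _
  have hδnn : ∀ j, 0 ≤ δ j := fun j => by
    obtain ⟨m, _, _, h⟩ := hδ' j
    rw [h]; exact norm_nonneg _
  have hδle : ∀ j, δ j ≤ A' * ‖(p : K)‖ ^ j + M' * δ j ^ 2 := by
    intro j
    obtain ⟨m, hm1, hmn, h⟩ := hδ' j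
    have h1 := hdm ⟨m, hmn⟩ (by simp; omega) j
    have hAm : A ⟨m, hmn⟩ ≤ A' :=
      (le_abs_self _).trans (Finset.single_le_sum (f := fun m => |A m|)
        (fun _ _ => abs_nonneg _) (Finset.mem_univ _))
    have hMm : M ⟨m, hmn⟩ ≤ M' :=
      (le_abs_self _).trans (Finset.single_le_sum (f := fun m => |M m|)
        (fun _ _ => abs_nonneg _) (Finset.mem_univ _))
    calc δ j = ‖d j m‖ := h
      _ ≤ A ⟨m, hmn⟩ * ‖(p : K)‖ ^ j + M ⟨m, hmn⟩ * δ j ^ 2 := h1
      _ ≤ _ := by gcongr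
  -- eventually `M' δ_j ≤ 1/2`
  have hev : ∀ᶠ j in atTop, δ j ≤ 2 * A' * ‖(p : K)‖ ^ j := by
    have h1 : Tendsto (fun j => M' * δ j) atTop (𝓝 0) := by
      simpa using hδ0.const_mul M'
    filter_upwards [h1.eventually (ge_mem_nhds (by norm_num : (0 : ℝ) < 1 / 2))] with j hj
    have h2 := hδle j
    have h3 : M' * δ j ^ 2 ≤ 1 / 2 * δ j := by
      rw [pow_two, ← mul_assoc]
      exact mul_le_mul_of_nonneg_right hj (hδnn j)
    linarith
  -- apply `l`
  let f : (Fin n → K) →ₗ[K] K :=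
    { toFun := fun x => ∑ r, l r * x r
      map_add' := fun x y => by simp [mul_add, Finset.sum_add_distrib]
      map_smul' := fun c x => by
        simp only [Pi.smul_apply, smul_eq_mul, RingHom.id_apply, Finset.mul_sum]
        exact Finset.sum_congr rfl fun _ _ => by ring }
  have hfa : ∀ x, f x = ∑ r, l r * x r := fun x => rfl
  obtain ⟨N, hN, hest⟩ := fun_est L0 L1 v C a d δ w hw hwT f hl0
  rw [← hfa]
  have hfin : ∀ᶠ j in atTop, ‖f v‖ ≤ (C + N * C) * (2 * A') ^ 2 * ‖(p : K)‖ ^ j := by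
    filter_upwards [hev] with j hj
    obtain ⟨e1, e2⟩ := hest j
    have hsum : ∑ m ∈ Finset.Ico 1 n, d j m * f (L1 m) = ∑ m ∈ Finset.Ico 1 n, d j m * γ m := by
      refine Finset.sum_congr rfl fun m hm => ?_
      have hm1 := Finset.mem_Ico.1 hm
      rw [hfa, hl1 m hm1.1 hm1.2]
    rw [hsum] at e2
    have e3 : ‖(p : K)‖ ^ j * ‖f v‖ = ‖f (w j)‖ := by
      rw [← norm_pow, ← norm_mul, ← e1, norm_mul, ha, one_mul]
    have e4 : ‖f (w j)‖ ≤ N * (C * δ j ^ 2) + C * δ j ^ 2 := by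
      have := norm_add_le (f (w j) - ∑ m ∈ Finset.Ico 1 n, d j m * γ m)
        (∑ m ∈ Finset.Ico 1 n, d j m * γ m)
      rw [sub_add_cancel] at this
      exact this.trans (add_le_add e2 (hf j))
    have e5 : δ j ^ 2 ≤ (2 * A' * ‖(p : K)‖ ^ j) ^ 2 := by
      have := hδnn j
      gcongr
    have e6 : ‖(p : K)‖ ^ j * ‖f v‖ ≤
        ‖(p : K)‖ ^ j * ((C + N * C) * (2 * A') ^ 2 * ‖(p : K)‖ ^ j) := by
      calc ‖(p : K)‖ ^ j * ‖f v‖ ≤ N * (C * δ j ^ 2) + C * δ j ^ 2 := by rw [e3]; exact e4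
        _ = (C + N * C) * δ j ^ 2 := by ring
        _ ≤ (C + N * C) * (2 * A' * ‖(p : K)‖ ^ j) ^ 2 := by
            refine mul_le_mul_of_nonneg_left e5 ?_
            have := mul_nonneg hN hC
            linarith
        _ = _ := by ring
    exact le_of_mul_le_mul_left e6 (pow_pos hpn j)
  have hlim : Tendsto (fun j : ℕ => (C + N * C) * (2 * A') ^ 2 * ‖(p : K)‖ ^ j) atTop (𝓝 0) := by
    have := (tendsto_pow_atTop_nhds_zero_of_lt_one (norm_nonneg (p : K)) hp).const_mul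
      ((C + N * C) * (2 * A') ^ 2)
    simpa using this
  have h0 : ‖f v‖ ≤ 0 := ge_of_tendsto hlim hfin
  exact norm_le_zero_iff.1 h0

end Crest.Agent.R227
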