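import Crest.Agent.R227.FE1

/-!
# R227 / D0Per : periods of the Hazewinkel family

`Lam p n x r = lim_t p^t l_{r+nt}(x)`, its derivative, Taylor estimate, independence
(Gross–Hopkins: the period map is étale) and the equivariance formula.
-/

set_option autoImplicit false
set_option linter.unusedSectionVars false
set_option linter.unusedVariables false

noncomputable section

namespace Crest.Agent.R227

open Filter Topology

variable {K : Type*} [NontriviallyNormedField K] [IsUltrametricDist K] [Algebra ℚ K]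

/-- admissible points: `‖x i‖ ≤ c` for `1 ≤ i < n`, `x n = 1`. -/
structure Adm (n : ℕ) (c : ℝ) (x : ℕ → K) : Prop where
  le : ∀ i, 1 ≤ i → i < n → ‖x i‖ ≤ c
  one : x n = 1

/-- the `r`-th period of a sequence -/
def per (p n : ℕ) (c : ℕ → K) (r : ℕ) : K := limUnder atTop fun t : ℕ => (p : K) ^ t * c (r + n * t)

/-- the period vector of a point -/
def Lam (p n : ℕ) (x : ℕ → K) (r : Fin n) : K := per p n (hle p n x) r

/-- derivative of `l_k` with respect to `u_m` -/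
def dhle (p n m : ℕ) (x : ℕ → K) (k : ℕ) : K :=
  MvPolynomial.aeval x (MvPolynomial.pderiv m (hl p n k))

def dLam (p n m : ℕ) (x : ℕ → K) (r : Fin n) : K := per p n (dhle p n m x) r

variable {p : ℕ} [Fact p.Prime] {n : ℕ}

namespace D0Per

theorem Adm.norm_le_one {c : ℝ} (hc : c ≤ 1) {x : ℕ → K} (hx : Adm n c x) (i : ℕ) (h1 : 1 ≤ i)
    (hi : i ≤ n) : ‖x i‖ ≤ 1 := by
  rcases hi.lt_or_eq with h | rfl
  · exact (hx.le i h1 h).trans hc
  · rw [hx.one, norm_one]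

theorem natCast_p_ne_zero : (p : K) ≠ 0 := (isUnit_natCast_prime (p := p) (B := K)).ne_zero

theorem norm_p_pos : 0 < ‖(p : K)‖ := norm_pos_iff.2 natCast_p_ne_zero

theorem one_lt_inv_p (hp : ‖(p : K)‖ < 1) : 1 < ‖(p : K)‖⁻¹ := (one_lt_inv₀ norm_p_pos).2 hp

theorem norm_sub_le_max (a b : K) : ‖a - b‖ ≤ max ‖a‖ ‖b‖ := by
  rw [sub_eq_add_neg, ← norm_neg b]
  exact IsUltrametricDist.norm_add_le_max a (-b)

theorem norm_add_le_of_le {a b : K} {r : ℝ} (ha : ‖a‖ ≤ r) (hb : ‖b‖ ≤ r) : ‖a + b‖ ≤ r :=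
  (IsUltrametricDist.norm_add_le_max a b).trans (max_le ha hb)

theorem norm_sub_le_of_le {a b : K} {r : ℝ} (ha : ‖a‖ ≤ r) (hb : ‖b‖ ≤ r) : ‖a - b‖ ≤ r :=
  (norm_sub_le_max a b).trans (max_le ha hb)

theorem norm_natCast_le_one' (N : ℕ) : ‖(N : K)‖ ≤ 1 := IsUltrametricDist.norm_natCast_le_one K N

/-- crude bounds for sequences satisfying the Hazewinkel recursion -/
theorem rec_crude (hp : ‖(p : K)‖ < 1) {c : ℝ} (hc : c ≤ 1) {x : ℕ → K}
    (hx : Adm n c x) (a : ℕ → K) (T : ℕ → ℕ → K) (A : ℝ) (hA : 0 ≤ A)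
    (hrec : ∀ k, (p : K) * a (k + 1) = ∑ i ∈ Finset.range (k + 1),
      if i + 1 ≤ n then a (k - i) * x (i + 1) ^ p ^ (k - i) + T k i else 0)
    (h0 : ‖a 0‖ ≤ A)
    (hT : ∀ k i, i ≤ k → i + 1 ≤ n → ‖T k i‖ ≤ A * ‖(p : K)‖⁻¹ ^ (k - i)) (k : ℕ) :
    ‖a k‖ ≤ A * ‖(p : K)‖⁻¹ ^ k := by
  induction k using Nat.strong_induction_on with
  | _ k ih =>
    rcases k with _ | k
    · simpa using h0
    · have hP := one_lt_inv_p (p := p) (K := K) hp
      have hp0 := norm_p_pos (p := p) (K := K)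
      have key : ‖(p : K) * a (k + 1)‖ ≤ A * ‖(p : K)‖⁻¹ ^ k := by
        rw [hrec k]
        refine IsUltrametricDist.norm_sum_le_of_forall_le_of_nonneg (by positivity) fun i hi => ?_
        have hik : i ≤ k := Nat.lt_succ_iff.1 (Finset.mem_range.1 hi)
        split_ifs with hin
        · have hle : A * ‖(p : K)‖⁻¹ ^ (k - i) ≤ A * ‖(p : K)‖⁻¹ ^ k :=
            mul_le_mul_of_nonneg_left (pow_le_pow_right₀ hP.le (Nat.sub_le _ _)) hA
          refine (norm_add_le_of_le ?_ (hT k i hik hin)).trans hle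
          rw [norm_mul, norm_pow]
          calc ‖a (k - i)‖ * ‖x (i + 1)‖ ^ p ^ (k - i) ≤ ‖a (k - i)‖ * 1 :=
                mul_le_mul_of_nonneg_left (pow_le_one₀ (norm_nonneg _)
                  (Adm.norm_le_one hc hx _ (by omega) hin)) (norm_nonneg _)
            _ ≤ _ := by rw [mul_one]; exact ih _ (by omega)
        · rw [norm_zero]; positivity
      rw [norm_mul] at key
      rw [pow_succ, ← mul_assoc, ← div_eq_mul_inv, le_div_iff₀ hp0, mul_comm]
      exact key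

/-- fine bounds: `p a_{k+n} - a_k` is bounded. -/
theorem rec_fine (hn : 1 ≤ n) (hp : ‖(p : K)‖ < 1) {c : ℝ} (hc0 : 0 ≤ c) (hc : c ≤ 1) {x : ℕ → K}
    (hx : Adm n c x) (a : ℕ → K) (T : ℕ → ℕ → K) (A E : ℝ) (hA : 0 ≤ A)
    (hE : ∀ s : ℕ, ‖(p : K)‖⁻¹ ^ s * c ^ (p ^ s - 2) ≤ E)
    (hrec : ∀ k, (p : K) * a (k + 1) = ∑ i ∈ Finset.range (k + 1),
      if i + 1 ≤ n then a (k - i) * x (i + 1) ^ p ^ (k - i) + T k i else 0)
    (h0 : ‖a 0‖ ≤ A)
    (hT : ∀ k i, i ≤ k → i + 1 ≤ n → ‖T k i‖ ≤ A * ‖(p : K)‖⁻¹ ^ (k - i))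
    (hT' : ∀ k i, i + 1 = n → T k i = 0)
    (hT'' : ∀ k i, i ≤ k → i + 1 < n → ‖T k i‖ ≤ A * E) (k : ℕ) :
    ‖(p : K) * a (k + n) - a k‖ ≤ A * E := by
  have hcrude := rec_crude hp hc hx a T A hA hrec h0 hT
  obtain ⟨N, rfl⟩ : ∃ N, n = N + 1 := ⟨n - 1, by omega⟩
  have h1 := hrec (k + N)
  have h2 : ∑ i ∈ Finset.range (k + N + 1), (if i + 1 ≤ N + 1 then
      a (k + N - i) * x (i + 1) ^ p ^ (k + N - i) + T (k + N) i else 0) =
      ∑ i ∈ Finset.range (N + 1), (a (k + N - i) * x (i + 1) ^ p ^ (k + N - i) + T (k + N) i) := by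
    rw [← Finset.sum_filter]
    refine Finset.sum_congr ?_ fun _ _ => rfl
    ext i
    simp only [Finset.mem_filter, Finset.mem_range]
    omega
  rw [h2, Finset.sum_range_succ, hT' _ _ rfl, hx.one, one_pow, mul_one, add_zero,
    show k + N - N = k by omega] at h1
  rw [show k + (N + 1) = k + N + 1 by omega, h1, add_sub_cancel_right]
  have hE0 : 0 ≤ E := le_trans (by positivity) (hE 0)
  refine IsUltrametricDist.norm_sum_le_of_forall_le_of_nonneg (by positivity) fun i hi => ?_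
  have hi' : i < N := Finset.mem_range.1 hi
  refine norm_add_le_of_le ?_ (hT'' _ _ (by omega) (by omega))
  rw [norm_mul, norm_pow]
  calc ‖a (k + N - i)‖ * ‖x (i + 1)‖ ^ p ^ (k + N - i)
      ≤ (A * ‖(p : K)‖⁻¹ ^ (k + N - i)) * c ^ (p ^ (k + N - i)) :=
        mul_le_mul (hcrude _) (pow_le_pow_left₀ (norm_nonneg _) (hx.le _ (by omega) (by omega)) _)
          (by positivity) (by positivity)
    _ ≤ (A * ‖(p : K)‖⁻¹ ^ (k + N - i)) * c ^ (p ^ (k + N - i) - 2) :=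
        mul_le_mul_of_nonneg_left (pow_le_pow_of_le_one hc0 hc (Nat.sub_le _ _)) (by positivity)
    _ = A * (‖(p : K)‖⁻¹ ^ (k + N - i) * c ^ (p ^ (k + N - i) - 2)) := by ring
    _ ≤ A * E := mul_le_mul_of_nonneg_left (hE _) hA

theorem exists_E (hp : ‖(p : K)‖ < 1) {c : ℝ} (hc0 : 0 < c) (hc : c < 1) :
    ∃ E : ℝ, 1 ≤ E ∧ ∀ s : ℕ, ‖(p : K)‖⁻¹ ^ s * c ^ (p ^ s - 2) ≤ E := by
  have hp1 : (1 : ℝ) < (p : ℝ) := by exact_mod_cast (Fact.out : p.Prime).one_lt
  obtain ⟨κ, hκ⟩ := pow_unbounded_of_one_lt (‖(p : K)‖⁻¹) hp1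
  have h1 := tendsto_pow_const_mul_const_pow_of_abs_lt_one κ
    (show |c| < 1 by rw [abs_of_pos hc0]; exact hc)
  obtain ⟨E0, hE0⟩ := h1.bddAbove_range
  have hE0' : ∀ N : ℕ, (N : ℝ) ^ κ * c ^ N ≤ E0 := fun N => hE0 ⟨N, rfl⟩
  refine ⟨max 1 (E0 / c ^ 2), le_max_left _ _, fun s => ?_⟩
  rcases Nat.eq_zero_or_pos s with rfl | hs
  · simp
  · refine le_trans ?_ (le_max_right _ _)
    rw [le_div_iff₀ (by positivity), mul_assoc, ← pow_add]
    have h2 : 2 ≤ p ^ s := by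
      calc 2 ≤ p := (Fact.out : p.Prime).two_le
        _ = p ^ 1 := (pow_one p).symm
        _ ≤ p ^ s := Nat.pow_le_pow_right (Fact.out : p.Prime).pos hs
    rw [Nat.sub_add_cancel h2]
    refine le_trans (mul_le_mul_of_nonneg_right ?_ (by positivity)) (hE0' (p ^ s))
    calc ‖(p : K)‖⁻¹ ^ s ≤ ((p : ℝ) ^ κ) ^ s := pow_le_pow_left₀ (by positivity) hκ.le _
      _ = ((p ^ s : ℕ) : ℝ) ^ κ := by push_cast; rw [← pow_mul, ← pow_mul, mul_comm]

end D0Per

open D0Per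

theorem norm_hle_le (hn : 1 ≤ n) (hp : ‖(p : K)‖ < 1) {c : ℝ} (hc : c ≤ 1) {x : ℕ → K}
    (hx : Adm n c x) (k : ℕ) : ‖hle p n x k‖ ≤ ‖(p : K)‖⁻¹ ^ k := by
  have := rec_crude (n := n) hp hc hx (hle p n x) (fun _ _ => 0) 1 zero_le_one
    (fun k => by simpa using hle_succ n x k) (by rw [hle_zero]; simp)
    (fun k i _ _ => by rw [norm_zero]; positivity) k
  simpa using this

namespace D0Per

theorem tendsto_of_bdd [CompleteSpace K] (hp : ‖(p : K)‖ < 1) (a : ℕ → K) (E : ℝ)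
    (hE : ∀ k, ‖(p : K) * a (k + n) - a k‖ ≤ E) (r : ℕ) :
    Tendsto (fun t : ℕ => (p : K) ^ t * a (r + n * t)) atTop (𝓝 (per p n a r)) := by
  have h : CauchySeq (fun t : ℕ => (p : K) ^ t * a (r + n * t)) := by
    refine NonarchimedeanAddGroup.cauchySeq_of_tendsto_sub_nhds_zero ?_
    have h1 : ∀ t : ℕ, (p : K) ^ (t + 1) * a (r + n * (t + 1)) - (p : K) ^ t * a (r + n * t) =
        (p : K) ^ t * ((p : K) * a (r + n * t + n) - a (r + n * t)) := by
      intro t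
      rw [show r + n * (t + 1) = r + n * t + n by ring]
      ring
    simp only [h1]
    refine squeeze_zero_norm (a := fun t : ℕ => ‖(p : K)‖ ^ t * E) (fun t => ?_) ?_
    · rw [norm_mul, norm_pow]
      exact mul_le_mul_of_nonneg_left (hE _) (by positivity)
    · have := (tendsto_pow_atTop_nhds_zero_of_lt_one (norm_nonneg (p : K)) hp).mul_const E
      simpa using this
  exact CauchySeq.tendsto_limUnder h

theorem per_bound (a : ℕ → K) (hp : ‖(p : K)‖ < 1) (E : ℝ)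
    (hE : ∀ k, ‖(p : K) * a (k + n) - a k‖ ≤ E) (r : ℕ) (ha : ‖a r‖ ≤ E) (L : K)
    (hL : Tendsto (fun t : ℕ => (p : K) ^ t * a (r + n * t)) atTop (𝓝 L)) : ‖L‖ ≤ E := by
  refine le_of_tendsto hL.norm (Eventually.of_forall fun t => ?_)
  have hE0 : 0 ≤ E := (norm_nonneg _).trans ha
  induction t with
  | zero => simpa using ha
  | succ t ih =>
    have h1 : (p : K) ^ (t + 1) * a (r + n * (t + 1)) =
        (p : K) ^ t * a (r + n * t) + (p : K) ^ t * ((p : K) * a (r + n * t + n) - a (r + n * t)) := by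
      rw [show r + n * (t + 1) = r + n * t + n by ring]
      ring
    rw [h1]
    refine norm_add_le_of_le ih ?_
    rw [norm_mul, norm_pow]
    calc ‖(p : K)‖ ^ t * _ ≤ 1 * E := mul_le_mul (pow_le_one₀ (norm_nonneg _) hp.le) (hE _)
          (norm_nonneg _) zero_le_one
      _ = E := one_mul E

theorem hle_bdd (hn : 1 ≤ n) (hp : ‖(p : K)‖ < 1) {c : ℝ} (hc0 : 0 ≤ c) (hc : c < 1)
    {x : ℕ → K} (hx : Adm n c x) :
    ∃ E : ℝ, ∀ k, ‖(p : K) * hle p n x (k + n) - hle p n x k‖ ≤ E := by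
  obtain ⟨c', hc'0, hc'1⟩ := exists_between (max_lt hc one_pos)
  have hcc' : c ≤ c' := (le_max_left _ _).trans hc'0.le
  have hc'0' : 0 < c' := (le_max_right _ _).trans_lt hc'0
  have hx' : Adm n c' x := ⟨fun i h1 h2 => (hx.le i h1 h2).trans hcc', hx.one⟩
  obtain ⟨E, hE1, hE⟩ := exists_E (p := p) (K := K) hp hc'0' hc'1
  refine ⟨1 * E, fun k => ?_⟩
  refine rec_fine hn hp hc'0'.le hc'1.le hx' (hle p n x) (fun _ _ => 0) 1 E zero_le_one hE
    (fun k => by simpa using hle_succ n x k) (by rw [hle_zero]; simp)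
    (fun k i _ _ => by rw [norm_zero]; positivity) (fun _ _ _ => rfl)
    (fun _ _ _ _ => by rw [norm_zero]; positivity) k

end D0Per

theorem tendsto_Lam [CompleteSpace K] (hn : 1 ≤ n) (hp : ‖(p : K)‖ < 1) {c : ℝ} (hc0 : 0 ≤ c)
    (hc : c < 1) {x : ℕ → K} (hx : Adm n c x) (r : Fin n) :
    Tendsto (fun t : ℕ => (p : K) ^ t * hle p n x (r + n * t)) atTop (𝓝 (Lam p n x r)) := by
  obtain ⟨E, hE⟩ := hle_bdd hn hp hc0 hc hx
  exact tendsto_of_bdd hp _ E hE r

namespace D0Per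

/-- recursion for the derivative -/
theorem dhle_succ (n m : ℕ) (x : ℕ → K) (k : ℕ) :
    (p : K) * dhle p n m x (k + 1) = ∑ i ∈ Finset.range (k + 1), if i + 1 ≤ n then
      (dhle p n m x (k - i) * x (i + 1) ^ p ^ (k - i) + hle p n x (k - i) *
        (if i + 1 = m then (p : K) ^ (k - i) * x (i + 1) ^ (p ^ (k - i) - 1) else 0)) else 0 := by
  have hp0 : (p : ℚ) ≠ 0 := by exact_mod_cast (Fact.out : p.Prime).ne_zero
  rw [dhle, hl, Derivation.leibniz, MvPolynomial.pderiv_C, smul_zero, add_zero, smul_eq_mul,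
    map_mul, map_sum, map_sum, MvPolynomial.aeval_C, ← mul_assoc]
  have h1 : (p : K) * (algebraMap ℚ K) ((p : ℚ)⁻¹) = 1 := by
    rw [← map_natCast (algebraMap ℚ K) p, ← map_mul, mul_inv_cancel₀ hp0, map_one]
  rw [h1, one_mul, Finset.sum_range]
  refine Finset.sum_congr rfl fun i _ => ?_
  split_ifs with h h'
  · rw [Derivation.leibniz, map_add, smul_eq_mul, smul_eq_mul, map_mul, map_mul,
      Derivation.leibniz_pow, MvPolynomial.pderiv_X, ← h', Pi.single_eq_same, map_pow,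
      MvPolynomial.aeval_X, dhle, hle, mul_comm, add_comm]
    simp
    ring
  · rw [Derivation.leibniz, map_add, smul_eq_mul, smul_eq_mul, map_mul, map_mul,
      Derivation.leibniz_pow, MvPolynomial.pderiv_X, Pi.single_eq_of_ne h', map_pow,
      MvPolynomial.aeval_X, dhle, hle]
    simp [mul_comm]
  · simp

theorem dhle_zero (m : ℕ) (x : ℕ → K) : dhle p n m x 0 = 0 := by
  rw [dhle, hl]
  simp

theorem pow_sub_pow_norm {c δ : ℝ} (hc0 : 0 ≤ c) {x y : K} (hx : ‖x‖ ≤ c) (hy : ‖y‖ ≤ c)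
    (hd : ‖y - x‖ ≤ δ) (M : ℕ) : ‖y ^ (M + 1) - x ^ (M + 1)‖ ≤ δ * c ^ M := by
  have hδ : 0 ≤ δ := (norm_nonneg _).trans hd
  induction M with
  | zero => simpa using hd
  | succ M ih =>
    have : y ^ (M + 1 + 1) - x ^ (M + 1 + 1) = y * (y ^ (M + 1) - x ^ (M + 1)) +
        (y - x) * x ^ (M + 1) := by ring
    rw [this]
    refine norm_add_le_of_le ?_ ?_
    · rw [norm_mul]
      calc ‖y‖ * _ ≤ c * (δ * c ^ M) := mul_le_mul hy ih (norm_nonneg _) hc0
        _ = _ := by ring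
    · rw [norm_mul, norm_pow]
      exact mul_le_mul hd (pow_le_pow_left₀ (norm_nonneg _) hx _) (by positivity) hδ

theorem pow_taylor_norm {c δ : ℝ} (hc0 : 0 ≤ c) {x y : K} (hx : ‖x‖ ≤ c) (hy : ‖y‖ ≤ c)
    (hd : ‖y - x‖ ≤ δ) (M : ℕ) :
    ‖y ^ (M + 2) - x ^ (M + 2) - ((M + 2 : ℕ) : K) * x ^ (M + 1) * (y - x)‖ ≤ δ ^ 2 * c ^ M := by
  have hδ : 0 ≤ δ := (norm_nonneg _).trans hd
  induction M with
  | zero =>
    have : y ^ (0 + 2) - x ^ (0 + 2) - ((0 + 2 : ℕ) : K) * x ^ (0 + 1) * (y - x) =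
        (y - x) ^ 2 := by push_cast; ring
    rw [this, norm_pow, pow_zero, mul_one]
    exact pow_le_pow_left₀ (norm_nonneg _) hd _
  | succ M ih =>
    have : y ^ (M + 1 + 2) - x ^ (M + 1 + 2) - ((M + 1 + 2 : ℕ) : K) * x ^ (M + 1 + 1) * (y - x) =
        y * (y ^ (M + 2) - x ^ (M + 2) - ((M + 2 : ℕ) : K) * x ^ (M + 1) * (y - x)) +
        ((M + 2 : ℕ) : K) * (x ^ (M + 1) * (y - x) ^ 2) := by push_cast; ring
    rw [this]
    refine norm_add_le_of_le ?_ ?_
    · rw [norm_mul]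
      calc ‖y‖ * _ ≤ c * (δ ^ 2 * c ^ M) := mul_le_mul hy ih (norm_nonneg _) hc0
        _ = _ := by ring
    · rw [norm_mul, norm_mul, norm_pow, norm_pow]
      calc ‖((M + 2 : ℕ) : K)‖ * (‖x‖ ^ (M + 1) * ‖y - x‖ ^ 2) ≤ 1 * (c ^ (M + 1) * δ ^ 2) :=
            mul_le_mul (norm_natCast_le_one' _) (mul_le_mul
              (pow_le_pow_left₀ (norm_nonneg _) hx _) (pow_le_pow_left₀ (norm_nonneg _) hd _)
              (by positivity) (by positivity)) (by positivity) zero_le_one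
        _ = _ := by ring

/-- a combination of the derivatives -/
def Dg (p n : ℕ) (s x : ℕ → K) (k : ℕ) : K :=
  ∑ m ∈ Finset.Ico 1 n, s m * dhle p n m x k

theorem Dg_succ (s x : ℕ → K) (k : ℕ) :
    (p : K) * Dg p n s x (k + 1) = ∑ i ∈ Finset.range (k + 1), if i + 1 ≤ n then
      (Dg p n s x (k - i) * x (i + 1) ^ p ^ (k - i) + hle p n x (k - i) *
        (if i + 1 < n then (p : K) ^ (k - i) * x (i + 1) ^ (p ^ (k - i) - 1) *
          s (i + 1) else 0)) else 0 := by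
  rw [Dg, Finset.mul_sum]
  have h1 : ∀ m ∈ Finset.Ico 1 n, (p : K) * (s m * dhle p n m x (k + 1)) =
      ∑ i ∈ Finset.range (k + 1), s m * (if i + 1 ≤ n then
      (dhle p n m x (k - i) * x (i + 1) ^ p ^ (k - i) + hle p n x (k - i) *
        (if i + 1 = m then (p : K) ^ (k - i) * x (i + 1) ^ (p ^ (k - i) - 1) else 0)) else 0) := by
    intro m _
    rw [← Finset.mul_sum, ← dhle_succ]
    ring
  rw [Finset.sum_congr rfl h1, Finset.sum_comm]
  refine Finset.sum_congr rfl fun i _ => ?_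
  by_cases hin : i + 1 ≤ n
  · simp only [hin, if_true, mul_add, Finset.sum_add_distrib]
    congr 1
    · rw [Dg, Finset.sum_mul]
      exact Finset.sum_congr rfl fun m _ => by ring
    · by_cases h : i + 1 < n
      · rw [if_pos h, Finset.sum_eq_single_of_mem (i + 1) (Finset.mem_Ico.2 ⟨by omega, h⟩)]
        · rw [if_pos rfl]; ring
        · intro m _ hm
          rw [if_neg (Ne.symm hm)]; ring
      · rw [if_neg h, mul_zero]
        refine Finset.sum_eq_zero fun m hm => ?_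
        rw [if_neg (by have := (Finset.mem_Ico.1 hm).2; omega)]; ring
  · simp [hin]

/-- the linear part of `l_k(y) - l_k(x)` -/
def Dl (p n : ℕ) (x y : ℕ → K) (k : ℕ) : K := Dg p n (fun m => y m - x m) x k

theorem Dl_succ (x y : ℕ → K) (k : ℕ) :
    (p : K) * Dl p n x y (k + 1) = ∑ i ∈ Finset.range (k + 1), if i + 1 ≤ n then
      (Dl p n x y (k - i) * x (i + 1) ^ p ^ (k - i) + hle p n x (k - i) *
        (if i + 1 < n then (p : K) ^ (k - i) * x (i + 1) ^ (p ^ (k - i) - 1) *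
          (y (i + 1) - x (i + 1)) else 0)) else 0 := Dg_succ _ x k

/-- the remainder of the first order expansion -/
def rl (p n : ℕ) (x y : ℕ → K) (k : ℕ) : K := hle p n y k - hle p n x k - Dl p n x y k

/-- error term in the recursion of the remainder -/
def Tl (p n : ℕ) (x y : ℕ → K) (k i : ℕ) : K :=
  (hle p n y (k - i) - hle p n x (k - i)) * (y (i + 1) ^ p ^ (k - i) - x (i + 1) ^ p ^ (k - i)) +
  hle p n x (k - i) * (y (i + 1) ^ p ^ (k - i) - x (i + 1) ^ p ^ (k - i) -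
    (if i + 1 < n then (p : K) ^ (k - i) * x (i + 1) ^ (p ^ (k - i) - 1) *
          (y (i + 1) - x (i + 1)) else 0))

theorem rl_succ (x y : ℕ → K) (k : ℕ) :
    (p : K) * rl p n x y (k + 1) = ∑ i ∈ Finset.range (k + 1), if i + 1 ≤ n then
      (rl p n x y (k - i) * x (i + 1) ^ p ^ (k - i) + Tl p n x y k i) else 0 := by
  rw [rl, mul_sub, mul_sub, hle_succ, hle_succ, Dl_succ, ← Finset.sum_sub_distrib,
    ← Finset.sum_sub_distrib]
  refine Finset.sum_congr rfl fun i _ => ?_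
  by_cases hin : i + 1 ≤ n
  · simp only [hin, if_true, rl, Tl]
    ring
  · simp [hin]

theorem diff_crude (hn : 1 ≤ n) (hp : ‖(p : K)‖ < 1) {c δ : ℝ} (hc0 : 0 ≤ c) (hc : c ≤ 1)
    {x y : ℕ → K} (hx : Adm n c x) (hy : Adm n c y) (hδ : 0 ≤ δ)
    (hd : ∀ i, 1 ≤ i → i < n → ‖y i - x i‖ ≤ δ) (k : ℕ) :
    ‖hle p n y k - hle p n x k‖ ≤ δ * ‖(p : K)‖⁻¹ ^ k := by
  refine rec_crude (n := n) hp hc hx (fun k => hle p n y k - hle p n x k)
    (fun k i => hle p n y (k - i) * (y (i + 1) ^ p ^ (k - i) - x (i + 1) ^ p ^ (k - i))) δ hδ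
    (fun k => ?_) (by simpa [hle_zero] using hδ) (fun k i hik hin => ?_) k
  · simp only [mul_sub]
    rw [hle_succ, hle_succ, ← Finset.sum_sub_distrib]
    refine Finset.sum_congr rfl fun i _ => ?_
    by_cases hin : i + 1 ≤ n
    · simp only [hin, if_true]
      ring
    · simp [hin]
  · rcases hin.lt_or_eq with h | h
    · obtain ⟨M, hM⟩ : ∃ M, p ^ (k - i) = M + 1 :=
        ⟨p ^ (k - i) - 1, (Nat.sub_add_cancel (Nat.one_le_pow _ _ (Fact.out : p.Prime).pos)).symm⟩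
      rw [norm_mul, hM]
      have h1 := pow_sub_pow_norm hc0 (hx.le (i + 1) (by omega) h) (hy.le (i + 1) (by omega) h)
        (hd (i + 1) (by omega) h) M
      calc _ ≤ ‖(p : K)‖⁻¹ ^ (k - i) * (δ * c ^ M) :=
            mul_le_mul (norm_hle_le hn hp hc hy _) h1 (norm_nonneg _) (by positivity)
        _ ≤ ‖(p : K)‖⁻¹ ^ (k - i) * (δ * 1) := by
            refine mul_le_mul_of_nonneg_left (mul_le_mul_of_nonneg_left (pow_le_one₀ hc0 hc) hδ)
              (by positivity)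
        _ = _ := by ring
    · rw [h, hx.one, hy.one, sub_self, mul_zero, norm_zero]
      positivity

theorem natCast_pow_eq (s : ℕ) : ((p : K)) ^ s = ((p ^ s : ℕ) : K) := by push_cast; rfl

theorem Tl_bound (hn : 1 ≤ n) (hp : ‖(p : K)‖ < 1) {c δ : ℝ} (hc0 : 0 ≤ c) (hc : c ≤ 1)
    {x y : ℕ → K} (hx : Adm n c x) (hy : Adm n c y) (hδ : 0 ≤ δ)
    (hd : ∀ i, 1 ≤ i → i < n → ‖y i - x i‖ ≤ δ) (k i : ℕ) (hik : i ≤ k) (hin : i + 1 < n) :
    ‖Tl p n x y k i‖ ≤ δ ^ 2 * (‖(p : K)‖⁻¹ ^ (k - i) * c ^ (p ^ (k - i) - 2)) := by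
  have hP := one_lt_inv_p (p := p) (K := K) hp
  have hx1 := hx.le (i + 1) (by omega) hin
  have hy1 := hy.le (i + 1) (by omega) hin
  have hd1 := hd (i + 1) (by omega) hin
  rw [Tl, if_pos hin, natCast_pow_eq]
  rcases Nat.eq_zero_or_pos (k - i) with h0 | h0
  · rw [h0]
    simp only [hle_zero, pow_zero]
    simp
    positivity
  · obtain ⟨M, hM⟩ : ∃ M, p ^ (k - i) = M + 2 := by
      refine ⟨p ^ (k - i) - 2, (Nat.sub_add_cancel ?_).symm⟩
      calc 2 ≤ p := (Fact.out : p.Prime).two_le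
        _ = p ^ 1 := (pow_one p).symm
        _ ≤ p ^ (k - i) := Nat.pow_le_pow_right (Fact.out : p.Prime).pos h0
    rw [hM, show M + 2 - 1 = M + 1 by omega, show M + 2 - 2 = M by omega]
    refine norm_add_le_of_le ?_ ?_
    · rw [norm_mul]
      have h1 := pow_sub_pow_norm hc0 hx1 hy1 hd1 (M + 1)
      calc _ ≤ (δ * ‖(p : K)‖⁻¹ ^ (k - i)) * (δ * c ^ (M + 1)) :=
            mul_le_mul (diff_crude hn hp hc0 hc hx hy hδ hd _) h1 (norm_nonneg _) (by positivity)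
        _ ≤ (δ * ‖(p : K)‖⁻¹ ^ (k - i)) * (δ * c ^ M) := by
            refine mul_le_mul_of_nonneg_left (mul_le_mul_of_nonneg_left
              (pow_le_pow_of_le_one hc0 hc (by omega)) hδ) (by positivity)
        _ = _ := by ring
    · rw [norm_mul]
      calc _ ≤ ‖(p : K)‖⁻¹ ^ (k - i) * (δ ^ 2 * c ^ M) :=
            mul_le_mul (norm_hle_le hn hp hc hx _) (pow_taylor_norm hc0 hx1 hy1 hd1 M)
              (norm_nonneg _) (by positivity)
        _ = _ := by ring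

theorem Tl_eq_zero {c : ℝ} {x y : ℕ → K} (hx : Adm n c x) (hy : Adm n c y) (k i : ℕ)
    (hin : i + 1 = n) : Tl p n x y k i = 0 := by
  rw [Tl, if_neg (by omega), hin, hx.one, hy.one]
  simp

theorem rl_bdd (hn : 1 ≤ n) (hp : ‖(p : K)‖ < 1) {c δ : ℝ} (hc0 : 0 ≤ c) (hc : c ≤ 1) (E : ℝ)
    (hE : ∀ s : ℕ, ‖(p : K)‖⁻¹ ^ s * c ^ (p ^ s - 2) ≤ E)
    {x y : ℕ → K} (hx : Adm n c x) (hy : Adm n c y) (hδ : 0 ≤ δ)
    (hd : ∀ i, 1 ≤ i → i < n → ‖y i - x i‖ ≤ δ) :
    (∀ k, ‖(p : K) * rl p n x y (k + n) - rl p n x y k‖ ≤ δ ^ 2 * E) ∧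
    ∀ k, ‖rl p n x y k‖ ≤ δ ^ 2 * ‖(p : K)‖⁻¹ ^ k := by
  have hP := one_lt_inv_p (p := p) (K := K) hp
  have h0 : ‖rl p n x y 0‖ ≤ δ ^ 2 := by
    rw [rl, Dl, Dg]
    simp [hle_zero, dhle_zero]
    positivity
  have hT : ∀ k i, i ≤ k → i + 1 ≤ n → ‖Tl p n x y k i‖ ≤ δ ^ 2 * ‖(p : K)‖⁻¹ ^ (k - i) := by
    intro k i hik hin
    rcases hin.lt_or_eq with h | h
    · refine (Tl_bound hn hp hc0 hc hx hy hδ hd k i hik h).trans ?_
      refine mul_le_mul_of_nonneg_left ?_ (by positivity)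
      calc _ ≤ ‖(p : K)‖⁻¹ ^ (k - i) * 1 := mul_le_mul_of_nonneg_left (pow_le_one₀ hc0 hc)
            (by positivity)
        _ = _ := mul_one _
    · rw [Tl_eq_zero hx hy k i h, norm_zero]; positivity
  constructor
  · refine rec_fine hn hp hc0 hc hx (rl p n x y) (Tl p n x y) (δ ^ 2) E (by positivity) hE
      (rl_succ x y) h0 hT (fun k i h => Tl_eq_zero hx hy k i h) (fun k i hik hin => ?_)
    exact (Tl_bound hn hp hc0 hc hx hy hδ hd k i hik hin).trans
      (mul_le_mul_of_nonneg_left (hE _) (by positivity))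
  · exact rec_crude hp hc hx (rl p n x y) (Tl p n x y) (δ ^ 2) (by positivity) (rl_succ x y) h0 hT

/-- bounds for the derivative -/
theorem dhle_bdd (hn : 1 ≤ n) (hp : ‖(p : K)‖ < 1) {c : ℝ} (hc0 : 0 ≤ c) (hc : c ≤ 1) (E : ℝ)
    (hE1 : 1 ≤ E) (hE : ∀ s : ℕ, ‖(p : K)‖⁻¹ ^ s * c ^ (p ^ s - 2) ≤ E)
    {x : ℕ → K} (hx : Adm n c x) (m : ℕ) (hm : m < n) :
    (∀ k, ‖(p : K) * dhle p n m x (k + n) - dhle p n m x k‖ ≤ E) ∧
    ∀ k, ‖dhle p n m x k‖ ≤ ‖(p : K)‖⁻¹ ^ k := by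
  have hP := one_lt_inv_p (p := p) (K := K) hp
  set T : ℕ → ℕ → K := fun k i => hle p n x (k - i) *
        (if i + 1 = m then (p : K) ^ (k - i) * x (i + 1) ^ (p ^ (k - i) - 1) else 0) with hTdef
  have hTb : ∀ k i, i ≤ k → i + 1 ≤ n → ‖T k i‖ ≤ 1 := by
    intro k i hik hin
    simp only [hTdef]
    split_ifs with h
    · rw [norm_mul, norm_mul, norm_pow, norm_pow]
      have h1 := norm_hle_le hn hp hc hx (k - i)
      have h2 : ‖x (i + 1)‖ ^ (p ^ (k - i) - 1) ≤ 1 :=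
        pow_le_one₀ (norm_nonneg _) (Adm.norm_le_one hc hx _ (by omega) hin)
      calc _ ≤ ‖(p : K)‖⁻¹ ^ (k - i) * (‖(p : K)‖ ^ (k - i) * 1) :=
            mul_le_mul h1 (mul_le_mul_of_nonneg_left h2 (by positivity)) (by positivity)
              (by positivity)
        _ = 1 := by
            rw [mul_one, ← mul_pow, inv_mul_cancel₀ (norm_p_pos (p := p) (K := K)).ne', one_pow]
    · simp
  have hrec := dhle_succ (p := p) n m x
  have h0 : ‖dhle p n m x 0‖ ≤ 1 := by rw [dhle_zero]; simp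
  have hT : ∀ k i, i ≤ k → i + 1 ≤ n → ‖T k i‖ ≤ 1 * ‖(p : K)‖⁻¹ ^ (k - i) := by
    intro k i hik hin
    rw [one_mul]
    exact (hTb k i hik hin).trans (one_le_pow₀ hP.le)
  constructor
  · have := rec_fine hn hp hc0 hc hx (dhle p n m x) T 1 E zero_le_one hE hrec h0 hT
      (fun k i h => by simp only [hTdef]; rw [if_neg (by omega), mul_zero])
      (fun k i hik hin => by rw [one_mul]; exact (hTb k i hik hin.le).trans hE1)
    simpa using this
  · have := rec_crude hp hc hx (dhle p n m x) T 1 zero_le_one hrec h0 hT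
    simpa using this

end D0Per

theorem tendsto_dLam [CompleteSpace K] (hn : 1 ≤ n) (hp : ‖(p : K)‖ < 1) {c : ℝ} (hc0 : 0 < c)
    (hc : c < 1) {x : ℕ → K} (hx : Adm n c x) (m : ℕ) (hm : m < n) (r : Fin n) :
    Tendsto (fun t : ℕ => (p : K) ^ t * dhle p n m x (r + n * t)) atTop (𝓝 (dLam p n m x r)) := by
  obtain ⟨E, hE1, hE⟩ := exists_E (p := p) (K := K) hp hc0 hc
  exact tendsto_of_bdd hp _ E (dhle_bdd hn hp hc0.le hc.le E hE1 hE hx m hm).1 r

/-- first order Taylor estimate for the periods -/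
theorem Lam_taylor [CompleteSpace K] (hn : 1 ≤ n) (hp : ‖(p : K)‖ < 1) {c : ℝ} (hc0 : 0 < c)
    (hc : c < 1) :
    ∃ C : ℝ, 0 ≤ C ∧ ∀ x y : ℕ → K, Adm n c x → Adm n c y → ∀ δ : ℝ,
      (∀ i, 1 ≤ i → i < n → ‖y i - x i‖ ≤ δ) → ∀ r : Fin n,
      ‖Lam p n y r - Lam p n x r - ∑ m ∈ Finset.Ico 1 n, (y m - x m) * dLam p n m x r‖ ≤
        C * δ ^ 2 := by
  obtain ⟨E, hE1, hE⟩ := exists_E (p := p) (K := K) hp hc0 hc
  have hP := one_lt_inv_p (p := p) (K := K) hp
  refine ⟨max E (‖(p : K)‖⁻¹ ^ n), by positivity, fun x y hx hy δ hd r => ?_⟩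
  -- reduce to `0 ≤ δ`
  have key : ∀ δ : ℝ, 0 ≤ δ → (∀ i, 1 ≤ i → i < n → ‖y i - x i‖ ≤ δ) →
      ‖Lam p n y r - Lam p n x r - ∑ m ∈ Finset.Ico 1 n, (y m - x m) * dLam p n m x r‖ ≤
        max E (‖(p : K)‖⁻¹ ^ n) * δ ^ 2 := by
    intro δ hδ hd
    have hlim : Tendsto (fun t : ℕ => (p : K) ^ t * rl p n x y (r + n * t)) atTop
        (𝓝 (Lam p n y r - Lam p n x r -
          ∑ m ∈ Finset.Ico 1 n, (y m - x m) * dLam p n m x r)) := by
      have h1 := tendsto_Lam hn hp hc0.le hc hy r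
      have h2 := tendsto_Lam hn hp hc0.le hc hx r
      have h3 := tendsto_finsetSum (Finset.Ico 1 n) (fun m hm =>
        (tendsto_dLam hn hp hc0 hc hx m (Finset.mem_Ico.1 hm).2 r).const_mul (y m - x m))
      refine ((h1.sub h2).sub h3).congr fun t => ?_
      rw [rl, Dl, Dg, mul_sub, mul_sub, Finset.mul_sum]
      congr 1
      exact Finset.sum_congr rfl fun m _ => by ring
    obtain ⟨hb1, hb2⟩ := rl_bdd hn hp hc0.le hc.le E hE hx hy hδ hd
    refine per_bound (rl p n x y) hp _ (fun k => (hb1 k).trans ?_) r ((hb2 r).trans ?_) _ hlim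
    · rw [mul_comm]
      exact mul_le_mul_of_nonneg_right (le_max_left _ _) (by positivity)
    · rw [mul_comm]
      refine mul_le_mul_of_nonneg_right ?_ (by positivity)
      exact (pow_le_pow_right₀ hP.le r.2.le).trans (le_max_right _ _)
  rcases le_or_gt 0 δ with hδ | hδ
  · exact key δ hδ hd
  · -- then there is no index in `[1, n)`
    have h1 : ∀ i, 1 ≤ i → i < n → ‖y i - x i‖ ≤ 0 := by
      intro i h1 h2
      exact absurd ((norm_nonneg _).trans (hd i h1 h2)) (not_le.2 hδ)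
    refine (key 0 le_rfl h1).trans ?_
    have : (0 : ℝ) ≤ max E (‖(p : K)‖⁻¹ ^ n) := by positivity
    nlinarith [sq_nonneg δ, mul_nonneg this (sq_nonneg δ)]

namespace D0Per

/-- a maximum principle for sequences -/
theorem maxp (hn : 1 ≤ n) (u : ℕ → ℝ) (hu : ∀ k, 0 ≤ u k) (q c β : ℝ) (hq0 : 0 < q) (hq1 : q < 1)
    (hc0 : 0 ≤ c) (hc1 : c < 1) (hβ : 0 ≤ β)
    (h : ∀ k, u k ≤ β ∨ u k ≤ q * u (k + n) ∨ ∃ N, k < N ∧ N < k + n ∧ u k ≤ c ^ p ^ N * u N)
    (hW : ∀ r < n, Tendsto (fun t : ℕ => q ^ t * u (r + n * t)) atTop (𝓝 0)) :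
    ∀ k, u k ≤ β := by
  by_contra hcon
  push Not at hcon
  obtain ⟨k0, hk0⟩ := hcon
  -- step
  have step1 : ∀ k, β < u k → ∃ N, k < N ∧ β < u N := by
    intro k hk
    rcases h k with h1 | h1 | ⟨N, h1, h2, h3⟩
    · exact absurd h1 (not_le.2 hk)
    · refine ⟨k + n, by omega, hk.trans_le (h1.trans ?_)⟩
      exact mul_le_of_le_one_left (hu _) hq1.le
    · refine ⟨N, h1, hk.trans_le (h3.trans ?_)⟩
      exact mul_le_of_le_one_left (hu _) (pow_le_one₀ hc0 hc1.le)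
  have step2 : ∀ N, ∃ k, N ≤ k ∧ β < u k := by
    intro N
    induction N with
    | zero => exact ⟨k0, Nat.zero_le _, hk0⟩
    | succ N ih =>
      obtain ⟨k, hk1, hk2⟩ := ih
      obtain ⟨k', hk1', hk2'⟩ := step1 k hk2
      exact ⟨k', by omega, hk2'⟩
  obtain ⟨ks, hks⟩ : ∃ ks : ℕ, ∀ N, ks ≤ N → c ^ p ^ N ≤ q := by
    have h1 := (tendsto_pow_atTop_nhds_zero_of_lt_one hc0 hc1).eventually (ge_mem_nhds hq0)
    obtain ⟨ks, hks⟩ := eventually_atTop.1 h1
    refine ⟨ks, fun N hN => hks _ (hN.trans ?_)⟩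
    exact (Nat.lt_pow_self (Fact.out : p.Prime).one_lt).le
  obtain ⟨k1, hk1, hk1'⟩ := step2 ks
  have hW1 : 0 < q ^ (k1 / n) * u k1 := mul_pos (pow_pos hq0 _) (hβ.trans_lt hk1')
  have chain : ∀ N, ∃ k, N ≤ k ∧ k1 ≤ k ∧ β < u k ∧ q ^ (k1 / n) * u k1 ≤ q ^ (k / n) * u k := by
    intro N
    induction N with
    | zero => exact ⟨k1, Nat.zero_le _, le_rfl, hk1', le_rfl⟩
    | succ N ih =>
      obtain ⟨k, h1, h2, h3, h4⟩ := ih
      rcases h k with h5 | h5 | ⟨N', h5, h6, h7⟩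
      · exact absurd h5 (not_le.2 h3)
      · refine ⟨k + n, by omega, by omega, h3.trans_le (h5.trans
          (mul_le_of_le_one_left (hu _) hq1.le)), h4.trans ?_⟩
        rw [Nat.add_div_right _ (by omega), pow_succ, mul_assoc]
        exact mul_le_mul_of_nonneg_left h5 (by positivity)
      · refine ⟨N', by omega, by omega, h3.trans_le (h7.trans
          (mul_le_of_le_one_left (hu _) (pow_le_one₀ hc0 hc1.le))), h4.trans ?_⟩
        have h8 : u k ≤ q * u N' := h7.trans (mul_le_mul_of_nonneg_right (hks _ (by omega)) (hu _))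
        have h9 : N' / n ≤ k / n + 1 := by
          rw [← Nat.add_div_right _ (by omega)]
          exact Nat.div_le_div_right h6.le
        calc q ^ (k / n) * u k ≤ q ^ (k / n) * (q * u N') :=
              mul_le_mul_of_nonneg_left h8 (by positivity)
          _ = q ^ (k / n + 1) * u N' := by ring
          _ ≤ q ^ (N' / n) * u N' :=
              mul_le_mul_of_nonneg_right (pow_le_pow_of_le_one hq0.le hq1.le h9) (hu _)
  have hev : ∀ᶠ t : ℕ in atTop, ∀ r ∈ Finset.range n, q ^ t * u (r + n * t) <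
      q ^ (k1 / n) * u k1 := by
    rw [Filter.eventually_all_finset]
    intro r hr
    exact (hW r (Finset.mem_range.1 hr)).eventually (gt_mem_nhds hW1)
  obtain ⟨T, hT⟩ := eventually_atTop.1 hev
  obtain ⟨k, h1, h2, h3, h4⟩ := chain (n * T)
  have h5 := hT (k / n) ((Nat.le_div_iff_mul_le (by omega)).2 (by rw [mul_comm]; exact h1)) (k % n)
    (Finset.mem_range.2 (Nat.mod_lt _ (by omega)))
  rw [Nat.mod_add_div] at h5
  exact absurd h4 (not_le.2 h5)

/-- the combination `s_0 l + ∑ s_m ∂_m l` -/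
def cs (p n : ℕ) (s x : ℕ → K) (k : ℕ) : K := s 0 * hle p n x k + Dg p n s x k

def Ts (p n : ℕ) (s x : ℕ → K) (k i : ℕ) : K := hle p n x (k - i) *
        (if i + 1 < n then (p : K) ^ (k - i) * x (i + 1) ^ (p ^ (k - i) - 1) *
          s (i + 1) else 0)

theorem cs_succ (s x : ℕ → K) (k : ℕ) :
    (p : K) * cs p n s x (k + 1) = ∑ i ∈ Finset.range (k + 1), if i + 1 ≤ n then
      (cs p n s x (k - i) * x (i + 1) ^ p ^ (k - i) + Ts p n s x k i) else 0 := by
  have : (p : K) * cs p n s x (k + 1) = s 0 * ((p : K) * hle p n x (k + 1)) +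
      (p : K) * Dg p n s x (k + 1) := by rw [cs]; ring
  rw [this, hle_succ, Dg_succ, Finset.mul_sum, ← Finset.sum_add_distrib]
  refine Finset.sum_congr rfl fun i _ => ?_
  by_cases hin : i + 1 ≤ n
  · simp only [hin, if_true, cs, Ts]
    ring
  · simp [hin]

theorem Ts_bound (hn : 1 ≤ n) (hp : ‖(p : K)‖ < 1) {c : ℝ} (hc0 : 0 ≤ c) (hc : c < 1)
    {x : ℕ → K} (hx : Adm n c x) (s : ℕ → K) (σ : ℝ) (hσ : 0 ≤ σ)
    (hs : ∀ m, 1 ≤ m → m < n → ‖s m‖ ≤ σ) (k i : ℕ) (hik : i < k) (hin : i + 1 ≤ n) :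
    ‖Ts p n s x k i‖ ≤ σ * c := by
  rw [Ts]
  split_ifs with h
  · rw [norm_mul, norm_mul, norm_mul, norm_pow, norm_pow]
    have h1 := norm_hle_le hn hp hc.le hx (k - i)
    have h2 : ‖x (i + 1)‖ ^ (p ^ (k - i) - 1) ≤ c := by
      have h3 : 1 ≤ p ^ (k - i) - 1 := by
        have : 2 ≤ p ^ (k - i) := by
          calc 2 ≤ p := (Fact.out : p.Prime).two_le
            _ = p ^ 1 := (pow_one p).symm
            _ ≤ p ^ (k - i) := Nat.pow_le_pow_right (Fact.out : p.Prime).pos (by omega)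
        omega
      calc ‖x (i + 1)‖ ^ (p ^ (k - i) - 1) ≤ c ^ (p ^ (k - i) - 1) :=
            pow_le_pow_left₀ (norm_nonneg _) (hx.le _ (by omega) h) _
        _ ≤ c ^ 1 := pow_le_pow_of_le_one hc0 hc.le h3
        _ = c := pow_one c
    calc _ ≤ ‖(p : K)‖⁻¹ ^ (k - i) * (‖(p : K)‖ ^ (k - i) * c * σ) :=
          mul_le_mul h1 (mul_le_mul (mul_le_mul_of_nonneg_left h2 (by positivity))
            (hs _ (by omega) h) (norm_nonneg _) (by positivity)) (by positivity)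
            (by positivity)
      _ = (‖(p : K)‖⁻¹ * ‖(p : K)‖) ^ (k - i) * (σ * c) := by rw [mul_pow]; ring
      _ = σ * c := by
          rw [inv_mul_cancel₀ (norm_p_pos (p := p) (K := K)).ne', one_pow, one_mul]
  · rw [mul_zero, norm_zero]; positivity

theorem cs_dichotomy (hn : 1 ≤ n) (hp : ‖(p : K)‖ < 1) {c : ℝ} (hc0 : 0 ≤ c) (hc : c < 1)
    {x : ℕ → K} (hx : Adm n c x) (s : ℕ → K) (σ : ℝ) (hσ : 0 ≤ σ)
    (hs : ∀ m, 1 ≤ m → m < n → ‖s m‖ ≤ σ) (k : ℕ) :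
    ‖cs p n s x k‖ ≤ σ * c ∨ ‖cs p n s x k‖ ≤ ‖(p : K)‖ * ‖cs p n s x (k + n)‖ ∨
      ∃ N, k < N ∧ N < k + n ∧ ‖cs p n s x k‖ ≤ c ^ p ^ N * ‖cs p n s x N‖ := by
  obtain ⟨N, rfl⟩ : ∃ N, n = N + 1 := ⟨n - 1, by omega⟩
  have h1 := cs_succ (p := p) (n := N + 1) s x (k + N)
  have h2 : ∑ i ∈ Finset.range (k + N + 1), (if i + 1 ≤ N + 1 then
      cs p (N + 1) s x (k + N - i) * x (i + 1) ^ p ^ (k + N - i) + Ts p (N + 1) s x (k + N) i
        else 0) =
      ∑ i ∈ Finset.range (N + 1), (cs p (N + 1) s x (k + N - i) * x (i + 1) ^ p ^ (k + N - i) +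
        Ts p (N + 1) s x (k + N) i) := by
    rw [← Finset.sum_filter]
    refine Finset.sum_congr ?_ fun _ _ => rfl
    ext i
    simp only [Finset.mem_filter, Finset.mem_range]
    omega
  have h3 : Ts p (N + 1) s x (k + N) N = 0 := by rw [Ts, if_neg (by omega), mul_zero]
  rw [h2, Finset.sum_range_succ, h3, hx.one, one_pow, mul_one, add_zero,
    show k + N - N = k by omega] at h1
  set S := ∑ i ∈ Finset.range N, (cs p (N + 1) s x (k + N - i) * x (i + 1) ^ p ^ (k + N - i) +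
        Ts p (N + 1) s x (k + N) i) with hS
  have h4 : cs p (N + 1) s x k = (p : K) * cs p (N + 1) s x (k + (N + 1)) - S := by
    rw [show k + (N + 1) = k + N + 1 by ring, h1]; ring
  have h5 := norm_sub_le_max ((p : K) * cs p (N + 1) s x (k + (N + 1))) S
  rw [← h4] at h5
  rcases le_max_iff.1 h5 with h6 | h6
  · right; left
    rwa [norm_mul] at h6
  · rcases (Finset.range N).eq_empty_or_nonempty with h7 | h7
    · left
      rw [hS, h7, Finset.sum_empty, norm_zero] at h6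
      exact h6.trans (by positivity)
    · obtain ⟨i, hi, h8⟩ := IsUltrametricDist.exists_norm_finsetSum_le_of_nonempty h7 (fun i =>
        (cs p (N + 1) s x (k + N - i) * x (i + 1) ^ p ^ (k + N - i) +
        Ts p (N + 1) s x (k + N) i))
      have hi' := Finset.mem_range.1 hi
      have h9 := (h6.trans h8).trans (IsUltrametricDist.norm_add_le_max _ _)
      rcases le_max_iff.1 h9 with h10 | h10
      · right; right
        refine ⟨k + N - i, by omega, by omega, h10.trans ?_⟩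
        rw [norm_mul, norm_pow, mul_comm]
        exact mul_le_mul_of_nonneg_right (pow_le_pow_left₀ (norm_nonneg _)
          (hx.le _ (by omega) (by omega)) _) (norm_nonneg _)
      · left
        exact h10.trans (Ts_bound hn hp hc0 hc hx s σ hσ hs _ _ (by omega) (by omega))

end D0Per

/-- étaleness of the period map -/
theorem Lam_indep [CompleteSpace K] (hn : 1 ≤ n) (hp : ‖(p : K)‖ < 1) {c : ℝ} (hc0 : 0 ≤ c)
    (hc : c < 1) {x : ℕ → K} (hx : Adm n c x) (s : ℕ → K)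
    (hs : ∀ r : Fin n, s 0 * Lam p n x r + ∑ m ∈ Finset.Ico 1 n, s m * dLam p n m x r = 0) :
    ∀ m < n, s m = 0 := by
  obtain ⟨c', hc'0, hc'1⟩ := exists_between (max_lt hc one_pos)
  have hcc' : c ≤ c' := (le_max_left _ _).trans hc'0.le
  have hc'0' : 0 < c' := (le_max_right _ _).trans_lt hc'0
  have hx' : Adm n c' x := ⟨fun i h1 h2 => (hx.le i h1 h2).trans hcc', hx.one⟩
  -- periods of `cs`
  have hper : ∀ r < n, Tendsto (fun t : ℕ => ‖(p : K)‖ ^ t * ‖cs p n s x (r + n * t)‖) atTop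
      (𝓝 0) := by
    intro r hr
    have h1 := (tendsto_Lam hn hp hc'0'.le hc'1 hx' ⟨r, hr⟩).const_mul (s 0)
    have h2 := tendsto_finsetSum (Finset.Ico 1 n) (fun m hm =>
        (tendsto_dLam hn hp hc'0' hc'1 hx' m (Finset.mem_Ico.1 hm).2 ⟨r, hr⟩).const_mul (s m))
    have h3 := (h1.add h2).norm
    rw [hs ⟨r, hr⟩, norm_zero] at h3
    refine h3.congr fun t => ?_
    rw [← norm_pow, ← norm_mul, cs, Dg, mul_add, Finset.mul_sum]
    congr 2
    · ring
    · exact Finset.sum_congr rfl fun m _ => by ring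
  -- improvement step
  have step : ∀ σ : ℝ, 0 ≤ σ → (∀ m, 1 ≤ m → m < n → ‖s m‖ ≤ σ) →
      (∀ k, ‖cs p n s x k‖ ≤ σ * c') ∧ ∀ m, 1 ≤ m → m < n → ‖s m‖ ≤ σ * c' := by
    intro σ hσ hsσ
    have hcs : ∀ k, ‖cs p n s x k‖ ≤ σ * c' :=
      maxp hn (fun k => ‖cs p n s x k‖) (fun k => norm_nonneg _) ‖(p : K)‖ c' (σ * c')
        norm_p_pos hp hc'0'.le hc'1 (by positivity)
        (cs_dichotomy hn hp hc'0'.le hc'1 hx' s σ hσ hsσ) hper
    refine ⟨hcs, fun m hm1 hmn => ?_⟩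
    obtain ⟨k, rfl⟩ : ∃ k, m = k + 1 := ⟨m - 1, by omega⟩
    have h1 := cs_succ (p := p) (n := n) s x k
    rw [Finset.sum_range_succ, if_pos (by omega : k + 1 ≤ n)] at h1
    have h2 : Ts p n s x k k = s (k + 1) := by
      rw [Ts, if_pos hmn, Nat.sub_self, hle_zero]
      simp
    rw [h2] at h1
    have h3 : s (k + 1) = (p : K) * cs p n s x (k + 1) -
        (∑ i ∈ Finset.range k, (if i + 1 ≤ n then
          cs p n s x (k - i) * x (i + 1) ^ p ^ (k - i) + Ts p n s x k i else 0) +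
          cs p n s x (k - k) * x (k + 1) ^ p ^ (k - k)) := by rw [h1]; ring
    rw [h3]
    refine norm_sub_le_of_le ?_ (norm_add_le_of_le ?_ ?_)
    · rw [norm_mul]
      calc _ ≤ 1 * (σ * c') := mul_le_mul hp.le (hcs _) (norm_nonneg _) zero_le_one
        _ = _ := one_mul _
    · refine IsUltrametricDist.norm_sum_le_of_forall_le_of_nonneg (by positivity) fun i hi => ?_
      have hi' := Finset.mem_range.1 hi
      rw [if_pos (by omega)]
      refine norm_add_le_of_le ?_ (Ts_bound hn hp hc'0'.le hc'1 hx' s σ hσ hsσ _ _ hi' (by omega))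
      rw [norm_mul, norm_pow]
      calc _ ≤ (σ * c') * 1 := mul_le_mul (hcs _) (pow_le_one₀ (norm_nonneg _)
            (Adm.norm_le_one hc'1.le hx' _ (by omega) (by omega))) (by positivity) (by positivity)
        _ = _ := mul_one _
    · rw [norm_mul, norm_pow]
      calc _ ≤ (σ * c') * 1 := mul_le_mul (hcs _) (pow_le_one₀ (norm_nonneg _)
            (Adm.norm_le_one hc'1.le hx' _ (by omega) (by omega))) (by positivity) (by positivity)
        _ = _ := mul_one _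
  -- iterate
  set σ0 : ℝ := ∑ m ∈ Finset.Ico 1 n, ‖s m‖ with hσ0
  have hσ00 : 0 ≤ σ0 := Finset.sum_nonneg fun _ _ => norm_nonneg _
  have hit : ∀ j : ℕ, ∀ m, 1 ≤ m → m < n → ‖s m‖ ≤ σ0 * c' ^ j := by
    intro j
    induction j with
    | zero =>
      intro m h1 h2
      rw [pow_zero, mul_one]
      exact Finset.single_le_sum (f := fun m => ‖s m‖) (fun _ _ => norm_nonneg _)
        (Finset.mem_Ico.2 ⟨h1, h2⟩)
    | succ j ih =>
      intro m h1 h2
      rw [pow_succ, ← mul_assoc]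
      exact (step _ (by positivity) ih).2 m h1 h2
  have hzero : ∀ m, 1 ≤ m → m < n → s m = 0 := by
    intro m h1 h2
    have h3 : Tendsto (fun j : ℕ => σ0 * c' ^ j) atTop (𝓝 (σ0 * 0)) :=
      (tendsto_pow_atTop_nhds_zero_of_lt_one hc'0'.le hc'1).const_mul _
    rw [mul_zero] at h3
    exact norm_le_zero_iff.1 (ge_of_tendsto' h3 fun j => hit j m h1 h2)
  intro m hm
  rcases Nat.eq_zero_or_pos m with rfl | hm0
  · have h4 := (step 0 le_rfl fun m h1 h2 => by rw [hzero m h1 h2, norm_zero]).1 0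
    rw [zero_mul, norm_le_zero_iff, cs, Dg, hle_zero] at h4
    have h5 : ∑ m ∈ Finset.Ico 1 n, s m * dhle p n m x 0 = 0 :=
      Finset.sum_eq_zero fun m hm => by
        rw [hzero m (Finset.mem_Ico.1 hm).1 (Finset.mem_Ico.1 hm).2, zero_mul]
    rw [h5] at h4
    simpa using h4
  · exact hzero m hm0 hm

/-- the action of `ω X^{p^i}` (`i < n`) on period vectors -/
def actM (p n : ℕ) (ω : K) (i : ℕ) (v : Fin n → K) (r : Fin n) : K :=
  (if (r : ℕ) < i then (p : K) else 1) *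
    (v ⟨(r + n - i) % n, Nat.mod_lt _ (by have := r.2; omega)⟩ * ω ^ p ^ ((r + n - i) % n))

theorem pow_frob_period (ω : K) (hω : ω ^ p ^ n = ω) (s t : ℕ) :
    ω ^ p ^ (s + n * t) = ω ^ p ^ s := by
  induction t with
  | zero => rfl
  | succ t ih =>
    have : ω ^ p ^ (s + n * (t + 1)) = (ω ^ p ^ n) ^ p ^ (s + n * t) := by
      rw [← pow_mul, ← pow_add]
      congr 2
      ring
    rw [this, hω, ih]

/-- exact equivariance of the periods from approximate equality of the log coefficients -/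
theorem Lam_equivariant [CompleteSpace K] (hn : 1 ≤ n) (hp : ‖(p : K)‖ < 1) {c : ℝ} (hc0 : 0 ≤ c)
    (hc : c < 1) {x y : ℕ → K} (hx : Adm n c x) (hy : Adm n c y) (a ω : K) (hω : ω ^ p ^ n = ω)
    (i j : ℕ) (hi : i < n) (B : ℝ)
    (hB : ∀ k, i + n * j ≤ k → ‖a * hle p n y k - hle p n x k -
      hle p n x (k - (i + n * j)) * ω ^ p ^ (k - (i + n * j))‖ ≤ B) (r : Fin n) :
    a * Lam p n y r = Lam p n x r + (p : K) ^ j * actM p n ω i (Lam p n x) r := by
  have h1 := (tendsto_Lam hn hp hc0 hc hy r).const_mul a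
  have h2 := tendsto_Lam hn hp hc0 hc hx r
  set s : ℕ := (r + n - i) % n with hs
  have hsn : s < n := Nat.mod_lt _ (by omega)
  set ε : ℕ := if (r : ℕ) < i then 1 else 0 with hε
  have hrel : (r : ℕ) + n * ε = s + i := by
    have hr := r.2
    rw [hs, hε]
    split_ifs with h
    · rw [Nat.mod_eq_of_lt (by omega)]; omega
    · rw [show (r : ℕ) + n - i = (r - i) + n by omega, Nat.add_mod_right,
        Nat.mod_eq_of_lt (by omega)]; omega
  have hact : actM p n ω i (Lam p n x) r = (p : K) ^ ε * (Lam p n x ⟨s, hsn⟩ * ω ^ p ^ s) := by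
    rw [actM, hε]
    split_ifs with h <;> simp [hs]
  have h3 := ((tendsto_Lam hn hp hc0 hc hx ⟨s, hsn⟩).mul_const (ω ^ p ^ s)).const_mul
    ((p : K) ^ j * (p : K) ^ ε)
  -- shift
  have h4 : Tendsto (fun t : ℕ => (p : K) ^ t * (hle p n x (r + n * t - (i + n * j)) *
      ω ^ p ^ (r + n * t - (i + n * j)))) atTop
      (𝓝 ((p : K) ^ j * (p : K) ^ ε * (Lam p n x ⟨s, hsn⟩ * ω ^ p ^ s))) := by
    rw [← tendsto_add_atTop_iff_nat (j + ε)]
    refine h3.congr fun t => ?_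
    have h5 : (r : ℕ) + n * (t + (j + ε)) - (i + n * j) = s + n * t := by
      have : (r : ℕ) + n * (t + (j + ε)) = (s + n * t) + (i + n * j) := by
        calc (r : ℕ) + n * (t + (j + ε)) = (r + n * ε) + n * t + n * j := by ring
          _ = _ := by rw [hrel]; ring
      omega
    rw [h5, pow_frob_period ω hω, pow_add, pow_add]
    ring
  have h6 : Tendsto (fun t : ℕ => (p : K) ^ t * (a * hle p n y (r + n * t) -
      hle p n x (r + n * t) - hle p n x (r + n * t - (i + n * j)) *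
      ω ^ p ^ (r + n * t - (i + n * j)))) atTop (𝓝 0) := by
    refine squeeze_zero_norm' (a := fun t : ℕ => ‖(p : K)‖ ^ t * B) ?_ ?_
    · filter_upwards [eventually_ge_atTop (i + n * j)] with t ht
      rw [norm_mul, norm_pow]
      refine mul_le_mul_of_nonneg_left (hB _ (ht.trans ?_)) (by positivity)
      calc t ≤ n * t := Nat.le_mul_of_pos_left _ hn
        _ ≤ r + n * t := Nat.le_add_left _ _
    · simpa using (tendsto_pow_atTop_nhds_zero_of_lt_one (norm_nonneg (p : K)) hp).mul_const B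
  have h7 := (h1.sub h2).sub h4
  have h8 : a * Lam p n y r - Lam p n x r -
      (p : K) ^ j * (p : K) ^ ε * (Lam p n x ⟨s, hsn⟩ * ω ^ p ^ s) = 0 := by
    refine tendsto_nhds_unique h7 (h6.congr fun t => ?_)
    ring
  rw [hact]
  linear_combination h8

end Crest.Agent.R227
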