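import Crest.Prelude.Def_LubinTate

/-!
# R227 (S0351): common definitions

* `hl p n k`      : Hazewinkel logarithm coefficients `l_k ∈ ℚ[u_1, u_2, …]` (only `u_1..u_n` occur),
                    `p l_{k} = ∑_{i=1}^{min n k} l_{k-i} u_i^{p^{k-i}}`.
* `logU p n`      : the power series `∑ l_k X^{p^k}`.
* `hz p n x`      : the Hazewinkel `p`-typical law specialised at `u_i = x i` (over any ring).
* `sp h`          : the sequence `u_h = 1`, `u_i = 0` otherwise. `hz p n (sp n)` is the Honda law.
* `pt n h z`      : the sequence `u_{h+i} = z i` (`i < n-h`), `u_n = 1`, all others `0`.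
* `upt p n`       : the universal point of `LTRing p n`.
* `fadd`, `fsum`  : formal sums of power series.
* `Vs p n h x`    : the series `∑^F_{i=h}^n x_i T^{p^{i-h}}` (so `[p](X) = V(X^{p^h})` in char `p`).
-/

set_option autoImplicit false

noncomputable section

namespace Crest.Agent.R227

open Crest.LubinTate

/-- Hazewinkel logarithm coefficients. -/
def hl (p n : ℕ) : ℕ → MvPolynomial ℕ ℚ
  | 0 => 1
  | k + 1 => MvPolynomial.C ((p : ℚ)⁻¹) *
      ∑ i : Fin (k + 1), if (i : ℕ) + 1 ≤ n then
        hl p n (k - i) * MvPolynomial.X ((i : ℕ) + 1) ^ p ^ (k - (i : ℕ)) else 0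

/-- `∑ l_k X^{p^k}` for a sequence `l`. -/
def pSeries {R : Type*} [CommRing R] (p : ℕ) (l : ℕ → R) : PowerSeries R :=
  PowerSeries.mk fun m => if p ^ Nat.log p m = m then l (Nat.log p m) else 0

/-- the universal logarithm -/
def logU (p n : ℕ) : PowerSeries (MvPolynomial ℕ ℚ) := pSeries p (hl p n)

/-- evaluation of the logarithm coefficients at a point of a `ℚ`-algebra -/
def hle (p n : ℕ) {B : Type*} [CommRing B] [Algebra ℚ B] (x : ℕ → B) (k : ℕ) : B :=
  MvPolynomial.aeval x (hl p n k)

/-- The logarithm at the point `x` of a `ℚ`-algebra. -/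
def logAt (p n : ℕ) {B : Type*} [CommRing B] [Algebra ℚ B] (x : ℕ → B) : PowerSeries B :=
  pSeries p (hle p n x)

/-- the sequence `1` in position `h`, zero elsewhere -/
def sp {R : Type*} [Zero R] [One R] (h : ℕ) : ℕ → R := fun i => if i = h then 1 else 0

/-- the sequence with `u_{h+i} = z i` for `i < n - h`, `u_n = 1` and zero elsewhere. -/
def pt {R : Type*} [Zero R] [One R] (n h : ℕ) (z : Fin (n - h) → R) : ℕ → R := fun i =>
  if hi : h ≤ i ∧ i < n then z ⟨i - h, by omega⟩ else if i = n then 1 else 0

/-- the universal point -/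
def upt (p n : ℕ) [Fact p.Prime] : ℕ → LTRing p n := fun i =>
  if hi : 1 ≤ i ∧ i < n then MvPowerSeries.X ⟨i - 1, by omega⟩ else if i = n then 1 else 0

/-- formal addition of power series -/
def fadd {R : Type*} [CommRing R] {τ : Type*} (F : FormalGroup R) (a b : MvPowerSeries τ R) :
    MvPowerSeries τ R := F.toPowerSeries.subst ![a, b]

/-- formal sum of a list of power series -/
def fsum {R : Type*} [CommRing R] {τ : Type*} (F : FormalGroup R)
    (l : List (MvPowerSeries τ R)) : MvPowerSeries τ R := l.foldr (fadd F) 0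

end Crest.Agent.R227
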