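import Crest.Agent.R227.Descent
import Crest.Agent.R227.Eval

/-!
Row 227 (S0351): Frobenius descent for evaluation of power series on the ball (helper251).
-/

set_option autoImplicit false

noncomputable section

open Filter Topology

namespace Crest.Agent.R227
namespace Descent

open MvPowerSeries

variable {K : Type*} [NormedField K] [IsUltrametricDist K] [CompleteSpace K]
variable {κ : Type*} [Field κ] [Fintype κ] (ι : κ →+* Ob K)
variable {σ : Type*} [Finite σ]

/-- sup norm of a point of the polydisc -/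
def supn {σ : Type*} {K : Type*} [NormedField K] [IsUltrametricDist K] (e : σ → Ob K) : ℝ :=
  ⨆ l, ‖(e l : K)‖

theorem norm_le_supn (e : σ → Ob K) (l : σ) : ‖(e l : K)‖ ≤ supn e :=
  le_ciSup (f := fun l => ‖(e l : K)‖) (Set.finite_range _).bddAbove l

omit [CompleteSpace K] [Finite σ] in
theorem supn_nonneg (e : σ → Ob K) : 0 ≤ supn e := Real.iSup_nonneg fun _ => norm_nonneg _

omit [CompleteSpace K] in
theorem supn_lt_one {e : σ → Ob K} (he : ∀ l, ‖e l‖ < 1) : supn e < 1 := by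
  rcases isEmpty_or_nonempty σ with h | h
  · unfold supn
    rw [Real.iSup_of_isEmpty]
    exact zero_lt_one
  · obtain ⟨l, hl⟩ := exists_eq_ciSup_of_finite (f := fun l => ‖(e l : K)‖)
    unfold supn
    rw [← hl]
    exact he l

omit [CompleteSpace K] [Fintype κ] in
theorem norm_map_le_one (a : κ) : ‖(ι a : K)‖ ≤ 1 := (ι a).2

/-- **descent**: from good approximations over `K` (at all `Q^s`-powers) to a series over `κ`
vanishing on `EE`. -/
theorem desc_gen (EE : Set (σ → Ob K)) (hEE : ∀ e ∈ EE, ∀ l, ‖e l‖ < 1) (I₀ : σ →₀ ℕ)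
    (h : ∀ N : ℕ, ∃ D : ℕ, N ≤ D ∧ ∃ P : MvPolynomial σ K, P.coeff I₀ ≠ 0 ∧
      ∀ e ∈ EE, ∃ B : ℝ, 0 ≤ B ∧ ∃ s₀ : ℕ, ∀ s, s₀ ≤ s →
        ‖MvPolynomial.eval (fun l => (e l : K) ^ (Fintype.card κ ^ s)) P‖
          ≤ B * (supn e ^ D) ^ (Fintype.card κ ^ s)) :
    ∃ G : MvPowerSeries σ κ, coeff I₀ G ≠ 0 ∧ ∀ e ∈ EE, ev e (G.map ι) = 0 := by
  letI : Algebra κ K := ((Ob K).subtype.comp ι).toAlgebra
  have halg : ∀ a : κ, algebraMap κ K a = (ι a : K) := fun a => rfl
  let EE' : Set (σ → K) := {x | ∃ e ∈ EE, x = fun l => (e l : K)}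
  let δ : (σ → K) → ℝ := fun x => ⨆ l, ‖x l‖
  have hδ : ∀ x, 0 ≤ δ x := fun x => Real.iSup_nonneg fun _ => norm_nonneg _
  obtain ⟨G, hG, hG'⟩ := desc_compact (κ := κ) EE' δ hδ I₀ (by
    intro N
    obtain ⟨D, hD, P, hP, hPe⟩ := h N
    refine ⟨D, hD, P, hP, ?_⟩
    rintro _ ⟨e, he, rfl⟩
    exact hPe e he)
  refine ⟨G, hG, fun e he => ?_⟩
  have hlt := hEE e he
  have htn : ∀ l, IsTopologicallyNilpotent (e l) := fun l => (Ob_tn_iff _).2 (hlt l)
  have hs1 := supn_lt_one hlt
  have hs0 := supn_nonneg e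
  have key : ∀ N : ℕ, ‖ev e (G.map ι)‖ ≤ supn e ^ N := by
    intro N
    obtain ⟨D, hD, G', hGG, hGe⟩ := hG' N
    have e1 : ev e (G.map ι) = ev e (G.map ι - ((G'.map ι : MvPolynomial σ (Ob K)) :
        MvPowerSeries σ (Ob K))) + ev e ((G'.map ι : MvPolynomial σ (Ob K)) :
        MvPowerSeries σ (Ob K)) := by
      rw [ev_sub htn]; ring
    rw [e1]
    have b1 : ‖ev e (G.map ι - ((G'.map ι : MvPolynomial σ (Ob K)) :
        MvPowerSeries σ (Ob K)))‖ ≤ supn e ^ N := by
      refine norm_ev_le_pow hlt (supn e) hs0 (norm_le_supn e) N _ fun d hd => ?_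
      rw [map_sub, coeff_map, MvPolynomial.coeff_coe, MvPolynomial.coeff_map, hGG d hd, sub_self]
    have b2 : ‖ev e ((G'.map ι : MvPolynomial σ (Ob K)) : MvPowerSeries σ (Ob K))‖
        ≤ supn e ^ N := by
      rw [ev_coe htn]
      have h1 := hGe (fun l => (e l : K)) ⟨e, he, rfl⟩
      have h2 : ((MvPolynomial.eval e (G'.map ι) : Ob K) : K)
          = MvPolynomial.aeval (fun l => (e l : K)) G' := by
        rw [MvPolynomial.eval_map, MvPolynomial.aeval_def]
        have := MvPolynomial.eval₂_comp_left (Ob K).subtype ι e G'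
        exact this
      have h3 : ‖MvPolynomial.eval e (G'.map ι)‖ = ‖MvPolynomial.aeval (fun l => (e l : K)) G'‖ := by
        rw [← h2]; rfl
      rw [h3]
      exact h1.trans (pow_le_pow_of_le_one hs0 hs1.le hD)
    have h4 : ‖(ev e (G.map ι - ((G'.map ι : MvPolynomial σ (Ob K)) :
        MvPowerSeries σ (Ob K))) + ev e ((G'.map ι : MvPolynomial σ (Ob K)) :
        MvPowerSeries σ (Ob K)) : Ob K)‖ ≤ max _ _ :=
      IsUltrametricDist.norm_add_le_max
        ((ev e (G.map ι - ((G'.map ι : MvPolynomial σ (Ob K)) :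
        MvPowerSeries σ (Ob K))) : Ob K) : K) ((ev e ((G'.map ι : MvPolynomial σ (Ob K)) :
        MvPowerSeries σ (Ob K)) : Ob K) : K)
    exact h4.trans (max_le b1 b2)
  have h0 : ‖ev e (G.map ι)‖ ≤ 0 :=
    ge_of_tendsto' (tendsto_pow_atTop_nhds_zero_of_lt_one hs0 hs1) key
  exact norm_le_zero_iff.1 h0

/-- **exact descent**: if a series `F` over the ball vanishes on a set stable under `x ↦ x^Q`, then
for every nonzero coefficient `I₀` of `F` there is a series over `κ` with nonzero coefficient `I₀`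
vanishing on the set. -/
theorem desc_exact (EE : Set (σ → Ob K)) (hEE : ∀ e ∈ EE, ∀ l, ‖e l‖ < 1)
    (hfrob : ∀ e ∈ EE, (fun l => e l ^ Fintype.card κ) ∈ EE)
    (F : MvPowerSeries σ (Ob K)) (I₀ : σ →₀ ℕ) (hI₀ : coeff I₀ F ≠ 0)
    (hF : ∀ e ∈ EE, ev e F = 0) :
    ∃ G : MvPowerSeries σ κ, coeff I₀ G ≠ 0 ∧ ∀ e ∈ EE, ev e (G.map ι) = 0 := by
  classical
  apply desc_gen ι EE hEE I₀
  intro N
  let D := max N (I₀.degree + 1)
  let P₀ : MvPolynomial σ (Ob K) := truncTotal D F
  have hP₀ : ∀ d : σ →₀ ℕ, MvPolynomial.coeff d P₀ = if d.degree < D then coeff d F else 0 :=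
    fun d => coeff_truncTotal_eq_ite F
  refine ⟨D, le_max_left _ _, P₀.map (Ob K).subtype, ?_, ?_⟩
  · rw [MvPolynomial.coeff_map, hP₀, if_pos (lt_of_lt_of_le (Nat.lt_succ_self _) (le_max_right _ _))]
    intro h0
    exact hI₀ (Subtype.ext h0)
  · intro e he
    refine ⟨1, zero_le_one, 0, fun s _ => ?_⟩
    have hpow : ∀ s : ℕ, (fun l => e l ^ Fintype.card κ ^ s) ∈ EE := by
      intro s
      induction s with
      | zero => simpa using he
      | succ s ih =>
        have := hfrob _ ih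
        have h2 : (fun l => e l ^ Fintype.card κ ^ (s + 1))
            = fun l => (e l ^ Fintype.card κ ^ s) ^ Fintype.card κ := by
          funext l; rw [← pow_mul, pow_succ]
        rw [h2]; exact this
    have hes := hpow s
    have hlt := hEE _ hes
    have htn : ∀ l, IsTopologicallyNilpotent (e l ^ Fintype.card κ ^ s) :=
      fun l => (Ob_tn_iff _).2 (hlt l)
    have h1 := hF _ hes
    have h2 : ‖ev (fun l => e l ^ Fintype.card κ ^ s) (F - (P₀ : MvPowerSeries σ (Ob K)))‖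
        ≤ (supn e ^ (Fintype.card κ ^ s)) ^ D := by
      refine norm_ev_le_pow hlt _ (pow_nonneg (supn_nonneg e) _) (fun l => ?_) D _ fun d hd => ?_
      · have : ‖(e l ^ Fintype.card κ ^ s : Ob K)‖ = ‖(e l : K)‖ ^ (Fintype.card κ ^ s) := by
          change ‖((e l ^ Fintype.card κ ^ s : Ob K) : K)‖ = _
          rw [Subring.coe_pow, norm_pow]
        rw [this]
        exact pow_le_pow_left₀ (norm_nonneg _) (norm_le_supn e l) _
      · rw [map_sub, MvPolynomial.coeff_coe, hP₀, if_pos hd, sub_self]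
    rw [ev_sub htn, h1, zero_sub, norm_neg, ev_coe htn] at h2
    have h3 : MvPolynomial.eval (fun l => (e l : K) ^ (Fintype.card κ ^ s))
        (P₀.map (Ob K).subtype)
        = ((MvPolynomial.eval (fun l => e l ^ Fintype.card κ ^ s) P₀ : Ob K) : K) := by
      rw [MvPolynomial.eval_map]
      have := MvPolynomial.eval₂_comp_left (Ob K).subtype (RingHom.id (Ob K))
        (fun l => e l ^ Fintype.card κ ^ s) P₀
      rw [MvPolynomial.eval₂_id] at this
      rw [RingHom.comp_id] at this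
      exact this.symm
    rw [h3, one_mul, ← pow_mul, mul_comm D, pow_mul]
    exact h2

end Descent
end Crest.Agent.R227
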