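import Mathlib

/-!
Row 227 (S0351): Frobenius descent (helper251).

`κ` is a finite field with `Q` elements, `C` an ultrametric normed field containing `κ`.
-/

set_option autoImplicit false

open Finsupp Filter Topology

namespace Crest.Agent.R227
namespace Descent

section sep

variable {κ C : Type*} [Field κ] [Fintype κ] [NormedField C] [Algebra κ C]

/-- elements `x` with `x ^ Q = x` lie in `κ` -/
theorem mem_range_of_pow_card {x : C} (hx : x ^ Fintype.card κ = x) :
    ∃ a : κ, algebraMap κ C a = x := by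
  classical
  by_contra hcon
  push Not at hcon
  have hq : 1 < Fintype.card κ := Fintype.one_lt_card
  let P : Polynomial C := Polynomial.X ^ Fintype.card κ - Polynomial.X
  have hP0 : P ≠ 0 := FiniteField.X_pow_card_sub_X_ne_zero C hq
  have hdeg : P.natDegree = Fintype.card κ := FiniteField.X_pow_card_sub_X_natDegree_eq C hq
  let S : Finset C := insert x (Finset.univ.image (algebraMap κ C))
  have hS : S ⊆ P.roots.toFinset := by
    intro y hy
    rw [Multiset.mem_toFinset, Polynomial.mem_roots hP0]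
    simp only [P, Polynomial.IsRoot.def, Polynomial.eval_sub, Polynomial.eval_pow,
      Polynomial.eval_X]
    rcases Finset.mem_insert.1 hy with rfl | hy
    · rw [hx, sub_self]
    · obtain ⟨a, -, rfl⟩ := Finset.mem_image.1 hy
      rw [← map_pow, FiniteField.pow_card, sub_self]
  have h1 : S.card = Fintype.card κ + 1 := by
    rw [Finset.card_insert_of_notMem, Finset.card_image_of_injective _ (algebraMap κ C).injective,
      Finset.card_univ]
    simp only [Finset.mem_image, Finset.mem_univ, true_and, not_exists]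
    exact hcon
  have h2 : S.card ≤ Fintype.card κ := by
    calc S.card ≤ P.roots.toFinset.card := Finset.card_le_card hS
      _ ≤ Multiset.card P.roots := Multiset.toFinset_card_le _
      _ ≤ P.natDegree := Polynomial.card_roots' P
      _ = _ := hdeg
  omega

/-- the `κ`-linear map `x ↦ b^(Q-1) x - x^Q` -/
noncomputable def elim (κ : Type*) {C : Type*} [Field κ] [Fintype κ] [NormedField C]
    [Algebra κ C] (b : C) : C →ₗ[κ] C :=
  LinearMap.mulLeft κ (b ^ (Fintype.card κ - 1)) - (FiniteField.frobeniusAlgHom κ C).toLinearMap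

theorem elim_apply (b x : C) :
    elim κ b x = b ^ (Fintype.card κ - 1) * x - x ^ Fintype.card κ := rfl

theorem ker_elim {b : C} (hb : b ≠ 0) {x : C} (hx : elim κ b x = 0) :
    ∃ a : κ, x = a • b := by
  rw [elim_apply, sub_eq_zero] at hx
  have hq : 1 < Fintype.card κ := Fintype.one_lt_card
  have h1 : (x / b) ^ Fintype.card κ = x / b := by
    rw [div_pow, ← hx]
    obtain ⟨n, hn⟩ : ∃ n, Fintype.card κ = n + 1 := ⟨Fintype.card κ - 1, by omega⟩
    rw [hn, Nat.add_sub_cancel, pow_succ]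
    field_simp
  obtain ⟨a, ha⟩ := mem_range_of_pow_card (κ := κ) h1
  refine ⟨a, ?_⟩
  rw [Algebra.smul_def, ha]
  field_simp

theorem pow_card_pow_sum {ι : Type*} (s : Finset ι) (f : ι → C) (n : ℕ) :
    (∑ i ∈ s, f i) ^ (Fintype.card κ ^ n) = ∑ i ∈ s, f i ^ (Fintype.card κ ^ n) := by
  induction n with
  | zero => simp
  | succ n ih =>
    rw [pow_succ, pow_mul, ih]
    have := map_sum (FiniteField.frobeniusAlgHom κ C) (fun i => f i ^ (Fintype.card κ ^ n)) s
    simp only [FiniteField.coe_frobeniusAlgHom] at this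
    rw [this]
    refine Finset.sum_congr rfl fun i _ => ?_
    rw [pow_mul]

variable [IsUltrametricDist C]

theorem norm_sub_le_max' (x y : C) : ‖x - y‖ ≤ max ‖x‖ ‖y‖ := by
  rw [sub_eq_add_neg, ← norm_neg y]
  exact IsUltrametricDist.norm_add_le_max x (-y)

/-- **separation of Frobenius powers** -/
theorem sep : ∀ (m : ℕ) (b g : Fin m → C) (_ : LinearIndependent κ b) (K δ : ℝ) (s₀ : ℕ),
    0 ≤ K → 0 ≤ δ →
    (∀ s, s₀ ≤ s → ‖∑ j, b j * g j ^ (Fintype.card κ ^ s)‖ ≤ K * δ ^ (Fintype.card κ ^ s)) →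
    ∀ j, ‖g j‖ ≤ δ := by
  intro m
  induction m with
  | zero => intro b g _ K δ s₀ _ _ _ j; exact j.elim0
  | succ m ih =>
    intro b g hb K δ s₀ hK hδ h
    set Q := Fintype.card κ with hQ
    have hq : 1 < Q := Fintype.one_lt_card
    rw [linearIndependent_finSucc] at hb
    obtain ⟨hb1, hb2⟩ := hb
    have hb0 : b 0 ≠ 0 := by
      intro h0
      exact hb2 (h0 ▸ Submodule.zero_mem _)
    -- eliminate `b 0`
    have hind : LinearIndependent κ (fun j : Fin m => elim κ (b 0) (b j.succ)) := by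
      have : LinearIndependent κ (elim κ (b 0) ∘ Fin.tail b) := by
        apply hb1.map
        rw [Submodule.disjoint_def]
        intro x hx1 hx2
        obtain ⟨a, rfl⟩ := ker_elim hb0 hx2
        rcases eq_or_ne a 0 with rfl | ha
        · simp
        · exfalso
          apply hb2
          have := Submodule.smul_mem _ a⁻¹ hx1
          rwa [smul_smul, inv_mul_cancel₀ ha, one_smul] at this
      exact this
    let K' := max (‖b 0‖ ^ (Q - 1) * K) (K ^ Q)
    have hK' : 0 ≤ K' := le_max_of_le_right (pow_nonneg hK _)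
    have key : ∀ j : Fin m, ‖g j.succ‖ ≤ δ := by
      apply ih (fun j => elim κ (b 0) (b j.succ)) (fun j => g j.succ) hind K' δ (s₀ + 1) hK' hδ
      intro s hs
      obtain ⟨t, rfl⟩ : ∃ t, s = t + 1 := ⟨s - 1, by omega⟩
      have ht : s₀ ≤ t := by omega
      have h1 := h (t + 1) (by omega)
      have h2 := h t ht
      have e1 : ∑ j : Fin m, elim κ (b 0) (b j.succ) * g j.succ ^ Q ^ (t + 1)
          = b 0 ^ (Q - 1) * (∑ j, b j * g j ^ Q ^ (t + 1)) - (∑ j, b j * g j ^ Q ^ t) ^ Q := by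
        have e2 : (∑ j, b j * g j ^ Q ^ t) ^ Q = ∑ j, b j ^ Q * g j ^ Q ^ (t + 1) := by
          have := pow_card_pow_sum (κ := κ) Finset.univ (fun j => b j * g j ^ Q ^ t) 1
          rw [pow_one] at this
          rw [this]
          refine Finset.sum_congr rfl fun j _ => ?_
          rw [mul_pow, ← pow_mul, pow_succ]
        rw [e2, Finset.mul_sum, ← Finset.sum_sub_distrib, Fin.sum_univ_succ]
        have e3 : b 0 ^ (Q - 1) * (b 0 * g 0 ^ Q ^ (t + 1)) - b 0 ^ Q * g 0 ^ Q ^ (t + 1) = 0 := by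
          rw [← mul_assoc, ← pow_succ, Nat.sub_add_cancel hq.le, sub_self]
        rw [e3, zero_add]
        refine Finset.sum_congr rfl fun j _ => ?_
        rw [elim_apply]
        ring
      rw [e1]
      refine (norm_sub_le_max' _ _).trans ?_
      apply max_le
      · rw [norm_mul, norm_pow]
        calc ‖b 0‖ ^ (Q - 1) * ‖∑ j, b j * g j ^ Q ^ (t + 1)‖
            ≤ ‖b 0‖ ^ (Q - 1) * (K * δ ^ Q ^ (t + 1)) := by gcongr
          _ = (‖b 0‖ ^ (Q - 1) * K) * δ ^ Q ^ (t + 1) := by ring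
          _ ≤ K' * δ ^ Q ^ (t + 1) := by
            gcongr
            exact le_max_left _ _
      · rw [norm_pow]
        calc ‖∑ j, b j * g j ^ Q ^ t‖ ^ Q ≤ (K * δ ^ Q ^ t) ^ Q := by gcongr
          _ = K ^ Q * δ ^ Q ^ (t + 1) := by rw [mul_pow, ← pow_mul, pow_succ]
          _ ≤ K' * δ ^ Q ^ (t + 1) := by
            gcongr
            exact le_max_right _ _
    -- now the index `0`
    have h0 : ‖g 0‖ ≤ δ := by
      by_contra hlt
      push Not at hlt
      let K₂ := max K (∑ j : Fin m, ‖b j.succ‖)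
      have hK₂ : 0 ≤ K₂ := le_max_of_le_left hK
      have h3 : ∀ s, s₀ ≤ s → ‖b 0‖ * ‖g 0‖ ^ (Q ^ s) ≤ K₂ * δ ^ (Q ^ s) := by
        intro s hs
        have e : b 0 * g 0 ^ (Q ^ s)
            = (∑ j, b j * g j ^ (Q ^ s)) - ∑ j : Fin m, b j.succ * g j.succ ^ (Q ^ s) := by
          rw [Fin.sum_univ_succ]; ring
        rw [← norm_pow, ← norm_mul, e]
        refine (norm_sub_le_max' _ _).trans (max_le ?_ ?_)
        · refine (h s hs).trans ?_
          gcongr
          exact le_max_left _ _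
        · refine (norm_sum_le _ _).trans ?_
          calc ∑ j : Fin m, ‖b j.succ * g j.succ ^ (Q ^ s)‖
              ≤ ∑ j : Fin m, ‖b j.succ‖ * δ ^ (Q ^ s) := by
                apply Finset.sum_le_sum
                intro j _
                rw [norm_mul, norm_pow]
                gcongr
                exact key j
            _ = (∑ j : Fin m, ‖b j.succ‖) * δ ^ (Q ^ s) := by rw [Finset.sum_mul]
            _ ≤ K₂ * δ ^ (Q ^ s) := by
              gcongr
              exact le_max_right _ _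
      have hb0' : 0 < ‖b 0‖ := norm_pos_iff.2 hb0
      have hg0 : 0 < ‖g 0‖ := lt_of_le_of_lt hδ hlt
      -- ‖b 0‖ ≤ K₂ (δ/‖g 0‖)^(Q^s) → 0
      have h4 : ∀ s, s₀ ≤ s → ‖b 0‖ ≤ K₂ * (δ / ‖g 0‖) ^ (Q ^ s) := by
        intro s hs
        have := h3 s hs
        rw [div_pow, ← mul_div_assoc, le_div_iff₀ (pow_pos hg0 _)]
        exact this
      have hr : δ / ‖g 0‖ < 1 := (div_lt_one hg0).2 hlt
      have hr0 : 0 ≤ δ / ‖g 0‖ := div_nonneg hδ hg0.le
      have h5 : Tendsto (fun s : ℕ => K₂ * (δ / ‖g 0‖) ^ (Q ^ s)) atTop (𝓝 (K₂ * 0)) := by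
        apply Tendsto.const_mul
        exact (tendsto_pow_atTop_nhds_zero_of_lt_one hr0 hr).comp
          (tendsto_pow_atTop_atTop_of_one_lt hq)
      rw [mul_zero] at h5
      have h6 : ‖b 0‖ ≤ 0 := by
        apply ge_of_tendsto h5
        filter_upwards [eventually_ge_atTop s₀] with s hs using h4 s hs
      linarith
    intro j
    refine Fin.cases h0 (fun i => key i) j

/-- **polynomial descent**: if a polynomial `P` over `C` is small at all `e ^ (Q ^ s)`, then some
polynomial over `κ` is small at `e`. -/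
theorem desc_poly {σ : Type*} (EE : Set (σ → C)) (δ : (σ → C) → ℝ) (hδ : ∀ e, 0 ≤ δ e)
    (P : MvPolynomial σ C) (I₀ : σ →₀ ℕ) (hI₀ : P.coeff I₀ ≠ 0)
    (h : ∀ e ∈ EE, ∃ K : ℝ, 0 ≤ K ∧ ∃ s₀ : ℕ, ∀ s, s₀ ≤ s →
      ‖MvPolynomial.eval (fun l => e l ^ (Fintype.card κ ^ s)) P‖
        ≤ K * δ e ^ (Fintype.card κ ^ s)) :
    ∃ G : MvPolynomial σ κ, G.coeff I₀ ≠ 0 ∧ G.support ⊆ P.support ∧
      ∀ e ∈ EE, ‖MvPolynomial.aeval e G‖ ≤ δ e := by
  classical
  let W : Submodule κ C := Submodule.span κ (P.support.image P.coeff : Set C)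
  have hW : Module.Finite κ W := by
    apply Module.Finite.span_of_finite
    exact Finset.finite_toSet _
  let b := Module.finBasis κ W
  have hmem : ∀ I ∈ P.support, P.coeff I ∈ W := fun I hI =>
    Submodule.subset_span (by simpa using ⟨I, (MvPolynomial.mem_support_iff.1 hI), rfl⟩)
  let c : (σ →₀ ℕ) → W := fun I => if hI : I ∈ P.support then ⟨P.coeff I, hmem I hI⟩ else 0
  have hc : ∀ I ∈ P.support, ((c I : W) : C) = P.coeff I := fun I hI => by
    simp only [c, dif_pos hI]
  let G : Fin (Module.finrank κ W) → MvPolynomial σ κ := fun j =>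
    ∑ I ∈ P.support, MvPolynomial.monomial I (b.repr (c I) j)
  have hG : ∀ j I, I ∈ P.support → (G j).coeff I = b.repr (c I) j := by
    intro j I hI
    simp only [G, MvPolynomial.coeff_sum, MvPolynomial.coeff_monomial]
    rw [Finset.sum_ite_eq' P.support I, if_pos hI]
  have hG' : ∀ j I, I ∉ P.support → (G j).coeff I = 0 := by
    intro j I hI
    simp only [G, MvPolynomial.coeff_sum, MvPolynomial.coeff_monomial]
    rw [Finset.sum_ite_eq' P.support I, if_neg hI]
  have hsupp : ∀ j, (G j).support ⊆ P.support := by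
    intro j I hI
    by_contra hcon
    exact (MvPolynomial.mem_support_iff.1 hI) (hG' j I hcon)
  -- evaluation
  have hcexp : ∀ I ∈ P.support, P.coeff I = ∑ j, (b.repr (c I) j) • ((b j : W) : C) := by
    intro I hI
    rw [← hc I hI]
    have := congrArg (fun w : W => (w : C)) (b.sum_repr (c I))
    simp only [AddSubmonoidClass.coe_finset_sum, SetLike.val_smul] at this
    exact this.symm
  have heval : ∀ (e : σ → C) (s : ℕ),
      MvPolynomial.eval (fun l => e l ^ (Fintype.card κ ^ s)) P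
        = ∑ j, ((b j : W) : C) * (MvPolynomial.aeval e (G j)) ^ (Fintype.card κ ^ s) := by
    intro e s
    have e1 : ∀ j, (MvPolynomial.aeval e (G j)) ^ (Fintype.card κ ^ s)
        = ∑ I ∈ P.support, algebraMap κ C (b.repr (c I) j)
            * I.prod fun l k => (e l ^ (Fintype.card κ ^ s)) ^ k := by
      intro j
      simp only [G, map_sum, MvPolynomial.aeval_monomial]
      rw [pow_card_pow_sum]
      refine Finset.sum_congr rfl fun I _ => ?_
      rw [mul_pow, ← map_pow, FiniteField.pow_card_pow]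
      congr 1
      rw [Finsupp.prod, Finsupp.prod, ← Finset.prod_pow]
      refine Finset.prod_congr rfl fun l _ => ?_
      rw [← pow_mul, ← pow_mul, mul_comm]
    rw [MvPolynomial.eval_eq]
    simp only [e1, Finset.mul_sum]
    rw [Finset.sum_comm]
    refine Finset.sum_congr rfl fun I hI => ?_
    rw [hcexp I hI, Finset.sum_mul]
    refine Finset.sum_congr rfl fun j _ => ?_
    rw [Algebra.smul_def, Finsupp.prod]
    ring
  have hind : LinearIndependent κ (fun j => ((b j : W) : C)) :=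
    b.linearIndependent.map' W.subtype (Submodule.ker_subtype W)
  -- choose `j`
  have hI₀' : I₀ ∈ P.support := MvPolynomial.mem_support_iff.2 hI₀
  obtain ⟨j, hj⟩ : ∃ j, b.repr (c I₀) j ≠ 0 := by
    by_contra hcon
    push Not at hcon
    apply hI₀
    rw [hcexp I₀ hI₀']
    simp [hcon]
  refine ⟨G j, ?_, hsupp j, ?_⟩
  · rw [hG j I₀ hI₀']
    exact hj
  · intro e he
    obtain ⟨K, hK, s₀, hs⟩ := h e he
    refine sep _ (fun j => ((b j : W) : C)) (fun j => MvPolynomial.aeval e (G j)) hind K (δ e) s₀ hK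
      (hδ e) ?_ j
    intro s hss
    rw [← heval]
    exact hs s hss

/-- **descent, compactness step** -/
theorem desc_compact {σ : Type*} [Finite σ] (EE : Set (σ → C)) (δ : (σ → C) → ℝ)
    (hδ : ∀ e, 0 ≤ δ e) (I₀ : σ →₀ ℕ)
    (h : ∀ N : ℕ, ∃ D : ℕ, N ≤ D ∧ ∃ P : MvPolynomial σ C, P.coeff I₀ ≠ 0 ∧
      ∀ e ∈ EE, ∃ K : ℝ, 0 ≤ K ∧ ∃ s₀ : ℕ, ∀ s, s₀ ≤ s →
        ‖MvPolynomial.eval (fun l => e l ^ (Fintype.card κ ^ s)) P‖
          ≤ K * (δ e ^ D) ^ (Fintype.card κ ^ s)) :
    ∃ G : MvPowerSeries σ κ, MvPowerSeries.coeff I₀ G ≠ 0 ∧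
      ∀ N : ℕ, ∃ D : ℕ, N ≤ D ∧ ∃ G' : MvPolynomial σ κ,
        (∀ I : σ →₀ ℕ, I.degree < N → MvPowerSeries.coeff I G = G'.coeff I) ∧
        ∀ e ∈ EE, ‖MvPolynomial.aeval e G'‖ ≤ δ e ^ D := by
  classical
  choose D hD P hP hPe using h
  have hex : ∀ N, ∃ G : MvPolynomial σ κ, G.coeff I₀ ≠ 0 ∧ G.support ⊆ (P N).support ∧
      ∀ e ∈ EE, ‖MvPolynomial.aeval e G‖ ≤ δ e ^ D N := fun N =>
    desc_poly EE (fun e => δ e ^ D N) (fun e => pow_nonneg (hδ e) _) (P N) I₀ (hP N) (hPe N)
  choose G hG _ hGe using hex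
  let u : Ultrafilter ℕ := Filter.hyperfilter ℕ
  have hu : (u : Filter ℕ) ≤ atTop := Nat.hyperfilter_le_atTop
  have hlim : ∀ I : σ →₀ ℕ, ∃ a : κ, ∀ᶠ N in (u : Filter ℕ), (G N).coeff I = a := by
    intro I
    obtain ⟨a, ha⟩ := Ultrafilter.eq_pure_of_finite (u.map fun N => (G N).coeff I)
    refine ⟨a, ?_⟩
    have : ({a} : Set κ) ∈ (u.map fun N => (G N).coeff I) := by
      rw [ha]; exact Set.mem_singleton a
    exact this
  choose a ha using hlim
  refine ⟨a, ?_, ?_⟩
  · obtain ⟨N, hN⟩ := (ha I₀).exists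
    show a I₀ ≠ 0
    rw [← hN]
    exact hG N
  · intro N
    have hfin : {I : σ →₀ ℕ | I.degree < N}.Finite :=
      (Finsupp.finite_of_degree_le N).subset fun I (hI : I.degree < N) => (hI.le : I.degree ≤ N)
    have h1 : ∀ᶠ M in (u : Filter ℕ), ∀ I ∈ {I : σ →₀ ℕ | I.degree < N}, (G M).coeff I = a I := by
      rw [Filter.eventually_all_finite hfin]
      exact fun I _ => ha I
    have h2 : ∀ᶠ M in (u : Filter ℕ), N ≤ M := hu (eventually_ge_atTop N)
    obtain ⟨M, hM1, hM2⟩ := (h1.and h2).exists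
    exact ⟨D M, hM2.trans (hD M), G M, fun I hI => (hM1 I hI).symm, hGe M⟩

end sep

end Descent
end Crest.Agent.R227
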