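import Crest.Agent.R227.CoApprox
import Crest.Agent.R227.CoRel
import Crest.Agent.R227.CoEnd

/-!
# R227 / Dh (task DH): assembly of `thmDh` from the files `Co*.lean`
-/

set_option autoImplicit false

noncomputable section

namespace Crest.Agent.R227

open Crest.LubinTate MvPowerSeries Topology

/-- there is no relation between the `θ(A t_l)` -/
theorem no_relation {p : ℕ} [Fact p.Prime] {n h : ℕ}
    {K : Type} [NontriviallyNormedField K] [IsUltrametricDist K] [CompleteSpace K]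
    [IsAlgClosed K] [CharP K p] (h1 : 1 ≤ h) (hh : h < n) {ι : GaloisField p n →+* Ob K}
    (x : Mk p n h K ι) {ψ : PowerSeries (Ob K)} (hψ : IsFGHom x.P.F (HO p n h (Ob K)) ψ)
    (hψ1 : PowerSeries.coeff 1 ψ ≠ 0) (l0 : Fin (n - h))
    (A : Fin (n - h) → (FPt (HO p n h (Ob K)) →+ FPt (HO p n h (Ob K))))
    (hA : ∀ l, IsQEnd (A l))
    (hrel : ∀ e ∈ EEset x hψ, e l0 = ∑ l ∈ Finset.univ.erase l0, A l (e l)) : False := by
  obtain ⟨δ, hδ, ht⟩ := x.ht.lower h1 hh x.hρ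
  refine witt_contradiction h1 hh x.t δ hδ ht ((FPt.hom hψ).comp x.ρ)
    ((psi_surjective h1 hh hψ hψ1).comp (x.hρ.surjective h1 hh))
    (hasExp_of_hom h1 hh x.P x.hρ hψ) l0 A hA ?_ ?_
  · intro l
    obtain ⟨φ, hφ, -, hφA⟩ := hA l
    have hcomp := IsFGHom.comp hψ hφ
    have := hasExp_of_hom h1 hh x.P x.hρ hcomp
    convert this using 1
    ext z
    rw [AddMonoidHom.comp_apply, AddMonoidHom.comp_apply, AddMonoidHom.comp_apply, hφA]
    rw [FPt.hom_val, FPt.hom_val]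
    exact congrArg Subtype.val (ev₁_subst (x.ρ z).tn ψ hψ.1 φ).symm
  · intro b hb j bt hbt
    obtain ⟨a, ha, hav⟩ := exists_isAct_smul (ι := ι) (by omega : 1 ≤ n) b hb j
    have hbt' : ∀ l, bt l = a (x.t l) := fun l => FPt.ext (by rw [hbt, hav])
    have := hrel (fun l => FPt.hom hψ (x.ρ (a (x.t l)))) ⟨a, ha, fun l => rfl⟩
    simpa only [AddMonoidHom.comp_apply, hbt'] using this

variable (p : ℕ) [Fact p.Prime] (n : ℕ)

theorem thmDh (hn : 1 ≤ n) (hU : IsUniversalDeformation p n (Fn p n) (H1 p n)) (M : ℕ)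
    (hM : 1 ≤ M) (h : ℕ) (h1 : 1 ≤ h) (hh : h < n)
    (K : Type) [NontriviallyNormedField K] [IsUltrametricDist K] [CompleteSpace K]
    [IsAlgClosed K] [CharP K p] (X : LTRing p n →+* Ob K)
    (hX : ∀ a, LTRing.residue p n a = 0 → ‖X a‖ < 1)
    (hXI : ∀ a ∈ II p n h, X a = 0) (hXh : X (uu p n h) ≠ 0) (f : LTRing p n)
    (hf : ∀ φ, IsStab p n M φ → X (φ f) = 0) : f ∈ II p n h := by
  by_contra hfI
  let P : HPoint p n h K := ⟨X, hX, hXI, hXh⟩
  obtain ⟨ι, hι⟩ := exists_iota P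
  obtain ⟨ρ, hρ⟩ := exists_rho h1 hh P
  obtain ⟨t, ht⟩ := exists_tbasis h1 hh hρ
  let x : Mk p n h K ι := ⟨P, hι, ρ, hρ, t, ht⟩
  obtain ⟨ψ, hψ, hψ1⟩ := exists_psi_point h1 hh P
  have hap := approxPoly hn hU h1 hh hM x hψ hψ1 f hfI hf
  obtain ⟨r, hr, hb⟩ := EEset_bound h1 hh x hψ
  obtain ⟨l0, A, hA, hrel⟩ := circuit h1 hh (EEsub x hψ) r hr hb hap
  exact no_relation h1 hh x hψ hψ1 l0 A hA hrel

end Crest.Agent.R227
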