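import Crest.Agent.R227.TopDefs

/-!
# R227 / DhDefs : objects for the characteristic p part (height h stratum)
-/

set_option autoImplicit false

noncomputable section

namespace Crest.Agent.R227

open Crest.LubinTate MvPowerSeries Topology Filter

section

variable (p : ℕ) [Fact p.Prime] (n h : ℕ)

/-- The law with `u_i = 0` for `i < h`, `u_{h+i} = z i`, `u_n = 1`. -/
abbrev Hx {R : Type*} [CommRing R] (z : Fin (n - h) → R) : FormalGroup R := hz p n (pt n h z)

/-- The series `V` with `[p](X) = V(X^{p^h})` (char. `p`). -/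
abbrev Vz {R : Type*} [CommRing R] (z : Fin (n - h) → R) : PowerSeries R :=
  Vs p n h (pt n h z)

/-- The reference law of height `h` (over any ring): `[p](X) = X^{p^h}` in characteristic `p`. -/
abbrev Fh (R : Type*) [CommRing R] : FormalGroup R := hz p n (sp h)

/-- applying a power series without constant term to a point -/
def apS {S : Type*} [CommRing S] [UniformSpace S] [IsUniformAddGroup S] [IsTopologicalRing S]
    [IsLinearTopology S S] [CompleteSpace S] [T2Space S] {F : FormalGroup S} (G : FormalGroup S)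
    (α : PowerSeries S) (h0 : PowerSeries.constantCoeff α = 0) (P : FPt F) : FPt G :=
  ⟨ev₁ P.val α, by
    refine ev_tn (fun _ => P.tn) _ ?_
    have : (MvPowerSeries.constantCoeff α : S) = 0 := h0
    rw [this]; exact IsTopologicallyNilpotent.zero⟩

@[simp] theorem apS_val {S : Type*} [CommRing S] [UniformSpace S] [IsUniformAddGroup S]
    [IsTopologicalRing S] [IsLinearTopology S S] [CompleteSpace S] [T2Space S]
    {F : FormalGroup S} (G : FormalGroup S) (α : PowerSeries S)
    (h0 : PowerSeries.constantCoeff α = 0) (P : FPt F) :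
    (apS G α h0 P).val = ev₁ P.val α := rfl

/-- a series with coefficients in `F_p` evaluated in a ring of characteristic `p` -/
def chiEv {ι : Type*} {S : Type*} [CommRing S] [UniformSpace S] [CharP S p]
    (χ : MvPowerSeries ι (ZMod p)) (y : ι → S) : S :=
  ev y (χ.map (ZMod.castHom (dvd_refl p) S))

section K

variable {K : Type*} [NontriviallyNormedField K] [IsUltrametricDist K] [CompleteSpace K]

/-- A basis of the Tate module of the étale part of `Hx z`. -/
structure Tower (z : Fin (n - h) → Ob K) where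
  w : ℕ → Fin (n - h) → FPt (Hx p n h z)
  w_zero : ∀ l, w 0 l = 0
  w_succ : ∀ m l, p • w (m + 1) l = w m l
  indep : ∀ c : Fin (n - h) → ℤ, ∑ l, c l • w 1 l = 0 → ∀ l, (p : ℤ) ∣ c l

/-- level `p^m` structure on the étale part -/
def IsLvl (z : Fin (n - h) → Ob K) (m : ℕ) (w : Fin (n - h) → FPt (Hx p n h z)) : Prop :=
  (∀ l, p ^ m • w l = 0) ∧
    ∀ c : Fin (n - h) → ℤ, ∑ l, c l • (p ^ (m - 1) • w l) = 0 → ∀ l, (p : ℤ) ∣ c l

end K

/-- universal `F_p`-power series expressing the point `z` through a level `p^m` structure. -/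
structure ChiSys where
  χ : ℕ → Fin (n - h) → MvPowerSeries (Fin (n - h)) (ZMod p)
  const : ∀ m i, constantCoeff (χ m i) = 0
  recur : ∀ (S : Type) [CommRing S] [UniformSpace S] [IsUniformAddGroup S]
    [IsTopologicalRing S] [IsLinearTopology S S] [CompleteSpace S] [T2Space S] [CharP S p]
    (y : Fin (n - h) → S), (∀ i, IsTopologicallyNilpotent (y i)) → ∀ m, 1 ≤ m → ∀ i,
    chiEv p (χ (m + 1) i) y = chiEv p (χ m i) (fun l => ev₁ (y l)
      (Vz p n h (fun j => chiEv p (χ (m + 1) j) y ^ p ^ (h * m))))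
  point : ∀ (K : Type) [NontriviallyNormedField K] [IsUltrametricDist K] [CompleteSpace K]
    [CharP K p] (z : Fin (n - h) → Ob K), (∀ i, ‖z i‖ < 1) →
    (∀ i : Fin (n - h), (i : ℕ) = 0 → z i ≠ 0) →
    ∀ (m : ℕ), 1 ≤ m → ∀ w : Fin (n - h) → FPt (Hx p n h z), IsLvl p n h z m w → ∀ i,
    z i = chiEv p (χ m i) (fun l => (w l).val ^ p ^ (h * m))

section K

variable {K : Type} [NontriviallyNormedField K] [IsUltrametricDist K] [CompleteSpace K]
  [CharP K p]

/-- The points `E_l(α) = pr_0(α t_l)` (and `p^{-i}` multiples): limits of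
`[p^m](α(w_{m+i,l}))`. -/
structure ESys (z : Fin (n - h) → Ob K) (T : Tower p n h z) (ρ : ℝ)
    (j : GaloisField p n →+* Ob K) where
  E : PowerSeries (GaloisField p n) → Fin (n - h) → ℕ → FPt (Hx p n h z)
  close : ∀ α, IsFGHom (Fn p n) (Fn p n) α → ∀ (h0 : PowerSeries.constantCoeff (α.map j) = 0)
    l i m, ‖(p ^ m • apS (Hx p n h z) (α.map j) h0 (T.w (m + i) l)).val - (E α l i).val‖ ≤
      ρ ^ p ^ (h * m)
  add : ∀ α β, IsFGHom (Fn p n) (Fn p n) α → IsFGHom (Fn p n) (Fn p n) β → ∀ l i,
    E (fadd (Fn p n) α β) l i = E α l i + E β l i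
  smul : ∀ α, IsFGHom (Fn p n) (Fn p n) α → ∀ l i, p ^ i • E α l i = E α l 0

/-- `f` with its coefficients raised to the power `p^{-hm}` (over `F_{p^n}`). -/
def ftw (f : MvPowerSeries (Fin (n - h)) (GaloisField p n)) (m : ℕ) :
    MvPowerSeries (Fin (n - h)) (GaloisField p n) :=
  f.map (iterateFrobenius (GaloisField p n) p ((n - 1) * (h * m)))

open scoped MvPowerSeries.WithPiTopology in
/-- The series `F_m(Z) = f^{(p^{-hm})}(χ_m(w +_{Hx} Z))`. -/
def FM (X : ChiSys p n h) (j : GaloisField p n →+* Ob K)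
    (f : MvPowerSeries (Fin (n - h)) (GaloisField p n)) (z w : Fin (n - h) → Ob K) (m : ℕ) :
    MvPowerSeries (Fin (n - h)) (Ob K) :=
  letI : CharP (MvPowerSeries (Fin (n - h)) (Ob K)) p :=
    charP_of_injective_ringHom (MvPowerSeries.C_injective (σ := Fin (n - h)) (R := Ob K)) p
  ev (S := MvPowerSeries (Fin (n - h)) (Ob K))
    (fun i => chiEv p (X.χ m i) (fun l =>
      padd ((Hx p n h z).map (C : Ob K →+* MvPowerSeries (Fin (n - h)) (Ob K)))
        (C (w l)) (MvPowerSeries.X l)))
    (((ftw p n h f m).map j).map (C : Ob K →+* MvPowerSeries (Fin (n - h)) (Ob K)))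

end K

end

end Crest.Agent.R227
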