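import Crest.Agent.R227.TopDefs

/-!
# R227 / EasyAux : membership in the ideals `II`
-/

set_option autoImplicit false

noncomputable section

namespace Crest.Agent.R227

open Crest.LubinTate MvPowerSeries Topology

variable (p : ℕ) [Fact p.Prime] (n : ℕ)

/-- the indicator of the variables which are not killed -/
def killE (R : Type*) [Zero R] [One R] (h : ℕ) : Fin (n - 1) → R :=
  fun i => if (i : ℕ) + 1 < h then 0 else 1

/-- the ring hom `E₀ → k[[u_h, …]]` with kernel `II h` for `1 ≤ h`. -/
def killHom (h : ℕ) : LTRing p n →+* MvPowerSeries (Fin (n - 1)) (GaloisField p n) :=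
  (rescale (killE n (GaloisField p n) h)).comp
    (MvPowerSeries.map (WittVector.constantCoeff : WittVector p (GaloisField p n) →+* _))

theorem killHom_eq_zero_iff (h : ℕ) (a : LTRing p n) : killHom p n h a = 0 ↔
    ∀ d : Fin (n - 1) →₀ ℕ, (∀ i : Fin (n - 1), (i : ℕ) + 1 < h → d i = 0) →
      WittVector.constantCoeff (coeff d a) = 0 := by
  rw [MvPowerSeries.ext_iff]
  refine forall_congr' fun d => ?_
  have : coeff d (killHom p n h a) =
      (d.prod fun s m => killE n (GaloisField p n) h s ^ m) *
        WittVector.constantCoeff (coeff d a) := by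
    simp [killHom, coeff_rescale]
  rw [this]
  simp only [map_zero]
  constructor
  · intro h1 h2
    have : (d.prod fun s m => killE n (GaloisField p n) h s ^ m) = 1 := by
      rw [Finsupp.prod]
      apply Finset.prod_eq_one
      intro i hi
      rw [Finsupp.mem_support_iff] at hi
      have : ¬ ((i : ℕ) + 1 < h) := fun h3 => hi (h2 i h3)
      simp [killE, this]
    rwa [this, one_mul] at h1
  · intro h1
    by_cases h2 : ∀ i : Fin (n - 1), (i : ℕ) + 1 < h → d i = 0
    · rw [h1 h2, mul_zero]
    · push Not at h2
      obtain ⟨i, hi, hd⟩ := h2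
      have : (d.prod fun s m => killE n (GaloisField p n) h s ^ m) = 0 := by
        rw [Finsupp.prod]
        apply Finset.prod_eq_zero (i := i) (Finsupp.mem_support_iff.mpr hd)
        simp [killE, hi, hd]
      rw [this, zero_mul]

theorem uu_of_lt {h : ℕ} (h0 : 1 ≤ h) (hn : h < n) :
    uu p n h = MvPowerSeries.X ⟨h - 1, by omega⟩ := by
  unfold uu upt
  rw [if_neg (by omega), dif_pos ⟨h0, hn⟩]

theorem killHom_uu {h i : ℕ} (hi : i < h) (hh : h ≤ n) : killHom p n h (uu p n i) = 0 := by
  rcases Nat.eq_zero_or_pos i with rfl | h0
  · have : uu p n 0 = ((p : ℕ) : LTRing p n) := by simp [uu]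
    rw [this, map_natCast]
    have : ((p : ℕ) : GaloisField p n) = 0 := CharP.cast_eq_zero _ _
    have h2 : ((p : ℕ) : MvPowerSeries (Fin (n - 1)) (GaloisField p n)) =
      MvPowerSeries.C ((p : ℕ) : GaloisField p n) := (map_natCast _ _).symm
    rw [h2, this, map_zero]
  · rw [uu_of_lt p n h0 (by omega), killHom_eq_zero_iff]
    intro d hd
    classical
    rw [coeff_X]
    split_ifs with h1
    · have := hd ⟨i - 1, by omega⟩ (by simp; omega)
      rw [h1] at this
      simp at this
    · simp

theorem II_succ (h : ℕ) : II p n (h + 1) = II p n h ⊔ Ideal.span {uu p n h} := by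
  unfold II
  rw [← Ideal.span_union, ← Set.image_singleton, ← Set.image_union]
  congr 2
  ext i
  simp [Nat.lt_succ_iff_lt_or_eq, or_comm]

theorem mem_II_iff {h : ℕ} (h0 : 1 ≤ h) (hh : h ≤ n) (a : LTRing p n) :
    a ∈ II p n h ↔ killHom p n h a = 0 := by
  constructor
  · intro ha
    have : II p n h ≤ RingHom.ker (killHom p n h) := by
      unfold II
      rw [Ideal.span_le]
      rintro _ ⟨i, hi, rfl⟩
      exact killHom_uu p n hi hh
    exact this ha
  · induction h, h0 using Nat.le_induction generalizing a with
    | base =>
      intro ha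
      rw [killHom_eq_zero_iff] at ha
      have h1 : ∀ d : Fin (n - 1) →₀ ℕ, ∃ b : WittVector p (GaloisField p n),
          coeff d a = (p : WittVector p (GaloisField p n)) * b := by
        intro d
        have := ha d (fun i hi => by omega)
        have h2 : coeff d a ∈ Ideal.span {(p : WittVector p (GaloisField p n))} := by
          rw [WittVector.mem_span_p_iff_coeff_zero_eq_zero]
          exact this
        rw [Ideal.mem_span_singleton] at h2
        exact h2
      choose b hb using h1
      let b' : LTRing p n := fun d => b d
      have h3 : a = (p : LTRing p n) * b' := by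
        ext1 d
        have : ((p : ℕ) : LTRing p n) =
            MvPowerSeries.C ((p : ℕ) : WittVector p (GaloisField p n)) := (map_natCast _ _).symm
        rw [this, coeff_C_mul, hb d]
        rfl
      rw [h3]
      refine Ideal.mul_mem_right _ _ (Ideal.subset_span ⟨0, by simp, by simp [uu]⟩)
    | succ h h0 ih =>
      intro ha
      rw [killHom_eq_zero_iff] at ha
      rw [II_succ]
      set i0 : Fin (n - 1) := ⟨h - 1, by omega⟩ with hi0
      set a0 : LTRing p n := rescale (fun i => if i = i0 then 0 else 1) a with ha0
      have hc : ∀ d : Fin (n - 1) →₀ ℕ, coeff d a0 = if d i0 = 0 then coeff d a else 0 := by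
        intro d
        rw [ha0, coeff_rescale]
        split_ifs with h1
        · have : (d.prod fun s m => (if s = i0 then (0 : WittVector p (GaloisField p n)) else 1) ^ m) = 1 := by
            rw [Finsupp.prod]
            apply Finset.prod_eq_one
            intro i hi
            rw [Finsupp.mem_support_iff] at hi
            have : i ≠ i0 := fun h3 => hi (h3 ▸ h1)
            simp [this]
          rw [this, one_mul]
        · have : (d.prod fun s m => (if s = i0 then (0 : WittVector p (GaloisField p n)) else 1) ^ m) = 0 := by
            rw [Finsupp.prod]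
            apply Finset.prod_eq_zero (i := i0) (Finsupp.mem_support_iff.mpr h1)
            simp [h1]
          rw [this, zero_mul]
      have h1 : a0 ∈ II p n h := by
        apply ih (by omega)
        rw [killHom_eq_zero_iff]
        intro d hd
        rw [hc]
        split_ifs with h2
        · apply ha
          intro i hi
          rcases Nat.lt_or_ge ((i : ℕ) + 1) h with h3 | h3
          · exact hd i h3
          · have : i = i0 := by ext; simp [hi0]; omega
            rw [this]; exact h2
        · simp
      have h2 : uu p n h ∣ a - a0 := by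
        rw [uu_of_lt p n h0 (by omega), X_dvd_iff]
        intro d hd
        rw [map_sub, hc, if_pos hd, sub_self]
      have h3 : a = a0 + (a - a0) := by ring
      rw [h3]
      exact Ideal.add_mem _ (Ideal.mem_sup_left h1)
        (Ideal.mem_sup_right (Ideal.mem_span_singleton.mpr h2))

theorem II_isPrime' (hn : 1 ≤ n) (h : ℕ) (hh : h ≤ n) : (II p n h).IsPrime := by
  rcases Nat.eq_zero_or_pos h with rfl | h0
  · have : II p n 0 = ⊥ := by simp [II]
    rw [this]
    have : IsDomain (LTRing p n) := NoZeroDivisors.to_isDomain _
    exact Ideal.isPrime_bot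
  · have : II p n h = RingHom.ker (killHom p n h) := by
      ext a
      rw [mem_II_iff p n h0 hh, RingHom.mem_ker]
    rw [this]
    have : IsDomain (MvPowerSeries (Fin (n - 1)) (GaloisField p n)) := NoZeroDivisors.to_isDomain _
    exact RingHom.ker_isPrime _

theorem mem_II_n' (hn : 1 ≤ n) (a : LTRing p n) : a ∈ II p n n ↔ LTRing.residue p n a = 0 := by
  rw [mem_II_iff p n hn le_rfl, killHom_eq_zero_iff]
  constructor
  · intro h
    have := h 0 (by simp)
    simpa [LTRing.residue] using this
  · intro h d hd
    have : d = 0 := by
      ext i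
      exact hd i (by omega)
    rw [this]
    simpa [LTRing.residue] using h

end Crest.Agent.R227
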