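import Crest.Agent.R227.TopDefs
import Crest.Agent.R227.LTComplete

/-!
# R227 / ExStab : existence of stabilizer maps (task EXSTAB)
-/

set_option autoImplicit false

noncomputable section

namespace Crest.Agent.R227

open Crest.LubinTate MvPowerSeries Topology

variable (p : ℕ) [Fact p.Prime] (n : ℕ)

/-- uniqueness of compositional inverses -/
theorem exst_inv_unique {R : Type*} [CommRing R] {a b c : PowerSeries R}
    (ha : PowerSeries.constantCoeff a = 0) (hb : PowerSeries.constantCoeff b = 0)
    (hab : PowerSeries.subst a b = PowerSeries.X)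
    (hbc : PowerSeries.subst b c = PowerSeries.X) : c = a := by
  have hsa : PowerSeries.HasSubst a := PowerSeries.HasSubst.of_constantCoeff_zero' ha
  have hsb : PowerSeries.HasSubst b := PowerSeries.HasSubst.of_constantCoeff_zero' hb
  calc c = PowerSeries.subst (PowerSeries.X : PowerSeries R) c := (PowerSeries.X_subst c).symm
    _ = PowerSeries.subst (PowerSeries.subst a b) c := by rw [hab]
    _ = PowerSeries.subst a (PowerSeries.subst b c) :=
        (PowerSeries.subst_comp_subst_apply hsb hsa c).symm
    _ = a := by rw [hbc, PowerSeries.subst_X hsa]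

/-- lifting of an invertible series along the residue map -/
theorem exst_exists_lift (g : PowerSeries (GaloisField p n)) (h0 : PowerSeries.constantCoeff g = 0)
    (h1 : IsUnit (PowerSeries.coeff 1 g)) : ∃ G : PowerSeries (LTRing p n),
      PowerSeries.constantCoeff G = 0 ∧ IsUnit (PowerSeries.coeff 1 G) ∧
      PowerSeries.map (LTRing.residue p n) G = g := by
  classical
  choose s hs using residue_surjective p n
  let G : PowerSeries (LTRing p n) :=
    PowerSeries.mk fun i => if i = 0 then 0 else s (PowerSeries.coeff i g)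
  have hG : PowerSeries.map (LTRing.residue p n) G = g := by
    ext i
    rw [PowerSeries.coeff_map, PowerSeries.coeff_mk]
    split_ifs with hi
    · subst hi
      rw [map_zero, PowerSeries.coeff_zero_eq_constantCoeff_apply, h0]
    · exact hs _
  refine ⟨G, ?_, ?_, hG⟩
  · rw [← PowerSeries.coeff_zero_eq_constantCoeff_apply, PowerSeries.coeff_mk, if_pos rfl]
  · rw [isUnit_iff_residue_ne_zero]
    rw [← PowerSeries.coeff_map, hG]
    exact h1.ne_zero

/-- existence of stabilizer maps (from universality) -/
theorem exists_stab (hn : 1 ≤ n) (hU : IsUniversalDeformation p n (Fn p n) (H1 p n))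
    (g : PowerSeries (GaloisField p n)) (hg : IsFGAut (Fn p n) g) :
    ∃ φ, IsStabilizerMap p n (H1 p n) g φ := by
  obtain ⟨hU1, hU2⟩ := hU
  obtain ⟨⟨hg0, hgh⟩, hg1⟩ := hg
  have hgH : IsFGHom (Fn p n) (Fn p n) g := ⟨hg0, hgh⟩
  obtain ⟨gh, gh0, gh1, ghr⟩ := exst_exists_lift p n g hg0 hg1
  -- the inverse series of `gh`
  let ψ : PowerSeries (LTRing p n) := gh.substInvOfIsUnit gh1
  have hψ0 : PowerSeries.constantCoeff ψ = 0 := PowerSeries.constantCoeff_substInvOfIsUnit _ _
  have hψ1 : IsUnit (PowerSeries.coeff 1 ψ) := by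
    rw [PowerSeries.coeff_one_substInvOfIsUnit]
    exact Units.isUnit _
  have hψr : PowerSeries.subst ψ gh = PowerSeries.X :=
    PowerSeries.subst_substInvOfIsUnit_right _ gh0 gh1
  have hψl : PowerSeries.subst gh ψ = PowerSeries.X :=
    PowerSeries.subst_substInvOfIsUnit_left _ gh0 gh1
  obtain ⟨G, hG⟩ := exists_conj (H1 p n) ψ hψ0 hψ1
  obtain ⟨ψ', hψ', h1, h2, -⟩ := IsFGHom.exists_inv hG hψ1
  have hψgh : ψ' = gh := exst_inv_unique gh0 hψ0 hψl h1
  rw [hψgh] at hψ'
  -- `G` reduces to `Fn`
  have hsgh : PowerSeries.HasSubst gh := PowerSeries.HasSubst.of_constantCoeff_zero' gh0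
  have hsψ : PowerSeries.HasSubst ψ := PowerSeries.HasSubst.of_constantCoeff_zero' hψ0
  have hGr : G.map (LTRing.residue p n) = Fn p n := by
    have e1 := IsFGHom.map (LTRing.residue p n) hG
    rw [hU1] at e1
    obtain ⟨g', hg', h3, h4, h5⟩ := IsFGHom.exists_inv hgH hg1
    have e2 : PowerSeries.map (LTRing.residue p n) ψ = g' := by
      refine exst_inv_unique hg'.1 hg0 h4 ?_
      have := congrArg (PowerSeries.map (LTRing.residue p n)) hψl
      have e3 := PowerSeries.map_subst hsgh (h := LTRing.residue p n) ψ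
      rw [PowerSeries.map_X] at this
      rw [← this, ← ghr]
      exact e3.symm
    rw [e2] at e1
    exact IsFGHom.target_unique e1 hg' h5
  obtain ⟨φ, ⟨hφr, θ, hθ, hθr⟩, -⟩ := hU2 (LTRing p n) (isAdicComplete_LTRing p n)
    (LTRing.residue p n) (residue_surjective p n) (ker_residue p n) (residue_comp_algebraMap p n)
    G hGr
  refine ⟨φ, hφr, PowerSeries.subst θ gh, IsFGHom.comp hθ hψ', ?_⟩
  have hsθ : PowerSeries.HasSubst θ := PowerSeries.HasSubst.of_constantCoeff_zero' hθ.1
  have e3 := PowerSeries.map_subst hsθ (h := LTRing.residue p n) gh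
  calc PowerSeries.map (LTRing.residue p n) (PowerSeries.subst θ gh)
      = PowerSeries.subst (PowerSeries.map (LTRing.residue p n) θ)
          (PowerSeries.map (LTRing.residue p n) gh) := e3
    _ = g := by rw [hθr, ghr, PowerSeries.X_subst]

end Crest.Agent.R227
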