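import Crest.Agent.R227.Defs

/-!
# R227 / FE1 : logarithm coefficients and the functional equation lemma (task FE1)
-/

set_option autoImplicit false

noncomputable section

namespace Crest.Agent.R227

open Crest.LubinTate MvPowerSeries

/-- A Frobenius lift `σ` on `A`, extended to `B ⊇ A` (think `B = A[1/p]`). -/
structure FrobData (p : ℕ) (A B : Type*) [CommRing A] [CommRing B] [Algebra A B] where
  σ : A →+* A
  σB : B →+* B
  comm : ∀ a, σB (algebraMap A B a) = algebraMap A B (σ a)
  frob : ∀ a, (p : A) ∣ σ a - a ^ p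
  inj : Function.Injective (algebraMap A B)

variable {p : ℕ} [Fact p.Prime] {A B : Type*} [CommRing A] [CommRing B] [Algebra A B]
  [Algebra ℚ B]

/-- `hl` satisfies the right-hand recursion (definition). -/
theorem hle_succ (n : ℕ) (x : ℕ → B) (k : ℕ) :
    (p : B) * hle p n x (k + 1) = ∑ i ∈ Finset.range (k + 1),
      if i + 1 ≤ n then hle p n x (k - i) * x (i + 1) ^ p ^ (k - i) else 0 := by
  have hp0 : (p : ℚ) ≠ 0 := by exact_mod_cast (Fact.out : p.Prime).ne_zero
  have h1 : (p : B) * algebraMap ℚ B ((p : ℚ)⁻¹) = 1 := by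
    have : (p : B) = algebraMap ℚ B (p : ℚ) := by simp
    rw [this, ← map_mul, mul_inv_cancel₀ hp0, map_one]
  rw [Finset.sum_range]
  simp only [hle]
  rw [hl, map_mul, MvPolynomial.algHom_C, ← mul_assoc, h1, one_mul, map_sum]
  refine Finset.sum_congr rfl fun i _ => ?_
  split_ifs <;> simp

omit [Fact p.Prime] in
theorem hle_zero (n : ℕ) (x : ℕ → B) : hle p n x 0 = 1 := by
  simp [hle, hl]

theorem isUnit_natCast_prime : IsUnit (p : B) := by
  have hp0 : (p : ℚ) ≠ 0 := by exact_mod_cast (Fact.out : p.Prime).ne_zero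
  have : (p : B) = algebraMap ℚ B (p : ℚ) := by simp
  rw [this]
  exact (IsUnit.mk0 _ hp0).map _

/-- `hl` satisfies the left-hand recursion `p l_{k+1} = ∑ u_i l_{k+1-i}(u^{p^i})`. -/
theorem hle_succ' (n : ℕ) (x : ℕ → B) (k : ℕ) :
    (p : B) * hle p n x (k + 1) = ∑ i ∈ Finset.range (k + 1),
      if i + 1 ≤ n then x (i + 1) * hle p n (fun j => x j ^ p ^ (i + 1)) (k - i) else 0 := by
  induction k using Nat.strong_induction_on with
  | _ k ih =>
  apply (isUnit_natCast_prime (p := p) (B := B)).mul_left_cancel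
  rw [hle_succ, Finset.sum_range_succ, Finset.sum_range_succ, mul_add, mul_add]
  congr 1
  · rw [Finset.mul_sum, Finset.mul_sum]
    have hL : ∀ i ∈ Finset.range k, (p : B) * (if i + 1 ≤ n then
        hle p n x (k - i) * x (i + 1) ^ p ^ (k - i) else 0) =
        ∑ j ∈ Finset.range (k - i), if i + 1 ≤ n ∧ j + 1 ≤ n then
          x (j + 1) * hle p n (fun t => x t ^ p ^ (j + 1)) (k - i - 1 - j) *
            x (i + 1) ^ p ^ (k - i) else 0 := by
      intro i hi
      have hik := Finset.mem_range.mp hi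
      by_cases hn : i + 1 ≤ n
      · obtain ⟨m, hm⟩ : ∃ m, k - i = m + 1 := ⟨k - i - 1, by omega⟩
        rw [if_pos hn, ← mul_assoc, hm, ih m (by omega), Finset.sum_mul]
        refine Finset.sum_congr rfl fun j _ => ?_
        by_cases hj : j + 1 ≤ n
        · simp only [hn, hj, and_self, if_true]
          have : m + 1 - 1 - j = m - j := by omega
          rw [this]
        · simp [hj]
      · simp [hn]
    have hR : ∀ j ∈ Finset.range k, (p : B) * (if j + 1 ≤ n then
        x (j + 1) * hle p n (fun t => x t ^ p ^ (j + 1)) (k - j) else 0) =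
        ∑ i ∈ Finset.range (k - j), if i + 1 ≤ n ∧ j + 1 ≤ n then
          x (j + 1) * hle p n (fun t => x t ^ p ^ (j + 1)) (k - i - 1 - j) *
            x (i + 1) ^ p ^ (k - i) else 0 := by
      intro j hj
      have hjk := Finset.mem_range.mp hj
      by_cases hn : j + 1 ≤ n
      · obtain ⟨m, hm⟩ : ∃ m, k - j = m + 1 := ⟨k - j - 1, by omega⟩
        rw [if_pos hn, mul_left_comm, hm, hle_succ, Finset.mul_sum]
        refine Finset.sum_congr rfl fun i hi => ?_
        have hi' := Finset.mem_range.mp hi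
        by_cases hi2 : i + 1 ≤ n
        · simp only [hn, hi2, and_self, if_true]
          have e1 : k - i - 1 - j = m - i := by omega
          have e2 : p ^ (k - i) = p ^ (j + 1) * p ^ (m - i) := by
            rw [← pow_add]; congr 1; omega
          rw [e1, e2, pow_mul, mul_assoc]
        · simp [hi2]
      · simp [hn]
    rw [Finset.sum_congr rfl hL, Finset.sum_congr rfl hR]
    refine Finset.sum_comm' fun i j => ?_
    simp only [Finset.mem_range]
    omega
  · simp [hle_zero]

/-- denominators: `p^k l_k` is integral. -/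
theorem hle_integral (n : ℕ) (x : ℕ → A) (k : ℕ) :
    ∃ a : A, algebraMap A B a = (p : B) ^ k * hle p n (fun i => algebraMap A B (x i)) k := by
  induction k using Nat.strong_induction_on with
  | _ k ih =>
  cases k with
  | zero => exact ⟨1, by simp [hle_zero]⟩
  | succ k =>
    choose a ha using ih
    refine ⟨∑ i : Fin (k + 1), if (i : ℕ) + 1 ≤ n then
      (p : A) ^ (i : ℕ) * a (k - i) (by omega) * x (i + 1) ^ p ^ (k - i) else 0, ?_⟩
    rw [map_sum, pow_succ, mul_assoc, hle_succ, Finset.mul_sum, Finset.sum_range]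
    refine Finset.sum_congr rfl fun i _ => ?_
    by_cases hn : (i : ℕ) + 1 ≤ n
    · simp only [hn, if_true, map_mul, map_pow, map_natCast, ha]
      have : (p : B) ^ k = (p : B) ^ (i : ℕ) * (p : B) ^ (k - i) := by
        rw [← pow_add]; congr 1; omega
      rw [this]; ring
    · simp [hn]

section Agr

variable {R : Type*} [CommRing R] {τ : Type*}

/-- agreement up to (excluding) degree `D` -/
def Agr (D : ℕ) (W₁ W₂ : MvPowerSeries τ R) : Prop :=
  ∀ m : τ →₀ ℕ, m.degree < D → coeff m W₁ = coeff m W₂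

theorem agr_iff {D : ℕ} {W₁ W₂ : MvPowerSeries τ R} :
    Agr D W₁ W₂ ↔ (D : ℕ∞) ≤ (W₁ - W₂).order := by
  constructor
  · intro h
    refine nat_le_order fun d hd => ?_
    rw [map_sub, h d hd, sub_self]
  · intro h m hm
    have : coeff m (W₁ - W₂) = 0 := coeff_of_lt_order (lt_of_lt_of_le (by exact_mod_cast hm) h)
    rwa [map_sub, sub_eq_zero] at this

theorem Agr.pow {D : ℕ} {W₁ W₂ : MvPowerSeries τ R} (h : Agr D W₁ W₂) (e : ℕ) :
    Agr D (W₁ ^ e) (W₂ ^ e) := by
  rw [agr_iff] at h ⊢
  obtain ⟨Q, hQ⟩ := sub_dvd_pow_sub_pow W₁ W₂ e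
  rw [hQ]
  exact le_trans (le_trans h le_self_add) le_order_mul

theorem Agr.pow' {D : ℕ} {W₁ W₂ : MvPowerSeries τ R} (h : Agr D W₁ W₂)
    (h1 : constantCoeff W₁ = 0) (h2 : constantCoeff W₂ = 0) {e : ℕ} (he : 2 ≤ e) :
    Agr (D + 1) (W₁ ^ e) (W₂ ^ e) := by
  rw [agr_iff] at h ⊢
  rw [← Commute.mul_geom_sum₂ (Commute.all W₁ W₂) e]
  refine le_trans ?_ le_order_mul
  push_cast
  refine add_le_add h ?_
  rw [one_le_order_iff_constCoeff_eq_zero, map_sum]
  refine Finset.sum_eq_zero fun i hi => ?_
  rw [map_mul, map_pow, map_pow, h1, h2]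
  have hi' := Finset.mem_range.mp hi
  rcases Nat.eq_zero_or_pos i with h0 | h0
  · rw [zero_pow (n := e - 1 - i) (by omega), mul_zero]
  · rw [zero_pow (by omega), zero_mul]

theorem coeff_pow_eq_zero_of_degree_lt {W : MvPowerSeries τ R} (hW : constantCoeff W = 0)
    {m : τ →₀ ℕ} {e : ℕ} (h : m.degree < e) : coeff m (W ^ e) = 0 := by
  refine coeff_of_lt_order (lt_of_lt_of_le ?_ (le_order_pow_of_constantCoeff_eq_zero e hW))
  exact_mod_cast h

variable {p : ℕ} [hp : Fact p.Prime]

theorem coeff_pSeries (l : ℕ → R) (k : ℕ) : PowerSeries.coeff (p ^ k) (pSeries p l) = l k := by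
  rw [pSeries, PowerSeries.coeff_mk, Nat.log_pow hp.out.one_lt]
  simp

theorem coeff_subst_pSeries (l : ℕ → R) {Z : MvPowerSeries τ R} (hZ : constantCoeff Z = 0)
    (m : τ →₀ ℕ) (N : ℕ) (hN : m.degree ≤ N) :
    coeff m (PowerSeries.subst Z (pSeries p l)) =
      ∑ k ∈ Finset.range (N + 1), l k * coeff m (Z ^ p ^ k) := by
  rw [PowerSeries.coeff_subst (PowerSeries.HasSubst.of_constantCoeff_zero hZ),
    finsum_eq_sum_of_support_subset (s := (Finset.range (N + 1)).image (p ^ ·)),
    Finset.sum_image]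
  · refine Finset.sum_congr rfl fun k _ => ?_
    rw [coeff_pSeries, smul_eq_mul]
  · intro a _ b _ hab
    exact Nat.pow_right_injective hp.out.two_le hab
  · intro d hd
    rw [Function.mem_support] at hd
    have h1 : PowerSeries.coeff d (pSeries p l) ≠ 0 := fun h => hd (by rw [h, zero_smul])
    have h2 : coeff m (Z ^ d) ≠ 0 := fun h => hd (by rw [h, smul_zero])
    have h3 : d ≤ m.degree := by
      by_contra hlt
      exact h2 (coeff_pow_eq_zero_of_degree_lt hZ (not_le.mp hlt))
    rw [pSeries, PowerSeries.coeff_mk] at h1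
    have h4 : p ^ Nat.log p d = d := by
      by_contra hne
      exact h1 (if_neg hne)
    have h5 : Nat.log p d < p ^ Nat.log p d := Nat.lt_pow_self hp.out.one_lt
    simp only [Finset.coe_image, Finset.coe_range, Set.mem_image, Set.mem_Iio]
    exact ⟨Nat.log p d, by omega, h4⟩

theorem Agr.subst {D : ℕ} {W₁ W₂ : MvPowerSeries τ R} (h : Agr D W₁ W₂)
    (h1 : constantCoeff W₁ = 0) (h2 : constantCoeff W₂ = 0) (l : ℕ → R) :
    Agr D (PowerSeries.subst W₁ (pSeries p l)) (PowerSeries.subst W₂ (pSeries p l)) := by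
  intro m hm
  rw [coeff_subst_pSeries l h1 m _ le_rfl, coeff_subst_pSeries l h2 m _ le_rfl]
  refine Finset.sum_congr rfl fun k _ => ?_
  rw [h.pow _ m hm]

end Agr

section Main

omit [Algebra ℚ B]

theorem dvd_of_coeff_dvd {τ : Type*} (q : ℕ) (U : MvPowerSeries τ A)
    (h : ∀ m, (q : A) ∣ coeff m U) : (q : MvPowerSeries τ A) ∣ U := by
  choose w hw using h
  let W : MvPowerSeries τ A := fun m => w m
  have hW : ∀ m, coeff m W = w m := fun m => rfl
  refine ⟨W, ?_⟩
  ext m
  rw [hw m, ← map_natCast (C (σ := τ) (R := A)), coeff_C_mul, hW]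

theorem coeff_dvd_of_dvd {τ : Type*} (q : ℕ) {U : MvPowerSeries τ A}
    (h : (q : MvPowerSeries τ A) ∣ U) (m : τ →₀ ℕ) : (q : A) ∣ coeff m U := by
  obtain ⟨W, rfl⟩ := h
  rw [← map_natCast (C (σ := τ) (R := A)), coeff_C_mul]
  exact dvd_mul_right _ _

theorem FrobData.frob_expand (D : FrobData p A B) {τ : Type*} (Z : MvPowerSeries τ A) (i : ℕ) :
    (p : MvPowerSeries τ A) ∣
      expand (p ^ i) (pow_ne_zero _ (Fact.out : p.Prime).ne_zero) (Z.map (D.σ ^ i)) -
        Z ^ p ^ i := by
  refine dvd_of_coeff_dvd p _ fun m => ?_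
  by_cases hu : IsUnit (p : A)
  · exact hu.dvd
  have hch : CharP (A ⧸ Ideal.span {(p : A)}) p := CharP.quotient A p hu
  have hexp : ExpChar (A ⧸ Ideal.span {(p : A)}) p := ExpChar.prime Fact.out
  rw [← Ideal.mem_span_singleton, ← Ideal.Quotient.eq_zero_iff_mem]
  have hσ : (Ideal.Quotient.mk (Ideal.span {(p : A)})).comp (D.σ ^ i) =
      (iterateFrobenius (A ⧸ Ideal.span {(p : A)}) p i).comp
        (Ideal.Quotient.mk (Ideal.span {(p : A)})) := by
    induction i with
    | zero => ext a; simp
    | succ i ih =>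
      ext a
      have h1 := RingHom.congr_fun ih (D.σ a)
      simp only [RingHom.comp_apply] at h1 ⊢
      rw [pow_succ, RingHom.mul_def, RingHom.comp_apply, h1, iterateFrobenius_def,
        iterateFrobenius_def]
      have h2 : (Ideal.Quotient.mk (Ideal.span {(p : A)})) (D.σ a) =
          (Ideal.Quotient.mk (Ideal.span {(p : A)})) a ^ p := by
        rw [← map_pow, Ideal.Quotient.eq, Ideal.mem_span_singleton]
        exact D.frob a
      rw [h2, ← pow_mul, ← pow_succ']
  have key : (expand (p ^ i) (pow_ne_zero _ (Fact.out : p.Prime).ne_zero) (Z.map (D.σ ^ i)) -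
      Z ^ p ^ i).map (Ideal.Quotient.mk (Ideal.span {(p : A)})) = 0 := by
    rw [map_sub, map_expand, map_pow, ← map_iterateFrobenius_expand p
      (Fact.out : p.Prime).ne_zero, map_expand, sub_eq_zero]
    congr 1
    rw [← RingHom.comp_apply, ← RingHom.comp_apply, ← MvPowerSeries.map_comp,
      ← MvPowerSeries.map_comp, hσ]
  rw [← MvPowerSeries.coeff_map, key, map_zero]


omit [Fact p.Prime] in
theorem FrobData.σB_iter (D : FrobData p A B) {x : ℕ → A} (hx : ∀ i, D.σ (x i) = x i ^ p)
    (i j : ℕ) : (D.σB ^ i) (algebraMap A B (x j)) = algebraMap A B (x j) ^ p ^ i := by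
  induction i with
  | zero => simp
  | succ i ih =>
    rw [pow_succ, RingHom.mul_def, RingHom.comp_apply, D.comm, hx, map_pow, map_pow, ih,
      ← pow_mul, ← pow_succ]

omit [Fact p.Prime] in
theorem FrobData.σB_iter_algebraMap (D : FrobData p A B) (i : ℕ) (a : A) :
    (D.σB ^ i) (algebraMap A B a) = algebraMap A B ((D.σ ^ i) a) := by
  induction i generalizing a with
  | zero => simp
  | succ i ih =>
    rw [pow_succ, RingHom.mul_def, RingHom.comp_apply, D.comm, ih, pow_succ (D.σ),
      RingHom.mul_def, RingHom.comp_apply]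

variable [Algebra ℚ B]

omit [Fact p.Prime] in
theorem FrobData.σB_hle (D : FrobData p A B) {x : ℕ → A} (hx : ∀ i, D.σ (x i) = x i ^ p)
    (n i k : ℕ) : (D.σB ^ i) (hle p n (fun j => algebraMap A B (x j)) k) =
      hle p n (fun j => algebraMap A B (x j) ^ p ^ i) k := by
  have := MvPolynomial.comp_aeval_apply (φ := (D.σB ^ i).toRatAlgHom)
    (f := fun j => algebraMap A B (x j)) (hl p n k)
  simp only [RingHom.toRatAlgHom_apply] at this
  rw [hle, this, hle]
  congr 2
  ext j
  exact D.σB_iter hx i j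

/-- the logarithm satisfies the left functional equation -/
theorem log_left (n : ℕ) (x : ℕ → B) {τ : Type*} {W : MvPowerSeries τ B}
    (hW : constantCoeff W = 0) :
    PowerSeries.subst W (logAt p n x) = W + C ((algebraMap ℚ B) ((p : ℚ)⁻¹)) *
      ∑ i ∈ Finset.Icc 1 n, C (x i) *
        PowerSeries.subst (W ^ p ^ i) (logAt p n (fun j => x j ^ p ^ i)) := by
  have hp0 : (p : ℚ) ≠ 0 := by exact_mod_cast (Fact.out : p.Prime).ne_zero
  have h1 : (p : B) * algebraMap ℚ B ((p : ℚ)⁻¹) = 1 := by
    have : (p : B) = algebraMap ℚ B (p : ℚ) := by simp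
    rw [this, ← map_mul, mul_inv_cancel₀ hp0, map_one]
  ext m
  set N := m.degree with hN
  have hWp : ∀ i, constantCoeff (W ^ p ^ i) = 0 := fun i => by
    rw [map_pow, hW, zero_pow (pow_ne_zero _ (Fact.out : p.Prime).ne_zero)]
  rw [map_add, coeff_C_mul, map_sum, logAt, coeff_subst_pSeries _ hW m N le_rfl,
    Finset.sum_range_succ', pow_zero, pow_one, hle_zero, one_mul, add_comm]
  congr 1
  apply (isUnit_natCast_prime (p := p) (B := B)).mul_left_cancel
  rw [← mul_assoc, h1, one_mul, Finset.mul_sum]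
  have hR : ∀ i ∈ Finset.Icc 1 n, coeff m (C (x i) *
        PowerSeries.subst (W ^ p ^ i) (logAt p n (fun j => x j ^ p ^ i))) =
      ∑ k ∈ Finset.range (N + 1), x i * hle p n (fun j => x j ^ p ^ i) k *
        coeff m (W ^ p ^ (i + k)) := by
    intro i _
    rw [coeff_C_mul, logAt, coeff_subst_pSeries _ (hWp i) m N le_rfl, Finset.mul_sum]
    refine Finset.sum_congr rfl fun k _ => ?_
    rw [← pow_mul, ← pow_add, mul_assoc]
  rw [Finset.sum_congr rfl hR]
  set f : ℕ → ℕ → B := fun i k => x i * hle p n (fun j => x j ^ p ^ i) k *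
        coeff m (W ^ p ^ (i + k)) with hf
  have hf0 : ∀ i k, N < i + k → f i k = 0 := by
    intro i k hik
    have h2 : i + k < p ^ (i + k) := Nat.lt_pow_self (Fact.out : p.Prime).one_lt
    simp only [hf]
    rw [coeff_pow_eq_zero_of_degree_lt hW (by omega), mul_zero]
  have hL : ∀ k ∈ Finset.range N, (p : B) * (hle p n x (k + 1) * coeff m (W ^ p ^ (k + 1))) =
      ∑ j ∈ Finset.range (k + 1), if j < n then f (j + 1) (k - j) else 0 := by
    intro k _
    rw [← mul_assoc, hle_succ', Finset.sum_mul]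
    refine Finset.sum_congr rfl fun j hj => ?_
    have hj' := Finset.mem_range.mp hj
    by_cases hjn : j < n
    · rw [if_pos (by omega), if_pos hjn]
      simp only [hf]
      have : j + 1 + (k - j) = k + 1 := by omega
      rw [this]
    · rw [if_neg (by omega), if_neg hjn, zero_mul]
  rw [Finset.sum_congr rfl hL]
  rw [Finset.sum_comm' (t' := Finset.range N) (s' := fun j => Finset.Ico j N)
    (by intro a b; simp only [Finset.mem_range, Finset.mem_Ico]; omega)]
  have hG : ∀ j ∈ Finset.range N, (∑ k ∈ Finset.Ico j N, if j < n then f (j + 1) (k - j) else 0)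
      = if j < n then ∑ k ∈ Finset.range (N - j), f (j + 1) k else 0 := by
    intro j _
    by_cases hjn : j < n
    · simp only [hjn, if_true]
      rw [Finset.sum_Ico_eq_sum_range]
      refine Finset.sum_congr rfl fun k _ => ?_
      rw [Nat.add_sub_cancel_left]
    · simp [hjn]
  rw [Finset.sum_congr rfl hG]
  have hI : ∀ (g : ℕ → B), ∑ i ∈ Finset.Icc 1 n, g i = ∑ j ∈ Finset.range n, g (j + 1) := by
    intro g
    rw [Finset.sum_nbij' (fun i => i - 1) (fun j => j + 1)]
    · intro a ha; simp only [Finset.mem_Icc] at ha; simp only [Finset.mem_range]; omega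
    · intro a ha; simp only [Finset.mem_range] at ha; simp only [Finset.mem_Icc]; omega
    · intro a ha; simp only [Finset.mem_Icc] at ha; omega
    · intro a ha; omega
    · intro a ha; simp only [Finset.mem_Icc] at ha; congr 1; omega
  rw [hI]
  have hH : ∀ j ∈ Finset.range n, ∑ k ∈ Finset.range (N + 1), f (j + 1) k =
      if j < N then ∑ k ∈ Finset.range (N - j), f (j + 1) k else 0 := by
    intro j _
    by_cases hjN : j < N
    · rw [if_pos hjN]
      symm
      refine Finset.sum_subset (Finset.range_mono (by omega)) fun k _ hk => ?_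
      simp only [Finset.mem_range, not_lt] at hk
      exact hf0 _ _ (by omega)
    · rw [if_neg hjN]
      exact Finset.sum_eq_zero fun k _ => hf0 _ _ (by omega)
  rw [Finset.sum_congr rfl hH, ← Finset.sum_filter, ← Finset.sum_filter]
  refine Finset.sum_congr ?_ fun _ _ => rfl
  ext j
  simp only [Finset.mem_filter, Finset.mem_range]
  tauto

theorem coeff_one_logAt (n : ℕ) (x : ℕ → B) : PowerSeries.coeff 1 (logAt p n x) = 1 := by
  have := coeff_pSeries (p := p) (hle p n x) 0
  rwa [pow_zero, hle_zero] at this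

omit [Fact p.Prime] in
theorem constantCoeff_logAt (n : ℕ) (x : ℕ → B) :
    PowerSeries.constantCoeff (logAt p n x) = 0 := by
  rw [← PowerSeries.coeff_zero_eq_constantCoeff_apply, logAt, pSeries, PowerSeries.coeff_mk]
  simp

theorem exists_log_preimage (n : ℕ) (x : ℕ → B) {τ : Type*} (lam : MvPowerSeries τ B)
    (h0 : constantCoeff lam = 0) :
    ∃ Z : MvPowerSeries τ B, constantCoeff Z = 0 ∧ PowerSeries.subst Z (logAt p n x) = lam := by
  have hu : IsUnit (PowerSeries.coeff 1 (logAt p n x)) := by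
    rw [coeff_one_logAt]; exact isUnit_one
  have hl : PowerSeries.HasSubst lam := PowerSeries.HasSubst.of_constantCoeff_zero h0
  refine ⟨PowerSeries.subst lam ((logAt p n x).substInvOfIsUnit hu), ?_, ?_⟩
  · exact PowerSeries.constantCoeff_subst_eq_zero h0 _
      (PowerSeries.constantCoeff_substInvOfIsUnit _ hu)
  · rw [← PowerSeries.subst_comp_subst_apply
      (PowerSeries.HasSubst.substInvOfIsUnit _ hu) hl,
      PowerSeries.subst_substInvOfIsUnit_right _ (constantCoeff_logAt n x) hu,
      PowerSeries.subst_X hl]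

omit [Fact p.Prime] in
theorem map_pSeries {R S : Type*} [CommRing R] [CommRing S] (f : R →+* S) (l : ℕ → R) :
    (pSeries p l).map f = pSeries p (fun k => f (l k)) := by
  ext m
  rw [PowerSeries.coeff_map, pSeries, pSeries, PowerSeries.coeff_mk, PowerSeries.coeff_mk]
  split_ifs <;> simp

/-- congruent arguments have congruent logarithms -/
theorem log_sub_integral (n : ℕ) (y : ℕ → A) {τ : Type*} {U V : MvPowerSeries τ A}
    (hU : constantCoeff U = 0) (hV : constantCoeff V = 0)
    (hUV : (p : MvPowerSeries τ A) ∣ U - V) (m : τ →₀ ℕ) :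
    ∃ b : A, coeff m (PowerSeries.subst (U.map (algebraMap A B))
        (logAt p n (fun i => algebraMap A B (y i)))) -
      coeff m (PowerSeries.subst (V.map (algebraMap A B))
        (logAt p n (fun i => algebraMap A B (y i)))) = (p : B) * algebraMap A B b := by
  have hU' : constantCoeff (U.map (algebraMap A B)) = 0 := by
    rw [constantCoeff_map, hU, map_zero]
  have hV' : constantCoeff (V.map (algebraMap A B)) = 0 := by
    rw [constantCoeff_map, hV, map_zero]
  have hw : ∀ k : ℕ, ∃ w : A, coeff m (U ^ p ^ k - V ^ p ^ k) = (p : A) ^ (k + 1) * w := by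
    intro k
    have h1 := dvd_sub_pow_of_dvd_sub hUV k
    rw [← Nat.cast_pow] at h1
    obtain ⟨w, hw⟩ := coeff_dvd_of_dvd _ h1 m
    exact ⟨w, by rw [hw, Nat.cast_pow]⟩
  choose w hw using hw
  choose a ha using hle_integral (p := p) (B := B) n y
  refine ⟨∑ k ∈ Finset.range (m.degree + 1), a k * w k, ?_⟩
  rw [logAt, coeff_subst_pSeries _ hU' m _ le_rfl, coeff_subst_pSeries _ hV' m _ le_rfl,
    ← Finset.sum_sub_distrib, map_sum, Finset.mul_sum]
  refine Finset.sum_congr rfl fun k _ => ?_
  have h2 : coeff m ((U.map (algebraMap A B)) ^ p ^ k) -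
      coeff m ((V.map (algebraMap A B)) ^ p ^ k) = (p : B) ^ (k + 1) * algebraMap A B (w k) := by
    rw [← map_pow, ← map_pow, coeff_map, coeff_map, ← map_sub, ← map_sub, hw k, map_mul, map_pow,
      map_natCast]
  rw [← mul_sub, h2, map_mul, ha k]
  ring

/-- **Functional equation lemma.** If `λ = g + p⁻¹ ∑_i x_i (σ^i_* λ)(X^{p^i})` with `g` integral
then `λ = log(Z)` with `Z` integral. -/
theorem fe_integral (D : FrobData p A B) (n : ℕ) (x : ℕ → A) (hx : ∀ i, D.σ (x i) = x i ^ p)
    {τ : Type*} [Finite τ] (lam : MvPowerSeries τ B) (h0 : constantCoeff lam = 0)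
    (g : MvPowerSeries τ A)
    (hg : lam = g.map (algebraMap A B) + C ((algebraMap ℚ B) ((p : ℚ)⁻¹)) *
      ∑ i ∈ Finset.Icc 1 n, C (algebraMap A B (x i)) *
        expand (p ^ i) (pow_ne_zero _ (Fact.out : p.Prime).ne_zero) (lam.map (D.σB ^ i))) :
    ∃ Z : MvPowerSeries τ A, constantCoeff Z = 0 ∧
      PowerSeries.subst (Z.map (algebraMap A B)) (logAt p n (fun i => algebraMap A B (x i))) =
        lam := by
  have hp0 : (p : ℚ) ≠ 0 := by exact_mod_cast (Fact.out : p.Prime).ne_zero
  have hpp : p ≠ 0 := (Fact.out : p.Prime).ne_zero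
  have hpinv : (p : B) * algebraMap ℚ B ((p : ℚ)⁻¹) = 1 := by
    have : (p : B) = algebraMap ℚ B (p : ℚ) := by simp
    rw [this, ← map_mul, mul_inv_cancel₀ hp0, map_one]
  set x' : ℕ → B := fun i => algebraMap A B (x i) with hx'
  obtain ⟨Z, hZ0, hZ⟩ := exists_log_preimage (p := p) n x' lam h0
  -- Frobenius twists of `Z`
  have hEZ0 : ∀ (W : MvPowerSeries τ B), constantCoeff W = 0 → ∀ i,
      constantCoeff (expand (p ^ i) (pow_ne_zero i hpp) (W.map (D.σB ^ i))) = 0 := by
    intro W hW i
    rw [constantCoeff_expand, constantCoeff_map, hW, map_zero]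
  have htwist : ∀ i, expand (p ^ i) (pow_ne_zero i hpp) (lam.map (D.σB ^ i)) =
      PowerSeries.subst (expand (p ^ i) (pow_ne_zero i hpp) (Z.map (D.σB ^ i)))
        (logAt p n (fun j => x' j ^ p ^ i)) := by
    intro i
    rw [← hZ, logAt, PowerSeries.map_subst (PowerSeries.HasSubst.of_constantCoeff_zero hZ0),
      map_pSeries, PowerSeries.subst, expand_subst, PowerSeries.subst, logAt]
    · congr 2
      ext k
      exact D.σB_hle hx n i k
    · exact (PowerSeries.HasSubst.of_constantCoeff_zero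
        (by rw [constantCoeff_map, hZ0, map_zero])).const
  have hZeq : Z = g.map (algebraMap A B) + C ((algebraMap ℚ B) ((p : ℚ)⁻¹)) *
      ∑ i ∈ Finset.Icc 1 n, C (x' i) *
        (PowerSeries.subst (expand (p ^ i) (pow_ne_zero i hpp) (Z.map (D.σB ^ i)))
          (logAt p n (fun j => x' j ^ p ^ i)) -
          PowerSeries.subst (Z ^ p ^ i) (logAt p n (fun j => x' j ^ p ^ i))) := by
    have h1 := log_left (p := p) n x' hZ0
    rw [hZ] at h1
    simp only [mul_sub, Finset.sum_sub_distrib]
    have h2 := hg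
    simp only [htwist] at h2
    rw [h2] at h1
    linear_combination -h1
  -- integrality of the coefficients, by induction on the degree
  have hint : ∀ d : ℕ, ∀ m : τ →₀ ℕ, m.degree = d → ∃ a : A, algebraMap A B a = coeff m Z := by
    intro d
    induction d using Nat.strong_induction_on with
    | _ d ih =>
    intro m hm
    rcases Nat.eq_zero_or_pos d with hd | hd
    · subst hd
      have hm0 : m = 0 := (Finsupp.degree_eq_zero_iff m).mp hm
      subst hm0
      exact ⟨0, by rw [map_zero, coeff_zero_eq_constantCoeff_apply, hZ0]⟩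
    choose! a ha using fun (m' : τ →₀ ℕ) (h : m'.degree < d) => ih _ h m' rfl
    let Z₀ : MvPowerSeries τ A := fun m' => if m'.degree < d then a m' else 0
    have hZ₀c : ∀ m', coeff m' Z₀ = if m'.degree < d then a m' else 0 := fun _ => rfl
    have hagr : Agr d Z (Z₀.map (algebraMap A B)) := by
      intro m' hm'
      rw [coeff_map, hZ₀c, if_pos hm', ha m' hm']
    have hdeg0 : (0 : τ →₀ ℕ).degree < d := by simpa using hd
    have hZ₀0 : constantCoeff Z₀ = 0 := by
      apply D.inj
      rw [map_zero, ← coeff_zero_eq_constantCoeff_apply, hZ₀c, if_pos hdeg0, ha 0 hdeg0,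
        coeff_zero_eq_constantCoeff_apply, hZ0]
    have hZ₀' : constantCoeff (Z₀.map (algebraMap A B)) = 0 := by
      rw [constantCoeff_map, hZ₀0, map_zero]
    have hE : ∀ i ∈ Finset.Icc 1 n, ∃ b : A,
        coeff m (PowerSeries.subst (expand (p ^ i) (pow_ne_zero i hpp) (Z.map (D.σB ^ i)))
          (logAt p n (fun j => x' j ^ p ^ i))) -
        coeff m (PowerSeries.subst (Z ^ p ^ i) (logAt p n (fun j => x' j ^ p ^ i))) =
          (p : B) * algebraMap A B b := by
      intro i hi
      have hi1 : 1 ≤ i := (Finset.mem_Icc.mp hi).1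
      have hpi : 2 ≤ p ^ i := le_trans (Fact.out : p.Prime).two_le
        (Nat.le_self_pow (by omega) p)
      have hmd : m.degree < d + 1 := by omega
      -- first replacement
      have hA1 : Agr (d + 1) (expand (p ^ i) (pow_ne_zero i hpp) (Z.map (D.σB ^ i)))
          (expand (p ^ i) (pow_ne_zero i hpp) ((Z₀.map (algebraMap A B)).map (D.σB ^ i))) := by
        rw [agr_iff] at hagr ⊢
        rw [← map_sub, ← map_sub, order_expand]
        have h3 := le_trans hagr (le_order_map (D.σB ^ i))
        calc ((d + 1 : ℕ) : ℕ∞) ≤ ((p ^ i * d : ℕ) : ℕ∞) := by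
              have : d + 1 ≤ p ^ i * d := by nlinarith
              exact_mod_cast this
          _ = p ^ i • (d : ℕ∞) := by rw [nsmul_eq_mul]; push_cast; rfl
          _ ≤ _ := nsmul_le_nsmul_right h3 _
      have hA2 : Agr (d + 1) (Z ^ p ^ i) ((Z₀.map (algebraMap A B)) ^ p ^ i) :=
        hagr.pow' hZ0 hZ₀' hpi
      rw [logAt, hA1.subst (hEZ0 Z hZ0 i) (hEZ0 _ hZ₀' i) _ m hmd,
        hA2.subst (by rw [map_pow, hZ0, zero_pow (by omega)])
          (by rw [map_pow, hZ₀', zero_pow (by omega)]) _ m hmd]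
      have hU : expand (p ^ i) (pow_ne_zero i hpp) ((Z₀.map (algebraMap A B)).map (D.σB ^ i)) =
          (expand (p ^ i) (pow_ne_zero i hpp) (Z₀.map (D.σ ^ i))).map (algebraMap A B) := by
        rw [map_expand]
        congr 1
        ext m'
        rw [coeff_map, coeff_map, coeff_map, coeff_map, D.σB_iter_algebraMap]
      rw [hU, ← map_pow]
      have hfun : (fun j => x' j ^ p ^ i) = fun j => algebraMap A B (x j ^ p ^ i) := by
        ext j; rw [map_pow]
      rw [hfun]
      exact log_sub_integral n (fun j => x j ^ p ^ i)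
        (by rw [constantCoeff_expand, constantCoeff_map, hZ₀0, map_zero])
        (by rw [map_pow, hZ₀0, zero_pow (by omega)]) (D.frob_expand Z₀ i) m
    choose! b hb using hE
    refine ⟨coeff m g + ∑ i ∈ Finset.Icc 1 n, x i * b i, ?_⟩
    have h4 := congrArg (coeff m) hZeq
    rw [map_add, coeff_map, coeff_C_mul, map_sum] at h4
    rw [h4, map_add, map_sum]
    congr 1
    rw [Finset.mul_sum]
    refine Finset.sum_congr rfl fun i hi => ?_
    rw [coeff_C_mul, map_sub, hb i hi, map_mul]
    linear_combination (-(algebraMap A B (x i) * algebraMap A B (b i))) * hpinv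
  choose! zc hzc using hint
  let ZA : MvPowerSeries τ A := fun m => zc m.degree m
  have hZA : ZA.map (algebraMap A B) = Z := by
    ext m
    rw [coeff_map]
    exact hzc m.degree m rfl
  refine ⟨ZA, ?_, ?_⟩
  · apply D.inj
    rw [map_zero, ← constantCoeff_map, hZA, hZ0]
  · rw [hZA, hZ]

end Main

end Crest.Agent.R227
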