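import Crest.Agent.R227.FE1

/-!
# R227 / FE2 : congruences mod p and the logarithm (task FE2)
-/

set_option autoImplicit false

noncomputable section

namespace Crest.Agent.R227

open Crest.LubinTate MvPowerSeries

theorem coeff_pow_eq_zero_of_degree_lt_fe2 {R τ : Type*} [CommRing R] (Z : MvPowerSeries τ R)
    (hZ : constantCoeff Z = 0) (m : τ →₀ ℕ) (k : ℕ) (h : m.degree < k) :
    coeff m (Z ^ k) = 0 :=
  coeff_of_lt_order (lt_of_lt_of_le (by exact_mod_cast h)
    (le_order_pow_of_constantCoeff_eq_zero k hZ))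

theorem coeff_subst_pSeries_fe2 (p : ℕ) [Fact p.Prime] {R τ : Type*} [CommRing R] [Finite τ]
    (l : ℕ → R) (Z : MvPowerSeries τ R) (hZ : constantCoeff Z = 0) (m : τ →₀ ℕ) (N : ℕ)
    (hN : m.degree ≤ N) :
    coeff m (PowerSeries.subst Z (pSeries p l)) =
      ∑ k ∈ Finset.range (N + 1), l k * coeff m (Z ^ p ^ k) := by
  have hp : 1 < p := (Fact.out : p.Prime).one_lt
  rw [PowerSeries.coeff_subst (PowerSeries.HasSubst.of_constantCoeff_zero hZ)]
  have hinj : Set.InjOn (fun k : ℕ => p ^ k) (Finset.range (N + 1) : Set ℕ) :=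
    fun a _ b _ h => Nat.pow_right_injective hp h
  rw [finsum_eq_sum_of_support_subset (s := (Finset.range (N + 1)).image (fun k => p ^ k)),
    Finset.sum_image hinj]
  · refine Finset.sum_congr rfl fun k _ => ?_
    simp [pSeries, Nat.log_pow hp]
  · intro d hd
    rw [Function.mem_support] at hd
    have h1 : p ^ Nat.log p d = d := by
      by_contra h
      apply hd
      simp [pSeries, h]
    have h2 : d ≤ N := by
      by_contra h
      apply hd
      rw [coeff_pow_eq_zero_of_degree_lt_fe2 Z hZ m d (by omega), smul_zero]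
    rw [Finset.coe_image, Set.mem_image]
    refine ⟨Nat.log p d, ?_, h1⟩
    rw [Finset.coe_range, Set.mem_Iio]
    have : Nat.log p d < p ^ Nat.log p d := Nat.lt_pow_self hp
    omega

theorem exists_add_p_mul_pow (p : ℕ) (hp : p.Prime) {R : Type*} [CommRing R] (I : Ideal R)
    (Z c : R) (hc : c ∈ I) (k : ℕ) :
    ∃ e ∈ I, (Z + p * c) ^ p ^ k = Z ^ p ^ k + (p : R) ^ (k + 1) * e := by
  induction k with
  | zero => exact ⟨c, hc, by simp⟩
  | succ k ih =>
    obtain ⟨e, he, h⟩ := ih
    obtain ⟨r, hr⟩ := exists_add_pow_prime_eq hp (Z ^ p ^ k) ((p : R) ^ (k + 1) * e)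
    obtain ⟨t, ht⟩ : ∃ t, (k + 1) * p = (k + 2) + t :=
      Nat.exists_eq_add_of_le (by nlinarith [hp.two_le])
    refine ⟨(p : R) ^ t * e ^ p + Z ^ p ^ k * e * r, ?_, ?_⟩
    · refine I.add_mem (I.mul_mem_left _ (I.pow_mem_of_mem he _ hp.pos)) ?_
      exact I.mul_mem_right _ (I.mul_mem_left _ he)
    · rw [pow_succ p k, pow_mul, h, hr, mul_pow, ← pow_mul, ← pow_mul, ht, pow_add]
      ring

/-- a power series from its coefficients -/
def mkS {R τ : Type*} [CommRing R] (f : (τ →₀ ℕ) → R) : MvPowerSeries τ R := f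

theorem coeff_mkS {R τ : Type*} [CommRing R] (f : (τ →₀ ℕ) → R) (m : τ →₀ ℕ) :
    coeff m (mkS f) = f m := rfl

theorem coeff_pow_congr {R τ : Type*} [CommRing R] (a b : MvPowerSeries τ R)
    (ha : constantCoeff a = 0) (hb : constantCoeff b = 0) (m : τ →₀ ℕ)
    (h : ∀ m' : τ →₀ ℕ, m'.degree < m.degree → coeff m' a = coeff m' b) (q : ℕ) (hq : 2 ≤ q) :
    coeff m (a ^ q) = coeff m (b ^ q) := by
  rw [← sub_eq_zero, ← map_sub, ← (Commute.all a b).mul_geom_sum₂ q]
  apply coeff_of_lt_order
  have h1 : (m.degree : ℕ∞) ≤ (a - b).order := by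
    apply nat_le_order
    intro d hd
    rw [map_sub, h d hd, sub_self]
  have h2 : (1 : ℕ∞) ≤ (∑ i ∈ Finset.range q, a ^ i * b ^ (q - 1 - i)).order := by
    rw [one_le_order_iff_constCoeff_eq_zero, map_sum]
    refine Finset.sum_eq_zero fun i hi => ?_
    have hi' := Finset.mem_range.1 hi
    rw [map_mul, map_pow, map_pow, ha, hb]
    rcases Nat.eq_zero_or_pos i with h0 | h0
    · rw [zero_pow (by omega : q - 1 - i ≠ 0), mul_zero]
    · rw [zero_pow (by omega), zero_mul]
  refine lt_of_lt_of_le ?_ le_order_mul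
  calc (m.degree : ℕ∞) < m.degree + 1 := by
        exact_mod_cast Nat.lt_succ_self _
    _ ≤ _ := add_le_add h1 h2

variable {p : ℕ} [Fact p.Prime] {A B : Type*} [CommRing A] [CommRing B] [Algebra A B]
  [Algebra ℚ B]

/-- If `Z ≡ Z' mod p` then `log Z ≡ log Z' mod p`. -/
theorem log_congr (n : ℕ) (x : ℕ → A) {τ : Type*} [Finite τ]
    (Z c : MvPowerSeries τ A) (hZ : constantCoeff Z = 0) (hc : constantCoeff c = 0) :
    ∃ d : MvPowerSeries τ A, constantCoeff d = 0 ∧
      PowerSeries.subst ((Z + C (p : A) * c).map (algebraMap A B))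
        (logAt p n (fun i => algebraMap A B (x i))) =
      PowerSeries.subst (Z.map (algebraMap A B)) (logAt p n (fun i => algebraMap A B (x i))) +
        (C (p : A) * d).map (algebraMap A B) := by
  classical
  have hp : p.Prime := Fact.out
  choose a ha using fun k => hle_integral (p := p) (A := A) (B := B) n x k
  have hCp : (C (p : A) : MvPowerSeries τ A) = (p : MvPowerSeries τ A) := by
    simp
  have key := fun k => exists_add_p_mul_pow p hp
    (RingHom.ker (constantCoeff (σ := τ) (R := A))) Z c (by simpa [RingHom.mem_ker] using hc) k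
  choose e he1 he2 using key
  refine ⟨mkS fun m => ∑ k ∈ Finset.range (m.degree + 1), a k * coeff m (e k), ?_, ?_⟩
  · rw [← coeff_zero_eq_constantCoeff_apply, coeff_mkS]
    refine Finset.sum_eq_zero fun k _ => ?_
    have := he1 k
    rw [RingHom.mem_ker] at this
    rw [coeff_zero_eq_constantCoeff_apply, this, mul_zero]
  · have hZ1 : constantCoeff (Z.map (algebraMap A B)) = 0 := by
      rw [constantCoeff_map, hZ, map_zero]
    have hZ2 : constantCoeff ((Z + C (p : A) * c).map (algebraMap A B)) = 0 := by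
      rw [constantCoeff_map, map_add, map_mul, hZ, hc]; simp
    ext m
    rw [map_add (coeff m), logAt, coeff_subst_pSeries_fe2 p _ _ hZ2 m m.degree le_rfl,
      coeff_subst_pSeries_fe2 p _ _ hZ1 m m.degree le_rfl]
    rw [coeff_map, coeff_C_mul, coeff_mkS, map_mul, map_sum, Finset.mul_sum, ← Finset.sum_add_distrib]
    refine Finset.sum_congr rfl fun k _ => ?_
    rw [← map_pow, ← map_pow, coeff_map, coeff_map, hCp, he2 k]
    have h3 : (p : MvPowerSeries τ A) ^ (k + 1) = C ((p : A) ^ (k + 1)) := by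
      simp
    rw [h3, map_add, coeff_C_mul, map_add, map_mul (algebraMap A B),
      map_mul (algebraMap A B) (a k), ha, map_pow (algebraMap A B), map_natCast]
    ring

/-- Conversely `log Z ≡ log Z' mod p` implies `Z ≡ Z' mod p`. -/
theorem congr_of_log_congr (n : ℕ) (x : ℕ → A) (hinj : Function.Injective (algebraMap A B))
    {τ : Type*} [Finite τ] (Z Z' d : MvPowerSeries τ A) (hZ : constantCoeff Z = 0)
    (hZ' : constantCoeff Z' = 0)
    (h : PowerSeries.subst (Z'.map (algebraMap A B)) (logAt p n (fun i => algebraMap A B (x i))) =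
      PowerSeries.subst (Z.map (algebraMap A B)) (logAt p n (fun i => algebraMap A B (x i))) +
        (C (p : A) * d).map (algebraMap A B)) :
    ∃ c : MvPowerSeries τ A, Z' = Z + C (p : A) * c := by
  classical
  have hp : p.Prime := Fact.out
  have key : ∀ r : ℕ, ∀ m : τ →₀ ℕ, m.degree = r → (p : A) ∣ coeff m Z' - coeff m Z := by
    intro r
    induction r using Nat.strong_induction_on with
    | _ r ih =>
    intro m hm
    have ih' : ∀ m' : τ →₀ ℕ, m'.degree < r → ∃ c, coeff m' Z' - coeff m' Z = (p : A) * c :=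
      fun m' hm' => ih _ hm' m' rfl
    choose! c hc using ih'
    set c' : MvPowerSeries τ A := mkS fun m' => if m'.degree < r ∧ m' ≠ 0 then c m' else 0
      with hc'
    have hc0 : constantCoeff c' = 0 := by
      rw [← coeff_zero_eq_constantCoeff_apply, hc', coeff_mkS, if_neg (by simp)]
    obtain ⟨d', hd', hd2⟩ := log_congr (p := p) (A := A) (B := B) n x Z c' hZ hc0
    set Z'' := Z + C (p : A) * c' with hZ''
    have hagree : ∀ m' : τ →₀ ℕ, m'.degree < m.degree → coeff m' Z' = coeff m' Z'' := by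
      intro m' hm'
      rw [hm] at hm'
      rw [hZ'', map_add, coeff_C_mul, hc', coeff_mkS]
      by_cases h0 : m' = 0
      · subst h0
        rw [coeff_zero_eq_constantCoeff_apply, coeff_zero_eq_constantCoeff_apply, hZ, hZ']
        simp
      · rw [if_pos ⟨hm', h0⟩, ← hc m' hm']
        ring
    have hZ1 : constantCoeff (Z'.map (algebraMap A B)) = 0 := by
      rw [constantCoeff_map, hZ', map_zero]
    have hZ2 : constantCoeff (Z''.map (algebraMap A B)) = 0 := by
      rw [constantCoeff_map, hZ'', map_add, map_mul, hZ, hc0]; simp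
    have h4 := h
    rw [eq_sub_iff_add_eq.2 hd2.symm] at h4
    have h5 := congrArg (coeff m) h4
    rw [map_add, map_sub, logAt, coeff_subst_pSeries_fe2 p _ _ hZ1 m m.degree le_rfl,
      coeff_subst_pSeries_fe2 p _ _ hZ2 m m.degree le_rfl, Finset.sum_range_succ',
      Finset.sum_range_succ'] at h5
    have h6 : ∀ k ∈ Finset.range m.degree,
        hle p n (fun i => algebraMap A B (x i)) (k + 1) *
          coeff m ((Z'.map (algebraMap A B)) ^ p ^ (k + 1)) =
        hle p n (fun i => algebraMap A B (x i)) (k + 1) *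
          coeff m ((Z''.map (algebraMap A B)) ^ p ^ (k + 1)) := by
      intro k _
      congr 1
      apply coeff_pow_congr _ _ hZ1 hZ2
      · intro m' hm'
        rw [coeff_map, coeff_map, hagree m' hm']
      · calc 2 ≤ p := hp.two_le
          _ = p ^ 1 := (pow_one p).symm
          _ ≤ p ^ (k + 1) := Nat.pow_le_pow_right hp.pos (by omega)
    rw [Finset.sum_congr rfl h6] at h5
    have h7 : hle p n (fun i => algebraMap A B (x i)) 0 = 1 := by
      simp [hle, hl]
    rw [h7, pow_zero, pow_one, pow_one, one_mul, one_mul, coeff_map, coeff_map, coeff_map,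
      coeff_map, coeff_C_mul, coeff_C_mul] at h5
    have h8 : algebraMap A B (coeff m Z') =
        algebraMap A B (coeff m Z'' - (p : A) * coeff m d' + (p : A) * coeff m d) := by
      rw [map_add, map_sub]
      linear_combination h5
    have h9 := hinj h8
    have h10 : coeff m Z'' = coeff m Z := by
      rw [hZ'', map_add, coeff_C_mul, hc', coeff_mkS, if_neg (by rw [hm]; simp), mul_zero, add_zero]
    rw [h9, h10]
    exact ⟨coeff m d - coeff m d', by ring⟩
  choose c hc using fun m : τ →₀ ℕ => key m.degree m rfl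
  refine ⟨mkS c, ?_⟩
  ext m
  rw [map_add, coeff_C_mul, coeff_mkS, ← hc m]
  ring

end Crest.Agent.R227
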