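import Crest.Agent.R227.FE2

/-!
# R227 / FEAux : auxiliary lemmas for FE (logarithms, substitution in formal group laws)
-/

set_option autoImplicit false
set_option linter.unusedSectionVars false

noncomputable section

namespace Crest.Agent.R227.FEAux

open Crest.LubinTate MvPowerSeries

variable {p : ℕ} [hp : Fact p.Prime]

section pSeries

variable {R : Type*} [CommRing R]

theorem constantCoeff_pSeries (l : ℕ → R) :
    PowerSeries.constantCoeff (pSeries p l) = 0 := by
  rw [← PowerSeries.coeff_zero_eq_constantCoeff_apply, pSeries, PowerSeries.coeff_mk]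
  simp

theorem coeff_pow_pSeries (l : ℕ → R) (k : ℕ) :
    PowerSeries.coeff (p ^ k) (pSeries p l) = l k := by
  rw [pSeries, PowerSeries.coeff_mk, Nat.log_pow hp.out.one_lt, if_pos rfl]

theorem coeff_pSeries_of_forall_ne (l : ℕ → R) (m : ℕ) (hm : ∀ k, m ≠ p ^ k) :
    PowerSeries.coeff m (pSeries p l) = 0 := by
  rw [pSeries, PowerSeries.coeff_mk, if_neg]
  exact fun h => hm _ h.symm

theorem coeff_one_pSeries (l : ℕ → R) : PowerSeries.coeff 1 (pSeries p l) = l 0 := by
  simpa using coeff_pow_pSeries (p := p) l 0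

theorem map_pSeries {S : Type*} [CommRing S] (f : R →+* S) (l : ℕ → R) :
    PowerSeries.map f (pSeries p l) = pSeries p (fun k => f (l k)) := by
  ext m
  rw [PowerSeries.coeff_map, pSeries, pSeries, PowerSeries.coeff_mk, PowerSeries.coeff_mk]
  split_ifs <;> simp

end pSeries

section general

variable {R : Type*} [CommRing R] {τ : Type*}

theorem hs {a : MvPowerSeries τ R} (ha : constantCoeff a = 0) : PowerSeries.HasSubst a :=
  PowerSeries.HasSubst.of_constantCoeff_zero ha

theorem hs2 {a b : MvPowerSeries τ R} (ha : constantCoeff a = 0) (hb : constantCoeff b = 0) :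
    HasSubst ![a, b] :=
  hasSubst_of_constantCoeff_zero fun s => by fin_cases s <;> simpa

theorem cc_fadd (F : FormalGroup R) {a b : MvPowerSeries τ R}
    (ha : constantCoeff a = 0) (hb : constantCoeff b = 0) : constantCoeff (fadd F a b) = 0 :=
  constantCoeff_subst_eq_zero (hs2 ha hb) (fun i => by fin_cases i <;> simpa)
    F.zero_constantCoeff

theorem mv_map_fadd {S : Type*} [CommRing S] (f : R →+* S) (F : FormalGroup R)
    {a b : MvPowerSeries τ R} (ha : constantCoeff a = 0) (hb : constantCoeff b = 0) :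
    (fadd F a b).map f = fadd (F.map f) (a.map f) (b.map f) := by
  unfold fadd
  rw [map_subst (hs2 ha hb)]
  congr! 1
  ext1 i
  fin_cases i <;> simp

/-- composition with `PowerSeries.subst` -/
theorem subst_psubst {υ : Type*} {g : τ → MvPowerSeries υ R} (hg : HasSubst g)
    {a : MvPowerSeries τ R} (ha : constantCoeff a = 0) (f : PowerSeries R) :
    MvPowerSeries.subst g (PowerSeries.subst a f) =
      PowerSeries.subst (MvPowerSeries.subst g a) f := by
  rw [PowerSeries.subst, PowerSeries.subst, subst_comp_subst_apply (hs ha).const hg]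

/-- A power series with vanishing constant coefficient and linear coefficient one is injective
under substitution. -/
theorem psubst_inj {L : PowerSeries R} (h0 : PowerSeries.constantCoeff L = 0)
    (h1 : PowerSeries.coeff 1 L = 1) {a b : MvPowerSeries τ R} (ha : constantCoeff a = 0)
    (hb : constantCoeff b = 0) (h : PowerSeries.subst a L = PowerSeries.subst b L) : a = b := by
  have : Invertible (PowerSeries.coeff 1 L) := h1 ▸ invertibleOne
  have hL : PowerSeries.HasSubst L := PowerSeries.HasSubst.of_constantCoeff_zero' h0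
  have key : ∀ c : MvPowerSeries τ R, constantCoeff c = 0 →
      PowerSeries.subst (PowerSeries.subst c L) L.substInv = c := by
    intro c hc
    rw [← PowerSeries.subst_comp_subst_apply hL (hs hc), PowerSeries.subst_substInv_left _ h0,
      PowerSeries.subst_X (hs hc)]
  rw [← key a ha, ← key b hb, h]

/-- linear coefficients of a substitution -/
theorem coeff_single_psubst (L : PowerSeries R) {a : MvPowerSeries τ R}
    (ha : constantCoeff a = 0) (s : τ) :
    coeff (Finsupp.single s 1) (PowerSeries.subst a L) =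
      PowerSeries.coeff 1 L * coeff (Finsupp.single s 1) a := by
  classical
  rw [PowerSeries.coeff_subst (hs ha), finsum_eq_single _ 1]
  · simp
  · intro d hd
    rcases d with _ | _ | d
    · rw [pow_zero, coeff_one, if_neg (by simp), smul_zero]
    · exact absurd rfl hd
    · rw [coeff_of_lt_order, smul_zero]
      refine lt_of_lt_of_le ?_ (le_order_pow_of_constantCoeff_eq_zero (d + 1 + 1) ha)
      simp only [Finsupp.degree_single]
      norm_cast
      omega

/-- `L(Z(a,b)) = L(a) + L(b)`. -/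
theorem log_subst {L : PowerSeries R} {Z : MvPowerSeries (Fin 2) R}
    (hZ : constantCoeff Z = 0)
    (h : PowerSeries.subst Z L = PowerSeries.subst (X 0 : MvPowerSeries (Fin 2) R) L +
      PowerSeries.subst (X 1 : MvPowerSeries (Fin 2) R) L)
    {a b : MvPowerSeries τ R} (ha : constantCoeff a = 0) (hb : constantCoeff b = 0) :
    PowerSeries.subst (MvPowerSeries.subst ![a, b] Z) L =
      PowerSeries.subst a L + PowerSeries.subst b L := by
  have h2 := hs2 ha hb
  rw [← subst_psubst h2 hZ, h, subst_add h2, subst_psubst h2 (by simp), subst_psubst h2 (by simp),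
    subst_X h2, subst_X h2]
  simp

end general

section law

variable {A B : Type*} [CommRing A] [CommRing B] [Algebra A B] {τ : Type*}

theorem map_inj (hinj : Function.Injective (algebraMap A B)) :
    Function.Injective (MvPowerSeries.map (σ := τ) (algebraMap A B)) := by
  intro f g hfg
  ext d
  have := congrArg (coeff d) hfg
  rw [coeff_map, coeff_map] at this
  exact hinj this

omit [Algebra A B] in
theorem cc_map {f : A →+* B} {a : MvPowerSeries τ A} (ha : constantCoeff a = 0) :
    constantCoeff (a.map f) = 0 := by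
  rw [constantCoeff_map, ha, map_zero]

omit [Algebra A B] in
theorem cc_subst2 {Z : MvPowerSeries (Fin 2) A} (hZ : constantCoeff Z = 0)
    {a b : MvPowerSeries τ A} (ha : constantCoeff a = 0) (hb : constantCoeff b = 0) :
    constantCoeff (MvPowerSeries.subst ![a, b] Z) = 0 :=
  constantCoeff_subst_eq_zero (hs2 ha hb) (fun i => by fin_cases i <;> simpa) hZ

omit [Algebra A B] in
theorem map_subst2 (f : A →+* B) (Z : MvPowerSeries (Fin 2) A)
    {a b : MvPowerSeries τ A} (ha : constantCoeff a = 0) (hb : constantCoeff b = 0) :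
    (MvPowerSeries.subst ![a, b] Z).map f = MvPowerSeries.subst ![a.map f, b.map f] (Z.map f) := by
  rw [map_subst (hs2 ha hb)]
  congr! 1
  ext1 i
  fin_cases i <;> simp

/-- A series over `A` whose image over `B ⊇ A` has a logarithm is a commutative formal group law. -/
theorem exists_law (hinj : Function.Injective (algebraMap A B)) {L : PowerSeries B}
    (h0 : PowerSeries.constantCoeff L = 0) (h1 : PowerSeries.coeff 1 L = 1)
    {Z : MvPowerSeries (Fin 2) A} (hZ : constantCoeff Z = 0)
    (h : PowerSeries.subst (Z.map (algebraMap A B)) L =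
      PowerSeries.subst (X 0 : MvPowerSeries (Fin 2) B) L +
      PowerSeries.subst (X 1 : MvPowerSeries (Fin 2) B) L) :
    ∃ F : FormalGroup A, F.IsComm ∧ F.toPowerSeries = Z := by
  have hZ' : constantCoeff (Z.map (algebraMap A B)) = 0 := cc_map hZ
  have lin : ∀ i : Fin 2, Z.coeff (Finsupp.single i 1) = 1 := by
    intro i
    apply hinj
    have := congrArg (coeff (Finsupp.single i 1)) h
    rw [coeff_single_psubst L hZ', map_add, coeff_single_psubst L (by simp),
      coeff_single_psubst L (by simp), h1, coeff_map] at this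
    rw [map_one]
    fin_cases i <;> simpa [coeff_index_single_X] using this
  have X0 : ∀ i : Fin 3, constantCoeff (X i : MvPowerSeries (Fin 3) A) = 0 := by simp
  have X0' : ∀ i : Fin 2, constantCoeff (X i : MvPowerSeries (Fin 2) A) = 0 := by simp
  refine ⟨⟨Z, hZ, lin 0, lin 1, ?_⟩, ⟨?_⟩, rfl⟩
  · have c1 := cc_subst2 hZ (X0 0) (X0 1)
    have c2 := cc_subst2 hZ (X0 1) (X0 2)
    apply map_inj hinj
    refine psubst_inj h0 h1 (cc_map (cc_subst2 hZ c1 (X0 2))) (cc_map (cc_subst2 hZ (X0 0) c2)) ?_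
    rw [map_subst2 _ _ c1 (X0 2), map_subst2 _ _ (X0 0) c2, log_subst hZ' h (cc_map c1) (by simp),
      log_subst hZ' h (by simp) (cc_map c2), map_subst2 _ _ (X0 0) (X0 1),
      map_subst2 _ _ (X0 1) (X0 2), log_subst hZ' h (by simp) (by simp),
      log_subst hZ' h (by simp) (by simp), add_assoc]
  · change Z = MvPowerSeries.subst ![X 1, X 0] Z
    apply map_inj hinj
    refine psubst_inj h0 h1 hZ' (cc_map (cc_subst2 hZ (X0' 1) (X0' 0))) ?_
    rw [map_subst2 _ _ (X0' 1) (X0' 0), log_subst hZ' h (by simp) (by simp), h, add_comm]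
    simp

end law

section univ

variable (p)

attribute [local instance] MvPolynomial.algebraMvPolynomial

/-- The Frobenius lift on `ℤ[u]`. -/
def frobU : FrobData p (MvPolynomial ℕ ℤ) (MvPolynomial ℕ ℚ) where
  σ := (MvPolynomial.expand p : MvPolynomial ℕ ℤ →ₐ[ℤ] MvPolynomial ℕ ℤ).toRingHom
  σB := (MvPolynomial.expand p : MvPolynomial ℕ ℚ →ₐ[ℚ] MvPolynomial ℕ ℚ).toRingHom
  comm a := by
    change MvPolynomial.expand p (MvPolynomial.map _ a) = MvPolynomial.map _ (MvPolynomial.expand p a)
    rw [MvPolynomial.map_expand]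
  frob a := by
    change ((p : ℕ) : MvPolynomial ℕ ℤ) ∣ MvPolynomial.expand p a - a ^ p
    have : ((p : ℕ) : MvPolynomial ℕ ℤ) = MvPolynomial.C ((p : ℕ) : ℤ) := by simp
    rw [this, MvPolynomial.C_dvd_iff_zmod, map_sub, MvPolynomial.map_expand, map_pow,
      MvPolynomial.expand_zmod, sub_self]
  inj := MvPolynomial.map_injective _ (RingHom.injective_int (algebraMap ℤ ℚ))

theorem hle_X (n k : ℕ) : hle p n (MvPolynomial.X : ℕ → MvPolynomial ℕ ℚ) k = hl p n k := by
  rw [hle, MvPolynomial.aeval_X_left, AlgHom.id_apply]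

theorem logAt_X (n : ℕ) : logAt p n (MvPolynomial.X : ℕ → MvPolynomial ℕ ℚ) = logU p n := by
  rw [logAt, logU]
  congr 1
  ext1 k
  exact hle_X p n k

theorem expand_iter (i : ℕ) (f : MvPolynomial ℕ ℚ) :
    (((MvPolynomial.expand p : MvPolynomial ℕ ℚ →ₐ[ℚ] MvPolynomial ℕ ℚ).toRingHom) ^ i) f =
      MvPolynomial.aeval (fun j => (MvPolynomial.X j : MvPolynomial ℕ ℚ) ^ p ^ i) f := by
  induction i with
  | zero =>
    rw [pow_zero]
    simp
  | succ i ih =>
    rw [pow_succ', RingHom.mul_def, RingHom.comp_apply, ih]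
    change MvPolynomial.expand p (MvPolynomial.aeval _ f) = _
    rw [← AlgHom.comp_apply, MvPolynomial.comp_aeval]
    congr! 2
    ext1 j
    rw [map_pow, MvPolynomial.expand_X, ← pow_mul, pow_succ']

theorem sum_Icc_range {M : Type*} [AddCommMonoid M] (n k : ℕ) (f : ℕ → M) :
    (∑ i ∈ Finset.Icc 1 n, if i ≤ k then f i else 0) =
      ∑ i ∈ Finset.range k, if i + 1 ≤ n then f (i + 1) else 0 := by
  rw [← Finset.sum_filter, ← Finset.sum_filter]
  refine Finset.sum_nbij' (fun i => i - 1) (fun i => i + 1) ?_ ?_ ?_ ?_ ?_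
  · intro i hi
    simp only [Finset.mem_filter, Finset.mem_Icc, Finset.mem_range] at hi ⊢
    omega
  · intro i hi
    simp only [Finset.mem_filter, Finset.mem_Icc, Finset.mem_range] at hi ⊢
    omega
  · intro i hi
    simp only [Finset.mem_filter, Finset.mem_Icc] at hi
    omega
  · intro i hi
    simp
  · intro i hi
    simp only [Finset.mem_filter, Finset.mem_Icc] at hi
    rw [Nat.sub_add_cancel hi.1.1]

theorem coeff_subst_logU (n i m : ℕ) :
    PowerSeries.coeff m (PowerSeries.subst
      (PowerSeries.X ^ p ^ i : PowerSeries (MvPolynomial ℕ ℚ))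
          (PowerSeries.map ((frobU p).σB ^ i) (logU p n))) =
    if p ^ i ∣ m then ((frobU p).σB ^ i) (PowerSeries.coeff (m / p ^ i) (logU p n)) else 0 := by
  rw [PowerSeries.coeff_subst_X_pow (pow_ne_zero _ hp.out.ne_zero)]
  simp

/-- one-variable functional equation -/
theorem logU_fe (n : ℕ) : logU p n = PowerSeries.X +
    PowerSeries.C ((algebraMap ℚ (MvPolynomial ℕ ℚ)) ((p : ℚ)⁻¹)) *
      ∑ i ∈ Finset.Icc 1 n, PowerSeries.C (MvPolynomial.X i : MvPolynomial ℕ ℚ) *
        PowerSeries.subst (PowerSeries.X ^ p ^ i : PowerSeries (MvPolynomial ℕ ℚ))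
          (PowerSeries.map ((frobU p).σB ^ i) (logU p n)) := by
  have hp0 : (p : ℚ) ≠ 0 := Nat.cast_ne_zero.mpr hp.out.ne_zero
  ext1 m
  rw [map_add, PowerSeries.coeff_C_mul, map_sum]
  simp only [PowerSeries.coeff_C_mul, coeff_subst_logU]
  by_cases hm : ∃ k, m = p ^ k
  · obtain ⟨k, rfl⟩ := hm
    rw [PowerSeries.coeff_X]
    rcases k with _ | k
    · rw [pow_zero, if_pos rfl, logU, coeff_one_pSeries, hl, Finset.sum_eq_zero, mul_zero, add_zero]
      intro i hi
      rw [Finset.mem_Icc] at hi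
      rw [if_neg, mul_zero]
      rw [Nat.dvd_one]
      exact (Nat.one_lt_pow (by omega) hp.out.one_lt).ne'
    · rw [if_neg (Nat.one_lt_pow (by omega) hp.out.one_lt).ne', zero_add]
      have e1 : ∀ i ∈ Finset.Icc 1 n, (MvPolynomial.X i : MvPolynomial ℕ ℚ) *
          (if p ^ i ∣ p ^ (k + 1) then
            ((frobU p).σB ^ i) (PowerSeries.coeff (p ^ (k + 1) / p ^ i) (logU p n)) else 0) =
          if i ≤ k + 1 then (MvPolynomial.X i : MvPolynomial ℕ ℚ) *
            hle p n (fun j => (MvPolynomial.X j : MvPolynomial ℕ ℚ) ^ p ^ i) (k + 1 - i) else 0 := by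
        intro i _
        rw [mul_ite, mul_zero]
        by_cases hik : i ≤ k + 1
        · rw [if_pos (pow_dvd_pow p hik), if_pos hik, Nat.pow_div hik hp.out.pos, logU,
            coeff_pow_pSeries]
          congr 1
          exact expand_iter p i _
        · rw [if_neg, if_neg hik]
          rwa [Nat.pow_dvd_pow_iff_le_right hp.out.one_lt]
      rw [Finset.sum_congr rfl e1, sum_Icc_range n (k + 1), logU, coeff_pow_pSeries]
      have e2 := hle_succ' (p := p) n (MvPolynomial.X : ℕ → MvPolynomial ℕ ℚ) k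
      rw [hle_X] at e2
      have e3 : (algebraMap ℚ (MvPolynomial ℕ ℚ)) ((p : ℚ)⁻¹) * ((p : ℕ) : MvPolynomial ℕ ℚ) = 1 := by
        rw [← map_natCast (algebraMap ℚ (MvPolynomial ℕ ℚ)), ← map_mul, inv_mul_cancel₀ hp0, map_one]
      have e4 : (∑ i ∈ Finset.range (k + 1), if i + 1 ≤ n then
          (MvPolynomial.X (i + 1) : MvPolynomial ℕ ℚ) *
            hle p n (fun j => (MvPolynomial.X j : MvPolynomial ℕ ℚ) ^ p ^ (i + 1))
              (k + 1 - (i + 1)) else 0) = ((p : ℕ) : MvPolynomial ℕ ℚ) * hl p n (k + 1) := by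
        rw [e2]
        refine Finset.sum_congr rfl fun i _ => ?_
        rw [Nat.add_sub_add_right]
      rw [e4, ← mul_assoc, e3, one_mul]
  · have hm' : ∀ k, m ≠ p ^ k := fun k h => hm ⟨k, h⟩
    rw [logU, coeff_pSeries_of_forall_ne _ _ hm', PowerSeries.coeff_X,
      if_neg (by simpa using hm' 0), Finset.sum_eq_zero, mul_zero, add_zero]
    intro i _
    split_ifs with h
    · rw [coeff_pSeries_of_forall_ne, map_zero, mul_zero]
      intro k hk
      apply hm' (k + i)
      rw [pow_add, ← hk, Nat.div_mul_cancel h]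
    · rw [mul_zero]

theorem expand_map_psubst_X {R : Type*} [CommRing R] {τ : Type*} (q : ℕ) (hq : q ≠ 0) (j : τ)
    (f : PowerSeries R) (σ : R →+* R) :
    expand q hq ((PowerSeries.subst (X j : MvPowerSeries τ R) f).map σ) =
      PowerSeries.subst (X j : MvPowerSeries τ R)
        (PowerSeries.subst (PowerSeries.X ^ q : PowerSeries R) (PowerSeries.map σ f)) := by
  have h1 : (PowerSeries.subst (X j : MvPowerSeries τ R) f).map σ =
      PowerSeries.subst (X j : MvPowerSeries τ R) (PowerSeries.map σ f) := by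
    rw [PowerSeries.map_subst (PowerSeries.HasSubst.X j), map_X]
  rw [h1, expand, substAlgHom_apply, subst_psubst (HasSubst.X_pow hq) (by simp),
    subst_X (HasSubst.X_pow hq), PowerSeries.subst_comp_subst_apply
      (PowerSeries.HasSubst.X_pow hq) (PowerSeries.HasSubst.X j),
    PowerSeries.subst_pow (PowerSeries.HasSubst.X j), PowerSeries.subst_X (PowerSeries.HasSubst.X j)]

theorem fe_X_aux {R : Type*} [CommRing R] {τ : Type*} (j : τ) (L : PowerSeries R) (c : R)
    (x : ℕ → R) (σ : ℕ → (R →+* R)) (q : ℕ → ℕ) (hq : ∀ i, q i ≠ 0) (s : Finset ℕ)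
    (h : L = PowerSeries.X + PowerSeries.C c * ∑ i ∈ s, PowerSeries.C (x i) *
      PowerSeries.subst (PowerSeries.X ^ q i : PowerSeries R) (PowerSeries.map (σ i) L)) :
    PowerSeries.subst (X j : MvPowerSeries τ R) L = X j + C c * ∑ i ∈ s, C (x i) *
      expand (q i) (hq i) ((PowerSeries.subst (X j : MvPowerSeries τ R) L).map (σ i)) := by
  have hX : PowerSeries.HasSubst (X j : MvPowerSeries τ R) := PowerSeries.HasSubst.X j
  have h' := congrArg (PowerSeries.substAlgHom hX) h
  rw [map_add, map_mul, map_sum] at h'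
  simp only [map_mul, PowerSeries.coe_substAlgHom, PowerSeries.subst_C, PowerSeries.subst_X hX] at h'
  rw [h']
  congr 2
  refine Finset.sum_congr rfl fun i _ => ?_
  rw [← h', expand_map_psubst_X]

/-- functional equation for `L(X_j)` -/
theorem logU_fe_X (n : ℕ) {τ : Type*} (j : τ) :
    PowerSeries.subst (X j : MvPowerSeries τ (MvPolynomial ℕ ℚ)) (logU p n) = X j +
    C ((algebraMap ℚ (MvPolynomial ℕ ℚ)) ((p : ℚ)⁻¹)) *
      ∑ i ∈ Finset.Icc 1 n, C (MvPolynomial.X i : MvPolynomial ℕ ℚ) *
        expand (p ^ i) (pow_ne_zero _ hp.out.ne_zero)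
          ((PowerSeries.subst (X j : MvPowerSeries τ (MvPolynomial ℕ ℚ)) (logU p n)).map
            ((frobU p).σB ^ i)) :=
  fe_X_aux j (logU p n) _ (fun i => (MvPolynomial.X i : MvPolynomial ℕ ℚ))
    (fun i => (frobU p).σB ^ i) (fun i => p ^ i) (fun _ => pow_ne_zero _ hp.out.ne_zero) _
    (logU_fe p n)

/-- functional equation for `L(X_0) + L(X_1)` -/
theorem logU_fe_add (n : ℕ) :
    PowerSeries.subst (X 0 : MvPowerSeries (Fin 2) (MvPolynomial ℕ ℚ)) (logU p n) +
    PowerSeries.subst (X 1 : MvPowerSeries (Fin 2) (MvPolynomial ℕ ℚ)) (logU p n) =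
    (X 0 + X 1 : MvPowerSeries (Fin 2) (MvPolynomial ℕ ℤ)).map
      (algebraMap (MvPolynomial ℕ ℤ) (MvPolynomial ℕ ℚ)) +
    C ((algebraMap ℚ (MvPolynomial ℕ ℚ)) ((p : ℚ)⁻¹)) *
      ∑ i ∈ Finset.Icc 1 n, C (algebraMap (MvPolynomial ℕ ℤ) (MvPolynomial ℕ ℚ)
          (MvPolynomial.X i : MvPolynomial ℕ ℤ)) *
        expand (p ^ i) (pow_ne_zero _ hp.out.ne_zero)
          ((PowerSeries.subst (X 0 : MvPowerSeries (Fin 2) (MvPolynomial ℕ ℚ)) (logU p n) +
            PowerSeries.subst (X 1 : MvPowerSeries (Fin 2) (MvPolynomial ℕ ℚ)) (logU p n)).map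
            ((frobU p).σB ^ i)) := by
  have hX : ∀ i : ℕ, algebraMap (MvPolynomial ℕ ℤ) (MvPolynomial ℕ ℚ)
          (MvPolynomial.X i : MvPolynomial ℕ ℤ) = MvPolynomial.X i := fun i =>
    MvPolynomial.map_X _ i
  simp only [map_add, mul_add, Finset.sum_add_distrib, hX, map_X]
  refine (congrArg₂ (· + ·) (logU_fe_X p n (0 : Fin 2)) (logU_fe_X p n (1 : Fin 2))).trans ?_
  abel

theorem hzU_exists_aux (n : ℕ) : ∃ F : FormalGroup (MvPolynomial ℕ ℤ), F.IsComm ∧
    PowerSeries.subst (F.toPowerSeries.map (MvPolynomial.map (Int.castRingHom ℚ))) (logU p n) =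
      PowerSeries.subst (X 0 : MvPowerSeries (Fin 2) (MvPolynomial ℕ ℚ)) (logU p n) +
      PowerSeries.subst (X 1 : MvPowerSeries (Fin 2) (MvPolynomial ℕ ℚ)) (logU p n) := by
  have hlog : logAt p n (fun i => algebraMap (MvPolynomial ℕ ℤ) (MvPolynomial ℕ ℚ)
      (MvPolynomial.X i : MvPolynomial ℕ ℤ)) = logU p n := by
    rw [← logAt_X]
    congr 1
    ext1 i
    exact MvPolynomial.map_X _ i
  have h0 : PowerSeries.constantCoeff (logU p n) = 0 := constantCoeff_pSeries _
  have h1 : PowerSeries.coeff 1 (logU p n) = 1 := by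
    rw [logU, coeff_one_pSeries, hl]
  obtain ⟨Z, hZ, hZL⟩ := fe_integral (frobU p) n (MvPolynomial.X : ℕ → MvPolynomial ℕ ℤ)
    (fun i => MvPolynomial.expand_X p i) (lam := PowerSeries.subst (X 0 : MvPowerSeries (Fin 2) (MvPolynomial ℕ ℚ)) (logU p n) +
      PowerSeries.subst (X 1 : MvPowerSeries (Fin 2) (MvPolynomial ℕ ℚ)) (logU p n))
    (by
      rw [map_add, PowerSeries.constantCoeff_subst_eq_zero (by simp) _ h0,
        PowerSeries.constantCoeff_subst_eq_zero (by simp) _ h0, add_zero])
    (X 0 + X 1) (logU_fe_add p n)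
  rw [hlog] at hZL
  obtain ⟨F, hF, hFZ⟩ := exists_law (B := MvPolynomial ℕ ℚ) (frobU p).inj h0 h1 hZ hZL
  refine ⟨F, hF, ?_⟩
  rw [hFZ]
  exact hZL

end univ

end Crest.Agent.R227.FEAux
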