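import Mathlib
import Crest.Prelude.Def_LubinTate

set_option autoImplicit false

open MvPowerSeries
open Crest.LubinTate

namespace Crest.Agent.R227

variable {R : Type*} [CommRing R] {S : Type*} [CommRing S] {σ τ : Type*}

/-! ### substitution helpers -/

lemma hasSubst_pair {f g : MvPowerSeries σ R} (hf : PowerSeries.HasSubst f)
    (hg : PowerSeries.HasSubst g) : MvPowerSeries.HasSubst ![f, g] :=
  hasSubst_of_constantCoeff_nilpotent fun s => by
    fin_cases s
    · simpa using hf
    · simpa using hg

lemma hasSubst_of_cc {f : MvPowerSeries σ R} (hf : f.constantCoeff = 0) :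
    PowerSeries.HasSubst f := PowerSeries.HasSubst.of_constantCoeff_zero hf

/-- formal sum of two series -/
noncomputable def fadd (F : FormalGroup R) (f g : MvPowerSeries σ R) : MvPowerSeries σ R :=
  F.toPowerSeries.subst ![f, g]

lemma fadd_def (F : FormalGroup R) (f g : MvPowerSeries σ R) :
    fadd F f g = F.toPowerSeries.subst ![f, g] := rfl

lemma hasSubst_fadd (F : FormalGroup R) {f g : MvPowerSeries σ R} (hf : PowerSeries.HasSubst f)
    (hg : PowerSeries.HasSubst g) : PowerSeries.HasSubst (fadd F f g) :=
  IsNilpotent_subst (hasSubst_pair hf hg) (F.zero_constantCoeff ▸ IsNilpotent.zero)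

lemma fadd_assoc (F : FormalGroup R) {f g h : MvPowerSeries σ R} (hf : PowerSeries.HasSubst f)
    (hg : PowerSeries.HasSubst g) (hh : PowerSeries.HasSubst h) :
    fadd F (fadd F f g) h = fadd F f (fadd F g h) := F.assoc' hf hg hh

lemma fadd_comm (F : FormalGroup R) [F.IsComm] {f g : MvPowerSeries σ R}
    (hf : PowerSeries.HasSubst f) (hg : PowerSeries.HasSubst g) :
    fadd F f g = fadd F g f := F.comm' hf hg

lemma fadd_zero (F : FormalGroup R) {f : MvPowerSeries σ R} (hf : PowerSeries.HasSubst f) :
    fadd F f 0 = f := F.add_zero hf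

lemma zero_fadd (F : FormalGroup R) {f : MvPowerSeries σ R} (hf : PowerSeries.HasSubst f) :
    fadd F 0 f = f := F.zero_add hf

lemma constantCoeff_fadd (F : FormalGroup R) {f g : MvPowerSeries σ R}
    (hf : f.constantCoeff = 0) (hg : g.constantCoeff = 0) :
    (fadd F f g).constantCoeff = 0 := by
  refine MvPowerSeries.constantCoeff_subst_eq_zero
    (hasSubst_pair (hasSubst_of_cc hf) (hasSubst_of_cc hg)) ?_ F.zero_constantCoeff
  intro i
  fin_cases i
  · simpa using hf
  · simpa using hg

/-- substituting series into a formal sum -/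
lemma subst_fadd (F : FormalGroup R) {f g : MvPowerSeries σ R} (hf : PowerSeries.HasSubst f)
    (hg : PowerSeries.HasSubst g) {a : σ → MvPowerSeries τ R} (ha : MvPowerSeries.HasSubst a) :
    MvPowerSeries.subst a (fadd F f g) =
      fadd F (MvPowerSeries.subst a f) (MvPowerSeries.subst a g) := by
  unfold fadd
  rw [subst_comp_subst_apply (hasSubst_pair hf hg) ha]
  congr! 2 with s
  fin_cases s <;> simp

lemma psubst_fadd (F : FormalGroup R) {f g : PowerSeries R} (hf : PowerSeries.HasSubst f)
    (hg : PowerSeries.HasSubst g) {a : MvPowerSeries τ R} (ha : PowerSeries.HasSubst a) :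
    PowerSeries.subst a (fadd F f g) =
      fadd F (PowerSeries.subst a f) (PowerSeries.subst a g) :=
  subst_fadd F hf hg ha.const


/-! ### homomorphisms -/

section Hom

/-- `IsFGHom` wrapped in a structure (for dot notation) -/
structure IsHom (F G : FormalGroup R) (φ : PowerSeries R) : Prop where
  out : IsFGHom F G φ

variable {F G H : FormalGroup R}

lemma IsHom.cc {φ : PowerSeries R} (h : IsHom F G φ) : PowerSeries.constantCoeff φ = 0 :=
  h.out.1

lemma IsHom.hasSubst {φ : PowerSeries R} (h : IsHom F G φ) : PowerSeries.HasSubst φ :=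
  PowerSeries.HasSubst.of_constantCoeff_zero' h.cc

lemma hasSubst_psubst {φ : PowerSeries R} (hφ : PowerSeries.HasSubst φ) {f : MvPowerSeries σ R}
    (hf : PowerSeries.HasSubst f) : PowerSeries.HasSubst (PowerSeries.subst f φ) :=
  IsNilpotent_subst hf.const hφ

lemma IsHom.hasSubst_subst {φ : PowerSeries R} (h : IsHom F G φ) {f : MvPowerSeries σ R}
    (hf : PowerSeries.HasSubst f) : PowerSeries.HasSubst (PowerSeries.subst f φ) :=
  hasSubst_psubst h.hasSubst hf

/-- a homomorphism is additive on all points -/
lemma IsHom.subst_fadd {φ : PowerSeries R} (h : IsHom F G φ) {f g : MvPowerSeries σ R}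
    (hf : PowerSeries.HasSubst f) (hg : PowerSeries.HasSubst g) :
    PowerSeries.subst (fadd F f g) φ =
      fadd G (PowerSeries.subst f φ) (PowerSeries.subst g φ) := by
  have h2 := congrArg (MvPowerSeries.subst ![f, g]) h.out.2
  have hX : MvPowerSeries.HasSubst ![f, g] := hasSubst_pair hf hg
  have hF : PowerSeries.HasSubst F.toPowerSeries :=
    hasSubst_of_cc F.zero_constantCoeff
  have hX0 : PowerSeries.HasSubst (X 0 : MvPowerSeries (Fin 2) R) :=
    PowerSeries.HasSubst.X 0
  have hX1 : PowerSeries.HasSubst (X 1 : MvPowerSeries (Fin 2) R) :=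
    PowerSeries.HasSubst.X 1
  have e1 : MvPowerSeries.subst ![f, g] (PowerSeries.subst F.toPowerSeries φ) =
      PowerSeries.subst (fadd F f g) φ := by
    unfold PowerSeries.subst fadd
    rw [subst_comp_subst_apply hF.const hX]
  have e2 : MvPowerSeries.subst ![f, g] (G.toPowerSeries.subst
      ![PowerSeries.subst (X 0 : MvPowerSeries (Fin 2) R) φ,
        PowerSeries.subst (X 1 : MvPowerSeries (Fin 2) R) φ]) =
      fadd G (PowerSeries.subst f φ) (PowerSeries.subst g φ) := by
    change MvPowerSeries.subst ![f, g] (fadd G _ _) = _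
    rw [R227.subst_fadd G (hasSubst_psubst h.hasSubst hX0) (hasSubst_psubst h.hasSubst hX1) hX]
    unfold PowerSeries.subst
    rw [subst_comp_subst_apply hX0.const hX, subst_comp_subst_apply hX1.const hX]
    simp [subst_X hX]
  rw [e1, e2] at h2
  exact h2

/-- to check that a series is a homomorphism it suffices to check the generic point -/
lemma isHom_of {φ : PowerSeries R} (h0 : PowerSeries.constantCoeff φ = 0)
    (h : PowerSeries.subst (fadd F (X 0 : MvPowerSeries (Fin 2) R) (X 1)) φ =
      fadd G (PowerSeries.subst (X 0 : MvPowerSeries (Fin 2) R) φ)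
        (PowerSeries.subst (X 1 : MvPowerSeries (Fin 2) R) φ)) : IsHom F G φ := by
  refine ⟨⟨h0, ?_⟩⟩
  have : fadd F (X 0 : MvPowerSeries (Fin 2) R) (X 1) = F.toPowerSeries := by
    unfold fadd
    have e : (![X 0, X 1] : Fin 2 → MvPowerSeries (Fin 2) R) = X := by
      ext1 i; fin_cases i <;> rfl
    rw [e, MvPowerSeries.subst_self]
    rfl
  rw [this] at h
  exact h

lemma subst_X_X_self (F : FormalGroup R) :
    fadd F (X 0 : MvPowerSeries (Fin 2) R) (X 1) = F.toPowerSeries := by
  unfold fadd
  have e : (![X 0, X 1] : Fin 2 → MvPowerSeries (Fin 2) R) = X := by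
    ext1 i; fin_cases i <;> rfl
  rw [e, MvPowerSeries.subst_self]
  rfl

lemma psubst_psubst {φ ψ : PowerSeries R} (hψ : PowerSeries.HasSubst ψ)
    {f : MvPowerSeries σ R} (hf : PowerSeries.HasSubst f) :
    PowerSeries.subst (PowerSeries.subst f ψ) φ =
      PowerSeries.subst f (PowerSeries.subst ψ φ) := by
  rw [PowerSeries.subst_comp_subst_apply hψ hf]

lemma IsHom.id (F : FormalGroup R) : IsHom F F PowerSeries.X := by
  refine isHom_of (by simp) ?_
  rw [PowerSeries.subst_X, PowerSeries.subst_X (PowerSeries.HasSubst.X 0),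
    PowerSeries.subst_X (PowerSeries.HasSubst.X 1)]
  exact hasSubst_fadd F (PowerSeries.HasSubst.X 0) (PowerSeries.HasSubst.X 1)

lemma IsHom.comp {φ ψ : PowerSeries R} (hφ : IsHom F G φ) (hψ : IsHom G H ψ) :
    IsHom F H (PowerSeries.subst φ ψ) := by
  have hX0 : PowerSeries.HasSubst (X 0 : MvPowerSeries (Fin 2) R) :=
    PowerSeries.HasSubst.X 0
  have hX1 : PowerSeries.HasSubst (X 1 : MvPowerSeries (Fin 2) R) :=
    PowerSeries.HasSubst.X 1
  refine isHom_of ?_ ?_
  · exact MvPowerSeries.constantCoeff_subst_eq_zero hφ.hasSubst.const (fun _ => hφ.cc) hψ.cc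
  · rw [← psubst_psubst hφ.hasSubst (hasSubst_fadd F hX0 hX1), hφ.subst_fadd hX0 hX1,
      hψ.subst_fadd (hφ.hasSubst_subst hX0) (hφ.hasSubst_subst hX1),
      psubst_psubst hφ.hasSubst hX0, psubst_psubst hφ.hasSubst hX1]

lemma isHom_zero (F G : FormalGroup R) : IsHom F G (0 : PowerSeries R) := by
  refine isHom_of (by simp) ?_
  have : ∀ f : MvPowerSeries (Fin 2) R, PowerSeries.HasSubst f →
      PowerSeries.subst f (0 : PowerSeries R) = 0 := by
    intro f hf
    rw [← PowerSeries.coe_substAlgHom hf, map_zero]
  rw [this _ (hasSubst_fadd F (PowerSeries.HasSubst.X 0) (PowerSeries.HasSubst.X 1)),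
    this _ (PowerSeries.HasSubst.X 0), this _ (PowerSeries.HasSubst.X 1),
    fadd_zero G PowerSeries.HasSubst.zero]

lemma fadd_fadd_fadd_comm (F : FormalGroup R) [F.IsComm] {a b c d : MvPowerSeries σ R}
    (ha : PowerSeries.HasSubst a) (hb : PowerSeries.HasSubst b)
    (hc : PowerSeries.HasSubst c) (hd : PowerSeries.HasSubst d) :
    fadd F (fadd F a b) (fadd F c d) = fadd F (fadd F a c) (fadd F b d) := by
  rw [fadd_assoc F ha hb (hasSubst_fadd F hc hd), ← fadd_assoc F hb hc hd,
    fadd_comm F hb hc, fadd_assoc F hc hb hd, ← fadd_assoc F ha hc (hasSubst_fadd F hb hd)]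

/-- the sum of two homomorphisms into a commutative law -/
lemma IsHom.fadd [G.IsComm] {φ ψ : PowerSeries R} (hφ : IsHom F G φ) (hψ : IsHom F G ψ) :
    IsHom F G (R227.fadd G φ ψ) := by
  have hX0 : PowerSeries.HasSubst (X 0 : MvPowerSeries (Fin 2) R) :=
    PowerSeries.HasSubst.X 0
  have hX1 : PowerSeries.HasSubst (X 1 : MvPowerSeries (Fin 2) R) :=
    PowerSeries.HasSubst.X 1
  refine isHom_of (constantCoeff_fadd G hφ.cc hψ.cc) ?_
  rw [psubst_fadd G hφ.hasSubst hψ.hasSubst (hasSubst_fadd F hX0 hX1),
    psubst_fadd G hφ.hasSubst hψ.hasSubst hX0, psubst_fadd G hφ.hasSubst hψ.hasSubst hX1,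
    hφ.subst_fadd hX0 hX1, hψ.subst_fadd hX0 hX1]
  exact fadd_fadd_fadd_comm G (hφ.hasSubst_subst hX0) (hφ.hasSubst_subst hX1)
    (hψ.hasSubst_subst hX0) (hψ.hasSubst_subst hX1)

end Hom

/-! ### the multiplication series -/

section Mul

variable (F : FormalGroup R)

lemma mulSeries_zero : mulSeries F 0 = 0 := rfl

lemma mulSeries_succ (m : ℕ) : mulSeries F (m + 1) = fadd F (mulSeries F m) PowerSeries.X := rfl

lemma constantCoeff_mulSeries (m : ℕ) : PowerSeries.constantCoeff (mulSeries F m) = 0 := by
  induction m with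
  | zero => simp [mulSeries_zero]
  | succ m ih =>
    rw [mulSeries_succ]
    exact constantCoeff_fadd F ih (PowerSeries.constantCoeff_X)

lemma hasSubst_mulSeries (m : ℕ) : PowerSeries.HasSubst (mulSeries F m) :=
  PowerSeries.HasSubst.of_constantCoeff_zero' (constantCoeff_mulSeries F m)

lemma mulSeries_one : mulSeries F 1 = PowerSeries.X := by
  rw [mulSeries_succ, mulSeries_zero, zero_fadd F PowerSeries.HasSubst.X']

lemma mulSeries_isHom [F.IsComm] (m : ℕ) : IsHom F F (mulSeries F m) := by
  induction m with
  | zero => exact isHom_zero F F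
  | succ m ih => exact ih.fadd (IsHom.id F)

lemma mulSeries_add (m l : ℕ) :
    mulSeries F (m + l) = fadd F (mulSeries F m) (mulSeries F l) := by
  induction l with
  | zero => rw [add_zero, mulSeries_zero, fadd_zero F (hasSubst_mulSeries F m)]
  | succ l ih =>
    rw [← add_assoc, mulSeries_succ, ih, mulSeries_succ,
      fadd_assoc F (hasSubst_mulSeries F m) (hasSubst_mulSeries F l) PowerSeries.HasSubst.X']

/-- evaluation of the multiplication series at a point: recursion -/
lemma subst_mulSeries_succ (m : ℕ) {f : MvPowerSeries σ R} (hf : PowerSeries.HasSubst f) :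
    PowerSeries.subst f (mulSeries F (m + 1)) =
      fadd F (PowerSeries.subst f (mulSeries F m)) f := by
  rw [mulSeries_succ, psubst_fadd F (hasSubst_mulSeries F m) PowerSeries.HasSubst.X' hf,
    PowerSeries.subst_X hf]

lemma subst_mulSeries_zero {f : MvPowerSeries σ R} (hf : PowerSeries.HasSubst f) :
    PowerSeries.subst f (mulSeries F 0) = 0 := by
  rw [mulSeries_zero, ← PowerSeries.coe_substAlgHom hf, map_zero]

/-- homomorphisms commute with the multiplication series -/
lemma IsHom.subst_mulSeries {F G : FormalGroup R} {φ : PowerSeries R} (h : IsHom F G φ)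
    (m : ℕ) : PowerSeries.subst (mulSeries F m) φ = PowerSeries.subst φ (mulSeries G m) := by
  induction m with
  | zero =>
    rw [subst_mulSeries_zero G h.hasSubst, mulSeries_zero]
    exact MvPowerSeries.subst_zero_of_constantCoeff_zero h.cc
  | succ m ih =>
    rw [mulSeries_succ, h.subst_fadd (hasSubst_mulSeries F m) PowerSeries.HasSubst.X', ih,
      subst_mulSeries_succ G m h.hasSubst, ← PowerSeries.map_algebraMap_eq_subst_X]
    simp

lemma mulSeries_mul [F.IsComm] (m l : ℕ) :
    mulSeries F (m * l) = PowerSeries.subst (mulSeries F l) (mulSeries F m) := by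
  induction m with
  | zero => rw [zero_mul, subst_mulSeries_zero F (hasSubst_mulSeries F l), mulSeries_zero]
  | succ m ih =>
    rw [add_mul, one_mul, mulSeries_add, ih, subst_mulSeries_succ F m (hasSubst_mulSeries F l)]

end Mul


/-! ### chain rule -/

section Chain

lemma derivation_aeval [Fintype σ] {A : Type*} [CommRing A] [Algebra R A]
    (D : Derivation R A A) (a : σ → A) (p : MvPolynomial σ R) :
    D (MvPolynomial.aeval a p) = ∑ s, MvPolynomial.aeval a (MvPolynomial.pderiv s p) * D (a s) := by
  induction p using MvPolynomial.induction_on with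
  | C r => simp
  | add p q hp hq => simp [hp, hq, add_mul, Finset.sum_add_distrib]
  | mul_X p i hp =>
    classical
    simp only [map_mul, MvPolynomial.aeval_X, Derivation.leibniz, smul_eq_mul, hp,
      MvPolynomial.pderiv_X, map_add, add_mul, Finset.sum_add_distrib, Finset.mul_sum]
    congr 1
    · rw [Finset.sum_eq_single i]
      · simp
      · intro b _ hb
        simp [hb]
      · simp
    · exact Finset.sum_congr rfl fun s _ => by ring

/-- the coefficients of a substitution in small degree only depend on a truncation -/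
lemma coeff_subst_trunc [Finite σ] [Finite τ] (f : MvPowerSeries σ R)
    {a : σ → MvPowerSeries τ R} (ha : ∀ i, (a i).constantCoeff = 0) {e : τ →₀ ℕ} {k : ℕ}
    (he : e.degree < k) :
    coeff e (f.subst a) = coeff e (MvPolynomial.aeval a (truncTotal k f)) := by
  rw [← MvPowerSeries.coeff_truncTotal _ he, truncTotal_subst_eq_truncTotal_truncTotal_subst ha,
    MvPowerSeries.coeff_truncTotal _ he, subst_coe]

/-- coefficients of a substitution agree if the series agree in small degree -/
lemma coeff_subst_congr_left [Finite σ] [Finite τ] {f g : MvPowerSeries σ R}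
    {a : σ → MvPowerSeries τ R} (ha : ∀ i, (a i).constantCoeff = 0) {e : τ →₀ ℕ} {k : ℕ}
    (he : e.degree < k) (hfg : ∀ d : σ →₀ ℕ, d.degree < k → coeff d f = coeff d g) :
    coeff e (f.subst a) = coeff e (g.subst a) := by
  rw [coeff_subst_trunc f ha he, coeff_subst_trunc g ha he]
  congr 2
  ext d
  by_cases hd : d.degree < k
  · rw [MvPowerSeries.coeff_truncTotal _ hd, MvPowerSeries.coeff_truncTotal _ hd, hfg d hd]
  · rw [MvPowerSeries.coeff_truncTotal_eq_zero _ (not_lt.mp hd),
      MvPowerSeries.coeff_truncTotal_eq_zero _ (not_lt.mp hd)]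

/-- general chain rule for substitutions of series without constant term -/
lemma pderiv_subst [Fintype σ] [Finite τ] (f : MvPowerSeries σ R)
    {a : σ → MvPowerSeries τ R} (ha : ∀ i, (a i).constantCoeff = 0) (t : τ) :
    pderiv R t (f.subst a) = ∑ s, (pderiv R s f).subst a * pderiv R t (a s) := by
  classical
  ext e
  have hlt : (e + Finsupp.single t 1).degree < e.degree + 2 := by
    rw [map_add, Finsupp.degree_single]; omega
  have h1 : coeff e (pderiv R t (f.subst a)) =
      coeff e (pderiv R t (MvPolynomial.aeval a (truncTotal (e.degree + 2) f))) := by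
    rw [coeff_pderiv, coeff_pderiv, coeff_subst_trunc f ha hlt]
  rw [h1, derivation_aeval, map_sum, map_sum]
  refine Finset.sum_congr rfl fun s _ => ?_
  rw [coeff_mul, coeff_mul]
  refine Finset.sum_congr rfl fun x hx => ?_
  congr 1
  have hx' : x.1.degree ≤ e.degree := by
    rw [Finset.HasAntidiagonal.mem_antidiagonal] at hx
    rw [← hx, map_add]; omega
  rw [← subst_coe, ← pderiv_coe]
  refine coeff_subst_congr_left ha (k := e.degree + 1) (by omega) fun d hd => ?_
  rw [coeff_pderiv, coeff_pderiv, MvPolynomial.coeff_coe, MvPowerSeries.coeff_truncTotal]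
  rw [map_add, Finsupp.degree_single]; omega

end Chain


/-! ### derivative of a homomorphism -/

section Deriv

lemma constantCoeff_subst_of_zero [Finite σ] (f : MvPowerSeries σ R)
    {a : σ → MvPowerSeries τ R} (ha : ∀ i, (a i).constantCoeff = 0) :
    (f.subst a).constantCoeff = f.constantCoeff := by
  have hs : MvPowerSeries.HasSubst a := hasSubst_of_constantCoeff_zero ha
  have h1 : f = (f - MvPowerSeries.C f.constantCoeff) + MvPowerSeries.C f.constantCoeff := by ring
  have h2 : (f - MvPowerSeries.C f.constantCoeff).constantCoeff = 0 := by simp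
  rw [h1, MvPowerSeries.subst_add hs, map_add,
    MvPowerSeries.constantCoeff_subst_eq_zero hs ha h2, MvPowerSeries.subst_C]
  simp

/-- the partial derivative `F_Y(X, 0)` of a formal group law -/
noncomputable def FY (F : FormalGroup R) : PowerSeries R :=
  (pderiv R 1 F.toPowerSeries).subst ![PowerSeries.X, 0]

lemma constantCoeff_FY (F : FormalGroup R) : PowerSeries.constantCoeff (FY F) = 1 := by
  have h := constantCoeff_subst_of_zero (pderiv R 1 F.toPowerSeries)
    (a := ![(PowerSeries.X : PowerSeries R), 0]) (by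
      intro i
      fin_cases i
      · exact PowerSeries.constantCoeff_X
      · simp)
  have h2 : (pderiv R 1 F.toPowerSeries).constantCoeff = 1 := by
    rw [← coeff_zero_eq_constantCoeff_apply, coeff_pderiv]
    simp [F.lin_coeff_Y]
  exact h.trans h2

lemma isUnit_FY (F : FormalGroup R) : IsUnit (FY F) := by
  rw [PowerSeries.isUnit_iff_constantCoeff, constantCoeff_FY]
  exact isUnit_one

lemma psubst_zero_of_cc {φ : PowerSeries R} (h : PowerSeries.constantCoeff φ = 0) :
    PowerSeries.subst (0 : MvPowerSeries σ R) φ = 0 :=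
  PowerSeries.subst_zero_of_constantCoeff_zero h

lemma pderiv_psubst [Finite τ] (φ : PowerSeries R) {P : MvPowerSeries τ R}
    (hP : P.constantCoeff = 0) (t : τ) :
    pderiv R t (PowerSeries.subst P φ) =
      PowerSeries.subst P (PowerSeries.derivative R φ) * pderiv R t P := by
  have := pderiv_subst (σ := Unit) (f := φ) (a := fun _ => P) (fun _ => hP) t
  rw [Finset.univ_unique, Finset.sum_singleton] at this
  exact this

/-- `φ'(X) F_Y(X,0) = φ'(0) G_Y(φ(X),0)` for a homomorphism `φ : F → G` -/
lemma IsHom.derivative_mul {F G : FormalGroup R} {φ : PowerSeries R} (h : IsHom F G φ) :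
    PowerSeries.derivative R φ * FY F =
      PowerSeries.C (PowerSeries.coeff 1 φ) * PowerSeries.subst φ (FY G) := by
  have hX0c : (X 0 : MvPowerSeries (Fin 2) R).constantCoeff = 0 := by simp
  have hX1c : (X 1 : MvPowerSeries (Fin 2) R).constantCoeff = 0 := by simp
  have hX0 : PowerSeries.HasSubst (X 0 : MvPowerSeries (Fin 2) R) := PowerSeries.HasSubst.X 0
  have hX1 : PowerSeries.HasSubst (X 1 : MvPowerSeries (Fin 2) R) := PowerSeries.HasSubst.X 1
  have key := congrArg (pderiv R (1 : Fin 2)) (h.subst_fadd hX0 hX1)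
  rw [subst_X_X_self] at key
  rw [pderiv_psubst φ F.zero_constantCoeff] at key
  have hcc : ∀ i : Fin 2, (![PowerSeries.subst (X 0 : MvPowerSeries (Fin 2) R) φ,
      PowerSeries.subst (X 1 : MvPowerSeries (Fin 2) R) φ] i).constantCoeff = 0 := by
    intro i
    fin_cases i
    · exact MvPowerSeries.constantCoeff_subst_eq_zero hX0.const (fun _ => hX0c) h.cc
    · exact MvPowerSeries.constantCoeff_subst_eq_zero hX1.const (fun _ => hX1c) h.cc
  rw [fadd_def, pderiv_subst _ hcc, Fin.sum_univ_two] at key
  simp only [Matrix.cons_val_zero, Matrix.cons_val_one] at key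
  rw [pderiv_psubst φ hX0c, pderiv_psubst φ hX1c, pderiv_X_self,
    pderiv_X_of_ne (by decide), mul_zero, mul_zero, zero_add, mul_one] at key
  -- now set `Y = 0`
  have hev : MvPowerSeries.HasSubst (![(PowerSeries.X : PowerSeries R), 0]) :=
    hasSubst_pair PowerSeries.HasSubst.X' PowerSeries.HasSubst.zero'
  have key2 := congrArg (MvPowerSeries.subst (![(PowerSeries.X : PowerSeries R), 0])) key
  rw [MvPowerSeries.subst_mul hev, MvPowerSeries.subst_mul hev] at key2
  have hF : PowerSeries.HasSubst F.toPowerSeries := hasSubst_of_cc F.zero_constantCoeff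
  have e1 : MvPowerSeries.subst (![(PowerSeries.X : PowerSeries R), 0])
      (PowerSeries.subst F.toPowerSeries (PowerSeries.derivative R φ)) =
      PowerSeries.derivative R φ := by
    unfold PowerSeries.subst
    rw [subst_comp_subst_apply hF.const hev]
    have : MvPowerSeries.subst (![(PowerSeries.X : PowerSeries R), 0]) F.toPowerSeries =
        PowerSeries.X := fadd_zero F PowerSeries.HasSubst.X'
    rw [this]
    exact PowerSeries.X_subst _
  have e2 : MvPowerSeries.subst (![(PowerSeries.X : PowerSeries R), 0])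
      (PowerSeries.subst (X 1 : MvPowerSeries (Fin 2) R) (PowerSeries.derivative R φ)) =
      PowerSeries.C (PowerSeries.coeff 1 φ) := by
    unfold PowerSeries.subst
    rw [subst_comp_subst_apply hX1.const hev]
    have : MvPowerSeries.subst (![(PowerSeries.X : PowerSeries R), 0])
        (X 1 : MvPowerSeries (Fin 2) R) = 0 := by
      rw [subst_X hev]; simp
    rw [this]
    have h0 := PowerSeries.subst_zero_eq_C_constantCoeff (τ := Unit) (S := R)
      (f := PowerSeries.derivative R φ)
    rw [PowerSeries.subst] at h0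
    rw [h0]
    have h1 : PowerSeries.constantCoeff (PowerSeries.derivative R φ) = PowerSeries.coeff 1 φ := by
      rw [← PowerSeries.coeff_zero_eq_constantCoeff_apply, PowerSeries.coeff_derivative]
      simp
    rw [h1]
    simp
    rfl
  have e3 : MvPowerSeries.subst (![(PowerSeries.X : PowerSeries R), 0])
      (MvPowerSeries.subst ![PowerSeries.subst (X 0 : MvPowerSeries (Fin 2) R) φ,
        PowerSeries.subst (X 1 : MvPowerSeries (Fin 2) R) φ] (pderiv R 1 G.toPowerSeries)) =
      PowerSeries.subst φ (FY G) := by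
    rw [subst_comp_subst_apply (hasSubst_of_constantCoeff_zero hcc) hev, FY]
    change _ = MvPowerSeries.subst (fun _ => φ) _
    rw [subst_comp_subst_apply hev h.hasSubst.const]
    congr 1
    funext i
    fin_cases i
    · change MvPowerSeries.subst _ (PowerSeries.subst (X 0 : MvPowerSeries (Fin 2) R) φ) = _
      unfold PowerSeries.subst
      rw [subst_comp_subst_apply hX0.const hev]
      have : MvPowerSeries.subst (![(PowerSeries.X : PowerSeries R), 0])
          (X 0 : MvPowerSeries (Fin 2) R) = PowerSeries.X := by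
        rw [subst_X hev]; simp
      rw [this]
      have h1 : PowerSeries.subst (PowerSeries.X : PowerSeries R) φ = φ := PowerSeries.X_subst φ
      have h2 : PowerSeries.subst φ (PowerSeries.X : PowerSeries R) = φ :=
        PowerSeries.subst_X h.hasSubst
      simp only [PowerSeries.subst] at h1 h2
      simp [h1, h2]
    · change MvPowerSeries.subst _ (PowerSeries.subst (X 1 : MvPowerSeries (Fin 2) R) φ) = _
      unfold PowerSeries.subst
      rw [subst_comp_subst_apply hX1.const hev]
      have : MvPowerSeries.subst (![(PowerSeries.X : PowerSeries R), 0])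
          (X 1 : MvPowerSeries (Fin 2) R) = 0 := by
        rw [subst_X hev]; simp
      rw [this]
      have h1 : PowerSeries.subst (0 : PowerSeries R) φ = 0 := psubst_zero_of_cc h.cc
      have h2 : PowerSeries.subst φ (0 : PowerSeries R) = 0 := by
        rw [← PowerSeries.coe_substAlgHom h.hasSubst, map_zero]
      simp only [PowerSeries.subst] at h1 h2
      simp [h1, h2]
  rw [e1, e2, e3] at key2
  rw [mul_comm (PowerSeries.C _)]
  exact key2

/-- a homomorphism with vanishing linear term has vanishing derivative -/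
lemma IsHom.derivative_eq_zero {F G : FormalGroup R} {φ : PowerSeries R} (h : IsHom F G φ)
    (h1 : PowerSeries.coeff 1 φ = 0) : PowerSeries.derivative R φ = 0 := by
  have := h.derivative_mul
  rw [h1, map_zero, zero_mul] at this
  exact (isUnit_FY F).mul_left_eq_zero.mp this

/-- the derivative of a homomorphism is a unit multiple of its linear coefficient -/
lemma IsHom.exists_derivative {F G : FormalGroup R} {φ : PowerSeries R} (h : IsHom F G φ) :
    ∃ u : PowerSeries R, IsUnit u ∧ PowerSeries.constantCoeff u = 1 ∧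
      PowerSeries.derivative R φ = PowerSeries.C (PowerSeries.coeff 1 φ) * u := by
  have hc : PowerSeries.constantCoeff (PowerSeries.subst φ (FY G)) = 1 := by
    have := constantCoeff_subst_of_zero (σ := Unit) (τ := Unit) (R := R) (FY G)
      (a := fun _ => φ) (fun _ => h.cc)
    exact this.trans (constantCoeff_FY G)
  obtain ⟨v, hv⟩ := isUnit_FY F
  refine ⟨PowerSeries.subst φ (FY G) * (v⁻¹ : (PowerSeries R)ˣ), ?_, ?_, ?_⟩
  · refine IsUnit.mul ?_ (Units.isUnit _)
    rw [PowerSeries.isUnit_iff_constantCoeff, hc]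
    exact isUnit_one
  · have h2 : PowerSeries.constantCoeff ((v⁻¹ : (PowerSeries R)ˣ) : PowerSeries R) = 1 := by
      have h3 : (v : PowerSeries R) * ((v⁻¹ : (PowerSeries R)ˣ) : PowerSeries R) = 1 :=
        Units.mul_inv v
      have h4 := congrArg PowerSeries.constantCoeff h3
      rw [map_mul, hv, constantCoeff_FY, one_mul, map_one] at h4
      exact h4
    rw [map_mul, hc, h2, one_mul]
  · rw [← mul_assoc, ← h.derivative_mul, ← hv, mul_assoc, Units.mul_inv, mul_one]

end Deriv


/-! ### base change -/

section Map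

lemma hasSubst_map {f : MvPowerSeries σ R} (hf : PowerSeries.HasSubst f) (ρ : R →+* S) :
    PowerSeries.HasSubst (MvPowerSeries.map ρ f) := by
  unfold PowerSeries.HasSubst at *
  rw [MvPowerSeries.constantCoeff_map]
  exact hf.map ρ

lemma map_fadd (F : FormalGroup R) (ρ : R →+* S) {f g : MvPowerSeries σ R}
    (hf : PowerSeries.HasSubst f) (hg : PowerSeries.HasSubst g) :
    MvPowerSeries.map ρ (fadd F f g) =
      fadd (F.map ρ) (MvPowerSeries.map ρ f) (MvPowerSeries.map ρ g) := by
  unfold fadd
  rw [MvPowerSeries.map_subst (hasSubst_pair hf hg)]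
  congr! 2 with s
  fin_cases s <;> simp

lemma map_mulSeries (F : FormalGroup R) (ρ : R →+* S) (m : ℕ) :
    PowerSeries.map ρ (mulSeries F m) = mulSeries (F.map ρ) m := by
  induction m with
  | zero => simp [mulSeries_zero]
  | succ m ih =>
    rw [mulSeries_succ, mulSeries_succ, ← ih]
    have := map_fadd F ρ (hasSubst_mulSeries F m) (PowerSeries.HasSubst.X' (R := R))
    refine this.trans ?_
    congr 1
    exact PowerSeries.map_X ρ

instance map_isComm (F : FormalGroup R) [F.IsComm] (ρ : R →+* S) : (F.map ρ).IsComm where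
  comm := by
    have hX0 : PowerSeries.HasSubst (X 0 : MvPowerSeries (Fin 2) R) := PowerSeries.HasSubst.X 0
    have hX1 : PowerSeries.HasSubst (X 1 : MvPowerSeries (Fin 2) R) := PowerSeries.HasSubst.X 1
    have h := congrArg (MvPowerSeries.map ρ) (fadd_comm F hX0 hX1)
    rw [map_fadd F ρ hX0 hX1, map_fadd F ρ hX1 hX0, MvPowerSeries.map_X, MvPowerSeries.map_X,
      subst_X_X_self] at h
    exact h

lemma IsHom.map {F G : FormalGroup R} {φ : PowerSeries R} (h : IsHom F G φ) (ρ : R →+* S) :
    IsHom (F.map ρ) (G.map ρ) (PowerSeries.map ρ φ) := by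
  have hX0 : PowerSeries.HasSubst (X 0 : MvPowerSeries (Fin 2) R) := PowerSeries.HasSubst.X 0
  have hX1 : PowerSeries.HasSubst (X 1 : MvPowerSeries (Fin 2) R) := PowerSeries.HasSubst.X 1
  refine isHom_of ?_ ?_
  · rw [← PowerSeries.coeff_zero_eq_constantCoeff_apply, PowerSeries.coeff_map,
      PowerSeries.coeff_zero_eq_constantCoeff_apply, h.cc, map_zero]
  · have h2 := congrArg (MvPowerSeries.map ρ) (h.subst_fadd hX0 hX1)
    rw [PowerSeries.map_subst (hasSubst_fadd F hX0 hX1), map_fadd F ρ hX0 hX1,
      map_fadd G ρ (h.hasSubst_subst hX0) (h.hasSubst_subst hX1),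
      PowerSeries.map_subst hX0, PowerSeries.map_subst hX1, MvPowerSeries.map_X,
      MvPowerSeries.map_X] at h2
    exact h2

end Map

/-! ### inverses of invertible homomorphisms, transport of structure -/

section Inv

lemma psubst_substInv_right {φ : PowerSeries R} (h0 : PowerSeries.constantCoeff φ = 0)
    (hu : IsUnit (PowerSeries.coeff 1 φ)) {f : MvPowerSeries σ R} (hf : PowerSeries.HasSubst f) :
    PowerSeries.subst (PowerSeries.subst f φ) (φ.substInvOfIsUnit hu) = f := by
  rw [psubst_psubst (PowerSeries.HasSubst.of_constantCoeff_zero' h0) hf,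
    PowerSeries.subst_substInvOfIsUnit_left φ h0 hu, PowerSeries.subst_X hf]

lemma psubst_substInv_left {φ : PowerSeries R} (h0 : PowerSeries.constantCoeff φ = 0)
    (hu : IsUnit (PowerSeries.coeff 1 φ)) {f : MvPowerSeries σ R} (hf : PowerSeries.HasSubst f) :
    PowerSeries.subst (PowerSeries.subst f (φ.substInvOfIsUnit hu)) φ = f := by
  rw [psubst_psubst (PowerSeries.HasSubst.substInvOfIsUnit φ hu) hf,
    PowerSeries.subst_substInvOfIsUnit_right φ h0 hu, PowerSeries.subst_X hf]

/-- the inverse of an invertible homomorphism is a homomorphism -/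
lemma IsHom.inv {F G : FormalGroup R} {φ : PowerSeries R} (h : IsHom F G φ)
    (hu : IsUnit (PowerSeries.coeff 1 φ)) : IsHom G F (φ.substInvOfIsUnit hu) := by
  have hX0 : PowerSeries.HasSubst (X 0 : MvPowerSeries (Fin 2) R) := PowerSeries.HasSubst.X 0
  have hX1 : PowerSeries.HasSubst (X 1 : MvPowerSeries (Fin 2) R) := PowerSeries.HasSubst.X 1
  have hψ := PowerSeries.HasSubst.substInvOfIsUnit φ hu
  refine isHom_of (PowerSeries.constantCoeff_substInvOfIsUnit φ hu) ?_
  conv_lhs =>
    rw [← psubst_substInv_left h.cc hu hX0, ← psubst_substInv_left h.cc hu hX1,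
      ← h.subst_fadd (hasSubst_psubst hψ hX0) (hasSubst_psubst hψ hX1)]
  rw [psubst_substInv_right h.cc hu
    (hasSubst_fadd F (hasSubst_psubst hψ hX0) (hasSubst_psubst hψ hX1))]

/-- coefficients of `P(X, 0)` -/
lemma coeff_subst_X_zero (P : MvPowerSeries (Fin 2) R) (j : ℕ) :
    PowerSeries.coeff j (P.subst ![(PowerSeries.X : PowerSeries R), 0]) =
      coeff (Finsupp.single 0 j) P := by
  have hXZ : MvPowerSeries.HasSubst (![(PowerSeries.X : PowerSeries R), 0]) :=
    hasSubst_pair PowerSeries.HasSubst.X' PowerSeries.HasSubst.zero'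
  rw [PowerSeries.coeff, coeff_subst hXZ, finsum_eq_single _ (Finsupp.single 0 j)]
  · simp [PowerSeries.coeff_X_pow_self, ← PowerSeries.coeff_def]
  · intro d hd
    by_cases hd₁ : d 1 = 0
    · have hd0 : d 0 ≠ j := by
        intro h
        apply hd
        ext i
        fin_cases i
        · simpa using h
        · simpa using hd₁
      have : PowerSeries.coeff j ((PowerSeries.X : PowerSeries R) ^ (d 0)) = 0 := by
        rw [PowerSeries.coeff_X_pow, if_neg (Ne.symm hd0)]
      rw [Finsupp.prod_fintype _ _ (by simp)]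
      simp only [Fin.prod_univ_two, Matrix.cons_val_zero, Matrix.cons_val_one, hd₁, pow_zero,
        mul_one]
      rw [PowerSeries.coeff] at this
      rw [this, smul_zero]
    · rw [Finsupp.prod_fintype _ _ (by simp)]
      simp [Fin.prod_univ_two, zero_pow hd₁]

/-- coefficients of `P(0, X)` -/
lemma coeff_subst_zero_X (P : MvPowerSeries (Fin 2) R) (j : ℕ) :
    PowerSeries.coeff j (P.subst ![0, (PowerSeries.X : PowerSeries R)]) =
      coeff (Finsupp.single 1 j) P := by
  have hXZ : MvPowerSeries.HasSubst (![0, (PowerSeries.X : PowerSeries R)]) :=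
    hasSubst_pair PowerSeries.HasSubst.zero' PowerSeries.HasSubst.X'
  rw [PowerSeries.coeff, coeff_subst hXZ, finsum_eq_single _ (Finsupp.single 1 j)]
  · simp [PowerSeries.coeff_X_pow_self, ← PowerSeries.coeff_def]
  · intro d hd
    by_cases hd₁ : d 0 = 0
    · have hd0 : d 1 ≠ j := by
        intro h
        apply hd
        ext i
        fin_cases i
        · simpa using hd₁
        · simpa using h
      have : PowerSeries.coeff j ((PowerSeries.X : PowerSeries R) ^ (d 1)) = 0 := by
        rw [PowerSeries.coeff_X_pow, if_neg (Ne.symm hd0)]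
      rw [Finsupp.prod_fintype _ _ (by simp)]
      simp only [Fin.prod_univ_two, Matrix.cons_val_zero, Matrix.cons_val_one, hd₁, pow_zero,
        one_mul]
      rw [PowerSeries.coeff] at this
      rw [this, smul_zero]
    · rw [Finsupp.prod_fintype _ _ (by simp)]
      simp [Fin.prod_univ_two, zero_pow hd₁]

lemma coeff_single_zero (F : FormalGroup R) (j : ℕ) :
    coeff (Finsupp.single 0 j) F.toPowerSeries = if j = 1 then 1 else 0 := by
  rw [← coeff_subst_X_zero]
  have : MvPowerSeries.subst (![(PowerSeries.X : PowerSeries R), 0]) F.toPowerSeries =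
      PowerSeries.X := fadd_zero F PowerSeries.HasSubst.X'
  rw [this, PowerSeries.coeff_X]

lemma coeff_single_one (F : FormalGroup R) (j : ℕ) :
    coeff (Finsupp.single 1 j) F.toPowerSeries = if j = 1 then 1 else 0 := by
  rw [← coeff_subst_zero_X]
  have : MvPowerSeries.subst (![0, (PowerSeries.X : PowerSeries R)]) F.toPowerSeries =
      PowerSeries.X := zero_fadd F PowerSeries.HasSubst.X'
  rw [this, PowerSeries.coeff_X]

/-- `F(X, Y) = X + Y + X Y G(X, Y)` -/
lemma exists_factor (F : FormalGroup R) : ∃ G : MvPowerSeries (Fin 2) R,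
    F.toPowerSeries = X 0 + X 1 + X 0 * X 1 * G := by
  classical
  have h0 : (X 0 : MvPowerSeries (Fin 2) R) ∣ F.toPowerSeries - X 0 - X 1 := by
    rw [MvPowerSeries.X_dvd_iff]
    intro m hm
    have hm' : m = Finsupp.single 1 (m 1) := by
      ext i
      fin_cases i
      · simpa using hm
      · simp
    rw [hm', map_sub, map_sub, coeff_single_one, coeff_X, coeff_X]
    have : Finsupp.single (1 : Fin 2) (m 1) ≠ Finsupp.single 0 1 := by
      intro h
      have := DFunLike.congr_fun h 0
      simp at this
    rw [if_neg this, sub_zero]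
    by_cases h1 : m 1 = 1
    · simp [h1]
    · have h2 : Finsupp.single (1 : Fin 2) (m 1) ≠ Finsupp.single 1 1 := by
        intro h
        have := DFunLike.congr_fun h 1
        simp at this
        exact h1 this
      rw [if_neg h1, if_neg h2, sub_zero]
  obtain ⟨Q, hQ⟩ := h0
  have h1 : (X 1 : MvPowerSeries (Fin 2) R) ∣ Q := by
    rw [MvPowerSeries.X_dvd_iff]
    intro m hm
    have hm' : m + Finsupp.single 0 1 = Finsupp.single 0 (m 0 + 1) := by
      ext i
      fin_cases i
      · simp
      · simpa using hm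
    have h2 := congrArg (coeff (m + Finsupp.single 0 1)) hQ
    rw [mul_comm (X 0) Q, X, coeff_add_mul_monomial, mul_one] at h2
    rw [← h2, hm', map_sub, map_sub, coeff_single_zero, coeff_X]
    rw [← X, coeff_X]
    have h3 : Finsupp.single (0 : Fin 2) (m 0 + 1) ≠ Finsupp.single 1 1 := by
      intro h
      have := DFunLike.congr_fun h 1
      simp at this
    rw [if_neg h3, sub_zero]
    by_cases h1 : m 0 = 0
    · simp [h1]
    · have h4 : Finsupp.single (0 : Fin 2) (m 0 + 1) ≠ Finsupp.single 0 1 := by
        intro h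
        have := DFunLike.congr_fun h 0
        simp at this
        exact h1 this
      rw [if_neg (by omega), if_neg h4, sub_zero]
  obtain ⟨G, hG⟩ := h1
  refine ⟨G, ?_⟩
  rw [mul_assoc, ← hG, ← hQ]
  ring

end Inv

end Crest.Agent.R227
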