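import Crest.Agent.R227.LazardComb
import Crest.Prelude.Def_LubinTate

/-!
# Row 227 (S0351): one-variable test calculus for the defect of a homomorphism
-/

set_option autoImplicit false

open Finset Crest.LubinTate

namespace Crest.Agent.R227.Laz

section basic

variable {R : Type*} [CommRing R]

/-- exponent -/
noncomputable def ex (i j : ℕ) : Fin 2 →₀ ℕ := Finsupp.single 0 i + Finsupp.single 1 j

@[simp] lemma ex_zero (i j : ℕ) : ex i j 0 = i := by simp [ex]
@[simp] lemma ex_one (i j : ℕ) : ex i j 1 = j := by simp [ex]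

lemma ex_eta (d : Fin 2 →₀ ℕ) : ex (d 0) (d 1) = d := by
  ext i
  fin_cases i <;> simp

lemma ex_injective : Function.Injective (fun q : ℕ × ℕ => ex q.1 q.2) := by
  rintro ⟨a, b⟩ ⟨c, d⟩ h
  have h0 := DFunLike.congr_fun h 0
  have h1 := DFunLike.congr_fun h 1
  simp only [ex_zero, ex_one] at h0 h1
  rw [h0, h1]

/-- apply a two-variable series to two one-variable series -/
noncomputable def ap (f : MvPowerSeries (Fin 2) R) (a b : PowerSeries R) : PowerSeries R :=
  MvPowerSeries.subst ![a, b] f

lemma hs {a b : PowerSeries R} (ha : PowerSeries.constantCoeff a = 0)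
    (hb : PowerSeries.constantCoeff b = 0) : MvPowerSeries.HasSubst ![a, b] :=
  MvPowerSeries.hasSubst_of_constantCoeff_nilpotent fun s => by
    fin_cases s
    · change IsNilpotent (PowerSeries.constantCoeff a)
      rw [ha]; exact IsNilpotent.zero
    · change IsNilpotent (PowerSeries.constantCoeff b)
      rw [hb]; exact IsNilpotent.zero

lemma hs1 {a : PowerSeries R} (ha : PowerSeries.constantCoeff a = 0) : PowerSeries.HasSubst a :=
  PowerSeries.HasSubst.of_constantCoeff_zero' ha

lemma dvd_of_cc {a : PowerSeries R} (ha : PowerSeries.constantCoeff a = 0) :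
    (PowerSeries.X : PowerSeries R) ∣ a := PowerSeries.X_dvd_iff.mpr ha

lemma X_pow_dvd {a b : PowerSeries R} (ha : PowerSeries.constantCoeff a = 0)
    (hb : PowerSeries.constantCoeff b = 0) (i j : ℕ) :
    (PowerSeries.X : PowerSeries R) ^ (i + j) ∣ a ^ i * b ^ j := by
  rw [pow_add]
  exact mul_dvd_mul (pow_dvd_pow_of_dvd (dvd_of_cc ha) i) (pow_dvd_pow_of_dvd (dvd_of_cc hb) j)

lemma coeff_eq_zero_of_dvd {a : PowerSeries R} {M k : ℕ}
    (h : (PowerSeries.X : PowerSeries R) ^ M ∣ a) (hk : k < M) : PowerSeries.coeff k a = 0 :=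
  PowerSeries.X_pow_dvd_iff.mp h k hk

lemma coeff_ap (f : MvPowerSeries (Fin 2) R) {a b : PowerSeries R}
    (ha : PowerSeries.constantCoeff a = 0) (hb : PowerSeries.constantCoeff b = 0) (k : ℕ) :
    PowerSeries.coeff k (ap f a b) = ∑ i ∈ range (k + 1), ∑ j ∈ range (k + 1),
      MvPowerSeries.coeff (ex i j) f * PowerSeries.coeff k (a ^ i * b ^ j) := by
  classical
  unfold ap
  have h := MvPowerSeries.coeff_subst (hs ha hb) f (Finsupp.single () k)
  have h0 : PowerSeries.coeff k (MvPowerSeries.subst ![a, b] f : PowerSeries R)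
      = MvPowerSeries.coeff (Finsupp.single () k) (MvPowerSeries.subst ![a, b] f) := rfl
  have hprod : ∀ d : Fin 2 →₀ ℕ, (d.prod fun s e => (![a, b] s) ^ e) = a ^ (d 0) * b ^ (d 1) := by
    intro d
    rw [Finsupp.prod_fintype _ _ (by intro i; exact pow_zero _), Fin.prod_univ_two]
    rfl
  rw [h0, h]
  rw [finsum_eq_sum_of_support_subset
    (s := ((range (k + 1)) ×ˢ (range (k + 1))).image (fun q => ex q.1 q.2))]
  · rw [Finset.sum_image (fun _ _ _ _ h => ex_injective h), Finset.sum_product]
    refine Finset.sum_congr rfl fun i _ => Finset.sum_congr rfl fun j _ => ?_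
    simp only [hprod, ex_zero, ex_one, smul_eq_mul]
    rfl
  · intro d hd
    rw [Function.mem_support] at hd
    rw [Finset.mem_coe, Finset.mem_image]
    have h1 : d 0 + d 1 ≤ k := by
      by_contra hcon
      push Not at hcon
      apply hd
      rw [hprod]
      have h2 : PowerSeries.coeff k (a ^ (d 0) * b ^ (d 1)) = 0 :=
        coeff_eq_zero_of_dvd (X_pow_dvd ha hb _ _) hcon
      have h3 : MvPowerSeries.coeff (Finsupp.single () k) (a ^ (d 0) * b ^ (d 1)) = 0 := h2
      rw [h3, smul_zero]
    refine ⟨(d 0, d 1), ?_, ex_eta d⟩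
    rw [Finset.mem_product, mem_range, mem_range]
    constructor <;> simp only <;> omega

lemma coeff_sub1 (φ : PowerSeries R) {b : PowerSeries R}
    (hb : PowerSeries.constantCoeff b = 0) (k : ℕ) :
    PowerSeries.coeff k (PowerSeries.subst b φ) = ∑ i ∈ range (k + 1),
      PowerSeries.coeff i φ * PowerSeries.coeff k (b ^ i) := by
  rw [PowerSeries.coeff_subst' (hs1 hb)]
  rw [finsum_eq_sum_of_support_subset (s := range (k + 1))]
  · rfl
  · intro d hd
    rw [Function.mem_support] at hd
    rw [Finset.mem_coe, mem_range]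
    by_contra hcon
    push Not at hcon
    apply hd
    rw [coeff_eq_zero_of_dvd (pow_dvd_pow_of_dvd (dvd_of_cc hb) d) (by omega), smul_zero]

lemma pow_sub_dvd {a ε : PowerSeries R} {M : ℕ} (hε : (PowerSeries.X : PowerSeries R) ^ M ∣ ε)
    (i : ℕ) : (PowerSeries.X : PowerSeries R) ^ M ∣ (a + ε) ^ i - a ^ i := by
  have h : (a + ε) - a ∣ (a + ε) ^ i - a ^ i := sub_dvd_pow_sub_pow _ _ _
  rw [add_sub_cancel_left] at h
  exact hε.trans h

lemma pow_sub_dvd' {a ε : PowerSeries R} {M : ℕ} (hM : 1 ≤ M)
    (ha : PowerSeries.constantCoeff a = 0)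
    (hε : (PowerSeries.X : PowerSeries R) ^ M ∣ ε) (i : ℕ) (hi : 2 ≤ i) :
    (PowerSeries.X : PowerSeries R) ^ (M + 1) ∣ (a + ε) ^ i - a ^ i := by
  obtain ⟨j, rfl⟩ : ∃ j, i = j + 1 := ⟨i - 1, by omega⟩
  have h1 : (a + ε) ^ (j + 1) - a ^ (j + 1) = ((a + ε) ^ j - a ^ j) * (a + ε) + ε * a ^ j := by
    ring
  rw [h1]
  have hXa : (PowerSeries.X : PowerSeries R) ∣ a := dvd_of_cc ha
  have hXε : (PowerSeries.X : PowerSeries R) ∣ ε :=
    (dvd_pow_self _ (by omega)).trans hε
  refine dvd_add ?_ ?_
  · rw [pow_succ]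
    exact mul_dvd_mul (pow_sub_dvd hε j) (dvd_add hXa hXε)
  · rw [pow_succ]
    refine mul_dvd_mul hε (hXa.trans (dvd_pow_self _ (by omega)))

/-- first order perturbation of the first argument -/
lemma ap_perturb (f : MvPowerSeries (Fin 2) R) {a b ε : PowerSeries R} {M : ℕ} (hM : 1 ≤ M)
    (ha : PowerSeries.constantCoeff a = 0) (hb : PowerSeries.constantCoeff b = 0)
    (hε : (PowerSeries.X : PowerSeries R) ^ M ∣ ε) :
    (PowerSeries.X : PowerSeries R) ^ (M + 1) ∣
      ap f (a + ε) b - ap f a b - PowerSeries.C (MvPowerSeries.coeff (ex 1 0) f) * ε := by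
  have hXε : PowerSeries.constantCoeff ε = 0 :=
    PowerSeries.X_dvd_iff.mp ((dvd_pow_self _ (by omega)).trans hε)
  have ha' : PowerSeries.constantCoeff (a + ε) = 0 := by rw [map_add, ha, hXε, add_zero]
  rw [PowerSeries.X_pow_dvd_iff]
  intro k hk
  rw [map_sub, map_sub, coeff_ap f ha' hb, coeff_ap f ha hb, PowerSeries.coeff_C_mul,
    ← Finset.sum_sub_distrib]
  simp only [← Finset.sum_sub_distrib, ← mul_sub]
  have h1 : ∀ i j : ℕ, MvPowerSeries.coeff (ex i j) f * (PowerSeries.coeff k ((a + ε) ^ i * b ^ j)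
      - PowerSeries.coeff k (a ^ i * b ^ j)) =
      if i = 1 ∧ j = 0 then MvPowerSeries.coeff (ex 1 0) f * PowerSeries.coeff k ε else 0 := by
    intro i j
    split_ifs with hij
    · obtain ⟨rfl, rfl⟩ := hij
      rw [pow_one, pow_zero, mul_one, pow_one, mul_one, map_add, add_sub_cancel_left]
    · rw [← map_sub, ← sub_mul]
      have h2 : (PowerSeries.X : PowerSeries R) ^ (M + 1) ∣ ((a + ε) ^ i - a ^ i) * b ^ j := by
        rcases Nat.lt_or_ge i 2 with hi | hi
        · rcases Nat.eq_zero_or_pos i with h0 | h0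
          · subst h0
            rw [pow_zero, pow_zero, sub_self, zero_mul]
            exact dvd_zero _
          · have hi1 : i = 1 := by omega
            subst hi1
            have hj : j ≠ 0 := fun h => hij ⟨rfl, h⟩
            rw [pow_succ]
            refine mul_dvd_mul (pow_sub_dvd hε 1) ((dvd_of_cc hb).trans (dvd_pow_self _ hj))
        · exact (pow_sub_dvd' hM ha hε i hi).trans (dvd_mul_right _ _)
      rw [coeff_eq_zero_of_dvd h2 hk, mul_zero]
  simp only [h1]
  rcases Nat.eq_zero_or_pos k with h0 | h0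
  · subst h0
    rw [PowerSeries.coeff_zero_eq_constantCoeff_apply, hXε, mul_zero]
    simp
  · rw [Finset.sum_eq_single 1, Finset.sum_eq_single 0]
    · simp
    · intro j _ hj
      rw [if_neg (fun h => hj h.2)]
    · intro h
      exact absurd (mem_range.mpr (by omega)) h
    · intro i _ hi
      exact Finset.sum_eq_zero fun j _ => if_neg (fun h => hi h.1)
    · intro h
      exact absurd (mem_range.mpr (by omega)) h

/-- weak form of the perturbation lemma -/
lemma ap_perturb_weak (f : MvPowerSeries (Fin 2) R) {a b ε : PowerSeries R} {M : ℕ} (hM : 1 ≤ M)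
    (ha : PowerSeries.constantCoeff a = 0) (hb : PowerSeries.constantCoeff b = 0)
    (hε : (PowerSeries.X : PowerSeries R) ^ M ∣ ε) :
    (PowerSeries.X : PowerSeries R) ^ M ∣ ap f (a + ε) b - ap f a b := by
  have h1 := ap_perturb f hM ha hb hε
  have h2 : (PowerSeries.X : PowerSeries R) ^ M ∣
      PowerSeries.C (MvPowerSeries.coeff (ex 1 0) f) * ε := hε.mul_left _
  have h3 := dvd_add ((pow_dvd_pow _ (Nat.le_succ M)).trans h1) h2
  rwa [sub_add_cancel] at h3

lemma coeff_mul_pow_low {a b : PowerSeries R} (ha : PowerSeries.constantCoeff a = 0)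
    (hb : PowerSeries.constantCoeff b = 0) (i j : ℕ) :
    PowerSeries.coeff (i + j) (a ^ i * b ^ j) =
      PowerSeries.coeff 1 a ^ i * PowerSeries.coeff 1 b ^ j := by
  obtain ⟨a', rfl⟩ := dvd_of_cc ha
  obtain ⟨b', rfl⟩ := dvd_of_cc hb
  have h1 : (PowerSeries.X * a') ^ i * (PowerSeries.X * b') ^ j
      = PowerSeries.X ^ (i + j) * (a' ^ i * b' ^ j) := by
    rw [mul_pow, mul_pow, pow_add]
    ring
  rw [h1, PowerSeries.coeff_X_pow_mul']
  rw [if_pos le_rfl, Nat.sub_self, PowerSeries.coeff_zero_eq_constantCoeff_apply, map_mul, map_pow,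
    map_pow]
  have h2 : ∀ c : PowerSeries R, PowerSeries.coeff 1 (PowerSeries.X * c)
      = PowerSeries.constantCoeff c := by
    intro c
    have := PowerSeries.coeff_succ_X_mul 0 c
    rw [zero_add] at this
    rw [this, PowerSeries.coeff_zero_eq_constantCoeff_apply]
  rw [h2, h2]

/-- the leading value of a series without terms of degree `≤ m` -/
lemma ap_lowest (f : MvPowerSeries (Fin 2) R) (m : ℕ)
    (hf : ∀ i j, i + j ≤ m → MvPowerSeries.coeff (ex i j) f = 0) {a b : PowerSeries R}
    (ha : PowerSeries.constantCoeff a = 0) (hb : PowerSeries.constantCoeff b = 0) :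
    (PowerSeries.X : PowerSeries R) ^ (m + 1) ∣ ap f a b ∧
    PowerSeries.coeff (m + 1) (ap f a b) = ∑ q ∈ antidiagonal (m + 1),
      MvPowerSeries.coeff (ex q.1 q.2) f * (PowerSeries.coeff 1 a ^ q.1 *
        PowerSeries.coeff 1 b ^ q.2) := by
  classical
  have hgen : ∀ k ≤ m + 1, ∀ i j, i + j ≠ m + 1 →
      MvPowerSeries.coeff (ex i j) f * PowerSeries.coeff k (a ^ i * b ^ j) = 0 := by
    intro k hk i j hij
    rcases Nat.lt_or_ge (i + j) (m + 1) with h | h
    · rw [hf i j (by omega), zero_mul]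
    · rw [coeff_eq_zero_of_dvd (X_pow_dvd ha hb i j) (by omega), mul_zero]
  constructor
  · rw [PowerSeries.X_pow_dvd_iff]
    intro k hk
    rw [coeff_ap f ha hb]
    refine Finset.sum_eq_zero fun i _ => Finset.sum_eq_zero fun j _ => ?_
    by_cases hij : i + j = m + 1
    · rw [coeff_eq_zero_of_dvd (X_pow_dvd ha hb i j) (by omega), mul_zero]
    · exact hgen k hk.le i j hij
  · rw [coeff_ap f ha hb, ← Finset.sum_product']
    have hsub : antidiagonal (m + 1) ⊆ range (m + 1 + 1) ×ˢ range (m + 1 + 1) := by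
      intro q hq
      rw [Finset.HasAntidiagonal.mem_antidiagonal] at hq
      rw [Finset.mem_product, mem_range, mem_range]
      constructor <;> omega
    rw [← Finset.sum_subset hsub]
    · refine Finset.sum_congr rfl fun q hq => ?_
      rw [Finset.HasAntidiagonal.mem_antidiagonal] at hq
      rw [← coeff_mul_pow_low ha hb, hq]
    · intro q _ hq
      rw [Finset.HasAntidiagonal.mem_antidiagonal] at hq
      exact hgen (m + 1) le_rfl _ _ hq

end basic

section defect

variable {R : Type*} [CommRing R]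

/-- the defect of `φ` of being a homomorphism `F → G` -/
noncomputable def Del (F G : FormalGroup R) (φ : PowerSeries R) : MvPowerSeries (Fin 2) R :=
  PowerSeries.subst F.toPowerSeries φ -
    G.toPowerSeries.subst ![PowerSeries.subst (MvPowerSeries.X 0 : MvPowerSeries (Fin 2) R) φ,
      PowerSeries.subst (MvPowerSeries.X 1 : MvPowerSeries (Fin 2) R) φ]

lemma cc_ap (F : FormalGroup R) {a b : PowerSeries R} (ha : PowerSeries.constantCoeff a = 0)
    (hb : PowerSeries.constantCoeff b = 0) :
    PowerSeries.constantCoeff (ap F.toPowerSeries a b) = 0 := by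
  refine MvPowerSeries.constantCoeff_subst_eq_zero (hs ha hb) ?_ F.zero_constantCoeff
  intro i
  fin_cases i
  · exact ha
  · exact hb

lemma cc_sub {φ a : PowerSeries R} (hφ : PowerSeries.constantCoeff φ = 0)
    (ha : PowerSeries.constantCoeff a = 0) :
    PowerSeries.constantCoeff (PowerSeries.subst a φ) = 0 :=
  MvPowerSeries.constantCoeff_subst_eq_zero (hs1 ha).const (fun _ => ha) hφ

lemma hasSubst_psubst_X {φ : PowerSeries R} (hφ : PowerSeries.constantCoeff φ = 0) (i : Fin 2) :
    PowerSeries.HasSubst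
      (PowerSeries.subst (MvPowerSeries.X i : MvPowerSeries (Fin 2) R) φ) :=
  PowerSeries.HasSubst.of_constantCoeff_zero
    (MvPowerSeries.constantCoeff_subst_eq_zero (PowerSeries.HasSubst.X i).const
      (fun _ => MvPowerSeries.constantCoeff_X i) hφ)

lemma hasSubst_pair {f g : MvPowerSeries (Fin 2) R} (hf : PowerSeries.HasSubst f)
    (hg : PowerSeries.HasSubst g) : MvPowerSeries.HasSubst ![f, g] :=
  MvPowerSeries.hasSubst_of_constantCoeff_nilpotent fun s => by
    fin_cases s
    · exact hf
    · exact hg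

/-- the defining property of the defect, at points -/
lemma key (F G : FormalGroup R) {φ : PowerSeries R} (hφ : PowerSeries.constantCoeff φ = 0)
    {a b : PowerSeries R} (ha : PowerSeries.constantCoeff a = 0)
    (hb : PowerSeries.constantCoeff b = 0) :
    PowerSeries.subst (ap F.toPowerSeries a b) φ =
      ap G.toPowerSeries (PowerSeries.subst a φ) (PowerSeries.subst b φ) + ap (Del F G φ) a b := by
  have hX : MvPowerSeries.HasSubst ![a, b] := hs ha hb
  have hF : PowerSeries.HasSubst F.toPowerSeries :=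
    PowerSeries.HasSubst.of_constantCoeff_zero F.zero_constantCoeff
  have hX0 : PowerSeries.HasSubst (MvPowerSeries.X 0 : MvPowerSeries (Fin 2) R) :=
    PowerSeries.HasSubst.X 0
  have hX1 : PowerSeries.HasSubst (MvPowerSeries.X 1 : MvPowerSeries (Fin 2) R) :=
    PowerSeries.HasSubst.X 1
  have e1 : MvPowerSeries.subst ![a, b] (PowerSeries.subst F.toPowerSeries φ) =
      PowerSeries.subst (ap F.toPowerSeries a b) φ := by
    unfold PowerSeries.subst ap
    rw [MvPowerSeries.subst_comp_subst_apply hF.const hX]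
  have e2 : MvPowerSeries.subst ![a, b] (G.toPowerSeries.subst
      ![PowerSeries.subst (MvPowerSeries.X 0 : MvPowerSeries (Fin 2) R) φ,
        PowerSeries.subst (MvPowerSeries.X 1 : MvPowerSeries (Fin 2) R) φ]) =
      ap G.toPowerSeries (PowerSeries.subst a φ) (PowerSeries.subst b φ) := by
    unfold ap
    rw [MvPowerSeries.subst_comp_subst_apply
      (hasSubst_pair (hasSubst_psubst_X hφ 0) (hasSubst_psubst_X hφ 1)) hX]
    congr 1
    funext s
    fin_cases s
    · change MvPowerSeries.subst ![a, b] (PowerSeries.subst (MvPowerSeries.X 0) φ) = _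
      unfold PowerSeries.subst
      rw [MvPowerSeries.subst_comp_subst_apply hX0.const hX]
      simp only [MvPowerSeries.subst_X hX]
      rfl
    · change MvPowerSeries.subst ![a, b] (PowerSeries.subst (MvPowerSeries.X 1) φ) = _
      unfold PowerSeries.subst
      rw [MvPowerSeries.subst_comp_subst_apply hX1.const hX]
      simp only [MvPowerSeries.subst_X hX]
      rfl
  have e3 : ap (Del F G φ) a b = MvPowerSeries.subst ![a, b] (PowerSeries.subst F.toPowerSeries φ)
      - MvPowerSeries.subst ![a, b] (G.toPowerSeries.subst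
      ![PowerSeries.subst (MvPowerSeries.X 0 : MvPowerSeries (Fin 2) R) φ,
        PowerSeries.subst (MvPowerSeries.X 1 : MvPowerSeries (Fin 2) R) φ]) := by
    unfold ap Del
    rw [MvPowerSeries.subst_sub hX]
  rw [e3, e1, e2]
  ring

lemma ap_assoc (F : FormalGroup R) {a b c : PowerSeries R}
    (ha : PowerSeries.constantCoeff a = 0) (hb : PowerSeries.constantCoeff b = 0)
    (hc : PowerSeries.constantCoeff c = 0) :
    ap F.toPowerSeries (ap F.toPowerSeries a b) c =
      ap F.toPowerSeries a (ap F.toPowerSeries b c) :=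
  F.assoc' (hs1 ha) (hs1 hb) (hs1 hc)

lemma ap_comm (F : FormalGroup R) [F.IsComm] {a b : PowerSeries R}
    (ha : PowerSeries.constantCoeff a = 0) (hb : PowerSeries.constantCoeff b = 0) :
    ap F.toPowerSeries a b = ap F.toPowerSeries b a :=
  F.comm' (hs1 ha) (hs1 hb)

lemma zero_ap (F : FormalGroup R) {a : PowerSeries R} (ha : PowerSeries.constantCoeff a = 0) :
    ap F.toPowerSeries 0 a = a := F.zero_add (hs1 ha)

lemma coeff_ex_one_zero (F : FormalGroup R) :
    MvPowerSeries.coeff (ex 1 0) F.toPowerSeries = 1 := by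
  have : ex 1 0 = Finsupp.single 0 1 := by simp [ex]
  rw [this]
  exact F.lin_coeff_X

lemma coeff_ex_zero_one (F : FormalGroup R) :
    MvPowerSeries.coeff (ex 0 1) F.toPowerSeries = 1 := by
  have : ex 0 1 = Finsupp.single 1 1 := by simp [ex]
  rw [this]
  exact F.lin_coeff_Y

lemma coeff_ex_zero_zero (F : FormalGroup R) :
    MvPowerSeries.coeff (ex 0 0) F.toPowerSeries = 0 := by
  have : ex 0 0 = 0 := by simp [ex]
  rw [this]
  exact F.zero_constantCoeff

lemma coeff_one_ap (F : FormalGroup R) {a b : PowerSeries R}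
    (ha : PowerSeries.constantCoeff a = 0) (hb : PowerSeries.constantCoeff b = 0) :
    PowerSeries.coeff 1 (ap F.toPowerSeries a b)
      = PowerSeries.coeff 1 a + PowerSeries.coeff 1 b := by
  have h := (ap_lowest F.toPowerSeries 0 (by
    intro i j hij
    have h1 : i = 0 := by omega
    have h2 : j = 0 := by omega
    subst h1; subst h2
    exact coeff_ex_zero_zero F) ha hb).2
  rw [zero_add] at h
  rw [h]
  have h2 : antidiagonal 1 = {(0, 1), (1, 0)} := rfl
  rw [h2, Finset.sum_pair (by decide)]
  simp only [coeff_ex_one_zero, coeff_ex_zero_one]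
  ring

/-- leading part of the defect -/
noncomputable def E (F G : FormalGroup R) (φ : PowerSeries R) (N : ℕ) (x y : R) : R :=
  ∑ q ∈ antidiagonal N, MvPowerSeries.coeff (ex q.1 q.2) (Del F G φ) * (x ^ q.1 * y ^ q.2)

/-- vanishing of the defect in degree `≤ m` -/
def V (F G : FormalGroup R) (φ : PowerSeries R) (m : ℕ) : Prop :=
  ∀ i j, i + j ≤ m → MvPowerSeries.coeff (ex i j) (Del F G φ) = 0

lemma Del_ap {F G : FormalGroup R} {φ : PowerSeries R} {m : ℕ} (hV : V F G φ m)
    {a b : PowerSeries R} (ha : PowerSeries.constantCoeff a = 0)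
    (hb : PowerSeries.constantCoeff b = 0) :
    (PowerSeries.X : PowerSeries R) ^ (m + 1) ∣ ap (Del F G φ) a b ∧
    PowerSeries.coeff (m + 1) (ap (Del F G φ) a b)
      = E F G φ (m + 1) (PowerSeries.coeff 1 a) (PowerSeries.coeff 1 b) :=
  ap_lowest _ m hV ha hb

/-- adding a perturbation in the first argument of a law -/
lemma coeff_ap_perturb (G : FormalGroup R) {a b ε : PowerSeries R} {M : ℕ} (hM : 1 ≤ M)
    (ha : PowerSeries.constantCoeff a = 0) (hb : PowerSeries.constantCoeff b = 0)
    (hε : (PowerSeries.X : PowerSeries R) ^ M ∣ ε) :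
    PowerSeries.coeff M (ap G.toPowerSeries (a + ε) b) =
      PowerSeries.coeff M (ap G.toPowerSeries a b) + PowerSeries.coeff M ε := by
  have h := coeff_eq_zero_of_dvd (ap_perturb G.toPowerSeries hM ha hb hε) (Nat.lt_succ_self M)
  rw [coeff_ex_one_zero, map_one, one_mul, map_sub, map_sub] at h
  linear_combination h

/-- linear argument -/
noncomputable def lin (x : R) : PowerSeries R := PowerSeries.C x * PowerSeries.X

lemma cc_lin (x : R) : PowerSeries.constantCoeff (lin x) = 0 := by
  simp [lin]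

lemma coeff_one_lin (x : R) : PowerSeries.coeff 1 (lin x) = x := by
  simp [lin]

/-- the cocycle identity for the leading part of the defect -/
theorem E_cocycle (F G : FormalGroup R) [G.IsComm] {φ : PowerSeries R}
    (hφ : PowerSeries.constantCoeff φ = 0) {m : ℕ} (hV : V F G φ m) (x y z : R) :
    E F G φ (m + 1) x y + E F G φ (m + 1) (x + y) z =
      E F G φ (m + 1) y z + E F G φ (m + 1) x (y + z) := by
  set a := lin x with ha
  set b := lin y with hb
  set c := lin z with hc
  have ha0 : PowerSeries.constantCoeff a = 0 := cc_lin x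
  have hb0 : PowerSeries.constantCoeff b = 0 := cc_lin y
  have hc0 : PowerSeries.constantCoeff c = 0 := cc_lin z
  have ha1 : PowerSeries.coeff 1 a = x := coeff_one_lin x
  have hb1 : PowerSeries.coeff 1 b = y := coeff_one_lin y
  have hc1 : PowerSeries.coeff 1 c = z := coeff_one_lin z
  have hab0 := cc_ap F ha0 hb0
  have hbc0 := cc_ap F hb0 hc0
  have hφa := cc_sub hφ ha0
  have hφb := cc_sub hφ hb0
  have hφc := cc_sub hφ hc0
  -- left
  have hl : PowerSeries.subst (ap F.toPowerSeries (ap F.toPowerSeries a b) c) φ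
      = ap G.toPowerSeries (ap G.toPowerSeries (PowerSeries.subst a φ) (PowerSeries.subst b φ)
        + ap (Del F G φ) a b) (PowerSeries.subst c φ)
        + ap (Del F G φ) (ap F.toPowerSeries a b) c := by
    rw [key F G hφ hab0 hc0, key F G hφ ha0 hb0]
  have hr : PowerSeries.subst (ap F.toPowerSeries a (ap F.toPowerSeries b c)) φ
      = ap G.toPowerSeries (PowerSeries.subst a φ)
        (ap G.toPowerSeries (PowerSeries.subst b φ) (PowerSeries.subst c φ)
        + ap (Del F G φ) b c)
        + ap (Del F G φ) a (ap F.toPowerSeries b c) := by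
    rw [key F G hφ ha0 hbc0, key F G hφ hb0 hc0]
  rw [ap_assoc F ha0 hb0 hc0] at hl
  have heq := hl.symm.trans hr
  have hcoef := congrArg (PowerSeries.coeff (m + 1)) heq
  rw [map_add, map_add] at hcoef
  obtain ⟨d1, e1⟩ := Del_ap hV ha0 hb0
  obtain ⟨d2, e2⟩ := Del_ap hV hab0 hc0
  obtain ⟨d3, e3⟩ := Del_ap hV hb0 hc0
  obtain ⟨d4, e4⟩ := Del_ap hV ha0 hbc0
  have hccadd : ∀ {u v : PowerSeries R}, PowerSeries.constantCoeff u = 0 →
      (PowerSeries.X : PowerSeries R) ^ (m + 1) ∣ v → PowerSeries.constantCoeff (u + v) = 0 := by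
    intro u v hu hv
    rw [map_add, hu, PowerSeries.X_dvd_iff.mp ((dvd_pow_self _ (by omega)).trans hv), add_zero]
  rw [coeff_ap_perturb G (by omega) (cc_ap G hφa hφb) hφc d1, e1, e2,
    ap_comm G hφa (hccadd (cc_ap G hφb hφc) d3),
    coeff_ap_perturb G (by omega) (cc_ap G hφb hφc) hφa d3, e3, e4,
    coeff_one_ap F ha0 hb0, coeff_one_ap F hb0 hc0, ha1, hb1, hc1,
    ap_comm G (cc_ap G hφb hφc) hφa, ap_assoc G hφa hφb hφc] at hcoef
  linear_combination hcoef

/-- symmetry -/
theorem E_symm (F G : FormalGroup R) [F.IsComm] [G.IsComm] {φ : PowerSeries R}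
    (hφ : PowerSeries.constantCoeff φ = 0) {m : ℕ} (hV : V F G φ m) (x y : R) :
    E F G φ (m + 1) x y = E F G φ (m + 1) y x := by
  have ha0 := cc_lin x
  have hb0 := cc_lin y
  have h1 := key F G hφ ha0 hb0
  have h2 := key F G hφ hb0 ha0
  rw [ap_comm F ha0 hb0, ap_comm G (cc_sub hφ ha0) (cc_sub hφ hb0), h2] at h1
  have h3 : ap (Del F G φ) (lin y) (lin x) = ap (Del F G φ) (lin x) (lin y) :=
    add_left_cancel h1
  have e1 := (Del_ap hV ha0 hb0).2
  have e2 := (Del_ap hV hb0 ha0).2
  rw [coeff_one_lin, coeff_one_lin] at e1 e2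
  rw [← e1, ← e2, h3]

/-- vanishing on the axis -/
theorem E_zero (F G : FormalGroup R) {φ : PowerSeries R}
    (hφ : PowerSeries.constantCoeff φ = 0) {m : ℕ} (hV : V F G φ m) (y : R) :
    E F G φ (m + 1) 0 y = 0 := by
  have ha0 : PowerSeries.constantCoeff (0 : PowerSeries R) = 0 := map_zero _
  have hb0 := cc_lin y
  have h1 := key F G hφ ha0 hb0
  have h2 : PowerSeries.subst (0 : PowerSeries R) φ = (0 : PowerSeries R) :=
    MvPowerSeries.subst_zero_of_constantCoeff_zero hφ
  rw [zero_ap F hb0, h2, zero_ap G (cc_sub hφ hb0)] at h1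
  have h3 : ap (Del F G φ) 0 (lin y) = 0 := by
    have := h1.symm
    rwa [add_eq_left] at this
  have e1 := (Del_ap hV ha0 hb0).2
  rw [h3, map_zero, map_zero, coeff_one_lin] at e1
  exact e1.symm

/-- the defect of the multiplication series -/
theorem mulSeries_defect (F G : FormalGroup R) {φ : PowerSeries R}
    (hφ : PowerSeries.constantCoeff φ = 0) {m : ℕ} (hV : V F G φ m) (k : ℕ) :
    PowerSeries.constantCoeff (mulSeries F k) = 0 ∧
    PowerSeries.constantCoeff (PowerSeries.subst φ (mulSeries G k)) = 0 ∧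
    PowerSeries.coeff 1 (mulSeries F k) = k ∧
    (PowerSeries.X : PowerSeries R) ^ (m + 1) ∣
      PowerSeries.subst (mulSeries F k) φ - PowerSeries.subst φ (mulSeries G k) ∧
    PowerSeries.coeff (m + 1)
      (PowerSeries.subst (mulSeries F k) φ - PowerSeries.subst φ (mulSeries G k))
      = ∑ s ∈ range k, E F G φ (m + 1) (s : R) 1 := by
  have hX0 : PowerSeries.constantCoeff (PowerSeries.X : PowerSeries R) = 0 :=
    PowerSeries.constantCoeff_X
  have hsubX : PowerSeries.subst (PowerSeries.X : PowerSeries R) φ = φ := by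
    rw [← PowerSeries.map_algebraMap_eq_subst_X]
    simp
  induction k with
  | zero =>
    have h1 : mulSeries F 0 = 0 := rfl
    have h2 : mulSeries G 0 = 0 := rfl
    have h3 : PowerSeries.subst (0 : PowerSeries R) φ = (0 : PowerSeries R) :=
      MvPowerSeries.subst_zero_of_constantCoeff_zero hφ
    have h4 : PowerSeries.subst φ (0 : PowerSeries R) = (0 : PowerSeries R) := by
      rw [← PowerSeries.coe_substAlgHom (hs1 hφ), map_zero]
    rw [h1, h2, h3, h4]
    simp
  | succ k ih =>
    obtain ⟨i1, i2, i3, i4, i5⟩ := ih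
    have h1 : mulSeries F (k + 1) = ap F.toPowerSeries (mulSeries F k) PowerSeries.X := rfl
    have h2 : PowerSeries.subst φ (mulSeries G (k + 1))
        = ap G.toPowerSeries (PowerSeries.subst φ (mulSeries G k)) φ := by
      change PowerSeries.subst φ (G.toPowerSeries.subst ![mulSeries G k, PowerSeries.X]) = _
      have hcc : PowerSeries.constantCoeff (mulSeries G k) = 0 := by
        clear i1 i2 i3 i4 i5 h1
        induction k with
        | zero => exact map_zero _
        | succ k ih => exact cc_ap G ih hX0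
      unfold PowerSeries.subst ap
      rw [MvPowerSeries.subst_comp_subst_apply (hs hcc hX0) (hs1 hφ).const]
      congr 1
      funext s
      fin_cases s
      · rfl
      · exact PowerSeries.subst_X (hs1 hφ)
    have h3 := key F G hφ i1 hX0
    rw [hsubX] at h3
    set ε := PowerSeries.subst (mulSeries F k) φ - PowerSeries.subst φ (mulSeries G k) with hε
    have h4 : PowerSeries.subst (mulSeries F k) φ
        = PowerSeries.subst φ (mulSeries G k) + ε := by rw [hε]; ring
    rw [h4] at h3
    obtain ⟨d1, e1⟩ := Del_ap hV i1 hX0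
    refine ⟨?_, ?_, ?_, ?_, ?_⟩
    · rw [h1]; exact cc_ap F i1 hX0
    · rw [h2]; exact cc_ap G i2 hφ
    · rw [h1, coeff_one_ap F i1 hX0, i3]
      simp
    · rw [h1, h3, h2]
      have h5 := ap_perturb_weak G.toPowerSeries (by omega : 1 ≤ m + 1) i2 hφ i4
      have h6 := dvd_add h5 d1
      have h7 : ap G.toPowerSeries (PowerSeries.subst φ (mulSeries G k) + ε) φ
          + ap (Del F G φ) (mulSeries F k) PowerSeries.X
          - ap G.toPowerSeries (PowerSeries.subst φ (mulSeries G k)) φ
          = (ap G.toPowerSeries (PowerSeries.subst φ (mulSeries G k) + ε) φ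
          - ap G.toPowerSeries (PowerSeries.subst φ (mulSeries G k)) φ)
          + ap (Del F G φ) (mulSeries F k) PowerSeries.X := by ring
      rw [h7]
      exact h6
    · rw [h1, h3, h2, map_sub, map_add, coeff_ap_perturb G (by omega) i2 hφ i4, e1, i3, i5,
        Finset.sum_range_succ]
      simp only [PowerSeries.coeff_one_X]
      ring

end defect

end Crest.Agent.R227.Laz
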