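import Mathlib

/-!
# Row 227 (S0351): the symmetric 2-cocycle lemma, coefficient form, in characteristic `p`
-/

set_option autoImplicit false

open Finset

namespace Crest.Agent.R227

section comb

variable (p : ℕ) [Fact p.Prime] {κ : Type*} [Field κ] [CharP κ p]

/-- power sums over the prime field -/
theorem sum_range_pow (i : ℕ) (h1 : 1 ≤ i) (h2 : i ≤ p - 1) :
    ∑ s ∈ range p, ((s : ℕ) : κ) ^ i = if i = p - 1 then -1 else 0 := by
  classical
  have hp : p.Prime := Fact.out
  have h0 : ∑ s ∈ range p, ((s : ℕ) : κ) ^ i
      = (ZMod.castHom (dvd_refl p) κ) (∑ x : ZMod p, x ^ i) := by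
    rw [map_sum]
    have h3 : ∑ s ∈ range p, ((s : ℕ) : κ) ^ i = ∑ s : Fin p, ((s.val : ℕ) : κ) ^ i := by
      rw [Finset.sum_range]
    rw [h3]
    obtain ⟨k, rfl⟩ : ∃ k, p = k + 1 := ⟨p - 1, by have := hp.one_le; omega⟩
    refine Finset.sum_congr rfl fun x _ => ?_
    rw [map_pow]
    congr 1
  rw [h0]
  split_ifs with h
  · have h4 : ∑ x : ZMod p, x ^ i = -1 := by
      rw [h]
      have h5 : ∀ x : ZMod p, x ^ (p - 1) = if x = 0 then 0 else 1 := by
        intro x
        split_ifs with hx
        · rw [hx, zero_pow (by have := hp.two_le; omega)]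
        · exact ZMod.pow_card_sub_one_eq_one hx
      simp only [h5]
      rw [Finset.sum_ite, Finset.sum_const_zero, zero_add, Finset.sum_const, nsmul_eq_mul, mul_one]
      have h6 : (univ.filter (fun x : ZMod p => ¬ x = 0)).card = p - 1 := by
        have h7 : univ.filter (fun x : ZMod p => ¬ x = 0) = univ.erase 0 := by
          ext x; simp
        rw [h7, Finset.card_erase_of_mem (mem_univ _), Finset.card_univ, ZMod.card]
      rw [h6, Nat.cast_sub hp.one_le]
      simp
    rw [h4]
    simp
  · have h4 : ∑ x : ZMod p, x ^ i = 0 := by
      apply FiniteField.sum_pow_lt_card_sub_one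
      rw [ZMod.card]
      omega
    rw [h4, map_zero]

theorem choose_cast_mul (a b c d : ℕ) (hb : b < p) (hd : d < p) :
    ((Nat.choose (p * a + b) (p * c + d) : ℕ) : κ) =
      (Nat.choose b d : κ) * (Nat.choose a c : κ) := by
  have hp : p.Prime := Fact.out
  have h := Choose.choose_modEq_choose_mod_mul_choose_div_nat (n := p * a + b) (k := p * c + d)
    (p := p)
  have e1 : (p * a + b) % p = b := by
    rw [Nat.mul_add_mod, Nat.mod_eq_of_lt hb]
  have e2 : (p * c + d) % p = d := by
    rw [Nat.mul_add_mod, Nat.mod_eq_of_lt hd]
  have e3 : (p * a + b) / p = a := by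
    rw [Nat.mul_add_div hp.pos, Nat.div_eq_of_lt hb, add_zero]
  have e4 : (p * c + d) / p = c := by
    rw [Nat.mul_add_div hp.pos, Nat.div_eq_of_lt hd, add_zero]
  rw [e1, e2, e3, e4] at h
  have h2 := (CharP.natCast_eq_natCast κ p).mpr h
  rw [h2, Nat.cast_mul]

/-- The symmetric 2-cocycle lemma in characteristic `p`, with the additional condition coming from
`[p]`. -/
theorem cocycle_comb (N : ℕ) : 2 ≤ N → ∀ a : ℕ → κ,
    (∀ i, 1 ≤ i → i ≤ N - 1 → a i = a (N - i)) →
    (∀ i j k, 1 ≤ i → 1 ≤ j → 1 ≤ k → i + j + k = N →
      ((i + j).choose i : κ) * a (i + j) = ((j + k).choose j : κ) * a i) →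
    (∑ s ∈ range p, ∑ i ∈ Ico 1 N, a i * ((s : ℕ) : κ) ^ i = 0) →
    ∃ b : κ, ∀ i, 1 ≤ i → i ≤ N - 1 → a i = b * (N.choose i : κ) := by
  classical
  have hp : p.Prime := Fact.out
  induction N using Nat.strong_induction_on with
  | _ N ih =>
    intro hN a hsym hcoc hpc
    -- basic relation
    have hrel : ∀ l, 1 ≤ l → l ≤ N - 1 →
        (l : κ) * a l = ((N - 1).choose (l - 1) : κ) * a 1 := by
      intro l h1 h2
      rcases Nat.lt_or_ge 1 l with h | h
      · have := hcoc 1 (l - 1) (N - l) le_rfl (by omega) (by omega) (by omega)
        have e1 : 1 + (l - 1) = l := by omega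
        have e2 : l - 1 + (N - l) = N - 1 := by omega
        rw [e1, e2, Nat.choose_one_right] at this
        exact this
      · have : l = 1 := by omega
        subst this
        simp
    have hchoose : ∀ l, 1 ≤ l → l ≤ N - 1 →
        (l : κ) * (N.choose l : κ) = (N : κ) * ((N - 1).choose (l - 1) : κ) := by
      intro l h1 h2
      have := Nat.add_one_mul_choose_eq (N - 1) (l - 1)
      have e1 : N - 1 + 1 = N := by omega
      have e2 : l - 1 + 1 = l := by omega
      rw [e1, e2] at this
      have h3 : ((N * (N - 1).choose (l - 1) : ℕ) : κ) = ((N.choose l * l : ℕ) : κ) := by rw [this]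
      push_cast at h3
      rw [h3]
      ring
    by_cases hpN : p ∣ N
    · obtain ⟨N', rfl⟩ := hpN
      have hN'pos : 1 ≤ N' := by
        rcases Nat.eq_zero_or_pos N' with h | h
        · subst h; simp at hN
        · exact h
      -- it suffices to show `a 1 = 0`, then reduce to `N'`
      have ha1 : a 1 = 0 := by
        rcases Nat.lt_or_ge 1 N' with h | h
        · -- `N' ≥ 2`
          have h2 := hcoc 1 (p - 1) (p * N' - p) le_rfl
            (by have := hp.two_le; omega)
            (by
              have : p * 1 < p * N' := Nat.mul_lt_mul_of_pos_left h hp.pos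
              omega)
            (by
              have h3 : p * 1 ≤ p * N' := Nat.mul_le_mul_left p hN'pos
              have := hp.two_le
              omega)
          have e1 : 1 + (p - 1) = p := by have := hp.two_le; omega
          have e2 : p - 1 + (p * N' - p) = p * (N' - 1) + (p - 1) := by
            rw [Nat.mul_sub]
            omega
          have e3 : p - 1 = p * 0 + (p - 1) := by omega
          rw [e1, Nat.choose_one_right, CharP.cast_eq_zero κ p, zero_mul, e2] at h2
          have h4 := choose_cast_mul (κ := κ) p (N' - 1) (p - 1) 0 (p - 1)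
            (by have := hp.two_le; omega) (by have := hp.two_le; omega)
          rw [← e3, Nat.choose_self, Nat.choose_zero_right] at h4
          rw [h4] at h2
          simpa using h2.symm
        · -- `N' = 1`
          have hN1 : N' = 1 := by omega
          subst hN1
          rw [mul_one] at hpc hsym
          rw [Finset.sum_comm] at hpc
          have h3 : ∀ i ∈ Ico 1 p, ∑ s ∈ range p, a i * ((s : ℕ) : κ) ^ i
              = if i = p - 1 then -a (p - 1) else 0 := by
            intro i hi
            rw [mem_Ico] at hi
            rw [← Finset.mul_sum, sum_range_pow p i hi.1 (by omega)]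
            split_ifs with h
            · rw [h]; ring
            · ring
          rw [Finset.sum_congr rfl h3, Finset.sum_ite_eq',
            if_pos (by rw [mem_Ico]; have := hp.two_le; omega)] at hpc
          have h4 : a (p - 1) = 0 := by
            rw [neg_eq_zero] at hpc
            exact hpc
          rw [hsym 1 le_rfl (by have := hp.two_le; omega), h4]
      have hndvd : ∀ l, 1 ≤ l → l ≤ p * N' - 1 → ¬ p ∣ l → a l = 0 := by
        intro l h1 h2 h3
        have h4 := hrel l h1 h2
        rw [ha1, mul_zero] at h4
        have h5 : (l : κ) ≠ 0 := by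
          rw [Ne, CharP.cast_eq_zero_iff κ p]
          exact h3
        exact (mul_eq_zero.mp h4).resolve_left h5
      rcases Nat.lt_or_ge 1 N' with h | h
      · have hlt : N' < p * N' := by
          have := hp.two_le
          nlinarith
        have hs1 : ∀ i, 1 ≤ i → i ≤ N' - 1 → (fun l => a (p * l)) i = (fun l => a (p * l)) (N' - i) := by
          intro i h1 h2
          have h3 := hsym (p * i) (by have := hp.two_le; nlinarith) (by
            have h4 : p * (i + 1) ≤ p * N' := Nat.mul_le_mul_left p (by omega)
            have h5 := hp.two_le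
            rw [mul_add] at h4
            omega)
          change a (p * i) = a (p * (N' - i))
          rw [h3, Nat.mul_sub]
        have hs2 : ∀ i j k, 1 ≤ i → 1 ≤ j → 1 ≤ k → i + j + k = N' →
            ((i + j).choose i : κ) * (fun l => a (p * l)) (i + j) =
              ((j + k).choose j : κ) * (fun l => a (p * l)) i := by
          intro i j k h1 h2 h3 h4
          have h5 := hcoc (p * i) (p * j) (p * k) (by have := hp.two_le; nlinarith)
            (by have := hp.two_le; nlinarith) (by have := hp.two_le; nlinarith)
            (by rw [← h4]; ring)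
          have h6 := choose_cast_mul (κ := κ) p (i + j) 0 i 0 hp.pos hp.pos
          have h7 := choose_cast_mul (κ := κ) p (j + k) 0 j 0 hp.pos hp.pos
          rw [add_zero, add_zero, Nat.choose_self, Nat.cast_one, one_mul] at h6 h7
          rw [← mul_add, ← mul_add, h6, h7] at h5
          exact h5
        have hs3 : ∑ s ∈ range p, ∑ i ∈ Ico 1 N', (fun l => a (p * l)) i * ((s : ℕ) : κ) ^ i = 0 := by
          have h8 : ∀ s ∈ range p, ∑ i ∈ Ico 1 N', a (p * i) * ((s : ℕ) : κ) ^ i
              = ∑ i ∈ Ico 1 (p * N'), a i * ((s : ℕ) : κ) ^ i := by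
            intro s _
            have hfr : ((s : ℕ) : κ) ^ p = (s : κ) := by
              rw [← frobenius_def, map_natCast]
            have himg : ∑ i ∈ Ico 1 N', a (p * i) * ((s : ℕ) : κ) ^ i
                = ∑ i ∈ (Ico 1 N').image (fun i => p * i), a i * ((s : ℕ) : κ) ^ i := by
              rw [Finset.sum_image (by
                intro x _ y _ hxy
                exact Nat.eq_of_mul_eq_mul_left hp.pos hxy)]
              refine Finset.sum_congr rfl fun i _ => ?_
              rw [pow_mul, hfr]
            rw [himg]
            refine Finset.sum_subset ?_ ?_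
            · intro x hx
              rw [mem_image] at hx
              obtain ⟨i, hi, rfl⟩ := hx
              rw [mem_Ico] at hi ⊢
              have := hp.two_le
              constructor
              · nlinarith
              · exact Nat.mul_lt_mul_of_pos_left hi.2 hp.pos
            · intro x hx hx2
              rw [mem_Ico] at hx
              rw [hndvd x hx.1 (by omega) ?_, zero_mul]
              rintro ⟨l, rfl⟩
              apply hx2
              rw [mem_image]
              refine ⟨l, ?_, rfl⟩
              rw [mem_Ico]
              constructor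
              · rcases Nat.eq_zero_or_pos l with h | h
                · subst h; simp at hx
                · exact h
              · exact Nat.lt_of_mul_lt_mul_left hx.2
          rw [← hpc]
          exact Finset.sum_congr rfl h8
        obtain ⟨b, hb⟩ := ih N' hlt h (fun l => a (p * l)) hs1 hs2 hs3
        · refine ⟨b, fun i h1 h2 => ?_⟩
          by_cases hdv : p ∣ i
          · obtain ⟨l, rfl⟩ := hdv
            have hl1 : 1 ≤ l := by
              rcases Nat.eq_zero_or_pos l with h | h
              · subst h; simp at h1
              · exact h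
            have hl2 : l ≤ N' - 1 := by
              have h3 : p * l < p * N' := by omega
              have := Nat.lt_of_mul_lt_mul_left h3
              omega
            rw [hb l hl1 hl2]
            have h5 := choose_cast_mul (κ := κ) p N' 0 l 0 hp.pos hp.pos
            rw [add_zero, add_zero, Nat.choose_self, Nat.cast_one, one_mul] at h5
            rw [h5]
          · rw [hndvd i h1 h2 hdv]
            have h6 : i = p * (i / p) + i % p := (Nat.div_add_mod i p).symm
            have h7 := choose_cast_mul (κ := κ) p N' 0 (i / p) (i % p) hp.pos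
              (Nat.mod_lt _ hp.pos)
            rw [add_zero, ← h6, Nat.choose_eq_zero_of_lt (n := 0) (k := i % p)
              (Nat.pos_of_ne_zero fun h0 => hdv (Nat.dvd_of_mod_eq_zero h0)), Nat.cast_zero,
              zero_mul] at h7
            rw [h7, mul_zero]
      · refine ⟨0, fun i h1 h2 => ?_⟩
        have hN1 : N' = 1 := by omega
        subst hN1
        rw [zero_mul]
        apply hndvd i h1 h2
        intro h3
        have := Nat.le_of_dvd (by omega) h3
        omega
    · have hNne : (N : κ) ≠ 0 := by
        rw [Ne, CharP.cast_eq_zero_iff κ p]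
        exact hpN
      have hA : ∀ l, 1 ≤ l → l ≤ N - 1 → ¬ p ∣ l → a l = a 1 / (N : κ) * (N.choose l : κ) := by
        intro l h1 h2 h3
        have h5 : (l : κ) ≠ 0 := by
          rw [Ne, CharP.cast_eq_zero_iff κ p]
          exact h3
        apply mul_left_cancel₀ h5
        rw [hrel l h1 h2]
        have h6 := hchoose l h1 h2
        field_simp
        linear_combination (-(a 1)) * h6
      refine ⟨a 1 / (N : κ), fun i h1 h2 => ?_⟩
      by_cases hdv : p ∣ i
      · rw [hsym i h1 h2, hA (N - i) (by omega) (by omega) ?_, Nat.choose_symm (by omega)]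
        intro h3
        apply hpN
        have : N = (N - i) + i := by omega
        rw [this]
        exact Dvd.dvd.add h3 hdv
      · exact hA i h1 h2 hdv

end comb

end Crest.Agent.R227
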