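import Crest.Agent.R227.TopDefs
import Crest.Agent.R227.LTComplete
import Crest.Agent.R227.PtData

/-!
# R227 / Points0 (task POINTS0)
-/

set_option autoImplicit false

noncomputable section

namespace Crest.Agent.R227

open Crest.LubinTate MvPowerSeries Topology

variable (p : ℕ) [Fact p.Prime] (n : ℕ)

instance finite_residueField_LTRing : Finite (IsLocalRing.ResidueField (LTRing p n)) := by
  have h1 : Finite (LTRing p n ⧸ RingHom.ker (LTRing.residue p n)) :=
    Finite.of_injective _ (RingHom.kerLift_injective (LTRing.residue p n))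
  rw [ker_residue] at h1
  exact h1

instance isAdicComplete_padicInt : IsAdicComplete (Ideal.span {(p : ℤ_[p])}) ℤ_[p] := by
  rw [← PadicInt.maximalIdeal_eq_span_p]
  infer_instance

/-- the map `ℤ_p → E₀` -/
def zpTo : ℤ_[p] →+* LTRing p n :=
  (algebraMap (WittVector p (GaloisField p n)) (LTRing p n)).comp
    ((WittVector.map (algebraMap (ZMod p) (GaloisField p n))).comp
      (WittVector.equiv p).symm.toRingHom)

theorem zpTo_p : zpTo p n (p : ℤ_[p]) = (p : LTRing p n) := map_natCast _ _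

theorem residue_p : LTRing.residue p n (p : LTRing p n) = 0 := by
  rw [map_natCast]
  exact CharP.cast_eq_zero _ p

/-- Characteristic zero points. -/
theorem exists_point_zero (hn : 1 ≤ n) (J : Ideal (LTRing p n)) (hJ : J.IsRadical)
    (hp : (p : LTRing p n) ∉ J) :
    ∃ X : LTRing p n →+* Ob ℂ_[p], (∀ a ∈ J, X a = 0) ∧
      ∀ a, LTRing.residue p n a = 0 → ‖X a‖ < 1 := by
  have hnorm : ∀ r : ℤ_[p], ‖algebraMap ℚ_[p] ℂ_[p] (r : ℚ_[p])‖ = ‖r‖ := by
    intro r
    have := PadicComplex.norm_extends' p (r : ℚ_[p])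
    rw [PadicInt.norm_def]
    exact this
  obtain ⟨X, hX1, hX2, hX3, hX4⟩ := PtAux.point_of_data J (R := ℤ_[p]) (p : ℤ_[p])
    (fun r hr => ⟨r.valuation, (PadicInt.unitCoeff hr)⁻¹.1, by
      conv_lhs => rw [← mul_one ((p : ℤ_[p]) ^ _)]
      nth_rw 2 [PadicInt.unitCoeff_spec hr]
      rw [mul_comm ((PadicInt.unitCoeff hr : ℤ_[p])) _, mul_assoc, Units.mul_inv]⟩)
    (zpTo p n) (by
      rw [zpTo_p, ← residue_eq_zero_iff]
      exact residue_p p n)
    (fun N h => by
      rw [zpTo_p] at h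
      exact hp (hJ ⟨N, h⟩))
    (K := ℂ_[p]) ((algebraMap ℚ_[p] ℂ_[p]).comp PadicInt.Coe.ringHom)
    (by
      refine (algebraMap ℚ_[p] ℂ_[p]).injective.comp ?_
      intro a b h
      exact PadicInt.ext h)
    (fun r => by
      rw [RingHom.comp_apply]
      exact (hnorm r).trans_le (PadicInt.norm_le_one r))
    (by
      rw [RingHom.comp_apply]
      refine (hnorm _).trans_lt ?_
      rw [PadicInt.norm_p]
      exact inv_lt_one_of_one_lt₀ (by exact_mod_cast (Fact.out : p.Prime).one_lt))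
  refine ⟨X.codRestrict (Ob ℂ_[p]) hX3, fun a ha => Subtype.ext (hX1 a ha), fun a ha => ?_⟩
  exact hX4 a ((residue_eq_zero_iff p n a).1 ha)

end Crest.Agent.R227
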