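import Crest.Agent.R227.SmallAux2
import Crest.Agent.R227.D0Cont

/-!
# R227 / Small : automorphisms close to the identity act almost trivially (task SMALL)
-/

set_option autoImplicit false

noncomputable section

namespace Crest.Agent.R227

open Crest.LubinTate MvPowerSeries Topology

variable (p : ℕ) [Fact p.Prime] (n : ℕ)

/-- maximal ideal as the kernel of the residue map -/
abbrev mm : Ideal (LTRing p n) := RingHom.ker (LTRing.residue p n)

/-- `II h` + the ideal generated by `p^{hm}`-th powers of elements of `m`. -/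
def FI (h m : ℕ) : Ideal (LTRing p n) :=
  II p n h ⊔ Ideal.span {a | ∃ b ∈ mm p n, a = b ^ p ^ (h * m)}

/-- coefficientwise Teichmüller lift -/
def tlift (α : PowerSeries (GaloisField p n)) : PowerSeries (LTRing p n) :=
  PowerSeries.mk fun i => MvPowerSeries.C (WittVector.teichmuller p (PowerSeries.coeff i α))

namespace SmallAux

variable {p n} in
theorem FI_le (hn : 1 ≤ n) {h m : ℕ} (hh : h < n) : FI p n h m ≤ mm p n := by
  unfold FI
  refine sup_le ?_ ?_
  · intro a ha
    rw [RingHom.mem_ker, ← mem_II_n' p n hn]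
    exact Ideal.span_mono (Set.image_mono (Set.Iio_subset_Iio hh.le)) ha
  · rw [Ideal.span_le]
    rintro _ ⟨b, hb, rfl⟩
    exact Ideal.pow_mem_of_mem _ hb _ (pow_pos (Fact.out : p.Prime).pos _)

variable {p n} in
theorem exists_pow_le_FI (h m : ℕ) : ∃ K, mm p n ^ K ≤ FI p n h m := by
  have h1 : mm p n ≤ (FI p n h m).radical := by
    intro b hb
    exact ⟨p ^ (h * m), Ideal.mem_sup_right (Ideal.subset_span ⟨b, hb, rfl⟩)⟩
  exact Ideal.exists_pow_le_of_le_radical_of_fg h1 (IsNoetherian.noetherian _)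

variable {p n} in
theorem charP_FI (hn : 1 ≤ n) {h m : ℕ} (h1 : 1 ≤ h) (hh : h < n) :
    CharP (LTRing p n ⧸ FI p n h m) p := by
  have := nontriv (FI_le hn hh : FI p n h m ≤ mm p n)
  have h0 : ((p : ℕ) : LTRing p n ⧸ FI p n h m) = 0 := by
    rw [← map_natCast (Ideal.Quotient.mk (FI p n h m)), Ideal.Quotient.eq_zero_iff_mem]
    exact Ideal.mem_sup_left (p_mem_II p n h1)
  exact (CharP.charP_iff_prime_eq_zero Fact.out).mpr h0

variable {p n} in
theorem nil_FI (hn : 1 ≤ n) {h m : ℕ} (h1 : 1 ≤ h) (hh : h < n) {τ : Type*}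
    (T : MvPowerSeries τ (LTRing p n ⧸ FI p n h m)) (hT0 : constantCoeff T = 0)
    (hT : MvPowerSeries.map (rB (FI_le (p := p) (m := m) hn hh)) T = 0) :
    PowerSeries.subst T (mulSeries ((H1 p n).map (Ideal.Quotient.mk (FI p n h m))) (p ^ m)) =
      0 := by
  have := charP_FI (p := p) (m := m) hn h1 hh
  have := nontriv (FI_le hn hh : FI p n h m ≤ mm p n)
  rw [hz_map]
  have key := nil_b p n h (fun i => Ideal.Quotient.mk (FI p n h m) (upt p n i)) (by
    intro i hi1 hi2
    rw [Ideal.Quotient.eq_zero_iff_mem]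
    refine Ideal.mem_sup_left (Ideal.subset_span ⟨i, hi2, ?_⟩)
    unfold uu
    rw [if_neg (by omega)]) (RingHom.ker (rB (FI_le hn hh))) (RingHom.ker_ne_top _) T hT0
    ((cin_ker _ _).2 hT) m
  have hPJ : PJ p h (RingHom.ker (rB (FI_le hn hh : FI p n h m ≤ mm p n))) m = ⊥ := by
    unfold PJ
    rw [Ideal.span_eq_bot]
    rintro _ ⟨b, hb, rfl⟩
    obtain ⟨b, rfl⟩ := Ideal.Quotient.mk_surjective b
    rw [RingHom.mem_ker, rB_mk] at hb
    rw [← map_pow, Ideal.Quotient.eq_zero_iff_mem]
    exact Ideal.mem_sup_right (Ideal.subset_span ⟨b, hb, rfl⟩)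
  ext d
  have h3 := key d
  rw [hPJ, Ideal.mem_bot] at h3
  rw [h3, map_zero]

end SmallAux

open SmallAux in
/-- Stabilizer maps for `(1 + p^m α)^{-1}` modulo `I_h`: the inverse isomorphism
`ϑ : H → φ_* H` is `≡ X +_H [p^m](α)` modulo `p^{hm}`-th powers. -/
theorem small_p (hn : 1 ≤ n) (hU : IsUniversalDeformation p n (Fn p n) (H1 p n)) (M : ℕ)
    (hM : 1 ≤ M) (h : ℕ) (h1 : 1 ≤ h) (hh : h < n) :
    ∃ m0, ∀ m, m0 ≤ m → ∀ α : PowerSeries (GaloisField p n), IsFGHom (Fn p n) (Fn p n) α →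
      ∃ φ, IsStab p n M φ ∧ (∀ b ∈ mm p n, φ b - b ∈ FI p n h m) ∧
        ∃ ϑ : PowerSeries (LTRing p n), IsFGHom (H1 p n) ((H1 p n).map φ.toRingHom) ϑ ∧
          ∀ k, PowerSeries.coeff k (ϑ - fadd (H1 p n) PowerSeries.X
            (PowerSeries.subst (tlift p n α) (mulSeries (H1 p n) (p ^ m)))) ∈ FI p n h m := by
  refine ⟨M + 1, fun m hm α hα => ?_⟩
  have hp := (Fact.out : p.Prime)
  -- the automorphism `g' = X + [p^m] α` and its inverse `g`
  set β : PowerSeries (GaloisField p n) := PowerSeries.subst α (mulSeries (Fn p n) (p ^ m)) with hβ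
  have hβhom : IsFGHom (Fn p n) (Fn p n) β := IsFGHom.comp hα (IsFGHom.mulSeries _ _)
  have hα0 : PowerSeries.constantCoeff α = 0 := hα.1
  have hαs := PowerSeries.HasSubst.of_constantCoeff_zero' hα0
  have hβ' : β = α ^ p ^ (n * m) := by
    rw [hβ, D0Cont.mulSeries_Fn_pow p n hn, PowerSeries.subst_pow hαs, PowerSeries.subst_X hαs]
  have hnm : m ≤ n * m := Nat.le_mul_of_pos_left _ (by omega)
  have hpow : M < p ^ (n * m) := by
    have h1 : n * m < p ^ (n * m) := Nat.lt_pow_self hp.one_lt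
    omega
  obtain ⟨α', hα'⟩ := PowerSeries.X_dvd_iff.mpr hα0
  set g' : PowerSeries (GaloisField p n) := fadd (Fn p n) PowerSeries.X β with hg'
  have hg'hom : IsFGHom (Fn p n) (Fn p n) g' := IsFGHom.fadd (IsFGHom.id _) hβhom
  obtain ⟨w, hw, he⟩ := fadd_sub_fadd (Fn p n) (PowerSeries.X : PowerSeries (GaloisField p n))
    β 0 mvConstantCoeff_X hβhom.1 (map_zero _)
  rw [fadd_zero _ _ mvConstantCoeff_X, sub_zero, sub_eq_iff_eq_add'] at he
  have he' : g' = PowerSeries.X + PowerSeries.X ^ p ^ (n * m) * (α' ^ p ^ (n * m) * w) := by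
    refine he.trans ?_
    rw [hβ', hα']
    ring
  have hg'1 : PowerSeries.coeff 1 g' = 1 := by
    rw [he', map_add, PowerSeries.coeff_X_pow_mul', if_neg (by omega), add_zero,
      PowerSeries.coeff_one_X]
  have hg'u : IsUnit (PowerSeries.coeff 1 g') := by rw [hg'1]; exact isUnit_one
  obtain ⟨g, hghom, hg1, hg2, hgu⟩ := IsFGHom.exists_inv hg'hom hg'u
  have hg : IsFGAut (Fn p n) g := ⟨hghom, hgu⟩
  have hgM : ∀ k, k < M → PowerSeries.coeff k g = PowerSeries.coeff k PowerSeries.X := by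
    intro k hk
    have hgs := PowerSeries.HasSubst.of_constantCoeff_zero' hghom.1
    obtain ⟨g'', hg''⟩ := PowerSeries.X_dvd_iff.mpr hghom.1
    have e : PowerSeries.X = g + PowerSeries.X ^ p ^ (n * m) *
        (g'' ^ p ^ (n * m) * PowerSeries.subst g (α' ^ p ^ (n * m) * w)) := by
      calc PowerSeries.X = PowerSeries.subst g g' := hg2.symm
        _ = g + g ^ p ^ (n * m) * PowerSeries.subst g (α' ^ p ^ (n * m) * w) := by
          conv_lhs => rw [he']
          rw [PowerSeries.subst_add hgs, PowerSeries.subst_mul hgs, PowerSeries.subst_pow hgs,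
            PowerSeries.subst_X hgs]
        _ = _ := by
          rw [show g ^ p ^ (n * m) = PowerSeries.X ^ p ^ (n * m) * g'' ^ p ^ (n * m) by
            rw [hg'', mul_pow]]
          ring
    have e2 := congrArg (PowerSeries.coeff k) e
    rw [map_add, PowerSeries.coeff_X_pow_mul', if_neg (by omega), add_zero] at e2
    exact e2.symm
  obtain ⟨φ, hφ⟩ := exists_stab p n hn hU g hg
  obtain ⟨hφr, θ, hθ, hθr⟩ := id hφ
  have hθu : IsUnit (PowerSeries.coeff 1 θ) := by
    rw [isUnit_iff_residue_ne_zero, ← PowerSeries.coeff_map, hθr]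
    exact hgu.ne_zero
  obtain ⟨ϑ, hϑ, hϑ1, hϑ2, hϑu⟩ := IsFGHom.exists_inv hθ hθu
  -- the quotient
  set J := FI p n h m with hJdef
  have hJ : J ≤ mm p n := FI_le hn hh
  obtain ⟨K, hK⟩ := exists_pow_le_FI (p := p) (n := n) h m
  set π := Ideal.Quotient.mk J with hπ
  set r := rB hJ with hr
  set G := (H1 p n).map π with hG
  have hGc : G.IsComm := by rw [hG, hz_map]; infer_instance
  have hGr : G.map r = Fn p n := by rw [hG, map_map_FG, hr, rB_comp, hU.1]
  -- the endomorphism `[p^m] α̂` of `G`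
  set ψ : PowerSeries (LTRing p n ⧸ J) := PowerSeries.map π (tlift p n α) with hψ
  have hψr : PowerSeries.map r ψ = α := by
    ext k
    rw [hψ, PowerSeries.coeff_map, PowerSeries.coeff_map, hr, rB_mk, tlift, PowerSeries.coeff_mk]
    simp [LTRing.residue]
  have ht0 : PowerSeries.constantCoeff (tlift p n α) = 0 := by
    rw [← PowerSeries.coeff_zero_eq_constantCoeff_apply, tlift, PowerSeries.coeff_mk,
      PowerSeries.coeff_zero_eq_constantCoeff_apply, hα0, WittVector.teichmuller_zero, map_zero]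
  have hψ0 : PowerSeries.constantCoeff ψ = 0 := by
    rw [hψ, ← PowerSeries.coeff_zero_eq_constantCoeff_apply, PowerSeries.coeff_map,
      PowerSeries.coeff_zero_eq_constantCoeff_apply, ht0, map_zero]
  have hψs := PowerSeries.HasSubst.of_constantCoeff_zero' hψ0
  set c : PowerSeries (LTRing p n ⧸ J) := PowerSeries.subst ψ (mulSeries G (p ^ m)) with hc
  have hchom : IsFGHom G G c := by
    refine lift_end r G _ (IsFGHom.mulSeries G _) (fun T hT0 hT => nil_FI hn h1 hh T hT0 hT) ψ hψ0
      ?_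
    rw [hGr, hψr]
    exact hα
  have hcr : PowerSeries.map r c = β := by
    have e3 := PowerSeries.map_subst hψs (h := r) (mulSeries G (p ^ m))
    refine e3.trans ?_
    rw [mulSeries_map, hGr]
    change PowerSeries.subst (PowerSeries.map r ψ) _ = _
    rw [hψr]
  set Θ : PowerSeries (LTRing p n ⧸ J) := fadd G PowerSeries.X c with hΘ
  have hΘhom : IsFGHom G G Θ := IsFGHom.fadd (IsFGHom.id _) hchom
  have hΘr : PowerSeries.map r Θ = g' := by
    have e := map_fadd r G (PowerSeries.X : PowerSeries (LTRing p n ⧸ J)) c mvConstantCoeff_X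
      hchom.1
    rw [hGr] at e
    refine e.trans ?_
    rw [show (MvPowerSeries.map r (PowerSeries.X : PowerSeries (LTRing p n ⧸ J)) :
      MvPowerSeries Unit _) = (PowerSeries.X : PowerSeries _) from PowerSeries.map_X r,
      show (MvPowerSeries.map r c : MvPowerSeries Unit _) = β from hcr]
  -- uniqueness
  have hθB := IsFGHom.map π hθ
  rw [map_map_FG] at hθB
  set θB := PowerSeries.map π θ with hθBdef
  have hθBs := PowerSeries.HasSubst.of_constantCoeff_zero' hθB.1
  have hcomp := IsFGHom.comp hθB hΘhom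
  have hcompr : PowerSeries.map r (PowerSeries.subst θB Θ) = PowerSeries.X := by
    have e3 := PowerSeries.map_subst hθBs (h := r) Θ
    refine e3.trans ?_
    rw [hΘr]
    have e4 : PowerSeries.map r θB = g := by
      rw [← hθr]
      ext k
      rw [hθBdef, PowerSeries.coeff_map, PowerSeries.coeff_map, hr, rB_mk, PowerSeries.coeff_map]
    change PowerSeries.subst (PowerSeries.map r θB) g' = _
    rw [e4]
    exact hg2
  have hclose : ∀ b, φ b - b ∈ J := unique_mod hU hJ K hK φ hφr _ hcomp hcompr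
  have hφπ : π.comp φ.toRingHom = π := by
    ext1 b
    exact Ideal.Quotient.eq.mpr (hclose b)
  refine ⟨φ, ⟨g, hg, hgM, hφ⟩, fun b _ => hclose b, ϑ, hϑ, ?_⟩
  rw [hφπ] at hcomp hθB
  have hrigid : PowerSeries.subst θB Θ = PowerSeries.X := by
    refine rigid r K (ker_rB_pow hJ K hK) G (p ^ m) (p ^ (n * m)) (Nat.one_le_pow _ _ hp.pos) ?_
      (fun T hT0 hT => nil_FI hn h1 hh T hT0 hT) _ hcomp hcompr
    rw [mulSeries_map, hGr, D0Cont.mulSeries_Fn_pow p n hn]
  have hϑB0 : PowerSeries.constantCoeff (PowerSeries.map π ϑ) = 0 := by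
    rw [← PowerSeries.coeff_zero_eq_constantCoeff_apply, PowerSeries.coeff_map,
      PowerSeries.coeff_zero_eq_constantCoeff_apply, hϑ.1, map_zero]
  have hϑs := PowerSeries.HasSubst.of_constantCoeff_zero' hϑ.1
  have hϑB : PowerSeries.subst (PowerSeries.map π ϑ) θB = PowerSeries.X := by
    have e3 := PowerSeries.map_subst hϑs (h := π) θ
    have e4 := congrArg (PowerSeries.map π) hϑ2
    rw [PowerSeries.map_X] at e4
    exact e3.symm.trans e4
  have hfin : PowerSeries.map π ϑ = Θ :=
    (exst_inv_unique hϑB0 hθB.1 hϑB hrigid).symm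
  intro k
  rw [← Ideal.Quotient.eq_zero_iff_mem, ← hπ, ← PowerSeries.coeff_map, map_sub, hfin, hΘ]
  have e5 := map_fadd π (H1 p n) (PowerSeries.X : PowerSeries (LTRing p n))
    (PowerSeries.subst (tlift p n α) (mulSeries (H1 p n) (p ^ m))) mvConstantCoeff_X
    (constantCoeff_psubst ht0 (constantCoeff_mulSeries _ _))
  have e6 : (MvPowerSeries.map π (PowerSeries.subst (tlift p n α)
      (mulSeries (H1 p n) (p ^ m)) : PowerSeries (LTRing p n)) : MvPowerSeries Unit _) = c := by
    have hts := PowerSeries.HasSubst.of_constantCoeff_zero' ht0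
    have e3 := PowerSeries.map_subst hts (h := π) (mulSeries (H1 p n) (p ^ m))
    refine e3.trans ?_
    rw [mulSeries_map]
    rfl
  have e7 : (MvPowerSeries.map π (PowerSeries.X : PowerSeries (LTRing p n)) :
      MvPowerSeries Unit _) = (PowerSeries.X : PowerSeries _) := PowerSeries.map_X π
  rw [e6, e7] at e5
  have e8 : PowerSeries.map π (fadd (H1 p n) PowerSeries.X
      (PowerSeries.subst (tlift p n α) (mulSeries (H1 p n) (p ^ m)))) = fadd G PowerSeries.X c := e5
  rw [e8, sub_self, map_zero]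

end Crest.Agent.R227
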