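import Crest.Agent.R227.FG2
import Crest.Agent.R227.FE

/-!
# R227 / SmallAux : nilpotence, lifting of endomorphisms and rigidity (general rings)
-/

set_option autoImplicit false

noncomputable section

namespace Crest.Agent.R227.SmallAux

open Crest.LubinTate MvPowerSeries Topology

section gen

variable {R : Type*} [CommRing R] {τ : Type*}

theorem cin_ker {S : Type*} [CommRing S] (r : R →+* S) (f : MvPowerSeries τ R) :
    (∀ d, coeff d f ∈ RingHom.ker r) ↔ f.map r = 0 := by
  rw [MvPowerSeries.ext_iff]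
  simp [RingHom.mem_ker]

theorem cin_mul (I J : Ideal R) (f g : MvPowerSeries τ R) (hf : ∀ d, coeff d f ∈ I)
    (hg : ∀ d, coeff d g ∈ J) : ∀ d, coeff d (f * g) ∈ I * J := by
  classical
  intro d
  rw [coeff_mul]
  exact Ideal.sum_mem _ fun x _ => Ideal.mul_mem_mul (hf _) (hg _)

/-- expansion to second order -/
theorem subst_expand2 (P : PowerSeries R) (hP : PowerSeries.constantCoeff P = 0)
    (T : MvPowerSeries τ R) (hT : constantCoeff T = 0) :
    ∃ U : MvPowerSeries τ R,
      PowerSeries.subst T P = C (PowerSeries.coeff 1 P) * T + T ^ 2 * U := by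
  have hs := PowerSeries.HasSubst.of_constantCoeff_zero hT
  obtain ⟨P', rfl⟩ := PowerSeries.X_dvd_iff.mpr hP
  have h1 : PowerSeries.X ∣ P' - PowerSeries.C (PowerSeries.constantCoeff P') := by
    rw [PowerSeries.X_dvd_iff]; simp
  obtain ⟨P'', h2⟩ := h1
  have h3 : PowerSeries.coeff 1 (PowerSeries.X * P') = PowerSeries.constantCoeff P' := by
    rw [show (1 : ℕ) = 0 + 1 from rfl, PowerSeries.coeff_succ_X_mul,
      PowerSeries.coeff_zero_eq_constantCoeff_apply]
  have h4 : PowerSeries.X * P' = PowerSeries.C (PowerSeries.constantCoeff P') * PowerSeries.X +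
      PowerSeries.X ^ 2 * P'' := by
    rw [sub_eq_iff_eq_add] at h2
    conv_lhs => rw [h2]
    ring
  refine ⟨PowerSeries.subst T P'', ?_⟩
  rw [h3]
  conv_lhs => rw [h4]
  rw [PowerSeries.subst_add hs, PowerSeries.subst_mul hs, PowerSeries.subst_mul hs,
    PowerSeries.subst_pow hs, PowerSeries.subst_X hs, PowerSeries.subst_C]

theorem nil_a_step (G : FormalGroup R) (p : ℕ) (I : Ideal R) (hp : (p : R) ∈ I) (j : ℕ)
    (T : MvPowerSeries τ R) (hT0 : constantCoeff T = 0) (hT : ∀ d, coeff d T ∈ I ^ (j + 1)) :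
    ∀ d, coeff d (PowerSeries.subst T (mulSeries G p)) ∈ I ^ (j + 2) := by
  intro d
  obtain ⟨U, hU⟩ := subst_expand2 (mulSeries G p) (constantCoeff_mulSeries G p) T hT0
  rw [hU, map_add, coeff_C_mul, coeff_one_mulSeries]
  refine Ideal.add_mem _ ?_ ?_
  · rw [pow_succ' I (j + 1)]
    exact Ideal.mul_mem_mul hp (hT d)
  · have h1 := cin_mul (I ^ (j + 1)) (I ^ (j + 1)) T T hT hT
    have h2 := coeff_mul_mem (I ^ (j + 1) * I ^ (j + 1)) (T * T) U h1 d
    rw [pow_two]
    rw [← pow_add] at h2
    exact Ideal.pow_le_pow_right (by omega) h2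

theorem nil_a (G : FormalGroup R) [G.IsComm] (p : ℕ) (I : Ideal R) (hp : (p : R) ∈ I)
    (T : MvPowerSeries τ R) (hT0 : constantCoeff T = 0) (hT : ∀ d, coeff d T ∈ I) (s : ℕ) :
    ∀ d, coeff d (PowerSeries.subst T (mulSeries G (p ^ s))) ∈ I ^ (s + 1) := by
  induction s with
  | zero =>
    intro d
    have h1 : mulSeries G (p ^ 0) = PowerSeries.X := by
      rw [pow_zero]
      change fadd G 0 (PowerSeries.X : PowerSeries R) = _
      exact zero_fadd G _ mvConstantCoeff_X
    rw [h1, psubst_X hT0, zero_add, pow_one]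
    exact hT d
  | succ s ih =>
    rw [pow_succ' p s, mulSeries_mul, psubst_psubst (constantCoeff_mulSeries G _) hT0]
    exact nil_a_step G p I hp s _ (constantCoeff_psubst hT0 (constantCoeff_mulSeries G _)) ih

/-- in characteristic `p`, a series whose coefficients have zero `p^h`-th power. -/
theorem pow_eq_zero_of_coeff (p : ℕ) [Fact p.Prime] [CharP R p] (h : ℕ) (T : MvPowerSeries τ R)
    (hT : ∀ d, (coeff d T) ^ p ^ h = 0) : T ^ p ^ h = 0 := by
  have hp : p ≠ 0 := (Fact.out : p.Prime).ne_zero
  rw [← MvPowerSeries.map_iterateFrobenius_expand p hp, MvPowerSeries.map_expand]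
  have : MvPowerSeries.map (iterateFrobenius R p h) T = 0 := by
    ext d
    rw [coeff_map, iterateFrobenius_def, hT d, map_zero]
  rw [this, map_zero]

theorem psubst_fsum (F : FormalGroup R) (l : List (PowerSeries R))
    (hl : ∀ a ∈ l, PowerSeries.constantCoeff a = 0) (T : MvPowerSeries τ R)
    (hT : constantCoeff T = 0) :
    PowerSeries.subst T (fsum F l : PowerSeries R) = fsum F (l.map (PowerSeries.subst T)) := by
  induction l with
  | nil => exact psubst_zero T hT
  | cons a l ih =>
    have h1 : (fsum F (a :: l) : PowerSeries R) = fadd F a (fsum F l) := rfl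
    have h2 : constantCoeff (fsum F l : MvPowerSeries Unit R) = 0 := by
      clear ih
      have hl' : ∀ b ∈ l, PowerSeries.constantCoeff b = 0 :=
        fun b hb => hl b (List.mem_cons_of_mem _ hb)
      clear hl h1
      induction l with
      | nil => simp [fsum]
      | cons b l ih =>
        exact constantCoeff_fadd F _ _ (hl' b List.mem_cons_self)
          (ih fun c hc => hl' c (List.mem_cons_of_mem _ hc))
    rw [h1, psubst_fadd F _ _ (hl a List.mem_cons_self) h2 T hT,
      ih fun b hb => hl b (List.mem_cons_of_mem _ hb)]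
    rfl

theorem fsum_zero (F : FormalGroup R) (l : List (MvPowerSeries τ R)) (hl : ∀ a ∈ l, a = 0) :
    fsum F l = 0 := by
  induction l with
  | nil => rfl
  | cons a l ih =>
    have h1 : fsum F (a :: l) = fadd F a (fsum F l) := rfl
    rw [h1, hl a List.mem_cons_self, ih fun b hb => hl b (List.mem_cons_of_mem _ hb),
      fadd_zero F 0 (map_zero _)]

theorem nil_b_step (p : ℕ) [Fact p.Prime] (n h : ℕ) [CharP R p] (x : ℕ → R)
    (hx : ∀ i, 1 ≤ i → i < h → x i = 0) (T : MvPowerSeries τ R) (hT0 : constantCoeff T = 0)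
    (hT : ∀ d, (coeff d T) ^ p ^ h = 0) :
    PowerSeries.subst T (mulSeries (hz p n x) p) = 0 := by
  have hp : p.Prime := Fact.out
  have hs := PowerSeries.HasSubst.of_constantCoeff_zero hT0
  have hT' := pow_eq_zero_of_coeff p h T hT
  rw [mulSeries_hz, psubst_fsum _ _ _ T hT0]
  · apply fsum_zero
    intro a ha
    rw [List.map_map, List.mem_map] at ha
    obtain ⟨i, hi, rfl⟩ := ha
    rw [Function.comp_apply, PowerSeries.subst_mul hs, PowerSeries.subst_pow hs,
      PowerSeries.subst_X hs, PowerSeries.subst_C]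
    rcases Nat.lt_or_ge (i + 1) h with h1 | h1
    · rw [hx _ (by omega) h1, map_zero, zero_mul]
    · obtain ⟨k, hk⟩ := Nat.exists_eq_add_of_le h1
      rw [hk, pow_add, pow_mul, hT', zero_pow (pow_ne_zero _ hp.ne_zero), mul_zero]
  · intro a ha
    rw [List.mem_map] at ha
    obtain ⟨i, hi, rfl⟩ := ha
    rw [map_mul, map_pow, PowerSeries.constantCoeff_X,
      zero_pow (pow_ne_zero _ hp.ne_zero), mul_zero]

/-- the ideal generated by the `p^{hj}`-th powers of elements of `I` -/
def PJ (p h : ℕ) (I : Ideal R) (j : ℕ) : Ideal R :=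
  Ideal.span {a | ∃ b ∈ I, a = b ^ p ^ (h * j)}

theorem PJ_pow_mem (p : ℕ) [Fact p.Prime] [CharP R p] (h : ℕ) (I : Ideal R) (j : ℕ) (c : R)
    (hc : c ∈ PJ p h I j) : c ^ p ^ h ∈ PJ p h I (j + 1) := by
  have h1 : PJ p h I j ≤ (PJ p h I (j + 1)).comap (iterateFrobenius R p h) := by
    unfold PJ
    rw [Ideal.span_le]
    rintro _ ⟨b, hb, rfl⟩
    rw [SetLike.mem_coe, Ideal.mem_comap, iterateFrobenius_def]
    refine Ideal.subset_span ⟨b, hb, ?_⟩
    rw [← pow_mul, ← pow_add]
    congr 2
  have h2 := h1 hc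
  rwa [Ideal.mem_comap, iterateFrobenius_def] at h2

theorem nil_b (p : ℕ) [Fact p.Prime] (n h : ℕ) [CharP R p] (x : ℕ → R)
    (hx : ∀ i, 1 ≤ i → i < h → x i = 0) (I : Ideal R) (hI : I ≠ ⊤)
    (T : MvPowerSeries τ R) (hT0 : constantCoeff T = 0)
    (hT : ∀ d, coeff d T ∈ I) (j : ℕ) :
    ∀ d, coeff d (PowerSeries.subst T (mulSeries (hz p n x) (p ^ j))) ∈ PJ p h I j := by
  have hp : p.Prime := Fact.out
  induction j with
  | zero =>
    intro d
    have h1 : mulSeries (hz p n x) (p ^ 0) = PowerSeries.X := by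
      rw [pow_zero]
      change fadd (hz p n x) 0 (PowerSeries.X : PowerSeries R) = _
      exact zero_fadd _ _ mvConstantCoeff_X
    rw [h1, psubst_X hT0]
    exact Ideal.subset_span ⟨_, hT d, by simp⟩
  | succ j ih =>
    rw [pow_succ', mulSeries_mul, psubst_psubst (constantCoeff_mulSeries _ _) hT0]
    set T' := PowerSeries.subst T (mulSeries (hz p n x) (p ^ j)) with hT'
    have hT'0 : constantCoeff T' = 0 := constantCoeff_psubst hT0 (constantCoeff_mulSeries _ _)
    set K := PJ p h I (j + 1) with hK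
    have hKI : K ≤ I := by
      rw [hK]; unfold PJ
      rw [Ideal.span_le]
      rintro _ ⟨b, hb, rfl⟩
      exact Ideal.pow_mem_of_mem _ hb _ (pow_pos hp.pos _)
    have hKtop : K ≠ ⊤ := fun h => hI (top_le_iff.mp (h ▸ hKI))
    have : Nontrivial (R ⧸ K) := Ideal.Quotient.nontrivial_iff.mpr hKtop
    have hch : CharP (R ⧸ K) p := by
      have h0 : ((p : ℕ) : R ⧸ K) = 0 := by
        have : ((p : ℕ) : R) = 0 := CharP.cast_eq_zero _ _
        rw [← map_natCast (Ideal.Quotient.mk K), this, map_zero]
      exact (CharP.charP_iff_prime_eq_zero hp).mpr h0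
    intro d
    have h2 : MvPowerSeries.map (Ideal.Quotient.mk K)
        (PowerSeries.subst T' (mulSeries (hz p n x) p)) = 0 := by
      rw [PowerSeries.map_subst (PowerSeries.HasSubst.of_constantCoeff_zero hT'0), mulSeries_map,
        hz_map]
      refine nil_b_step p n h _ (fun i h1 h2 => by rw [hx i h1 h2, map_zero]) _ ?_ ?_
      · rw [constantCoeff_map, hT'0, map_zero]
      · intro e
        rw [coeff_map, ← map_pow, Ideal.Quotient.eq_zero_iff_mem]
        exact PJ_pow_mem p h I j _ (ih e)
    have h3 := congrArg (coeff d) h2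
    rw [coeff_map, map_zero, Ideal.Quotient.eq_zero_iff_mem] at h3
    exact h3

/-- lifting endomorphisms: if `P` is an endomorphism killing everything `≡ 0 mod ker r` then
`P ∘ ψ` is an endomorphism as soon as `ψ` is one modulo `ker r`. -/
theorem lift_end {S : Type*} [CommRing S] (r : R →+* S) (G : FormalGroup R) [G.IsComm]
    (P : PowerSeries R) (hP : IsFGHom G G P)
    (hnil : ∀ T : MvPowerSeries (Fin 2) R, constantCoeff T = 0 → T.map r = 0 →
      PowerSeries.subst T P = 0)
    (ψ : PowerSeries R) (hψ0 : PowerSeries.constantCoeff ψ = 0)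
    (hψ : IsFGHom (G.map r) (G.map r) (PowerSeries.map r ψ)) :
    IsFGHom G G (PowerSeries.subst ψ P) := by
  have h0 := constantCoeff_X (R := R) (0 : Fin 2)
  have h1 := constantCoeff_X (R := R) (1 : Fin 2)
  have hF := constantCoeff_fadd G _ _ h0 h1
  set a := PowerSeries.subst (fadd G (X 0 : MvPowerSeries (Fin 2) R) (X 1)) ψ with ha
  set b := fadd G (PowerSeries.subst (X 0 : MvPowerSeries (Fin 2) R) ψ)
    (PowerSeries.subst (X 1 : MvPowerSeries (Fin 2) R) ψ) with hb
  have ha0 : constantCoeff a = 0 := constantCoeff_psubst hF hψ0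
  have hb0 : constantCoeff b = 0 :=
    constantCoeff_fadd G _ _ (constantCoeff_psubst h0 hψ0) (constantCoeff_psubst h1 hψ0)
  have hab : a.map r = b.map r := by
    have h := (isFGHom_iff.1 hψ).2
    rw [ha, hb, PowerSeries.map_subst (PowerSeries.HasSubst.of_constantCoeff_zero hF),
      map_fadd r G _ _ (constantCoeff_psubst h0 hψ0) (constantCoeff_psubst h1 hψ0),
      PowerSeries.map_subst (PowerSeries.HasSubst.X 0),
      PowerSeries.map_subst (PowerSeries.HasSubst.X 1), map_fadd r G _ _ h0 h1]
    simpa using h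
  have hnb := constantCoeff_fneg G b hb0
  set δ := fadd G a (fneg G b) with hδ
  have hδ0 : constantCoeff δ = 0 := constantCoeff_fadd G _ _ ha0 hnb
  have hδr : δ.map r = 0 := by
    rw [← cin_ker]
    rw [hδ, fsub_mem_iff G a b ha0 hb0, cin_ker, map_sub, hab, sub_self]
  have hδb : fadd G b δ = a := by
    rw [fadd_comm G b δ hb0 hδ0, hδ, fadd_assoc G a _ b ha0 hnb hb0, fneg_fadd G b hb0,
      fadd_zero G a ha0]
  rw [isFGHom_iff]
  refine ⟨constantCoeff_psubst hψ0 hP.1, ?_⟩
  rw [psubst_psubst hψ0 hF, psubst_psubst hψ0 h0, psubst_psubst hψ0 h1, ← ha, ← hδb,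
    IsFGHom.subst_fadd hP _ _ hb0 hδ0, hnil δ hδ0 hδr, fadd_zero G _
      (constantCoeff_psubst hb0 hP.1), hb,
    IsFGHom.subst_fadd hP _ _ (constantCoeff_psubst h0 hψ0) (constantCoeff_psubst h1 hψ0)]

theorem coeff_pow_sub_mem (I : Ideal R) (P : PowerSeries R) (q : ℕ)
    (hP : ∀ k, PowerSeries.coeff k (P - PowerSeries.X ^ q) ∈ I) (l k : ℕ) :
    PowerSeries.coeff k (P ^ l - PowerSeries.X ^ (q * l)) ∈ I := by
  have h1 : PowerSeries.map (Ideal.Quotient.mk I) P = PowerSeries.X ^ q := by
    ext k
    have := hP k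
    rw [map_sub, ← Ideal.Quotient.eq_zero_iff_mem, map_sub, sub_eq_zero] at this
    rw [PowerSeries.coeff_map, this, PowerSeries.coeff_X_pow, PowerSeries.coeff_X_pow]
    split_ifs <;> simp
  rw [← Ideal.Quotient.eq_zero_iff_mem, ← PowerSeries.coeff_map, map_sub, map_pow, h1, map_pow,
    PowerSeries.map_X, pow_mul, sub_self, map_zero]

/-- rigidity -/
theorem rigid {S : Type*} [CommRing S] (r : R →+* S) (K : ℕ) (hK : RingHom.ker r ^ K = ⊥)
    (G : FormalGroup R) [G.IsComm] (N q : ℕ) (hq : 1 ≤ q)
    (hP : PowerSeries.map r (mulSeries G N) = PowerSeries.X ^ q)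
    (hnil : ∀ T : PowerSeries R, PowerSeries.constantCoeff T = 0 → PowerSeries.map r T = 0 →
      PowerSeries.subst T (mulSeries G N) = 0)
    (f : PowerSeries R) (hf : IsFGHom G G f) (hfr : PowerSeries.map r f = PowerSeries.X) :
    f = PowerSeries.X := by
  set δ : PowerSeries R := fadd G f (fneg G PowerSeries.X) with hδ
  have hδhom : IsFGHom G G δ := IsFGHom.fadd hf (IsFGHom.fneg (IsFGHom.id G))
  have hX0 := mvConstantCoeff_X (R := R)
  have hnX := constantCoeff_fneg G _ hX0
  have hδr : PowerSeries.map r δ = 0 := by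
    change MvPowerSeries.map r (δ : MvPowerSeries Unit R) = 0
    rw [← cin_ker, hδ, fsub_mem_iff G _ _ hf.1 hX0, cin_ker]
    have h1 : MvPowerSeries.map r (f - PowerSeries.X : MvPowerSeries Unit R) =
        PowerSeries.map r f - PowerSeries.map r PowerSeries.X := map_sub _ _ _
    rw [h1, hfr, PowerSeries.map_X, sub_self]
  have hc := IsFGHom.comm_mulSeries hδhom N
  rw [hnil δ hδhom.1 hδr] at hc
  set P := mulSeries G N with hPdef
  have hP0 : PowerSeries.constantCoeff P = 0 := constantCoeff_mulSeries G N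
  have hPs := PowerSeries.HasSubst.of_constantCoeff_zero' hP0
  have hPI : ∀ k, PowerSeries.coeff k (P - PowerSeries.X ^ q) ∈ RingHom.ker r := by
    intro k
    rw [RingHom.mem_ker, ← PowerSeries.coeff_map, map_sub, hP, map_pow, PowerSeries.map_X,
      sub_self, map_zero]
  have key : ∀ j k, PowerSeries.coeff k δ ∈ RingHom.ker r ^ j := by
    intro j
    induction j with
    | zero => intro k; rw [pow_zero, Ideal.one_eq_top]; trivial
    | succ j ih =>
      intro k
      classical
      have h2 := congrArg (PowerSeries.coeff (q * k)) hc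
      have hfin := PowerSeries.coeff_subst_finite' hPs δ (q * k)
      have hfin' : (Function.support fun d =>
        PowerSeries.coeff d δ • PowerSeries.coeff (q * k) (P ^ d)).Finite := hfin
      rw [PowerSeries.coeff_subst' hPs, map_zero,
        finsum_eq_sum_of_support_subset (s := insert k hfin'.toFinset)] at h2
      · rw [← Finset.add_sum_erase _ _ (Finset.mem_insert_self k _)] at h2
        have h3 : PowerSeries.coeff (q * k) (P ^ k) - 1 ∈ RingHom.ker r := by
          have := coeff_pow_sub_mem (RingHom.ker r) P q hPI k (q * k)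
          rwa [map_sub, PowerSeries.coeff_X_pow, if_pos rfl] at this
        have h4 : ∀ l ∈ (insert k hfin'.toFinset).erase k,
            PowerSeries.coeff l δ • PowerSeries.coeff (q * k) (P ^ l) ∈
              RingHom.ker r ^ (j + 1) := by
          intro l hl
          have hlk : l ≠ k := Finset.ne_of_mem_erase hl
          have := coeff_pow_sub_mem (RingHom.ker r) P q hPI l (q * k)
          rw [map_sub, PowerSeries.coeff_X_pow, if_neg, sub_zero] at this
          · rw [smul_eq_mul, pow_succ]
            exact Ideal.mul_mem_mul (ih l) this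
          · intro h
            exact hlk (Nat.eq_of_mul_eq_mul_left (by omega) h.symm)
        have h6 : PowerSeries.coeff k δ * (PowerSeries.coeff (q * k) (P ^ k) - 1) ∈
            RingHom.ker r ^ (j + 1) := by
          rw [pow_succ]
          exact Ideal.mul_mem_mul (ih k) h3
        have h7 : PowerSeries.coeff k δ =
            -(∑ l ∈ (insert k hfin'.toFinset).erase k,
              PowerSeries.coeff l δ • PowerSeries.coeff (q * k) (P ^ l)) -
            PowerSeries.coeff k δ * (PowerSeries.coeff (q * k) (P ^ k) - 1) := by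
          rw [smul_eq_mul] at h2
          linear_combination h2
        rw [h7]
        exact Ideal.sub_mem _ (neg_mem (Ideal.sum_mem _ h4)) h6
      · intro l hl
        rw [Finset.coe_insert]
        exact Set.mem_insert_of_mem _ (hfin'.mem_toFinset.2 hl)
  have hδ0 : δ = 0 := by
    ext k
    have := key K k
    rw [hK, Ideal.mem_bot] at this
    rw [this, map_zero]
  have h5 : fadd G δ (PowerSeries.X : PowerSeries R) = f := by
    rw [hδ, fadd_assoc G _ _ _ hf.1 hnX hX0, fneg_fadd G _ hX0, fadd_zero G _ hf.1]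
  rw [← h5, hδ0]
  exact zero_fadd G _ hX0

end gen

end Crest.Agent.R227.SmallAux
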