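import Crest.Agent.R227.SmallAux
import Crest.Agent.R227.ExStab
import Crest.Agent.R227.EasyAux2

/-!
# R227 / SmallAux2 : Artinian quotients of the Lubin-Tate ring and uniqueness
-/

set_option autoImplicit false

noncomputable section

namespace Crest.Agent.R227.SmallAux

open Crest.LubinTate MvPowerSeries Topology

section quot

variable (p : ℕ) [Fact p.Prime] (n : ℕ) (J : Ideal (LTRing p n))

variable {p n J} in
/-- residue map of the quotient -/
def rB (hJ : J ≤ RingHom.ker (LTRing.residue p n)) : LTRing p n ⧸ J →+* GaloisField p n :=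
  Ideal.Quotient.lift J (LTRing.residue p n) (fun a ha => hJ ha)

variable {p n J} in
theorem rB_mk (hJ : J ≤ RingHom.ker (LTRing.residue p n)) (a : LTRing p n) :
    rB hJ (Ideal.Quotient.mk J a) = LTRing.residue p n a := Ideal.Quotient.lift_mk _ _ _

variable {p n J} in
theorem rB_comp (hJ : J ≤ RingHom.ker (LTRing.residue p n)) :
    (rB hJ).comp (Ideal.Quotient.mk J) = LTRing.residue p n := by
  ext1 a
  exact rB_mk hJ a

variable {p n J} in
theorem rB_surj (hJ : J ≤ RingHom.ker (LTRing.residue p n)) : Function.Surjective (rB hJ) := by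
  intro x
  obtain ⟨a, ha⟩ := residue_surjective p n x
  exact ⟨Ideal.Quotient.mk J a, by rw [rB_mk, ha]⟩

variable {p n J} in
theorem nontriv (hJ : J ≤ RingHom.ker (LTRing.residue p n)) : Nontrivial (LTRing p n ⧸ J) := by
  rw [Ideal.Quotient.nontrivial_iff]
  intro h
  rw [h, top_le_iff] at hJ
  exact RingHom.ker_ne_top _ hJ

variable {p n J} in
theorem isLocal (hJ : J ≤ RingHom.ker (LTRing.residue p n)) : IsLocalRing (LTRing p n ⧸ J) := by
  have := nontriv hJ
  exact IsLocalRing.of_surjective' (Ideal.Quotient.mk J) Ideal.Quotient.mk_surjective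

variable {p n J} in
theorem ker_rB (hJ : J ≤ RingHom.ker (LTRing.residue p n)) [IsLocalRing (LTRing p n ⧸ J)] :
    RingHom.ker (rB hJ) = IsLocalRing.maximalIdeal (LTRing p n ⧸ J) := by
  have : (RingHom.ker (rB hJ)).IsMaximal := RingHom.ker_isMaximal_of_surjective _ (rB_surj hJ)
  exact IsLocalRing.eq_maximalIdeal this

variable {p n J} in
theorem ker_rB_pow (hJ : J ≤ RingHom.ker (LTRing.residue p n)) (K : ℕ)
    (hK : RingHom.ker (LTRing.residue p n) ^ K ≤ J) : RingHom.ker (rB hJ) ^ K = ⊥ := by
  have h1 : RingHom.ker (rB hJ) =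
      Ideal.map (Ideal.Quotient.mk J) (RingHom.ker (LTRing.residue p n)) := by
    apply le_antisymm
    · intro x hx
      obtain ⟨a, rfl⟩ := Ideal.Quotient.mk_surjective x
      rw [RingHom.mem_ker, rB_mk] at hx
      exact Ideal.mem_map_of_mem _ hx
    · rw [Ideal.map_le_iff_le_comap]
      intro a ha
      rw [Ideal.mem_comap, RingHom.mem_ker, rB_mk]
      exact ha
  rw [h1, ← Ideal.map_pow, eq_bot_iff]
  refine (Ideal.map_mono hK).trans ?_
  rw [Ideal.map_quotient_self]

/-- a nilpotent ideal is adically complete -/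
theorem isAdicComplete_of_pow_eq_bot {A : Type*} [CommRing A] (I : Ideal A) (K : ℕ)
    (hK : I ^ K = ⊥) : IsAdicComplete I A where
  haus' := by
    intro x hx
    have := hx K
    rwa [hK, Submodule.bot_smul, SModEq.bot] at this
  prec' := by
    intro f hf
    refine ⟨f K, fun m => ?_⟩
    rcases Nat.lt_or_ge m K with h | h
    · exact hf h.le
    · have h1 := hf h
      rw [hK, Submodule.bot_smul, SModEq.bot] at h1
      rw [h1]

theorem map_map_FG {R S T : Type*} [CommRing R] [CommRing S] [CommRing T] (F : FormalGroup R)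
    (f : R →+* S) (g : S →+* T) : (F.map f).map g = F.map (g.comp f) := by
  apply FormalGroup.ext
  ext d
  simp only [FormalGroup.map_toPowerSeries, coeff_map, RingHom.comp_apply]

variable {p n J} in
/-- uniqueness over Artinian quotients -/
theorem unique_mod (hU : IsUniversalDeformation p n (Fn p n) (H1 p n))
    (hJ : J ≤ RingHom.ker (LTRing.residue p n)) (K : ℕ)
    (hK : RingHom.ker (LTRing.residue p n) ^ K ≤ J)
    (φ : LTRing p n →ₐ[WittVector p (GaloisField p n)] LTRing p n)
    (hφ : (LTRing.residue p n).comp φ.toRingHom = LTRing.residue p n)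
    (f : PowerSeries (LTRing p n ⧸ J))
    (hf : IsFGHom ((H1 p n).map ((Ideal.Quotient.mk J).comp φ.toRingHom))
      ((H1 p n).map (Ideal.Quotient.mk J)) f)
    (hfr : PowerSeries.map (rB hJ) f = PowerSeries.X) (b : LTRing p n) : φ b - b ∈ J := by
  have := isLocal hJ
  have hc : IsAdicComplete (IsLocalRing.maximalIdeal (LTRing p n ⧸ J)) (LTRing p n ⧸ J) := by
    rw [← ker_rB hJ]
    exact isAdicComplete_of_pow_eq_bot _ K (ker_rB_pow hJ K hK)
  obtain ⟨ψ, -, huniq⟩ := hU.2 (LTRing p n ⧸ J) hc (rB hJ) (rB_surj hJ) (ker_rB hJ) (by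
    have h1 : algebraMap (WittVector p (GaloisField p n)) (LTRing p n ⧸ J) =
      (Ideal.Quotient.mk J).comp (algebraMap (WittVector p (GaloisField p n)) (LTRing p n)) := rfl
    rw [h1, ← RingHom.comp_assoc, rB_comp, residue_comp_algebraMap])
    ((H1 p n).map (Ideal.Quotient.mk J)) (by rw [map_map_FG, rB_comp, hU.1])
  have h1 := huniq ((Ideal.Quotient.mkₐ (WittVector p (GaloisField p n)) J).comp φ) (by
    refine ⟨?_, f, ?_, hfr⟩
    · rw [← hφ]
      ext1 a
      exact rB_mk hJ _
    · exact hf)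
  have h2 := huniq (Ideal.Quotient.mkₐ (WittVector p (GaloisField p n)) J) (by
    refine ⟨?_, PowerSeries.X, ?_, ?_⟩
    · ext1 a
      exact rB_mk hJ _
    · exact IsFGHom.id _
    · exact PowerSeries.map_X _)
  have h3 := DFunLike.congr_fun (h1.trans h2.symm) b
  exact Ideal.Quotient.eq.mp h3

end quot

end Crest.Agent.R227.SmallAux
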