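import Crest.Agent.R227.Easy
import Crest.Agent.R227.Points0
import Crest.Agent.R227.PointsP
import Crest.Agent.R227.D0
import Crest.Agent.R227.Dh

/-!
# R227 / Standard : assembly for the standard pair (task STANDARD)
-/

set_option autoImplicit false

noncomputable section

namespace Crest.Agent.R227

open Crest.LubinTate MvPowerSeries Topology

variable (p : ℕ) [Fact p.Prime] (n : ℕ)

theorem std_II_zero : II p n 0 = ⊥ := by
  have : (Set.Iio 0 : Set ℕ) = ∅ := by ext; simp
  rw [II, this, Set.image_empty, Ideal.span_empty]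

theorem std_uu_mem_II {i h : ℕ} (hi : i < h) : uu p n i ∈ II p n h :=
  Ideal.subset_span ⟨i, hi, rfl⟩

theorem std_II_succ_le {h : ℕ} {J : Ideal (LTRing p n)} (h1 : II p n h ≤ J) (h2 : uu p n h ∈ J) :
    II p n (h + 1) ≤ J := by
  rw [II, Ideal.span_le]
  rintro _ ⟨i, hi, rfl⟩
  rcases Nat.lt_succ_iff_lt_or_eq.1 (Set.mem_Iio.1 hi) with h3 | h3
  · exact h1 (std_uu_mem_II p n h3)
  · rw [h3]; exact h2

/-- the hard direction -/
theorem standard_hard (hn : 1 ≤ n) (hU : IsUniversalDeformation p n (Fn p n) (H1 p n)) (M : ℕ)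
    (hM : 1 ≤ M) (J : Ideal (LTRing p n)) (hJ : J.IsRadical) (hJt : J ≠ ⊤)
    (hst : IsStableIdeal p n (Fn p n) (H1 p n) M J) : ∃ h : ℕ, h ≤ n ∧ J = II p n h := by
  classical
  -- `φ f ∈ J` for `f ∈ J`
  have hst' : ∀ φ, IsStab p n M φ → ∀ f ∈ J, φ f ∈ J := by
    rintro φ ⟨g, hg1, hg2, hg3⟩ f hf
    have := hst g φ hg1 hg2 hg3
    rw [← this] at hf
    exact hf
  let P : ℕ → Prop := fun h => II p n h ≤ J
  have hP0 : P 0 := by
    change II p n 0 ≤ J
    rw [std_II_zero]; exact bot_le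
  set h := Nat.findGreatest P n with hh
  have hPh : P h := Nat.findGreatest_spec (Nat.zero_le n) hP0
  have hhn : h ≤ n := Nat.findGreatest_le n
  refine ⟨h, hhn, ?_⟩
  rcases hhn.lt_or_eq with hlt | heq
  · have hnot : uu p n h ∉ J := by
      intro hmem
      have h1 : P (h + 1) := std_II_succ_le p n hPh hmem
      have h2 : h + 1 ≤ h := Nat.le_findGreatest (by omega) h1
      omega
    refine le_antisymm ?_ hPh
    intro f hf
    rcases Nat.eq_zero_or_pos h with h0 | hpos
    · rw [h0] at hnot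
      have hp : (p : LTRing p n) ∉ J := by
        have : uu p n 0 = (p : LTRing p n) := by simp [uu]
        rwa [this] at hnot
      obtain ⟨X, hX1, hX2⟩ := exists_point_zero p n hn J hJ hp
      have : f = 0 := thmD0 p n hn hU M hM X hX2 f (fun φ hφ => hX1 _ (hst' φ hφ f hf))
      rw [this]; exact Ideal.zero_mem _
    · have hp : (p : LTRing p n) ∈ J := by
        have h1 : uu p n 0 = (p : LTRing p n) := by simp [uu]
        rw [← h1]
        exact hPh (std_uu_mem_II p n hpos)
      have hres : LTRing.residue p n (uu p n h) = 0 :=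
        (mem_II_n p n hn _).1 (std_uu_mem_II p n hlt)
      obtain ⟨K, i1, i2, i3, i4, i5, X, hX1, hX2, hX3⟩ :=
        exists_point_p p n hn J hJ hp (uu p n h) hnot hres
      exact thmDh p n hn hU M hM h hpos hlt K X hX3 (fun a ha => hX1 a (hPh ha)) hX2 f
        (fun φ hφ => hX1 _ (hst' φ hφ f hf))
  · have hmax : II p n n = IsLocalRing.maximalIdeal (LTRing p n) := by
      ext a
      rw [mem_II_n p n hn, residue_eq_zero_iff]
    have h1 : II p n n ≤ J := by
      have := hPh
      rw [heq] at this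
      exact this
    rw [heq, hmax]
    rw [hmax] at h1
    exact (IsLocalRing.le_maximalIdeal hJt).antisymm h1

/-- Assembly for the standard pair. -/
theorem standard (hn : 1 ≤ n) (hU : IsUniversalDeformation p n (Fn p n) (H1 p n)) (M : ℕ)
    (hM : 1 ≤ M) : Concl p n (Fn p n) (H1 p n) M := by
  have hard := standard_hard p n hn hU M hM
  refine ⟨fun P => ⟨?_, ?_⟩, fun J => ⟨?_, ?_⟩⟩
  · rintro ⟨h1, h2⟩
    obtain ⟨h, hh, rfl⟩ := hard P h1.isRadical h1.ne_top h2
    exact ⟨h, hh, (heightIdeal_H1 p n hn h hh).symm⟩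
  · rintro ⟨h, hh, rfl⟩
    rw [heightIdeal_H1 p n hn h hh]
    exact ⟨II_isPrime p n hn h hh, II_stable p n hn h hh M hM⟩
  · rintro ⟨h1, h2⟩
    by_cases ht : J = ⊤
    · exact Or.inr ht
    · obtain ⟨h, hh, rfl⟩ := hard J h1 ht h2
      exact Or.inl ⟨h, hh, (heightIdeal_H1 p n hn h hh).symm⟩
  · rintro (⟨h, hh, rfl⟩ | rfl)
    · rw [heightIdeal_H1 p n hn h hh]
      exact ⟨(II_isPrime p n hn h hh).isRadical, II_stable p n hn h hh M hM⟩
    · refine ⟨fun a _ => Submodule.mem_top, ?_⟩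
      intro g φ _ _ _
      exact Ideal.comap_top

end Crest.Agent.R227
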