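import Crest.Agent.R227.SwapExp

/-!
# R227 / Swap : the swap identity (part (G) of note 4224)
-/

set_option autoImplicit false

noncomputable section

namespace Crest.Agent.R227

open WittVector Crest.LubinTate

variable (p : ℕ) [Fact p.Prime] {K : Type*} [NormedField K] [IsUltrametricDist K]
  [CompleteSpace K] [CharP K p] [PerfectRing K p]

/-! ## units and roots of unity -/

theorem isUnit_witt_of_coeff {O : Type*} [CommRing O] [CharP O p] [PerfectRing O p]
    (x : WittVector p O) (hx : IsUnit (x.coeff 0)) : IsUnit x := by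
  obtain ⟨u, hu⟩ := hx
  have h1 : (teichmuller p ((u⁻¹ : Oˣ) : O) * x).coeff 0 = 1 := by
    rw [WittVector.mul_coeff_zero, teichmuller_coeff_zero, ← hu, Units.inv_mul]
  have h2 : teichmuller p ((u⁻¹ : Oˣ) : O) * x - 1 ∈ Ideal.span {(p : WittVector p O)} := by
    rw [mem_span_p_iff_coeff_zero_eq_zero]
    have := (le_coeff_eq_iff_le_sub_coeff_eq_zero (x := teichmuller p ((u⁻¹ : Oˣ) : O) * x)
      (y := 1) (n := 1)).1 (by
        intro i hi
        obtain rfl : i = 0 := by omega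
        rw [h1, WittVector.one_coeff_zero])
    exact this 0 (by norm_num)
  have h3 := IsAdicComplete.le_jacobson_bot (Ideal.span {(p : WittVector p O)}) h2
  rw [Ideal.mem_jacobson_bot] at h3
  have h4 := h3 1
  rw [mul_one, sub_add_cancel] at h4
  exact isUnit_of_mul_isUnit_right h4

theorem isUnit_toRW_sub (w : Ob K) (a b : Ob K) (hab : ‖a - b‖ = 1) :
    IsUnit (toRW p w (teichmuller p a) - toRW p w (teichmuller p b)) := by
  rw [← map_sub]
  refine IsUnit.map _ (isUnit_witt_of_coeff p _ ?_)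
  have h1 : (teichmuller p a - teichmuller p b).coeff 0 = a - b := by
    have := RingHom.map_sub (WittVector.constantCoeff (p := p) (R := Ob K))
      (teichmuller p a) (teichmuller p b)
    simpa using this
  rw [h1, Ob_isUnit_iff]
  exact hab

/-- existence of a root of unity of order `p^n - 1` with good differences -/
theorem exists_zeta [IsAlgClosed K] (n : ℕ) (hn : 1 ≤ n) :
    ∃ ζ : Ob K, ζ ^ p ^ n = ζ ∧ ∀ i j : Fin n, i ≠ j → ‖ζ ^ p ^ (i : ℕ) - ζ ^ p ^ (j : ℕ)‖ = 1 := by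
  have hp : p.Prime := Fact.out
  have hp1 := hp.one_lt
  have hpn : 1 < p ^ n := Nat.one_lt_pow (by omega) hp1
  have hne : ((p ^ n - 1 : ℕ) : K) ≠ 0 := by
    rw [Nat.cast_sub hpn.le, Nat.cast_pow, CharP.cast_eq_zero, zero_pow (by omega)]
    simp
  have : NeZero ((p ^ n - 1 : ℕ) : K) := ⟨hne⟩
  have : NeZero (p ^ n - 1) := ⟨by omega⟩
  obtain ⟨ζ, hζ⟩ := HasEnoughRootsOfUnity.exists_primitiveRoot K (p ^ n - 1)
  have hζ1 : ζ ^ p ^ n = ζ := by
    have := hζ.pow_eq_one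
    calc ζ ^ p ^ n = ζ ^ (p ^ n - 1 + 1) := by congr 1; omega
      _ = ζ := by rw [pow_succ, this, one_mul]
  have hnorm : ∀ d : K, d ^ p ^ n = d → d ≠ 0 → ‖d‖ = 1 := by
    intro d hd hd0
    have h1 : d ^ (p ^ n - 1) = 1 := by
      have h2 : d ^ (p ^ n - 1) * d = 1 * d := by
        rw [← pow_succ, one_mul]
        conv_rhs => rw [← hd]
        congr 1; omega
      exact mul_right_cancel₀ hd0 h2
    have h3 : ‖d‖ ^ (p ^ n - 1) = 1 := by rw [← norm_pow, h1, norm_one]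
    exact (pow_eq_one_iff_of_nonneg (norm_nonneg _) (by omega)).1 h3
  have hζ0 : ζ ≠ 0 := hζ.ne_zero (by omega)
  refine ⟨⟨ζ, (hnorm ζ hζ1 hζ0).le⟩, Subtype.ext hζ1, fun i j hij => ?_⟩
  change ‖ζ ^ p ^ (i : ℕ) - ζ ^ p ^ (j : ℕ)‖ = 1
  apply hnorm
  · have hexp : ExpChar K p := ExpChar.prime hp
    rw [sub_pow_char_pow, ← pow_mul, ← pow_mul, mul_comm (p ^ (i : ℕ)), mul_comm (p ^ (j : ℕ)),
      pow_mul, pow_mul, hζ1]
  · rw [sub_ne_zero]
    intro heq
    have hlt : ∀ k : Fin n, p ^ (k : ℕ) < p ^ n - 1 ∨ (p ^ (k : ℕ) = 1 ∧ n = 1) := by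
      intro k
      rcases Nat.lt_or_ge 1 n with h1 | h1
      · left
        have h2 : p ^ (k : ℕ) ≤ p ^ (n - 1) := Nat.pow_le_pow_right hp.pos (by have := k.2; omega)
        have h3 : p ^ n = p ^ (n - 1) * p := by rw [← pow_succ]; congr 1; omega
        have h4 : 2 ≤ p ^ (n - 1) := le_trans hp.two_le (Nat.le_self_pow (by omega) p)
        have h5 : p ^ (n - 1) * 2 ≤ p ^ (n - 1) * p := Nat.mul_le_mul_left _ hp.two_le
        omega
      · right
        have : n = 1 := by omega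
        subst this
        have : (k : ℕ) = 0 := by omega
        simp
    apply hij
    rcases hlt i with hi | ⟨hi, hn1⟩
    · rcases hlt j with hj | ⟨hj, hn1⟩
      · have := hζ.pow_inj hi hj heq
        exact Fin.ext (Nat.pow_right_injective hp.two_le this)
      · subst hn1; exact Subsingleton.elim _ _
    · subst hn1; exact Subsingleton.elim _ _

/-! ## functions expandable in `L_n(z^{p^e})` -/

/-- `Λ(z) = ∑_{e<n} M_e L_n(z^{p^e})` -/
def Expandable (n : ℕ) (w : Ob K) (Λ : Ob K → RW p w) : Prop :=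
  ∃ M : Fin n → RW p w, ∀ z : Ob K, ‖z‖ < 1 → Λ z = ∑ e : Fin n, M e * Lw p n w (z ^ p ^ (e : ℕ))

variable {p}

theorem Expandable.add {n : ℕ} {w : Ob K} {Λ Λ' : Ob K → RW p w} (h : Expandable p n w Λ)
    (h' : Expandable p n w Λ') : Expandable p n w (fun z => Λ z + Λ' z) := by
  obtain ⟨M, hM⟩ := h
  obtain ⟨M', hM'⟩ := h'
  refine ⟨fun e => M e + M' e, fun z hz => ?_⟩
  beta_reduce
  rw [hM z hz, hM' z hz, ← Finset.sum_add_distrib]
  exact Finset.sum_congr rfl fun e _ => by ring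

theorem Expandable.mul {n : ℕ} {w : Ob K} {Λ : Ob K → RW p w} (h : Expandable p n w Λ)
    (g : RW p w) : Expandable p n w (fun z => g * Λ z) := by
  obtain ⟨M, hM⟩ := h
  refine ⟨fun e => g * M e, fun z hz => ?_⟩
  beta_reduce
  rw [hM z hz, Finset.mul_sum]
  exact Finset.sum_congr rfl fun e _ => by ring

theorem Expandable.sum {n : ℕ} {w : Ob K} {ι : Type*} (s : Finset ι) {Λ : ι → Ob K → RW p w}
    (h : ∀ i ∈ s, Expandable p n w (Λ i)) : Expandable p n w (fun z => ∑ i ∈ s, Λ i z) := by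
  classical
  induction s using Finset.induction_on with
  | empty => exact ⟨0, fun z _ => by simp⟩
  | insert i s hi ih =>
    have := (h i (Finset.mem_insert_self _ _)).add
      (ih fun j hj => h j (Finset.mem_insert_of_mem hj))
    simpa only [Finset.sum_insert hi] using this

theorem Expandable.congr {n : ℕ} {w : Ob K} {Λ Λ' : Ob K → RW p w} (h : Expandable p n w Λ)
    (h' : ∀ z, ‖z‖ < 1 → Λ' z = Λ z) : Expandable p n w Λ' := by
  obtain ⟨M, hM⟩ := h
  exact ⟨M, fun z hz => by rw [h' z hz, hM z hz]⟩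

variable (p) in
theorem Lw_expandable {n : ℕ} (hn : 1 ≤ n) {w : Ob K} (hw : w ≠ 0) (k : ℕ) :
    Expandable p n w (fun z => Lw p n w (z ^ p ^ k)) := by
  classical
  have hk : k % n < n := Nat.mod_lt _ hn
  refine ⟨fun e => if e = ⟨k % n, hk⟩ then (p : RW p w) ^ (k / n) else 0, fun z hz => ?_⟩
  rw [Finset.sum_eq_single ⟨k % n, hk⟩]
  · beta_reduce
    rw [if_pos rfl, ← Lw_frobq_pow p n hn w _ hw, ← pow_mul, ← pow_mul, ← pow_add]
    · congr 2
      congr 1
      exact (Nat.mod_add_div k n).symm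
    · rw [norm_pow]
      exact pow_lt_one₀ (norm_nonneg _) hz (pow_ne_zero _ (Fact.out : p.Prime).ne_zero)
  · intro b _ hb
    beta_reduce
    rw [if_neg hb, zero_mul]
  · simp

theorem Expandable.comp_pow {n : ℕ} (hn : 1 ≤ n) {w : Ob K} (hw : w ≠ 0) {Λ : Ob K → RW p w}
    (h : Expandable p n w Λ) (m : ℕ) : Expandable p n w (fun z => Λ (z ^ p ^ m)) := by
  obtain ⟨M, hM⟩ := h
  have h1 : Expandable p n w (fun z => ∑ e : Fin n, M e * Lw p n w (z ^ p ^ (m + (e : ℕ)))) :=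
    Expandable.sum _ fun e _ => (Lw_expandable p hn hw _).mul _
  refine h1.congr fun z hz => ?_
  rw [hM]
  · refine Finset.sum_congr rfl fun e _ => ?_
    rw [← pow_mul, ← pow_add]
  · rw [norm_pow]
    exact pow_lt_one₀ (norm_nonneg _) hz (pow_ne_zero _ (Fact.out : p.Prime).ne_zero)

/-! ## the swap identity, `L`-form -/

/-- The swap identity from expansions: `Λ_l(z) = L_h(A_l θ(z))`. -/
theorem swap_core [IsAlgClosed K] {n : ℕ} (hn : 1 ≤ n) {w : Ob K} (hw : w ≠ 0) {ι : Type*}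
    [Fintype ι] (Λ : ι → Ob K → RW p w) (hΛ : ∀ l, Expandable p n w (Λ l)) (t : ι → Ob K)
    (ht : ∀ l, ‖t l‖ < 1)
    (hrel : ∀ b : Ob K, b ^ p ^ n = b → ∀ j : ℕ, ∑ l, Λ l (b * t l ^ p ^ j) = 0)
    (z : Ob K) (hz : ‖z‖ < 1) (e : ℕ) : ∑ l, Lw p n w (t l ^ p ^ e) * Λ l z = 0 := by
  obtain ⟨ζ, hζ, hζd⟩ := exists_zeta (K := K) p n hn
  choose M hM using hΛ
  have hpow : ∀ (x : Ob K) (k : ℕ), ‖x‖ < 1 → ‖x ^ p ^ k‖ < 1 := by
    intro x k hx
    rw [norm_pow]
    exact pow_lt_one₀ (norm_nonneg _) hx (pow_ne_zero _ (Fact.out : p.Prime).ne_zero)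
  have hζk : ∀ k : ℕ, (ζ ^ k) ^ p ^ n = ζ ^ k := by
    intro k; rw [← pow_mul, mul_comm, pow_mul, hζ]
  have key := abstract_swap' (A := RW p w) (n := n) (ι := ι) (p : RW p w) (isUnit_p p w)
    (fun l i => Lw p n w (t l ^ p ^ i)) (fun l i => by
      rw [pow_add, pow_mul, Lw_frobq p n hn w _ hw (hpow _ _ (ht l))]) M
    (fun e => toRW p w (teichmuller p (ζ ^ p ^ (e : ℕ))))
    (fun i j hij => isUnit_toRW_sub p w _ _ (hζd i j hij)) (fun j k => by
      rw [← hrel (ζ ^ k) (hζk k) j]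
      refine Finset.sum_congr rfl fun l _ => ?_
      rw [hM]
      · refine Finset.sum_congr rfl fun e _ => ?_
        rw [mul_pow, ← pow_mul (t l), ← pow_add,
          Lw_smul p n hn w _ _ hw (hpow _ _ (ht l)) (by
            rw [← pow_mul (ζ ^ k), mul_comm (p ^ (e : ℕ)), pow_mul (ζ ^ k), hζk]),
          ← map_pow, ← map_pow, ← pow_mul, ← pow_mul, mul_comm (p ^ (e : ℕ)) k]
      · have h1 : ‖ζ ^ k‖ ≤ 1 := Ob_norm_le_one _
        have h2 := hpow _ j (ht l)
        rw [norm_mul]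
        exact lt_of_le_of_lt (mul_le_of_le_one_left (norm_nonneg _) h1) h2)
    (fun e => Lw p n w (z ^ p ^ (e : ℕ))) e
  rw [← key]
  refine Finset.sum_congr rfl fun l _ => ?_
  rw [hM l z hz]

end Crest.Agent.R227
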