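import Mathlib

/-!
# R227 / SwapAbs : unconditional sums in a filtered ring, abstract swap lemma
-/

set_option autoImplicit false

noncomputable section

namespace Crest.Agent.R227

/-- a separated decreasing filtration of a commutative ring by subgroups, such that
multiplications are continuous -/
structure NAFilt (A : Type*) [CommRing A] where
  F : ℕ → AddSubgroup A
  anti : ∀ m, F (m + 1) ≤ F m
  mul : ∀ (a : A) (m : ℕ), ∃ m', ∀ x ∈ F m', a * x ∈ F m
  sep : ∀ x, (∀ m, x ∈ F m) → x = 0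

variable {A : Type*} [CommRing A] (Φ : NAFilt A)

theorem NAFilt.anti' {m m' : ℕ} (h : m ≤ m') : Φ.F m' ≤ Φ.F m :=
  antitone_nat_of_succ_le (f := Φ.F) Φ.anti h

/-- unconditional sum with respect to a filtration -/
def HS {ι : Type*} (u : ι → A) (s : A) : Prop :=
  ∀ m, ∃ I₀ : Finset ι, ∀ I, I₀ ⊆ I → ∑ i ∈ I, u i - s ∈ Φ.F m

variable {Φ}

theorem HS.unique {ι : Type*} {u : ι → A} {s s' : A} (h : HS Φ u s) (h' : HS Φ u s') :
    s = s' := by
  classical
  rw [← sub_eq_zero]
  refine Φ.sep _ fun m => ?_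
  obtain ⟨I, hI⟩ := h m
  obtain ⟨I', hI'⟩ := h' m
  have h1 := hI (I ∪ I') Finset.subset_union_left
  have h2 := hI' (I ∪ I') Finset.subset_union_right
  have h3 := (Φ.F m).sub_mem h2 h1
  have : s - s' = ∑ i ∈ I ∪ I', u i - s' - (∑ i ∈ I ∪ I', u i - s) := by ring
  rw [this]
  exact h3

theorem HS.mul_left {ι : Type*} {u : ι → A} {s : A} (h : HS Φ u s) (a : A) :
    HS Φ (fun i => a * u i) (a * s) := by
  intro m
  obtain ⟨m', hm'⟩ := Φ.mul a m
  obtain ⟨I, hI⟩ := h m'
  refine ⟨I, fun J hJ => ?_⟩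
  rw [← Finset.mul_sum, ← mul_sub]
  exact hm' _ (hI J hJ)

theorem HS.mul_right {ι : Type*} {u : ι → A} {s : A} (h : HS Φ u s) (a : A) :
    HS Φ (fun i => u i * a) (s * a) := by
  simpa only [mul_comm] using h.mul_left a

theorem HS.of_equiv {ι κ : Type*} (e : ι ≃ κ) {u : κ → A} {s : A}
    (h : HS Φ (fun i => u (e i)) s) : HS Φ u s := by
  classical
  intro m
  obtain ⟨I, hI⟩ := h m
  refine ⟨I.map e.toEmbedding, fun J hJ => ?_⟩
  have h1 := hI (J.map e.symm.toEmbedding) (by
    intro i hi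
    rw [Finset.mem_map_equiv]
    apply hJ
    simpa using hi)
  simpa using h1

theorem HS.comp_equiv {ι κ : Type*} (e : ι ≃ κ) {u : κ → A} {s : A}
    (h : HS Φ u s) : HS Φ (fun i => u (e i)) s := by
  refine HS.of_equiv e.symm ?_
  simpa using h

theorem HS.finite {ι : Type*} [Fintype ι] (u : ι → A) : HS Φ u (∑ i, u i) := by
  classical
  intro m
  refine ⟨Finset.univ, fun J hJ => ?_⟩
  have : J = Finset.univ := Finset.eq_univ_of_forall fun i => hJ (Finset.mem_univ i)
  rw [this, sub_self]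
  exact (Φ.F m).zero_mem

/-- iterated sums of a family tending to zero -/
theorem HS.of_iter {ι κ : Type*} {U : ι × κ → A} {s : ι → A} {t : A}
    (hz : ∀ m, {x : ι × κ | U x ∉ Φ.F m}.Finite) (h1 : ∀ i, HS Φ (fun k => U (i, k)) (s i))
    (h2 : HS Φ s t) : HS Φ U t := by
  classical
  intro m
  obtain ⟨I, hI⟩ := h2 m
  set D : Finset (ι × κ) := (hz m).toFinset with hD
  set J : Finset ι := I ∪ D.image Prod.fst with hJ
  choose L hL using fun i => h1 i m
  set T : Finset (ι × κ) := J.biUnion fun i => (L i ∪ D.image Prod.snd).image fun k => (i, k)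
    with hT
  refine ⟨T, fun X hX => ?_⟩
  -- split `X` in `T` and the rest
  have hrest : ∑ x ∈ X \ T, U x ∈ Φ.F m := by
    refine (Φ.F m).sum_mem fun x hx => ?_
    by_contra hc
    have hxD : x ∈ D := by
      rw [hD, Set.Finite.mem_toFinset]
      exact hc
    have : x ∈ T := by
      rw [hT, Finset.mem_biUnion]
      refine ⟨x.1, ?_, ?_⟩
      · rw [hJ]
        exact Finset.mem_union_right _ (Finset.mem_image_of_mem _ hxD)
      · rw [Finset.mem_image]
        exact ⟨x.2, Finset.mem_union_right _ (Finset.mem_image_of_mem _ hxD), rfl⟩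
    exact (Finset.mem_sdiff.1 hx).2 this
  have hsumT : ∑ x ∈ T, U x = ∑ i ∈ J, ∑ k ∈ L i ∪ D.image Prod.snd, U (i, k) := by
    rw [hT, Finset.sum_biUnion]
    · refine Finset.sum_congr rfl fun i _ => ?_
      rw [Finset.sum_image]
      intro a _ b _ hab
      exact (Prod.ext_iff.1 hab).2
    · intro i _ j _ hij
      change Disjoint _ _
      rw [Finset.disjoint_left]
      intro x hx hx'
      rw [Finset.mem_image] at hx hx'
      obtain ⟨k, _, hk⟩ := hx
      obtain ⟨k', _, hk'⟩ := hx'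
      apply hij
      rw [← hk'] at hk
      exact (Prod.ext_iff.1 hk).1
  have hJsum : ∑ i ∈ J, ∑ k ∈ L i ∪ D.image Prod.snd, U (i, k) - ∑ i ∈ J, s i ∈ Φ.F m := by
    rw [← Finset.sum_sub_distrib]
    exact (Φ.F m).sum_mem fun i _ => hL i _ Finset.subset_union_left
  have hIs := hI J Finset.subset_union_left
  have : ∑ x ∈ X, U x - t = ∑ x ∈ X \ T, U x +
      (∑ i ∈ J, ∑ k ∈ L i ∪ D.image Prod.snd, U (i, k) - ∑ i ∈ J, s i) +
      (∑ i ∈ J, s i - t) := by
    rw [← Finset.sum_sdiff hX, hsumT]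
    ring
  rw [this]
  exact (Φ.F m).add_mem ((Φ.F m).add_mem hrest hJsum) hIs

/-- a family tending to zero is summed by any exhausting sequence of finite sets -/
theorem HS.of_seq {ι : Type*} {u : ι → A} {s : A} (hz : ∀ m, {x : ι | u x ∉ Φ.F m}.Finite)
    (S : ℕ → Finset ι) (hS : ∀ i, ∃ N, ∀ N' ≥ N, i ∈ S N')
    (h : ∀ m, ∃ N, ∀ N' ≥ N, ∑ i ∈ S N', u i - s ∈ Φ.F m) : HS Φ u s := by
  classical
  intro m
  obtain ⟨N, hN⟩ := h m
  choose ν hν using hS
  set D : Finset ι := (hz m).toFinset with hD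
  set N' := max N (D.sup ν) with hN'
  refine ⟨S N', fun X hX => ?_⟩
  have h1 := hN N' (le_max_left _ _)
  have hrest : ∑ x ∈ X \ S N', u x ∈ Φ.F m := by
    refine (Φ.F m).sum_mem fun x hx => ?_
    by_contra hc
    have hxD : x ∈ D := by
      rw [hD, Set.Finite.mem_toFinset]
      exact hc
    exact (Finset.mem_sdiff.1 hx).2 (hν x N' ((Finset.le_sup hxD).trans (le_max_right _ _)))
  have : ∑ x ∈ X, u x - s = ∑ x ∈ X \ S N', u x + (∑ x ∈ S N', u x - s) := by
    rw [← Finset.sum_sdiff hX]; ring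
  rw [this]
  exact (Φ.F m).add_mem hrest h1

/-! ## separation of characters -/

/-- if the nodes differ by units then the Vandermonde relations force all coefficients to vanish -/
theorem eq_zero_of_power_sums {n : ℕ} (x a : Fin n → A)
    (hx : ∀ i j, i ≠ j → IsUnit (x i - x j)) (h : ∀ k : ℕ, ∑ i, a i * x i ^ k = 0) (i : Fin n) :
    a i = 0 := by
  classical
  set P : Polynomial A := ∏ j ∈ Finset.univ.erase i, (Polynomial.X - Polynomial.C (x j)) with hP
  have h1 : ∑ j, a j * P.eval (x j) = 0 := by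
    have : ∀ j, a j * P.eval (x j) = ∑ k ∈ P.support, P.coeff k * (a j * x j ^ k) := by
      intro j
      rw [Polynomial.eval_eq_sum, Polynomial.sum, Finset.mul_sum]
      refine Finset.sum_congr rfl fun k _ => by ring
    simp_rw [this]
    rw [Finset.sum_comm]
    refine Finset.sum_eq_zero fun k _ => ?_
    rw [← Finset.mul_sum, h k, mul_zero]
  have h2 : ∀ j, j ≠ i → P.eval (x j) = 0 := by
    intro j hj
    rw [hP, Polynomial.eval_prod]
    exact Finset.prod_eq_zero (Finset.mem_erase.2 ⟨hj, Finset.mem_univ _⟩) (by simp)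
  have h3 : IsUnit (P.eval (x i)) := by
    rw [hP, Polynomial.eval_prod]
    refine (IsUnit.prod_iff).2 fun j hj => ?_
    simp only [Polynomial.eval_sub, Polynomial.eval_X, Polynomial.eval_C]
    exact hx i j (Finset.ne_of_mem_erase hj).symm
  rw [Finset.sum_eq_single i (fun j _ hj => by rw [h2 j hj, mul_zero]) (by simp)] at h1
  exact (h3.mul_left_eq_zero).1 h1

/-! ## the abstract swap -/

/-- The abstract swap lemma. `π` = `p` (a unit), `T l i = L_n(t_l^{p^i})`, `M l e` the coefficients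
of the expansion of `L_h ∘ A_l ∘ θ`, `η` a primitive root of unity. -/
theorem abstract_swap {n : ℕ} {ι : Type*} [Fintype ι] (π : A) (hπ : IsUnit π)
    (T : ι → ℕ → A) (hT : ∀ l i, T l (i + n) = π * T l i) (M : ι → Fin n → A)
    (x : Fin n → A) (hx : ∀ i j, i ≠ j → IsUnit (x i - x j))
    (hrel : ∀ (j k : ℕ), ∑ l, ∑ e : Fin n, M l e * (x e ^ k * T l (j + e)) = 0)
    (e : Fin n) (i : ℕ) : ∑ l, M l e * T l i = 0 := by
  have h1 : ∀ j : ℕ, ∑ l, M l e * T l (j + e) = 0 := by
    intro j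
    refine eq_zero_of_power_sums x (fun e => ∑ l, M l e * T l (j + e)) hx (fun k => ?_) e
    rw [← hrel j k, Finset.sum_comm]
    refine Finset.sum_congr rfl fun e _ => ?_
    rw [Finset.sum_mul]
    refine Finset.sum_congr rfl fun l _ => by ring
  have h2 := h1 (i + n - e)
  have h3 : i + n - (e : ℕ) + e = i + n := Nat.sub_add_cancel (by have := e.2; omega)
  rw [h3] at h2
  simp_rw [hT] at h2
  have h4 : π * ∑ l, M l e * T l i = 0 := by
    rw [Finset.mul_sum, ← h2]
    refine Finset.sum_congr rfl fun l _ => by ring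
  exact (hπ.mul_right_eq_zero).1 h4

theorem abstract_swap' {n : ℕ} {ι : Type*} [Fintype ι] (π : A) (hπ : IsUnit π)
    (T : ι → ℕ → A) (hT : ∀ l i, T l (i + n) = π * T l i) (M : ι → Fin n → A)
    (x : Fin n → A) (hx : ∀ i j, i ≠ j → IsUnit (x i - x j))
    (hrel : ∀ (j k : ℕ), ∑ l, ∑ e : Fin n, M l e * (x e ^ k * T l (j + e)) = 0)
    (Z : Fin n → A) (i : ℕ) : ∑ l, T l i * ∑ e : Fin n, M l e * Z e = 0 := by
  have h := fun e => abstract_swap π hπ T hT M x hx hrel e i
  simp_rw [Finset.mul_sum]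
  rw [Finset.sum_comm]
  refine Finset.sum_eq_zero fun e _ => ?_
  have : ∀ l, T l i * (M l e * Z e) = M l e * T l i * Z e := fun l => by ring
  simp_rw [this]
  rw [← Finset.sum_mul, h e, zero_mul]

end Crest.Agent.R227
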