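import Crest.Agent.R227.WittL
import Crest.Agent.R227.SwapAbs

/-!
# R227 / SwapExp : expansion of `L_h(∑ c_K z^{p^K})` in terms of `L_n(z^{p^e})`
-/

set_option autoImplicit false

noncomputable section

namespace Crest.Agent.R227

open WittVector

section fr

variable (p : ℕ) [Fact p.Prime] {K : Type*} [NormedField K] [IsUltrametricDist K]
  [CharP K p] [PerfectRing K p]

/-- `x ↦ x^{p^k}` for `k : ℤ` -/
def fr (k : ℤ) : Ob K ≃+* Ob K := ((frobeniusEquiv (Ob K) p : RingAut (Ob K)) ^ k)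

theorem fr_add (j k : ℤ) (x : Ob K) : fr p (j + k) x = fr p j (fr p k x) := by
  unfold fr
  rw [zpow_add]
  rfl

theorem fr_zero (x : Ob K) : fr p 0 x = x := by
  unfold fr
  rw [zpow_zero]
  rfl

theorem fr_natCast (k : ℕ) (x : Ob K) : fr p (k : ℤ) x = x ^ p ^ k := by
  induction k with
  | zero => simp [fr_zero]
  | succ k ih =>
    rw [Nat.cast_succ, add_comm, fr_add, ih]
    have h1 : fr p (1 : ℤ) (x ^ p ^ k) = (x ^ p ^ k) ^ p := by
      unfold fr
      rw [zpow_one]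
      rfl
    rw [h1, ← pow_mul, ← pow_succ]

theorem fr_neg_natCast (k : ℕ) (x : Ob K) : fr p (-(k : ℤ)) x = proot p k x := by
  have h1 : (fr p (-(k : ℤ)) x) ^ p ^ k = x := by
    rw [← fr_natCast, ← fr_add]
    simp [fr_zero]
  unfold proot
  rw [RingEquiv.eq_symm_apply]
  rw [iterateFrobeniusEquiv_def]
  exact h1

theorem norm_fr (k : ℤ) (x : Ob K) : ‖fr p k x‖ = ‖x‖ ^ ((p : ℝ) ^ k) := by
  have hp0 : (0 : ℝ) < p := by exact_mod_cast (Fact.out : p.Prime).pos
  obtain ⟨k, rfl | rfl⟩ := Int.eq_nat_or_neg k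
  · rw [fr_natCast]
    rw [norm_pow, zpow_natCast, ← Real.rpow_natCast]
    push_cast
    rfl
  · have h1 : (fr p (-(k : ℤ)) x) ^ p ^ k = x := by
      rw [← fr_natCast, ← fr_add]
      simp [fr_zero]
    have h2 : ‖fr p (-(k : ℤ)) x‖ ^ p ^ k = ‖x‖ := by
      rw [← norm_pow, h1]
    rw [← h2, ← Real.rpow_natCast, ← Real.rpow_mul (norm_nonneg _)]
    push_cast
    rw [← zpow_natCast, ← zpow_add₀ hp0.ne']
    simp

end fr

variable (p : ℕ) [Fact p.Prime] {K : Type*} [NormedField K] [IsUltrametricDist K]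
  [CompleteSpace K] [CharP K p] [PerfectRing K p]

/-- the `p`-adic filtration of `RW w` -/
def naW (w : Ob K) (hw : w ≠ 0) : NAFilt (RW p w) where
  F m :=
    { carrier := {x | ∃ b, x = (p : RW p w) ^ m * toRW p w b}
      add_mem' := by
        rintro x y ⟨b, rfl⟩ ⟨c, rfl⟩
        exact ⟨b + c, by rw [map_add, mul_add]⟩
      zero_mem' := ⟨0, by simp⟩
      neg_mem' := by
        rintro x ⟨b, rfl⟩
        exact ⟨-b, by rw [map_neg, mul_neg]⟩ }
  anti m := by
    rintro x ⟨b, rfl⟩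
    refine ⟨p * b, ?_⟩
    rw [map_mul, map_natCast, pow_succ, mul_assoc]
  mul a m := by
    obtain ⟨k, b, rfl⟩ := exists_eq_pinv_pow p w a
    refine ⟨k + m, ?_⟩
    rintro x ⟨c, rfl⟩
    refine ⟨b * c, ?_⟩
    have h1 : (p : RW p w) ^ k * pinv p w ^ k = 1 := by
      rw [← mul_pow, p_mul_pinv, one_pow]
    rw [pow_add, map_mul]
    calc pinv p w ^ k * toRW p w b * ((p : RW p w) ^ k * (p : RW p w) ^ m * toRW p w c)
        = ((p : RW p w) ^ k * pinv p w ^ k) * ((p : RW p w) ^ m * (toRW p w b * toRW p w c)) := by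
          ring
      _ = _ := by rw [h1, one_mul]
  sep x h := eq_zero_of_forall_pow p w hw x h

theorem mem_naW {w : Ob K} {hw : w ≠ 0} {m : ℕ} {x : RW p w} :
    x ∈ (naW p w hw).F m ↔ ∃ b, x = (p : RW p w) ^ m * toRW p w b := Iff.rfl

/-- `p` as a unit -/
def pu (w : Ob K) : (RW p w)ˣ := (isUnit_p p w).unit

@[simp] theorem coe_pu (w : Ob K) : ((pu p w : (RW p w)ˣ) : RW p w) = p := IsUnit.unit_spec _

/-- `p^i [a]` -/
def tm (w : Ob K) (i : ℤ) (a : Ob K) : RW p w :=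
  ((pu p w ^ i : (RW p w)ˣ) : RW p w) * toRW p w (teichmuller p a)

theorem tm_eq_zero {w : Ob K} (hw : w ≠ 0) {a : Ob K} (h : w ∣ a) (i : ℤ) : tm p w i a = 0 := by
  obtain ⟨b, rfl⟩ := h
  unfold tm
  rw [map_mul, (toRW_eq_zero_iff p w hw _).2 (dvd_mul_right _ _), mul_zero]

theorem tm_mul (w : Ob K) (i j : ℤ) (a b : Ob K) :
    tm p w (i + j) (a * b) = tm p w i a * tm p w j b := by
  unfold tm
  rw [zpow_add, Units.val_mul, map_mul, map_mul]
  ring

theorem tm_mem {w : Ob K} (hw : w ≠ 0) {a : Ob K} {i : ℤ} {m : ℕ} (h : (m : ℤ) ≤ i) :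
    tm p w i a ∈ (naW p w hw).F m := by
  obtain ⟨k, rfl⟩ := Int.le.dest h
  refine ⟨(p : WittVector p (Ob K)) ^ k * teichmuller p a, ?_⟩
  unfold tm
  rw [map_mul, map_pow, map_natCast, ← Nat.cast_add, zpow_natCast, Units.val_pow_eq_pow_val,
    coe_pu, pow_add, mul_assoc]

/-- sums of Teichmüller series -/
theorem HS_series (w : Ob K) (hw : w ≠ 0) (a : ℤ → Ob K) (B : ℕ)
    (ha : ∀ i : ℤ, i < -(B : ℤ) → w ∣ a i) :
    HS (naW p w hw) (fun i : ℤ => tm p w i (a i))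
      (pinv p w ^ B * toRW p w (WittVector.mk p fun j => (a ((j : ℤ) - B)) ^ p ^ j)) := by
  classical
  intro m
  refine ⟨(Finset.range (B + m + 1)).image fun j : ℕ => (j : ℤ) - B, fun I hI => ?_⟩
  rw [← Finset.sum_sdiff hI]
  have hrest : ∑ i ∈ I \ (Finset.range (B + m + 1)).image (fun j : ℕ => (j : ℤ) - B),
      tm p w i (a i) ∈ (naW p w hw).F m := by
    refine ((naW p w hw).F m).sum_mem fun i hi => ?_
    rcases lt_or_ge i (-(B : ℤ)) with h | h
    · rw [tm_eq_zero p hw (ha i h)]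
      exact ((naW p w hw).F m).zero_mem
    · apply tm_mem
      by_contra hlt
      push Not at hlt
      refine (Finset.mem_sdiff.1 hi).2 ?_
      rw [Finset.mem_image]
      refine ⟨(i + B).toNat, ?_, ?_⟩
      · rw [Finset.mem_range]
        omega
      · omega
  have hsum : ∑ i ∈ (Finset.range (B + m + 1)).image (fun j : ℕ => (j : ℤ) - B),
      tm p w i (a i) = pinv p w ^ B * toRW p w (∑ j ∈ Finset.range (B + m + 1),
        (teichmuller p (a ((j : ℤ) - B)) * (p : WittVector p (Ob K)) ^ j)) := by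
    rw [Finset.sum_image (by intro x _ y _ hxy; simpa using hxy), map_sum, Finset.mul_sum]
    refine Finset.sum_congr rfl fun j _ => ?_
    have h1 : (p : RW p w) ^ B * pinv p w ^ B = 1 := by
      rw [← mul_pow, p_mul_pinv, one_pow]
    have h2 : ((pu p w ^ ((j : ℤ) - B) : (RW p w)ˣ) : RW p w) = pinv p w ^ B * (p : RW p w) ^ j := by
      have h3 : (p : RW p w) ^ B * ((pu p w ^ ((j : ℤ) - B) : (RW p w)ˣ) : RW p w) =
          (p : RW p w) ^ j := by
        rw [← coe_pu, ← Units.val_pow_eq_pow_val, ← Units.val_pow_eq_pow_val, ← Units.val_mul]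
        congr 1
        rw [← zpow_natCast, ← zpow_natCast, ← zpow_add]
        congr 1
        ring
      calc ((pu p w ^ ((j : ℤ) - B) : (RW p w)ˣ) : RW p w)
          = ((p : RW p w) ^ B * pinv p w ^ B) * ((pu p w ^ ((j : ℤ) - B) : (RW p w)ˣ) : RW p w) := by
            rw [h1, one_mul]
        _ = pinv p w ^ B * ((p : RW p w) ^ B * ((pu p w ^ ((j : ℤ) - B) : (RW p w)ˣ) : RW p w)) := by
            ring
        _ = _ := by rw [h3]
    unfold tm
    rw [h2, map_mul, map_pow, map_natCast]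
    ring
  rw [add_sub_assoc]
  refine ((naW p w hw).F m).add_mem hrest ?_
  rw [hsum, ← mul_sub, ← map_sub]
  have hser := dvd_sub_sum_teichmuller_iterateFrobeniusEquiv_coeff
    (WittVector.mk p fun j => (a ((j : ℤ) - B)) ^ p ^ j) (B + m)
  obtain ⟨b, hb⟩ := hser
  have hcoef : ∀ j : ℕ, ((_root_.frobeniusEquiv (Ob K) p).symm ^ j)
      ((WittVector.mk p fun j => (a ((j : ℤ) - B)) ^ p ^ j).coeff j) = a ((j : ℤ) - B) := by
    intro j
    rw [WittVector.coeff_mk]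
    have : ∀ (k : ℕ) (x : Ob K), ((_root_.frobeniusEquiv (Ob K) p).symm ^ k) (x ^ p ^ k) = x := by
      intro k
      induction k with
      | zero => intro x; simp
      | succ k ih =>
        intro x
        rw [pow_succ, pow_succ, pow_mul]
        change ((_root_.frobeniusEquiv (Ob K) p).symm ^ k)
          ((_root_.frobeniusEquiv (Ob K) p).symm ((x ^ p ^ k) ^ p)) = x
        rw [show (x ^ p ^ k) ^ p = _root_.frobeniusEquiv (Ob K) p (x ^ p ^ k) from rfl,
          RingEquiv.symm_apply_apply, ih]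
    exact this j _
  rw [mem_naW]
  refine ⟨-(p * b), ?_⟩
  have hIic : (Finset.Iic (B + m)) = Finset.range (B + m + 1) := by
    ext x; simp
  rw [hIic] at hb
  simp_rw [hcoef] at hb
  have h4 : ∑ j ∈ Finset.range (B + m + 1),
      (teichmuller p (a ((j : ℤ) - B)) * (p : WittVector p (Ob K)) ^ j) -
      (WittVector.mk p fun j => (a ((j : ℤ) - B)) ^ p ^ j) =
      -((p : WittVector p (Ob K)) ^ (B + m + 1) * b) := by
    rw [← hb]; ring
  rw [h4, map_neg, map_mul, map_pow, map_natCast, map_neg, map_mul, map_natCast]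
  have h1 : (p : RW p w) ^ B * pinv p w ^ B = 1 := by
    rw [← mul_pow, p_mul_pinv, one_pow]
  calc pinv p w ^ B * -((p : RW p w) ^ (B + m + 1) * toRW p w b)
      = ((p : RW p w) ^ B * pinv p w ^ B) * ((p : RW p w) ^ m * -(p * toRW p w b)) := by ring
    _ = _ := by rw [h1, one_mul]

theorem HS_Lw (n : ℕ) (hn : 1 ≤ n) (w : Ob K) (hw : w ≠ 0) (z : Ob K) (hz : ‖z‖ < 1) :
    HS (naW p w hw) (fun i : ℤ => tm p w i (fr p (-(n * i)) z)) (Lw p n w z) := by
  obtain ⟨B, hB⟩ := exists_dvd_pow p n hn w z hw hz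
  rw [Lw_eq p n hn w z B hB]
  have h1 := HS_series p w hw (fun i : ℤ => fr p (-(n * i)) z) B (by
    intro i hi
    obtain ⟨k, hk⟩ := Int.le.dest (show (B : ℤ) + 1 ≤ -i by omega)
    have : -((n : ℤ) * i) = ((n * k : ℕ) : ℤ) + ((n * (B + 1) : ℕ) : ℤ) := by
      push_cast
      have : i = -((B : ℤ) + 1 + k) := by omega
      rw [this]; ring
    rw [this, fr_add, fr_natCast p (n * (B + 1)), pow_mul p n (B + 1), fr_natCast]
    exact hB.trans (dvd_pow_self _ (pow_ne_zero _ (Fact.out : p.Prime).ne_zero)))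
  convert h1 using 3
  unfold Lp
  ext j
  rw [WittVector.coeff_mk, WittVector.coeff_mk]
  rw [← fr_neg_natCast, ← fr_natCast p j, ← pow_mul, ← fr_natCast p (n * B), ← fr_add, ← fr_add]
  congr 2
  have : ((n - 1 : ℕ) : ℤ) = n - 1 := by omega
  push_cast
  rw [this]
  congr 1
  ring

omit [CompleteSpace K] [CharP K p] [PerfectRing K p] in
theorem Ob_dvd_of_norm_le {w a : Ob K} (hw : w ≠ 0) (h : ‖a‖ ≤ ‖w‖) : w ∣ a := by
  have hw' : (w : K) ≠ 0 := fun h0 => hw (Subtype.ext h0)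
  have hwn : 0 < ‖(w : K)‖ := norm_pos_iff.2 hw'
  refine ⟨⟨(a : K) / w, ?_⟩, ?_⟩
  · rw [mem_Ob, norm_div]
    exact (div_le_one hwn).2 h
  · apply Subtype.ext
    simp only [Subring.coe_mul]
    field_simp

/-- The typical coefficients: `|c_K| < 1` and `c_{K+r}^Q = c_K`, `Q = p^h`. -/
structure CSys (h r : ℕ) (c : ℤ → Ob K) : Prop where
  lt : ∀ k, ‖c k‖ < 1
  rel : ∀ k, c (k + r) ^ p ^ h = c k

omit [CompleteSpace K] in
theorem CSys.rel' {h r : ℕ} {c : ℤ → Ob K} (hc : CSys p h r c) (j k : ℤ) :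
    c (k - r * j) = fr p (h * j) (c k) := by
  have h0 : ∀ (j : ℕ) (k : ℤ), c (k - r * j) = fr p (h * j) (c k) := by
    intro j
    induction j with
    | zero => intro k; simp [fr_zero]
    | succ j ih =>
      intro k
      have h1 := hc.rel (k - r * (j + 1))
      have h2 : k - (r : ℤ) * (j + 1) + r = k - r * j := by ring
      rw [h2, ih] at h1
      have h3 : k - (r : ℤ) * ((j + 1 : ℕ) : ℤ) = k - (r : ℤ) * (j + 1) := by push_cast; ring
      rw [h3, ← h1, ← fr_natCast p h, ← fr_add]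
      congr 2
      push_cast; ring
  obtain ⟨j, rfl | rfl⟩ := Int.eq_nat_or_neg j
  · exact h0 j k
  · have h1 := h0 j (k - r * (-(j : ℤ)))
    have h2 : k - (r : ℤ) * (-(j : ℤ)) - r * j = k := by ring
    rw [h2] at h1
    rw [h1, ← fr_add]
    have h3 : (h : ℤ) * -(j : ℤ) + h * j = 0 := by ring
    rw [h3, fr_zero]

omit [CompleteSpace K] in
/-- bound on a left half line -/
theorem CSys.bound {h r : ℕ} (hr : 1 ≤ r) {c : ℤ → Ob K} (hc : CSys p h r c) (k₀ : ℤ) :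
    ∃ ρ : ℝ, 0 < ρ ∧ ρ < 1 ∧ ∀ k ≤ k₀, ‖c k‖ ≤ ρ := by
  classical
  have hne : (Finset.Ioc (k₀ - r) k₀).Nonempty := ⟨k₀, by simp; omega⟩
  obtain ⟨k₁, hk₁, hmax⟩ := Finset.exists_max_image (Finset.Ioc (k₀ - r) k₀) (fun k => ‖c k‖) hne
  refine ⟨max ‖c k₁‖ (1 / 2), lt_max_of_lt_right (by norm_num),
    max_lt (hc.lt k₁) (by norm_num), ?_⟩
  have key : ∀ (d : ℕ) (k : ℤ), k ≤ k₀ → (k₀ - k).toNat ≤ d → ‖c k‖ ≤ ‖c k₁‖ := by
    intro d
    induction d with
    | zero =>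
      intro k hk hd
      have : k = k₀ := by omega
      subst this
      exact hmax _ (by simp; omega)
    | succ d ih =>
      intro k hk hd
      rcases lt_or_ge (k₀ - r) k with h1 | h1
      · exact hmax k (by simp; omega)
      · have h2 := ih (k + r) (by omega) (by omega)
        rw [← hc.rel k, norm_pow]
        refine le_trans (pow_le_of_le_one (norm_nonneg _) (hc.lt _).le ?_) h2
        exact pow_ne_zero _ (Fact.out : p.Prime).ne_zero
  intro k hk
  exact (key _ k hk le_rfl).trans (le_max_left _ _)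

theorem tendsto_pow_pow {ρ : ℝ} (h0 : 0 ≤ ρ) (h1 : ρ < 1) {m : ℕ} (hm : 1 ≤ m) {ε : ℝ}
    (hε : 0 < ε) : ∃ J : ℕ, ∀ j ≥ J, ρ ^ p ^ (m * j) < ε := by
  obtain ⟨N, hN⟩ := exists_pow_lt_of_lt_one hε h1
  refine ⟨N, fun j hj => lt_of_le_of_lt (pow_le_pow_of_le_one h0 h1.le ?_) hN⟩
  have h2 : 1 < p := (Fact.out : p.Prime).one_lt
  calc N ≤ j := hj
    _ ≤ m * j := Nat.le_mul_of_pos_left _ hm
    _ ≤ p ^ (m * j) := (Nat.lt_pow_self h2).le

omit [CompleteSpace K] in
theorem CSys.finite {h r : ℕ} (hh : 1 ≤ h) (hr : 1 ≤ r) {c : ℤ → Ob K} (hc : CSys p h r c)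
    {z : Ob K} (hz : ‖z‖ < 1) {ε : ℝ} (hε : 0 < ε) :
    {k : ℤ | ε ≤ ‖c k * fr p k z‖}.Finite := by
  obtain ⟨ρ, hρ0, hρ1, hρ⟩ := hc.bound p hr 0
  obtain ⟨J, hJ⟩ := tendsto_pow_pow p hρ0.le hρ1 hh hε
  obtain ⟨N, hN⟩ := tendsto_pow_pow p (norm_nonneg z) hz (le_refl 1) hε
  refine (Set.finite_Icc (-(r * J : ℤ)) N).subset ?_
  intro k hk
  rw [Set.mem_ofPred_eq] at hk
  rw [Set.mem_Icc]
  constructor
  · by_contra hlt
    push Not at hlt
    have h1 : ‖c k * fr p k z‖ ≤ ‖c k‖ := by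
      rw [norm_mul]
      exact mul_le_of_le_one_right (norm_nonneg _) (Ob_norm_le_one _)
    have h2 := hc.rel' p J (k + r * J)
    have h3 : k + (r : ℤ) * J - r * J = k := by ring
    rw [h3] at h2
    have h4 : ‖c k‖ < ε := by
      rw [h2, show ((h : ℤ) * (J : ℤ)) = ((h * J : ℕ) : ℤ) by push_cast; ring, fr_natCast,
        norm_pow]
      refine lt_of_le_of_lt (pow_le_pow_left₀ (norm_nonneg _) (hρ _ ?_) _) (hJ J le_rfl)
      linarith
    linarith
  · by_contra hlt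
    push Not at hlt
    obtain ⟨k', rfl⟩ := Int.eq_ofNat_of_zero_le (show 0 ≤ k by omega)
    have h1 : ‖c k' * fr p k' z‖ ≤ ‖fr p k' z‖ := by
      rw [norm_mul]
      exact mul_le_of_le_one_left (norm_nonneg _) (Ob_norm_le_one _)
    have h2 := hN k' (by omega)
    rw [one_mul] at h2
    have h3 : ‖fr p k' z‖ = ‖z‖ ^ p ^ k' := by rw [fr_natCast, norm_pow]
    linarith

omit [CompleteSpace K] in
theorem CSys.sup {h r : ℕ} (hh : 1 ≤ h) (hr : 1 ≤ r) {c : ℤ → Ob K} (hc : CSys p h r c)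
    {z : Ob K} (hz : ‖z‖ < 1) : ∃ ρ : ℝ, 0 < ρ ∧ ρ < 1 ∧ ∀ k, ‖c k * fr p k z‖ ≤ ρ := by
  classical
  have hf := hc.finite p hh hr hz (ε := 1 / 2) (by norm_num)
  have hlt : ∀ k, ‖c k * fr p k z‖ < 1 := by
    intro k
    rw [norm_mul]
    exact lt_of_le_of_lt (mul_le_of_le_one_right (norm_nonneg _) (Ob_norm_le_one _)) (hc.lt k)
  set S := insert 0 hf.toFinset
  obtain ⟨k₁, hk₁, hmax⟩ := Finset.exists_max_image S (fun k => ‖c k * fr p k z‖)
    ⟨0, Finset.mem_insert_self _ _⟩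
  refine ⟨max ‖c k₁ * fr p k₁ z‖ (1 / 2), lt_max_of_lt_right (by norm_num),
    max_lt (hlt _) (by norm_num), fun k => ?_⟩
  by_cases hk : k ∈ hf.toFinset
  · exact (hmax k (Finset.mem_insert_of_mem hk)).trans (le_max_left _ _)
  · rw [Set.Finite.mem_toFinset, Set.mem_ofPred_eq] at hk
    push Not at hk
    exact hk.le.trans (le_max_right _ _)

/-- the double family -/
def UU (h : ℕ) (w : Ob K) (c : ℤ → Ob K) (z : Ob K) (x : ℤ × ℤ) : RW p w :=
  tm p w x.2 (fr p (-(h * x.2)) (c x.1 * fr p x.1 z))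

theorem UU_mk (h : ℕ) (w : Ob K) (c : ℤ → Ob K) (z : Ob K) (k i : ℤ) :
    UU p h w c z (k, i) = tm p w i (fr p (-(h * i)) (c k * fr p k z)) := rfl

theorem UU_finite {h r : ℕ} (hh : 1 ≤ h) (hr : 1 ≤ r) {c : ℤ → Ob K} (hc : CSys p h r c)
    {z : Ob K} (hz : ‖z‖ < 1) (w : Ob K) (hw : w ≠ 0) (m : ℕ) :
    {x : ℤ × ℤ | UU p h w c z x ∉ (naW p w hw).F m}.Finite := by
  have hp0 : (0 : ℝ) < p := by exact_mod_cast (Fact.out : p.Prime).pos
  have hp1 : (1 : ℝ) ≤ p := by exact_mod_cast (Fact.out : p.Prime).one_lt.le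
  have hw' : 0 < ‖w‖ := norm_pos_iff.2 hw
  obtain ⟨ρ, hρ0, hρ1, hρ⟩ := hc.sup p hh hr hz
  obtain ⟨B, hB⟩ := tendsto_pow_pow p hρ0.le hρ1 hh hw'
  set ε : ℝ := ‖w‖ ^ ((p : ℝ) ^ (h * m : ℤ)) with hεdef
  have hε : 0 < ε := Real.rpow_pos_of_pos hw' _
  refine ((hc.finite p hh hr hz hε).prod (Set.finite_Icc (-(B : ℤ)) m)).subset ?_
  rintro ⟨k, i⟩ hx
  rw [Set.mem_ofPred_eq] at hx
  have hi : i < m := by
    by_contra hge
    push Not at hge
    exact hx (tm_mem p hw hge)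
  have hnd : ‖w‖ < ‖fr p (-(h * i)) (c k * fr p k z)‖ := by
    by_contra hge
    push Not at hge
    apply hx
    unfold UU
    rw [tm_eq_zero p hw (Ob_dvd_of_norm_le hw hge)]
    exact ((naW p w hw).F m).zero_mem
  rw [norm_fr] at hnd
  have hg0 : 0 ≤ ‖c k * fr p k z‖ := norm_nonneg _
  rw [Set.mem_prod]
  constructor
  · rw [Set.mem_ofPred_eq, hεdef]
    have h1 : ‖c k * fr p k z‖ ^ ((p : ℝ) ^ (-((h : ℤ) * i))) ≤
        ‖c k * fr p k z‖ ^ ((p : ℝ) ^ (-((h : ℤ) * m))) := by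
      rcases hg0.eq_or_lt with h0 | h0
      · rw [← h0, Real.zero_rpow (zpow_pos hp0 _).ne', Real.zero_rpow (zpow_pos hp0 _).ne']
      · refine Real.rpow_le_rpow_of_exponent_ge h0 (Ob_norm_le_one _) ?_
        exact zpow_le_zpow_right₀ hp1 (by nlinarith)
    have h2 := Real.rpow_le_rpow hw'.le (hnd.le.trans h1)
      (zpow_pos hp0 ((h : ℤ) * m)).le
    rw [← Real.rpow_mul hg0, ← zpow_add₀ hp0.ne'] at h2
    simpa using h2
  · rw [Set.mem_Icc]
    refine ⟨?_, hi.le⟩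
    by_contra hlt
    push Not at hlt
    obtain ⟨i', hi'⟩ := Int.eq_ofNat_of_zero_le (show 0 ≤ -i by omega)
    have h1 : -((h : ℤ) * i) = ((h * i' : ℕ) : ℤ) := by
      push_cast
      rw [← hi']; ring
    rw [h1, zpow_natCast] at hnd
    have h2 : ‖c k * fr p k z‖ ^ ((p : ℝ) ^ (h * i')) ≤ ρ ^ ((p : ℝ) ^ (h * i')) :=
      Real.rpow_le_rpow hg0 (hρ k) (by positivity)
    have h3 : ρ ^ ((p : ℝ) ^ (h * i')) < ‖w‖ := by
      have := hB i' (by omega)
      rw [← Real.rpow_natCast] at this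
      push_cast at this
      exact this
    linarith

theorem exists_mu {h r : ℕ} (hh : 1 ≤ h) (hr : 1 ≤ r) {c : ℤ → Ob K} (hc : CSys p h r c)
    (w : Ob K) (hw : w ≠ 0) (e : ℤ) :
    ∃ μ : RW p w, HS (naW p w hw)
      (fun i : ℤ => tm p w i (fr p (-(h * i)) (c (e + h * i)))) μ := by
  have hw' : 0 < ‖w‖ := norm_pos_iff.2 hw
  obtain ⟨ρ, hρ0, hρ1, hρ⟩ := hc.bound p hr e
  obtain ⟨B, hB⟩ := tendsto_pow_pow p hρ0.le hρ1 hh hw'
  refine ⟨_, HS_series p w hw (fun i : ℤ => fr p (-(h * i)) (c (e + h * i))) B ?_⟩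
  intro i hi
  obtain ⟨i', hi'⟩ := Int.eq_ofNat_of_zero_le (show 0 ≤ -i by omega)
  refine Ob_dvd_of_norm_le hw ?_
  have h1 : -((h : ℤ) * i) = ((h * i' : ℕ) : ℤ) := by
    push_cast
    rw [← hi']; ring
  rw [h1, fr_natCast, norm_pow]
  refine le_trans (pow_le_pow_left₀ (norm_nonneg _) (hρ _ ?_) _) (hB i' (by omega)).le
  nlinarith

/-- the reindexing -/
def EE (n h r : ℕ) (hn : n = h + r) (hn0 : 1 ≤ n) : (Fin n × (ℤ × ℤ)) ≃ (ℤ × ℤ) where
  toFun x := ((x.1 : ℤ) + h * x.2.2 - r * x.2.1, x.2.2 + x.2.1)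
  invFun y := (⟨((y.1 - h * y.2) % n).toNat, by
      have h1 := Int.emod_nonneg (y.1 - h * y.2) (show (n : ℤ) ≠ 0 by omega)
      have h2 := Int.emod_lt_of_pos (y.1 - h * y.2) (show (0 : ℤ) < n by omega)
      omega⟩, (-((y.1 - h * y.2) / n), y.2 + (y.1 - h * y.2) / n))
  left_inv := by
    rintro ⟨e, j, i⟩
    have hn2 : (n : ℤ) = h + r := by exact_mod_cast hn
    have hJ : (e : ℤ) + h * i - r * j - h * (i + j) = e - n * j := by
      rw [hn2]; ring
    have he : (0 : ℤ) ≤ (e : ℤ) := by omega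
    have he' : (e : ℤ) < n := by exact_mod_cast e.2
    have hn' : (n : ℤ) ≠ 0 := by omega
    have hmod : ((e : ℤ) - n * j) % n = e := by
      rw [Int.sub_mul_emod_self_left]
      exact Int.emod_eq_of_lt he he'
    have hdiv : ((e : ℤ) - n * j) / n = -j := by
      rw [Int.sub_mul_ediv_left _ _ hn', Int.ediv_eq_zero_of_lt he he']
      ring
    simp only [hJ, hmod, hdiv]
    ext
    · simp
    · simp
    · simp
  right_inv := by
    rintro ⟨k, i⟩
    have h1 := Int.emod_nonneg (k - h * i) (show (n : ℤ) ≠ 0 by omega)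
    have h2 := Int.emod_add_mul_ediv (k - h * i) n
    ext
    · simp only
      rw [Int.toNat_of_nonneg h1]
      have h3 : (n : ℤ) = h + r := by exact_mod_cast hn
      have h4 : (k - h * i) % n = k - h * i - n * ((k - h * i) / n) := by linarith
      rw [h4, h3]; ring
    · simp only
      ring

/-- **Expansion lemma.** -/
theorem expansion {n h r : ℕ} (hn : n = h + r) (hh : 1 ≤ h) (hr : 1 ≤ r) {c : ℤ → Ob K}
    (hc : CSys p h r c) (w : Ob K) (hw : w ≠ 0) :
    ∃ μ : Fin n → RW p w, ∀ z : Ob K, ‖z‖ < 1 → ∀ s : RW p w,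
      HS (naW p w hw) (fun k : ℤ => Lw p h w (c k * fr p k z)) s →
      s = ∑ e : Fin n, μ e * Lw p n w (z ^ p ^ (e : ℕ)) := by
  choose μ hμ using fun e : Fin n => exists_mu p hh hr hc w hw (e : ℤ)
  refine ⟨μ, fun z hz s hs => ?_⟩
  have hlt : ∀ k, ‖c k * fr p k z‖ < 1 := by
    intro k
    rw [norm_mul]
    exact lt_of_le_of_lt (mul_le_of_le_one_right (norm_nonneg _) (Ob_norm_le_one _)) (hc.lt k)
  have h1 : HS (naW p w hw) (UU p h w c z) s := by
    have h0 : ∀ k : ℤ, HS (naW p w hw) (fun i : ℤ => UU p h w c z (k, i))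
        (Lw p h w (c k * fr p k z)) := by
      intro k
      simp only [UU_mk]
      exact HS_Lw p h hh w hw _ (hlt k)
    exact HS.of_iter (UU_finite p hh hr hc hz w hw) h0 hs
  have hUE : ∀ (e : Fin n) (j i : ℤ), UU p h w c z (EE n h r hn (by omega) (e, (j, i))) =
      tm p w i (fr p (-(h * i)) (c (e + h * i))) *
        tm p w j (fr p (-(n * j)) (z ^ p ^ (e : ℕ))) := by
    intro e j i
    unfold UU
    simp only [EE, Equiv.coe_fn_mk]
    rw [← tm_mul, hc.rel', map_mul, ← fr_add, ← fr_add, ← fr_natCast, ← fr_add]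
    congr 3
    · congr 1
      ring
    · have hn2 : (n : ℤ) = h + r := by exact_mod_cast hn
      congr 1
      rw [hn2]; ring
  have h2 : HS (naW p w hw) (UU p h w c z) (∑ e : Fin n, μ e * Lw p n w (z ^ p ^ (e : ℕ))) := by
    refine HS.of_equiv (EE n h r hn (by omega)) ?_
    refine HS.of_iter (s := fun e : Fin n => μ e * Lw p n w (z ^ p ^ (e : ℕ))) ?_ ?_
      (HS.finite _)
    · intro m
      exact (UU_finite p hh hr hc hz w hw m).preimage (Equiv.injective _).injOn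
    · intro e
      refine HS.of_iter (s := fun j : ℤ => μ e * tm p w j (fr p (-(n * j)) (z ^ p ^ (e : ℕ))))
        ?_ ?_ ?_
      · intro m
        have hf := (UU_finite p hh hr hc hz w hw m).preimage
          ((Equiv.injective (EE n h r hn (by omega))).comp
            (f := fun x : ℤ × ℤ => ((e, x) : Fin n × (ℤ × ℤ)))
            (fun a b hab => (Prod.ext_iff.1 hab).2)).injOn
        exact hf
      · intro j
        have := (hμ e).mul_right (tm p w j (fr p (-(n * j)) (z ^ p ^ (e : ℕ))))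
        simpa only [hUE] using this
      · refine HS.mul_left (HS_Lw p n (by omega) w hw _ ?_) (μ e)
        rw [norm_pow]
        exact pow_lt_one₀ (norm_nonneg _) hz
          (pow_ne_zero _ (Fact.out : p.Prime).ne_zero)
  exact h1.unique h2

end Crest.Agent.R227
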