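import Crest.Agent.R227.TrHeight
import Crest.Agent.R227.Easy
import Crest.Agent.R227.LTComplete

/-!
# R227 / TrAux : universality and transport of stable ideals (part of task TRANSFER)
-/

set_option autoImplicit false

noncomputable section

namespace Crest.Agent.R227

open Crest.LubinTate MvPowerSeries

namespace LT

/-! ### one variable substitution bookkeeping -/

section ps

variable {R S : Type*} [CommRing R] [CommRing S]

theorem ps_assoc (a b c : PowerSeries R) (ha : PowerSeries.constantCoeff a = 0)
    (hb : PowerSeries.constantCoeff b = 0) :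
    (PowerSeries.subst (PowerSeries.subst a b : PowerSeries R) c : PowerSeries R) =
      PowerSeries.subst a (PowerSeries.subst b c : PowerSeries R) :=
  ps_subst_subst (a : MvPowerSeries Unit R) ha b hb c

theorem ps_X_subst (a : PowerSeries R) (ha : PowerSeries.constantCoeff a = 0) :
    (PowerSeries.subst a (PowerSeries.X : PowerSeries R) : PowerSeries R) = a :=
  PowerSeries.subst_X (PowerSeries.HasSubst.of_constantCoeff_zero' ha)

theorem ps_constantCoeff_subst (a b : PowerSeries R) (ha : PowerSeries.constantCoeff a = 0)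
    (hb : PowerSeries.constantCoeff b = 0) :
    PowerSeries.constantCoeff (PowerSeries.subst a b : PowerSeries R) = 0 :=
  PowerSeries.constantCoeff_subst_eq_zero (a := (a : MvPowerSeries Unit R)) ha b hb

theorem ps_map_subst (r : R →+* S) (a b : PowerSeries R) (ha : PowerSeries.constantCoeff a = 0) :
    PowerSeries.map r (PowerSeries.subst a b : PowerSeries R) =
      PowerSeries.subst (PowerSeries.map r a) (PowerSeries.map r b) :=
  PowerSeries.map_subst (PowerSeries.HasSubst.of_constantCoeff_zero' ha) b

theorem ps_map_map {T : Type*} [CommRing T] (f : R →+* S) (g : S →+* T) (a : PowerSeries R) :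
    PowerSeries.map g (PowerSeries.map f a) = PowerSeries.map (g.comp f) a := by
  ext i
  simp

theorem ps_coeff_one_subst (a b : PowerSeries R) (ha : PowerSeries.constantCoeff a = 0)
    (hb : PowerSeries.constantCoeff b = 0) :
    PowerSeries.coeff 1 (PowerSeries.subst a b : PowerSeries R) =
      PowerSeries.coeff 1 b * PowerSeries.coeff 1 a := by
  have h1 := coeff_diff_left b a 0 ha (by simp) 1 (fun i hi => by
    have : i = 0 := by omega
    rw [this, PowerSeries.coeff_zero_eq_constantCoeff_apply, ha]; simp)
  have e1 : (PowerSeries.subst (0 : PowerSeries R) b : PowerSeries R) = 0 :=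
    PowerSeries.subst_zero_of_constantCoeff_zero hb
  rw [e1] at h1
  simpa using h1

/-- if `mu ∘ lam = X` and `a ∘ mu = X` then `a = lam` -/
theorem eq_of_leftInv {mu lam a : PowerSeries R} (hmu : PowerSeries.constantCoeff mu = 0)
    (hlam : PowerSeries.constantCoeff lam = 0)
    (h1 : (PowerSeries.subst lam mu : PowerSeries R) = PowerSeries.X)
    (h2 : (PowerSeries.subst mu a : PowerSeries R) = PowerSeries.X) : a = lam := by
  have h3 := ps_assoc lam mu a hlam hmu
  rw [h1, h2, ps_X_subst lam hlam, PowerSeries.X_subst] at h3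
  exact h3

/-- congruences mod `X^M` -/
theorem dvd_subst_sub (M : ℕ) (g a b : PowerSeries R) (ha : PowerSeries.constantCoeff a = 0)
    (hb : PowerSeries.constantCoeff b = 0) (h : (PowerSeries.X : PowerSeries R) ^ M ∣ a - b) :
    (PowerSeries.X : PowerSeries R) ^ M ∣
      (PowerSeries.subst a g : PowerSeries R) - PowerSeries.subst b g := by
  obtain ⟨u, _, hgu⟩ := subst_sub_subst g (a : MvPowerSeries Unit R) b ha hb
  obtain ⟨w, hw⟩ := h
  refine ⟨w * u, ?_⟩
  refine hgu.trans ?_
  have : (a - b : MvPowerSeries Unit R) = (PowerSeries.X : PowerSeries R) ^ M * w := hw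
  rw [this]
  exact mul_assoc _ _ _

theorem dvd_subst (M : ℕ) (a f : PowerSeries R) (ha : PowerSeries.constantCoeff a = 0)
    (h : (PowerSeries.X : PowerSeries R) ^ M ∣ f) :
    (PowerSeries.X : PowerSeries R) ^ M ∣ (PowerSeries.subst a f : PowerSeries R) := by
  have hs : PowerSeries.HasSubst a := PowerSeries.HasSubst.of_constantCoeff_zero' ha
  obtain ⟨w, rfl⟩ := h
  obtain ⟨v, hv⟩ : (PowerSeries.X : PowerSeries R) ∣ a := by rwa [PowerSeries.X_dvd_iff]
  refine ⟨v ^ M * PowerSeries.subst a w, ?_⟩
  rw [PowerSeries.subst_mul hs, PowerSeries.subst_pow hs, PowerSeries.subst_X hs]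
  have : (a : PowerSeries R) ^ M * PowerSeries.subst a w = PowerSeries.X ^ M *
      (v ^ M * PowerSeries.subst a w) := by
    nth_rewrite 1 [hv]
    rw [mul_pow, mul_assoc]
  exact this

theorem congr_X_iff (M : ℕ) (g : PowerSeries R) :
    (∀ i : ℕ, i < M → PowerSeries.coeff i g = PowerSeries.coeff i PowerSeries.X) ↔
      (PowerSeries.X : PowerSeries R) ^ M ∣ g - PowerSeries.X := by
  rw [PowerSeries.X_pow_dvd_iff]
  refine forall₂_congr fun i _ => ?_
  rw [map_sub, sub_eq_zero]

/-- conjugation preserves congruence to `X` -/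
theorem conj_congr_X (M : ℕ) (mu lam g : PowerSeries R) (hmu : PowerSeries.constantCoeff mu = 0)
    (hlam : PowerSeries.constantCoeff lam = 0) (hg : PowerSeries.constantCoeff g = 0)
    (h1 : (PowerSeries.subst lam mu : PowerSeries R) = PowerSeries.X)
    (h : ∀ i : ℕ, i < M → PowerSeries.coeff i g = PowerSeries.coeff i PowerSeries.X) :
    ∀ i : ℕ, i < M → PowerSeries.coeff i
      (PowerSeries.subst (PowerSeries.subst lam g : PowerSeries R) mu : PowerSeries R) =
        PowerSeries.coeff i PowerSeries.X := by
  rw [congr_X_iff] at h ⊢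
  have hs : PowerSeries.HasSubst lam := PowerSeries.HasSubst.of_constantCoeff_zero' hlam
  have h2 := dvd_subst M lam _ hlam h
  rw [PowerSeries.subst_sub hs] at h2
  have h2' : (PowerSeries.X : PowerSeries R) ^ M ∣
      (PowerSeries.subst lam g : PowerSeries R) - lam := by
    have e := ps_X_subst lam hlam
    rw [e] at h2
    exact h2
  have h3 := dvd_subst_sub M mu _ _ (ps_constantCoeff_subst lam g hlam hg) hlam h2'
  rwa [h1] at h3

end ps

/-! ### lifting series -/

theorem isUnit_of_residue {B k : Type*} [CommRing B] [IsLocalRing B] [Field k] (r : B →+* k)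
    (hker : RingHom.ker r = IsLocalRing.maximalIdeal B) (b : B) (h : r b ≠ 0) : IsUnit b := by
  by_contra hb
  apply h
  have : b ∈ IsLocalRing.maximalIdeal B := hb
  rw [← hker] at this
  exact this

theorem exists_lift {B k : Type*} [CommRing B] [IsLocalRing B] [Field k] (r : B →+* k)
    (hr : Function.Surjective r) (hker : RingHom.ker r = IsLocalRing.maximalIdeal B)
    (φ : PowerSeries k) (h0 : PowerSeries.constantCoeff φ = 0)
    (hu : IsUnit (PowerSeries.coeff 1 φ)) :
    ∃ ψ : PowerSeries B, PowerSeries.constantCoeff ψ = 0 ∧ IsUnit (PowerSeries.coeff 1 ψ) ∧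
      PowerSeries.map r ψ = φ := by
  classical
  let s : k → B := Function.surjInv hr
  have hs : ∀ x, r (s x) = x := Function.surjInv_eq hr
  refine ⟨PowerSeries.mk (fun i => if i = 0 then 0 else s (PowerSeries.coeff i φ)), ?_, ?_, ?_⟩
  · rw [← PowerSeries.coeff_zero_eq_constantCoeff_apply, PowerSeries.coeff_mk, if_pos rfl]
  · apply isUnit_of_residue r hker
    rw [PowerSeries.coeff_mk, if_neg one_ne_zero, hs]
    exact hu.ne_zero
  · ext i
    rw [PowerSeries.coeff_map, PowerSeries.coeff_mk]
    split_ifs with h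
    · rw [h, map_zero, PowerSeries.coeff_zero_eq_constantCoeff_apply, h0]
    · exact hs _

/-- lift of an isomorphism `Γ₁ → Γ₂` with prescribed lift of the source -/
theorem exists_lift_iso {B k : Type*} [CommRing B] [IsLocalRing B] [Field k] (r : B →+* k)
    (hr : Function.Surjective r) (hker : RingHom.ker r = IsLocalRing.maximalIdeal B)
    {F1 F2 : FormalGroup k} {mu : PowerSeries k} (hmu : IsFGHom F1 F2 mu)
    (hu : IsUnit (PowerSeries.coeff 1 mu)) (G : FormalGroup B) (hG : G.map r = F1) :
    ∃ (G' : FormalGroup B) (ψ : PowerSeries B), IsFGHom G G' ψ ∧ G'.map r = F2 ∧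
      IsUnit (PowerSeries.coeff 1 ψ) ∧ PowerSeries.map r ψ = mu := by
  obtain ⟨ψ, h0, h1, h2⟩ := exists_lift r hr hker mu hmu.1 hu
  obtain ⟨G', hG'⟩ := exists_conj G ψ h0 h1
  refine ⟨G', ψ, hG', ?_, h1, h2⟩
  have h3 := IsFGHom.map r hG'
  rw [hG, h2] at h3
  exact IsFGHom.target_unique h3 hmu hu

/-- the inverse of a lift reduces to the inverse -/
theorem map_inv {R S : Type*} [CommRing R] [CommRing S] (r : R →+* S)
    {a b : PowerSeries R} {lam mu : PowerSeries S} (ha : PowerSeries.constantCoeff a = 0)
    (hlam : PowerSeries.constantCoeff lam = 0) (hmu : PowerSeries.constantCoeff mu = 0)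
    (hba : (PowerSeries.subst a b : PowerSeries R) = PowerSeries.X)
    (h1 : (PowerSeries.subst lam mu : PowerSeries S) = PowerSeries.X)
    (ham : PowerSeries.map r a = mu) : PowerSeries.map r b = lam := by
  apply eq_of_leftInv hmu hlam h1
  have := congrArg (PowerSeries.map r) hba
  rw [ps_map_subst r a b ha, ham, PowerSeries.map_X] at this
  exact this

end LT

end Crest.Agent.R227
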