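import Crest.Agent.R227.TrIso

/-!
# R227 / TrHeight : height ideals, base change and invariance (part of task TRANSFER)
-/

set_option autoImplicit false

noncomputable section

namespace Crest.Agent.R227

open Crest.LubinTate MvPowerSeries

variable {p : ℕ} [Fact p.Prime]

/-- a homomorphism in characteristic `p` with vanishing coefficients at `X^{p^j}`, `j < h`, is a
series in `X^{p^h}` -/
theorem exists_frob_iterate {R : Type*} [CommRing R] [CharP R p] (h : ℕ) :
    ∀ {F G : FormalGroup R} {φ : PowerSeries R} (_ : IsFGHom F G φ)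
    (_ : ∀ j < h, PowerSeries.coeff (p ^ j) φ = 0),
    ∃ ψ : PowerSeries R, IsFGHom (F.map (iterateFrobenius R p h)) G ψ ∧
      φ = PowerSeries.subst (PowerSeries.X ^ p ^ h : PowerSeries R) ψ := by
  induction h with
  | zero =>
    intro F G φ hφ _
    refine ⟨φ, ?_, ?_⟩
    · rw [iterateFrobenius_zero, LT.map_id]; exact hφ
    · rw [pow_zero, pow_one, PowerSeries.X_subst]
  | succ h ih =>
    intro F G φ hφ hj
    have hp0 : p ≠ 0 := (Fact.out : p.Prime).ne_zero
    obtain ⟨ψ, hψ, rfl⟩ := IsFGHom.exists_frob (p := p) hφ (by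
      have := hj 0 (by omega)
      rwa [pow_zero] at this)
    have hj' : ∀ j < h, PowerSeries.coeff (p ^ j) ψ = 0 := by
      intro j hjh
      have := hj (j + 1) (by omega)
      rw [PowerSeries.coeff_subst_X_pow hp0, if_pos (dvd_pow_self p (by omega)), pow_succ,
        Nat.mul_div_cancel _ (Fact.out : p.Prime).pos] at this
      simpa using this
    obtain ⟨χ, hχ, rfl⟩ := ih hψ hj'
    refine ⟨χ, ?_, ?_⟩
    · rw [LT.map_map] at hχ
      convert hχ using 2
      ext a
      rw [iterateFrobenius_def, RingHom.comp_apply, iterateFrobenius_def, frobenius_def, ← pow_mul,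
        pow_succ', mul_comm]
    · have h1 : PowerSeries.HasSubst (PowerSeries.X ^ p ^ h : PowerSeries R) :=
        PowerSeries.HasSubst.X_pow (pow_ne_zero _ hp0)
      have h2 : PowerSeries.HasSubst (PowerSeries.X ^ p : PowerSeries R) :=
        PowerSeries.HasSubst.X_pow hp0
      have h3 := PowerSeries.subst_comp_subst_apply h1 h2 χ
      refine h3.trans ?_
      congr 1
      have h4 := PowerSeries.subst_pow h2 (PowerSeries.X : PowerSeries R) (p ^ h)
      refine h4.trans ?_
      rw [PowerSeries.subst_X h2, ← pow_mul]
      congr 1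
      rw [pow_succ', mul_comm]

theorem coeff_lt_eq_zero {R : Type*} [CommRing R] [CharP R p] (h : ℕ)
    {F G : FormalGroup R} {φ : PowerSeries R} (hφ : IsFGHom F G φ)
    (hj : ∀ j < h, PowerSeries.coeff (p ^ j) φ = 0) :
    ∀ i < p ^ h, PowerSeries.coeff i φ = 0 := by
  intro i hi
  have hp0 : p ≠ 0 := (Fact.out : p.Prime).ne_zero
  obtain ⟨ψ, hψ, h1⟩ := exists_frob_iterate h hφ hj
  rw [h1, PowerSeries.coeff_subst_X_pow (pow_ne_zero _ hp0)]
  split_ifs with hd
  · have : i = 0 := Nat.eq_zero_of_dvd_of_lt hd hi
    rw [this, Nat.zero_div, PowerSeries.coeff_zero_eq_constantCoeff_apply, hψ.1, map_zero]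
  · rfl

/-- comparison of the leading coefficients -/
theorem leading_coeff_comm {R : Type*} [CommRing R] (N : ℕ) {φ f g : PowerSeries R}
    (hφ : PowerSeries.constantCoeff φ = 0) (hf0 : PowerSeries.constantCoeff f = 0)
    (h : PowerSeries.subst f φ = PowerSeries.subst φ g)
    (hf : ∀ i < N, PowerSeries.coeff i f = 0) (hg : ∀ i < N, PowerSeries.coeff i g = 0) :
    PowerSeries.coeff 1 φ * PowerSeries.coeff N f =
      PowerSeries.coeff 1 φ ^ N * PowerSeries.coeff N g := by
  have h1 := LT.coeff_diff_left φ f 0 hf0 (by simp) N (fun i hi => by rw [hf i hi]; simp)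
  have h2 := LT.coeff_diff_right φ g 0 hφ N (fun i hi => by rw [hg i hi]; simp)
  have hs : PowerSeries.HasSubst φ := PowerSeries.HasSubst.of_constantCoeff_zero' hφ
  have e1 : (PowerSeries.subst (0 : PowerSeries R) φ : PowerSeries R) = 0 :=
    PowerSeries.subst_zero_of_constantCoeff_zero hφ
  have e2 : (PowerSeries.subst φ (0 : PowerSeries R) : PowerSeries R) = 0 := by
    rw [← PowerSeries.coe_substAlgHom hs, map_zero]
  rw [e1] at h1
  rw [e2] at h2
  simp only [map_zero, sub_zero] at h1 h2
  rw [← h1, ← h2, h]

variable (n : ℕ)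

theorem heightIdeal_map (ω : LTRing p n →+* LTRing p n) (H : FormalGroup (LTRing p n)) (h : ℕ) :
    heightIdeal p n (H.map ω) h = (heightIdeal p n H h).map ω := by
  induction h with
  | zero => simp [heightIdeal, Ideal.map_bot]
  | succ h ih =>
    simp only [heightIdeal]
    rw [ih, Ideal.map_sup, Ideal.map_span, Set.image_singleton, ← mulSeries_map,
      PowerSeries.coeff_map]

theorem coeff_mem_heightIdeal (H : FormalGroup (LTRing p n)) {j h : ℕ} (hj : j < h) :
    PowerSeries.coeff (p ^ j) (mulSeries H p) ∈ heightIdeal p n H h := by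
  induction h with
  | zero => omega
  | succ h ih =>
    simp only [heightIdeal]
    rcases Nat.lt_succ_iff_lt_or_eq.mp hj with h1 | rfl
    · exact Ideal.mem_sup_left (ih h1)
    · exact Ideal.mem_sup_right (Ideal.subset_span rfl)

theorem heightIdeal_iso (F G : FormalGroup (LTRing p n)) [F.IsComm] [G.IsComm]
    {φ : PowerSeries (LTRing p n)} (hφ : IsFGHom F G φ) (hu : IsUnit (PowerSeries.coeff 1 φ))
    (h : ℕ) : heightIdeal p n F h = heightIdeal p n G h := by
  induction h with
  | zero => rfl
  | succ h ih =>
    rcases Nat.eq_zero_or_pos h with rfl | hpos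
    · simp only [heightIdeal]
      rw [pow_zero, coeff_one_mulSeries, coeff_one_mulSeries]
    · by_cases htop : heightIdeal p n F h = ⊤
      · simp only [heightIdeal]
        rw [← ih, htop, top_sup_eq, top_sup_eq]
      · let I := heightIdeal p n F h
        let R := LTRing p n ⧸ I
        let π : LTRing p n →+* R := Ideal.Quotient.mk I
        have : Nontrivial R := Ideal.Quotient.nontrivial_iff.mpr htop
        have hpR : (p : R) = 0 := by
          have h1 : (p : LTRing p n) ∈ I := by
            have := coeff_mem_heightIdeal n F hpos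
            rwa [pow_zero, coeff_one_mulSeries] at this
          have h2 : π (p : LTRing p n) = 0 := Ideal.Quotient.eq_zero_iff_mem.mpr h1
          rwa [map_natCast] at h2
        have : CharP R p := (CharP.charP_iff_prime_eq_zero Fact.out).mpr hpR
        have : (F.map π).IsComm := LT.map_isComm F π
        have : (G.map π).IsComm := LT.map_isComm G π
        have hFlow : ∀ i < p ^ h, PowerSeries.coeff i (mulSeries (F.map π) p) = 0 := by
          apply coeff_lt_eq_zero h (IsFGHom.mulSeries (F.map π) p)
          intro j hj
          rw [← mulSeries_map, PowerSeries.coeff_map]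
          exact Ideal.Quotient.eq_zero_iff_mem.mpr (coeff_mem_heightIdeal n F hj)
        have hGlow : ∀ i < p ^ h, PowerSeries.coeff i (mulSeries (G.map π) p) = 0 := by
          apply coeff_lt_eq_zero h (IsFGHom.mulSeries (G.map π) p)
          intro j hj
          rw [← mulSeries_map, PowerSeries.coeff_map]
          apply Ideal.Quotient.eq_zero_iff_mem.mpr
          simp only [I]
          rw [ih]
          exact coeff_mem_heightIdeal n G hj
        have key := leading_coeff_comm (p ^ h) (IsFGHom.map π hφ).1
          (constantCoeff_mulSeries (F.map π) p)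
          (IsFGHom.comm_mulSeries (IsFGHom.map π hφ) p) hFlow hGlow
        rw [← mulSeries_map, ← mulSeries_map, PowerSeries.coeff_map, PowerSeries.coeff_map,
          PowerSeries.coeff_map, ← map_mul, ← map_pow, ← map_mul, Ideal.Quotient.eq] at key
        obtain ⟨c, hc⟩ := hu.exists_left_inv
        simp only [heightIdeal]
        rw [← ih]
        apply le_antisymm
        · apply sup_le le_sup_left
          rw [Ideal.span_singleton_le_iff_mem]
          have e : PowerSeries.coeff (p ^ h) (mulSeries F p) =
              c * (PowerSeries.coeff 1 φ * PowerSeries.coeff (p ^ h) (mulSeries F p) -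
                PowerSeries.coeff 1 φ ^ p ^ h * PowerSeries.coeff (p ^ h) (mulSeries G p)) +
              (c * PowerSeries.coeff 1 φ ^ p ^ h) * PowerSeries.coeff (p ^ h) (mulSeries G p) := by
            linear_combination (-PowerSeries.coeff (p ^ h) (mulSeries F p)) * hc
          rw [e]
          exact Ideal.add_mem _ (Ideal.mem_sup_left (Ideal.mul_mem_left _ _ key))
            (Ideal.mem_sup_right (Ideal.mul_mem_left _ _ (Ideal.subset_span rfl)))
        · apply sup_le le_sup_left
          rw [Ideal.span_singleton_le_iff_mem]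
          have hc' : c ^ p ^ h * PowerSeries.coeff 1 φ ^ p ^ h = 1 := by
            rw [← mul_pow, hc, one_pow]
          have e : PowerSeries.coeff (p ^ h) (mulSeries G p) =
              -(c ^ p ^ h) * (PowerSeries.coeff 1 φ * PowerSeries.coeff (p ^ h) (mulSeries F p) -
                PowerSeries.coeff 1 φ ^ p ^ h * PowerSeries.coeff (p ^ h) (mulSeries G p)) +
              (c ^ p ^ h * PowerSeries.coeff 1 φ) * PowerSeries.coeff (p ^ h) (mulSeries F p) := by
            linear_combination (-PowerSeries.coeff (p ^ h) (mulSeries G p)) * hc'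
          rw [e]
          exact Ideal.add_mem _ (Ideal.mem_sup_left (Ideal.mul_mem_left _ _ key))
            (Ideal.mem_sup_right (Ideal.mul_mem_left _ _ (Ideal.subset_span rfl)))

end Crest.Agent.R227
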