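import Crest.Agent.R227.TrAux

/-!
# R227 / Transfer (task TRANSFER)
-/

set_option autoImplicit false

noncomputable section

namespace Crest.Agent.R227

open Crest.LubinTate MvPowerSeries Topology

variable (p : ℕ) [Fact p.Prime] (n : ℕ)

/-! ### Task TRANSFER -/

/-- the comparison map `ω : E₀ → E₀` and the isomorphism `Λ : ω_* H → H1` -/
theorem exists_omega (Γ : FormalGroup (GaloisField p n))
    (H : FormalGroup (LTRing p n)) (hH : IsUniversalDeformation p n Γ H)
    {lam mu : PowerSeries (GaloisField p n)} (hlam : IsFGHom Γ (Fn p n) lam)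
    (hmu : IsFGHom (Fn p n) Γ mu) (hu : IsUnit (PowerSeries.coeff 1 mu))
    (h1 : (PowerSeries.subst lam mu : PowerSeries (GaloisField p n)) = PowerSeries.X) :
    ∃ (ω : LTRing p n →ₐ[WittVector p (GaloisField p n)] LTRing p n)
      (Λ : PowerSeries (LTRing p n)),
      (LTRing.residue p n).comp ω.toRingHom = LTRing.residue p n ∧
      IsFGHom (H.map ω.toRingHom) (H1 p n) Λ ∧
      PowerSeries.map (LTRing.residue p n) Λ = lam := by
  obtain ⟨H1', μ, hμ, hred, hμu, hμr⟩ := LT.exists_lift_iso (LTRing.residue p n)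
    (residue_surjective p n) (ker_residue p n) hmu hu (H1 p n) (hz_residue p n)
  obtain ⟨ω, ⟨hω, θ, hθ, hθX⟩, _⟩ := hH.2 (LTRing p n) inferInstance (LTRing.residue p n)
    (residue_surjective p n) (ker_residue p n) (residue_comp_algebraMap p n) H1' hred
  obtain ⟨ν, hν, hν1, hν2, hνu⟩ := IsFGHom.exists_inv hμ hμu
  have hνr : PowerSeries.map (LTRing.residue p n) ν = lam :=
    LT.map_inv (LTRing.residue p n) hμ.1 hlam.1 hmu.1 hν1 h1 hμr
  refine ⟨ω, PowerSeries.subst θ ν, hω, IsFGHom.comp hθ hν, ?_⟩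
  rw [LT.ps_map_subst _ θ ν hθ.1, hθX, hνr, PowerSeries.X_subst]

/-- `ω` is bijective -/
theorem omega_bijective (hn : 1 ≤ n) (H : FormalGroup (LTRing p n)) [H.IsComm]
    (ω : LTRing p n →ₐ[WittVector p (GaloisField p n)] LTRing p n)
    {Λ : PowerSeries (LTRing p n)}
    (hω : (LTRing.residue p n).comp ω.toRingHom = LTRing.residue p n)
    (hΛ : IsFGHom (H.map ω.toRingHom) (H1 p n) Λ) (hu : IsUnit (PowerSeries.coeff 1 Λ)) :
    Function.Bijective ω.toRingHom := by
  have : (H.map ω.toRingHom).IsComm := LT.map_isComm H _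
  have h1 : heightIdeal p n (H.map ω.toRingHom) n = IsLocalRing.maximalIdeal (LTRing p n) := by
    rw [heightIdeal_iso n _ _ hΛ hu, heightIdeal_H1 p n hn n le_rfl, II_n_eq_max p n hn]
  rw [heightIdeal_map] at h1
  have h2 : heightIdeal p n H n ≤ IsLocalRing.maximalIdeal (LTRing p n) := by
    apply IsLocalRing.le_maximalIdeal
    intro h
    rw [h, Ideal.map_top] at h1
    exact (IsLocalRing.maximalIdeal.isMaximal (LTRing p n)).ne_top h1.symm
  have hmap : (IsLocalRing.maximalIdeal (LTRing p n)).map ω.toRingHom =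
      IsLocalRing.maximalIdeal (LTRing p n) := by
    apply le_antisymm
    · rw [Ideal.map_le_iff_le_comap]
      intro x hx
      rw [← ker_residue, RingHom.mem_ker] at hx
      rw [Ideal.mem_comap, ← ker_residue, RingHom.mem_ker, ← RingHom.comp_apply, hω, hx]
    · rw [← h1]
      exact Ideal.map_mono (h1 ▸ h2)
  have hsurj : Function.Surjective ω.toRingHom := by
    have : IsHausdorff (Ideal.map ω.toRingHom (IsLocalRing.maximalIdeal (LTRing p n)))
        (LTRing p n) := by
      rw [hmap]; infer_instance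
    apply surjective_of_mk_map_comp_surjective (I := IsLocalRing.maximalIdeal (LTRing p n))
    intro y
    obtain ⟨y, rfl⟩ := Ideal.Quotient.mk_surjective y
    refine ⟨algebraMap (WittVector p (GaloisField p n)) (LTRing p n)
      (MvPowerSeries.constantCoeff y), ?_⟩
    rw [RingHom.comp_apply, Ideal.Quotient.eq, hmap, ← ker_residue, RingHom.mem_ker, map_sub]
    have : ω.toRingHom (algebraMap (WittVector p (GaloisField p n)) (LTRing p n)
      (MvPowerSeries.constantCoeff y)) = algebraMap _ _ (MvPowerSeries.constantCoeff y) :=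
        ω.commutes _
    rw [this]
    simp [LTRing.residue, MvPowerSeries.algebraMap_apply]
  exact ⟨injective_of_surjective_noeth _ hsurj, hsurj⟩

/-- transport of stability -/
theorem stable_transfer (F1 F2 : FormalGroup (GaloisField p n))
    (L1 L2 : FormalGroup (LTRing p n))
    (a b : LTRing p n →ₐ[WittVector p (GaloisField p n)] LTRing p n)
    (hab : a.comp b = AlgHom.id _ _) (hba : b.comp a = AlgHom.id _ _)
    (ha : (LTRing.residue p n).comp a.toRingHom = LTRing.residue p n)
    {Λ : PowerSeries (LTRing p n)} (hΛ : IsFGHom (L1.map a.toRingHom) L2 Λ)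
    (hu : IsUnit (PowerSeries.coeff 1 Λ)) {lam mu : PowerSeries (GaloisField p n)}
    (hΛr : PowerSeries.map (LTRing.residue p n) Λ = lam)
    (hlam : IsFGHom F1 F2 lam) (hmu : IsFGHom F2 F1 mu)
    (h1 : (PowerSeries.subst lam mu : PowerSeries (GaloisField p n)) = PowerSeries.X)
    (h2 : (PowerSeries.subst mu lam : PowerSeries (GaloisField p n)) = PowerSeries.X)
    (M : ℕ) (J : Ideal (LTRing p n)) (hJ : IsStableIdeal p n F1 L1 M J) :
    IsStableIdeal p n F2 L2 M (J.comap b.toRingHom) := by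
  have hb : (LTRing.residue p n).comp b.toRingHom = LTRing.residue p n := by
    ext x
    have e1 : a (b x) = x := by
      have := DFunLike.congr_fun hab x
      simpa using this
    have e2 := DFunLike.congr_fun ha (b x)
    rw [RingHom.comp_apply] at e2 ⊢
    exact e2.symm.trans (congrArg _ e1)
  have hlu : PowerSeries.coeff 1 lam * PowerSeries.coeff 1 mu = 1 := by
    rw [← LT.ps_coeff_one_subst mu lam hmu.1 hlam.1, h2, PowerSeries.coeff_one_X]
  intro g2 φ2 hg2 hgM hφ2
  obtain ⟨hφ2r, θ2, hθ2, hθ2r⟩ := hφ2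
  have hg20 : PowerSeries.constantCoeff g2 = 0 := hg2.1.1
  obtain ⟨N, hN, hN1, hN2, hNu⟩ := IsFGHom.exists_inv hΛ hu
  have hNr : PowerSeries.map (LTRing.residue p n) N = mu :=
    LT.map_inv (LTRing.residue p n) hΛ.1 hmu.1 hlam.1 hN1 h2 hΛr
  -- the composite `(L1.map a).map φ2 → L2.map φ2 → L2 → L1.map a`
  have hΛφ := IsFGHom.map φ2.toRingHom hΛ
  have hθ' := IsFGHom.comp (IsFGHom.comp hΛφ hθ2) hN
  have hθ1 := IsFGHom.map b.toRingHom hθ'
  have eL : (L1.map a.toRingHom).map b.toRingHom = L1 := by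
    rw [LT.map_map]
    have : b.toRingHom.comp a.toRingHom = RingHom.id _ :=
      RingHom.ext fun x => DFunLike.congr_fun hba x
    rw [this, LT.map_id]
  have eS : ((L1.map a.toRingHom).map φ2.toRingHom).map b.toRingHom =
      L1.map (b.comp (φ2.comp a)).toRingHom := by
    rw [LT.map_map, LT.map_map]
    rfl
  rw [eL, eS] at hθ1
  have hφ1r : (LTRing.residue p n).comp (b.comp (φ2.comp a)).toRingHom = LTRing.residue p n := by
    ext x
    have e1 := DFunLike.congr_fun hb (φ2 (a x))
    have e2 := DFunLike.congr_fun hφ2r (a x)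
    have e3 := DFunLike.congr_fun ha x
    exact e1.trans (e2.trans e3)
  have hstab : IsStabilizerMap p n L1
      (PowerSeries.subst (PowerSeries.subst lam g2 : PowerSeries (GaloisField p n)) mu)
      (b.comp (φ2.comp a)) := by
    refine ⟨hφ1r, _, hθ1, ?_⟩
    rw [LT.ps_map_map, hb, LT.ps_map_subst _ _ N (IsFGHom.comp hΛφ hθ2).1, hNr,
      LT.ps_map_subst _ _ θ2 hΛφ.1, hθ2r, LT.ps_map_map, hφ2r, hΛr]
  have hcomp : IsFGHom F1 F1
      (PowerSeries.subst (PowerSeries.subst lam g2 : PowerSeries (GaloisField p n)) mu) :=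
    IsFGHom.comp (IsFGHom.comp hlam hg2.1) hmu
  have haut : IsFGAut F1
      (PowerSeries.subst (PowerSeries.subst lam g2 : PowerSeries (GaloisField p n)) mu) := by
    refine ⟨hcomp, ?_⟩
    rw [LT.ps_coeff_one_subst _ mu (LT.ps_constantCoeff_subst lam g2 hlam.1 hg20) hmu.1,
      LT.ps_coeff_one_subst lam g2 hlam.1 hg20]
    have : PowerSeries.coeff 1 mu * (PowerSeries.coeff 1 g2 * PowerSeries.coeff 1 lam) =
        PowerSeries.coeff 1 g2 := by
      linear_combination (PowerSeries.coeff 1 g2) * hlu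
    rw [this]
    exact hg2.2
  have hcongr := LT.conj_congr_X M mu lam g2 hmu.1 hlam.1 hg20 h1 hgM
  have key := hJ _ _ haut hcongr hstab
  rw [Ideal.comap_comap]
  have e : b.toRingHom.comp φ2.toRingHom =
      (b.comp (φ2.comp a)).toRingHom.comp b.toRingHom := by
    refine RingHom.ext fun x => ?_
    have e1 : a (b x) = x := DFunLike.congr_fun hab x
    change b (φ2 x) = b (φ2 (a (b x)))
    rw [e1]
  rw [e, ← Ideal.comap_comap, key]

/-- `H1` is a universal deformation of `Fn` -/
theorem universal_H1 (Γ : FormalGroup (GaloisField p n))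
    (H : FormalGroup (LTRing p n)) (hH : IsUniversalDeformation p n Γ H)
    {lam mu : PowerSeries (GaloisField p n)} (hlam : IsFGHom Γ (Fn p n) lam)
    (hmu : IsFGHom (Fn p n) Γ mu)
    (h1 : (PowerSeries.subst lam mu : PowerSeries (GaloisField p n)) = PowerSeries.X)
    (h2 : (PowerSeries.subst mu lam : PowerSeries (GaloisField p n)) = PowerSeries.X)
    (a b : LTRing p n →ₐ[WittVector p (GaloisField p n)] LTRing p n)
    (hab : a.comp b = AlgHom.id _ _) (hba : b.comp a = AlgHom.id _ _)
    (ha : (LTRing.residue p n).comp a.toRingHom = LTRing.residue p n)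
    {Λ : PowerSeries (LTRing p n)} (hΛ : IsFGHom (H.map a.toRingHom) (H1 p n) Λ)
    (hu : IsUnit (PowerSeries.coeff 1 Λ))
    (hΛr : PowerSeries.map (LTRing.residue p n) Λ = lam) :
    IsUniversalDeformation p n (Fn p n) (H1 p n) := by
  refine ⟨hz_residue p n, ?_⟩
  intro B _ _ _ _ hcomplete r hr hker hrW G hG
  have hlu : PowerSeries.coeff 1 lam * PowerSeries.coeff 1 mu = 1 := by
    rw [← LT.ps_coeff_one_subst mu lam hmu.1 hlam.1, h2, PowerSeries.coeff_one_X]
  have hmuu : IsUnit (PowerSeries.coeff 1 mu) :=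
    IsUnit.of_mul_eq_one _ (by rw [mul_comm]; exact hlu)
  obtain ⟨G', μ, hμ, hG', hμu, hμr⟩ := LT.exists_lift_iso r hr hker hmu hmuu G hG
  obtain ⟨ν, hν, hν1, hν2, hνu⟩ := IsFGHom.exists_inv hμ hμu
  have hνr : PowerSeries.map r ν = lam :=
    LT.map_inv r hμ.1 hlam.1 hmu.1 hν1 h1 hμr
  obtain ⟨φ, ⟨hφr, θ, hθ, hθX⟩, huniq⟩ := hH.2 B hcomplete r hr hker hrW G' hG'
  have hb : (LTRing.residue p n).comp b.toRingHom = LTRing.residue p n := by
    ext x
    have e1 : a (b x) = x := by
      have := DFunLike.congr_fun hab x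
      simpa using this
    have e2 := DFunLike.congr_fun ha (b x)
    rw [RingHom.comp_apply] at e2 ⊢
    exact e2.symm.trans (congrArg _ e1)
  refine ⟨φ.comp b, ⟨?_, ?_⟩, ?_⟩
  · ext x
    exact (DFunLike.congr_fun hφr (b x)).trans (DFunLike.congr_fun hb x)
  · -- `H1.map (φ b) → H.map φ → G' → G`
    have hψr : r.comp (φ.comp b).toRingHom = LTRing.residue p n := by
      ext x
      exact (DFunLike.congr_fun hφr (b x)).trans (DFunLike.congr_fun hb x)
    have e1 : (H.map a.toRingHom).map (φ.comp b).toRingHom = H.map φ.toRingHom := by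
      rw [LT.map_map]
      congr 1
      ext x
      have := DFunLike.congr_fun hba x
      change φ (b (a x)) = φ x
      have e1 : b (a x) = x := by simpa using this
      rw [e1]
    have hΛψ := IsFGHom.map (φ.comp b).toRingHom hΛ
    rw [e1] at hΛψ
    have hΛψu : IsUnit (PowerSeries.coeff 1 (PowerSeries.map (φ.comp b).toRingHom Λ)) := by
      rw [PowerSeries.coeff_map]
      exact hu.map _
    obtain ⟨N, hN, hN1, hN2, hNu⟩ := IsFGHom.exists_inv hΛψ hΛψu
    have hNr : PowerSeries.map r N = mu := by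
      apply LT.map_inv r hΛψ.1 hmu.1 hlam.1 hN1 h2
      rw [LT.ps_map_map, hψr, hΛr]
    refine ⟨_, IsFGHom.comp (IsFGHom.comp hN hθ) hν, ?_⟩
    rw [LT.ps_map_subst _ _ ν (IsFGHom.comp hN hθ).1, hνr, LT.ps_map_subst _ _ θ hN.1, hNr, hθX,
      LT.ps_X_subst mu hmu.1, h2]
  · rintro ψ ⟨hψr, θ', hθ', hθ'X⟩
    have hφ' : ψ.comp a = φ := by
      apply huniq
      refine ⟨?_, ?_⟩
      · ext x
        exact (DFunLike.congr_fun hψr (a x)).trans (DFunLike.congr_fun ha x)
      · have hΛψ := IsFGHom.map ψ.toRingHom hΛ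
        have e1 : (H.map a.toRingHom).map ψ.toRingHom = H.map (ψ.comp a).toRingHom := by
          rw [LT.map_map]; rfl
        rw [e1] at hΛψ
        refine ⟨_, IsFGHom.comp (IsFGHom.comp hΛψ hθ') hμ, ?_⟩
        rw [LT.ps_map_subst _ _ μ (IsFGHom.comp hΛψ hθ').1, hμr, LT.ps_map_subst _ _ θ' hΛψ.1,
          hθ'X, LT.ps_map_map, hψr, hΛr, LT.ps_X_subst lam hlam.1, h1]
    rw [← hφ']
    ext x
    have := DFunLike.congr_fun hab x
    change ψ x = ψ (a (b x))
    have e1 : a (b x) = x := by simpa using this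
    rw [e1]

/-- Reduction of the theorem to the standard pair `(Fn, H1)`. -/
theorem transfer (hn : 1 ≤ n) (Γ : FormalGroup (GaloisField p n)) [Γ.IsComm]
    (hΓ : mulSeries Γ p = PowerSeries.X ^ (p ^ n))
    (H : FormalGroup (LTRing p n)) [H.IsComm] (hH : IsUniversalDeformation p n Γ H)
    (hstd : IsUniversalDeformation p n (Fn p n) (H1 p n) →
      ∀ M : ℕ, 1 ≤ M → Concl p n (Fn p n) (H1 p n) M)
    (M : ℕ) (hM : 1 ≤ M) : Concl p n Γ H M := by
  obtain ⟨lam, hlam, hlam1⟩ := exists_lam p n hn Γ hΓ H hH.1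
  obtain ⟨mu, hmu, h1, h2, hmuu⟩ := IsFGHom.exists_inv hlam (by rw [hlam1]; exact isUnit_one)
  obtain ⟨ω, Λ, hω, hΛ, hΛr⟩ := exists_omega p n Γ H hH hlam hmu hmuu h1
  have hu : IsUnit (PowerSeries.coeff 1 Λ) := by
    apply LT.isUnit_of_residue (LTRing.residue p n) (ker_residue p n)
    rw [← PowerSeries.coeff_map, hΛr, hlam1]
    exact one_ne_zero
  have hbij := omega_bijective p n hn H ω hω hΛ hu
  let e : LTRing p n ≃ₐ[WittVector p (GaloisField p n)] LTRing p n := AlgEquiv.ofBijective ω hbij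
  let b : LTRing p n →ₐ[WittVector p (GaloisField p n)] LTRing p n := e.symm.toAlgHom
  have hab : ω.comp b = AlgHom.id _ _ := AlgHom.ext fun x => e.apply_symm_apply x
  have hba : b.comp ω = AlgHom.id _ _ := AlgHom.ext fun x => e.symm_apply_apply x
  have hU := universal_H1 p n Γ H hH hlam hmu h1 h2 ω b hab hba hω hΛ hu hΛr
  obtain ⟨hC1, hC2⟩ := hstd hU M hM
  have : (H.map ω.toRingHom).IsComm := LT.map_isComm H _
  -- the transport of ideals
  have hab' : ω.toRingHom.comp b.toRingHom = RingHom.id _ :=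
    RingHom.ext fun x => DFunLike.congr_fun hab x
  have hba' : b.toRingHom.comp ω.toRingHom = RingHom.id _ :=
    RingHom.ext fun x => DFunLike.congr_fun hba x
  have hb : (LTRing.residue p n).comp b.toRingHom = LTRing.residue p n := by
    have e1 := congrArg (fun f => f.comp b.toRingHom) hω
    simp only [RingHom.comp_assoc] at e1
    rw [hab', RingHom.comp_id] at e1
    exact e1.symm
  have hTT : ∀ J : Ideal (LTRing p n), (J.comap b.toRingHom).comap ω.toRingHom = J := by
    intro J
    rw [Ideal.comap_comap, hba', Ideal.comap_id]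
  have hTT' : ∀ J : Ideal (LTRing p n), (J.comap ω.toRingHom).comap b.toRingHom = J := by
    intro J
    rw [Ideal.comap_comap, hab', Ideal.comap_id]
  have hht : ∀ h : ℕ, (heightIdeal p n H h).comap b.toRingHom = heightIdeal p n (H1 p n) h := by
    intro h
    rw [← heightIdeal_iso n _ _ hΛ hu, heightIdeal_map]
    apply le_antisymm
    · intro x hx
      rw [Ideal.mem_comap] at hx
      have := Ideal.mem_map_of_mem ω.toRingHom hx
      rwa [← RingHom.comp_apply, hab', RingHom.id_apply] at this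
    · rw [Ideal.map_le_iff_le_comap, hTT]
  have hst : ∀ J : Ideal (LTRing p n), IsStableIdeal p n Γ H M J ↔
      IsStableIdeal p n (Fn p n) (H1 p n) M (J.comap b.toRingHom) := by
    intro J
    constructor
    · intro hJ
      exact stable_transfer p n Γ (Fn p n) H (H1 p n) ω b hab hba hω hΛ hu hΛr hlam hmu h1 h2 M J hJ
    · intro hJ
      -- inverse data
      obtain ⟨N, hN, hN1, hN2, hNu⟩ := IsFGHom.exists_inv hΛ hu
      have hNr : PowerSeries.map (LTRing.residue p n) N = mu :=
        LT.map_inv (LTRing.residue p n) hΛ.1 hmu.1 hlam.1 hN1 h2 hΛr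
      have hNb := IsFGHom.map b.toRingHom hN
      rw [LT.map_map, hba', LT.map_id] at hNb
      have hNbr : PowerSeries.map (LTRing.residue p n) (PowerSeries.map b.toRingHom N) = mu := by
        rw [LT.ps_map_map, hb, hNr]
      have hNbu : IsUnit (PowerSeries.coeff 1 (PowerSeries.map b.toRingHom N)) := by
        rw [PowerSeries.coeff_map]
        exact hNu.map _
      have := stable_transfer p n (Fn p n) Γ (H1 p n) H b ω hba hab hb hNb hNbu hNbr hmu hlam
        h2 h1 M _ hJ
      rwa [hTT] at this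
  have hprime : ∀ J : Ideal (LTRing p n), J.IsPrime ↔ (J.comap b.toRingHom).IsPrime := by
    intro J
    constructor
    · intro hJ
      exact Ideal.comap_isPrime _ _
    · intro hJ
      rw [← hTT J]
      exact Ideal.comap_isPrime _ _
  have hrad : ∀ J : Ideal (LTRing p n), J.IsRadical ↔ (J.comap b.toRingHom).IsRadical := by
    intro J
    constructor
    · intro hJ
      exact hJ.comap _
    · intro hJ
      rw [← hTT J]
      exact hJ.comap _
  have heq : ∀ (J : Ideal (LTRing p n)) (h : ℕ), J = heightIdeal p n H h ↔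
      J.comap b.toRingHom = heightIdeal p n (H1 p n) h := by
    intro J h
    constructor
    · rintro rfl
      exact hht h
    · intro hJ
      rw [← hTT J, hJ, ← hht h, hTT]
  have htop : ∀ J : Ideal (LTRing p n), J = ⊤ ↔ J.comap b.toRingHom = ⊤ := by
    intro J
    constructor
    · rintro rfl
      exact Ideal.comap_top
    · intro hJ
      rw [← hTT J, hJ, Ideal.comap_top]
  refine ⟨fun P => ?_, fun J => ?_⟩
  · rw [hst, hprime, hC1]
    simp only [heq]
  · rw [hst, hrad, hC2, ← htop]
    simp only [heq]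

end Crest.Agent.R227
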