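import Crest.Agent.R227.FE

/-!
# R227 / WittId : the universal congruence behind additivity of `L_h`

For `F = hz p N (sp h)` over `ℤ` (logarithm `∑ p^{-j} X^{q^j}`, `q = p^h`, `1 ≤ h ≤ N`) the series
`∑_{j ≤ i} p^j (F^{q^{i-j}} - X^{q^{i-j}} - Y^{q^{i-j}})` has order `≥ q^{i+1}`.
-/

set_option autoImplicit false
set_option linter.unusedSectionVars false

noncomputable section

namespace Crest.Agent.R227

open Crest.LubinTate MvPowerSeries

/-- the ideal of power series whose coefficients of degree `< D` vanish -/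
def Jd (σ R : Type*) [CommRing R] (D : ℕ) : Ideal (MvPowerSeries σ R) where
  carrier := {f | ∀ d : σ →₀ ℕ, d.degree < D → coeff d f = 0}
  add_mem' := by
    intro f g hf hg d hd
    rw [map_add, hf d hd, hg d hd, add_zero]
  zero_mem' := by
    intro d _
    rw [map_zero]
  smul_mem' := by
    classical
    intro c f hf d hd
    rw [smul_eq_mul, coeff_mul]
    refine Finset.sum_eq_zero fun x hx => ?_
    rw [hf x.2, mul_zero]
    rw [Finset.HasAntidiagonal.mem_antidiagonal] at hx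
    have : x.1.degree + x.2.degree = d.degree := by rw [← hx, map_add]
    omega

theorem mem_Jd {σ R : Type*} [CommRing R] (D : ℕ) (f : MvPowerSeries σ R) :
    f ∈ Jd σ R D ↔ ∀ d : σ →₀ ℕ, d.degree < D → coeff d f = 0 := Iff.rfl

theorem pow_mem_Jd {σ R : Type*} [CommRing R] (D : ℕ) (f : MvPowerSeries σ R)
    (hf : constantCoeff f = 0) : f ^ D ∈ Jd σ R D := by
  intro d hd
  apply coeff_of_lt_order
  refine lt_of_lt_of_le ?_ (le_order_pow_of_constantCoeff_eq_zero D hf)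
  exact_mod_cast hd

variable (p : ℕ) [Fact p.Prime]

theorem hle_sp_mul (N h : ℕ) (h1 : 1 ≤ h) (hN : h ≤ N) {B : Type*} [CommRing B] [Algebra ℚ B]
    (j : ℕ) : (p : B) ^ j * hle p N (sp h : ℕ → B) (h * j) = 1 := by
  induction j with
  | zero => simp [hle, hl]
  | succ j ih =>
    obtain ⟨k, hk⟩ : ∃ k, h * (j + 1) = k + 1 := ⟨h * (j + 1) - 1, by
      have : 0 < h * (j + 1) := by positivity
      omega⟩
    have h2 := hle_succ (p := p) N (sp h : ℕ → B) k
    have hkh : k - (h - 1) = h * j := by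
      have : h * (j + 1) = h * j + h := by ring
      omega
    have hkr : h - 1 ∈ Finset.range (k + 1) := by
      rw [Finset.mem_range, ← hk]
      have : h * (j + 1) = h * j + h := by ring
      omega
    rw [Finset.sum_eq_single_of_mem (h - 1) hkr] at h2
    · rw [if_pos (by omega), hkh, sp, if_pos (by omega), one_pow, mul_one] at h2
      rw [hk, pow_succ, mul_assoc, h2, ih]
    · intro i _ hi
      have h0 : (sp h : ℕ → B) (i + 1) = 0 := by rw [sp, if_neg (by omega)]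
      rw [h0, zero_pow (pow_ne_zero _ (Fact.out : p.Prime).ne_zero), mul_zero, ite_self]

/-- truncated logarithm -/
theorem X_pow_dvd_log_sub (N h : ℕ) (h1 : 1 ≤ h) (hN : h ≤ N) (i : ℕ) :
    (PowerSeries.X : PowerSeries ℚ) ^ (p ^ h) ^ (i + 1) ∣
      (p : PowerSeries ℚ) ^ i * logAt p N (sp h : ℕ → ℚ) -
        ∑ j ∈ Finset.range (i + 1), (p : PowerSeries ℚ) ^ (i - j) * PowerSeries.X ^ (p ^ h) ^ j := by
  have hp : p.Prime := Fact.out
  have hp1 := hp.one_lt
  have hpC : ∀ k : ℕ, (p : PowerSeries ℚ) ^ k = PowerSeries.C ((p : ℚ) ^ k) := by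
    intro k; simp
  rw [PowerSeries.X_pow_dvd_iff]
  intro m hm
  rw [map_sub, hpC, PowerSeries.coeff_C_mul, map_sum, sub_eq_zero]
  simp only [hpC, PowerSeries.coeff_C_mul, PowerSeries.coeff_X_pow]
  by_cases hmk : ∃ j, m = p ^ (h * j)
  · obtain ⟨j, rfl⟩ := hmk
    have hj : j < i + 1 := by
      rw [← pow_mul, Nat.pow_lt_pow_iff_right hp1] at hm
      exact Nat.lt_of_mul_lt_mul_left hm
    rw [logAt, FEAux.coeff_pow_pSeries, Finset.sum_eq_single_of_mem j (Finset.mem_range.2 hj)]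
    · rw [if_pos (by rw [pow_mul]), mul_one]
      have h3 := hle_sp_mul p N h h1 hN (B := ℚ) j
      have h4 : (p : ℚ) ^ i = (p : ℚ) ^ (i - j) * (p : ℚ) ^ j := by
        rw [← pow_add]; congr 1; omega
      rw [h4, mul_assoc, h3, mul_one]
    · intro j' _ hj'
      rw [if_neg, mul_zero]
      rw [← pow_mul]
      intro h5
      have h6 := Nat.pow_right_injective hp1 h5
      exact hj' (Nat.eq_of_mul_eq_mul_left (by omega) h6).symm
  · push Not at hmk
    rw [Finset.sum_eq_zero]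
    · by_cases hmk2 : ∃ k, m = p ^ k
      · obtain ⟨k, rfl⟩ := hmk2
        rw [logAt, FEAux.coeff_pow_pSeries, FEAux.hle_sp p N h h1, mul_zero]
        rintro ⟨j, rfl⟩
        exact hmk j rfl
      · push Not at hmk2
        rw [logAt, FEAux.coeff_pSeries_of_forall_ne _ _ hmk2, mul_zero]
    · intro j _
      rw [if_neg, mul_zero]
      rw [← pow_mul]
      exact hmk j

/-- the law over `ℤ` -/
abbrev FZ (N h : ℕ) : MvPowerSeries (Fin 2) ℤ := (hz p N (sp h : ℕ → ℤ)).toPowerSeries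

theorem FZ_map (N h : ℕ) {R : Type*} [CommRing R] :
    (FZ p N h).map (Int.castRingHom R) = (hz p N (sp h : ℕ → R)).toPowerSeries := by
  have h2 : (hz p N (sp h : ℕ → R)) = (hz p N (sp h : ℕ → ℤ)).map (Int.castRingHom R) := by
    rw [hz_map]
    congr 1
    ext1 i
    simp only [sp]
    split_ifs <;> simp
  rw [h2, FormalGroup.map_toPowerSeries]

theorem log_subst_mem (N h : ℕ) (h1 : 1 ≤ h) (hN : h ≤ N) (i : ℕ)
    (G : MvPowerSeries (Fin 2) ℚ) (hG : constantCoeff G = 0) :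
    (p : MvPowerSeries (Fin 2) ℚ) ^ i * PowerSeries.subst G (logAt p N (sp h : ℕ → ℚ)) -
        ∑ j ∈ Finset.range (i + 1), (p : MvPowerSeries (Fin 2) ℚ) ^ (i - j) * G ^ (p ^ h) ^ j ∈
      Jd (Fin 2) ℚ ((p ^ h) ^ (i + 1)) := by
  obtain ⟨c, hc⟩ := X_pow_dvd_log_sub p N h h1 hN i
  have hs := FEAux.hs hG
  have hpC : ∀ k : ℕ, (p : PowerSeries ℚ) ^ k = PowerSeries.C ((p : ℚ) ^ k) := by
    intro k; simp
  have hpC' : ∀ k : ℕ, (p : MvPowerSeries (Fin 2) ℚ) ^ k = C ((p : ℚ) ^ k) := by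
    intro k; simp
  have h3 := congrArg (PowerSeries.substAlgHom hs) hc
  simp only [map_sub, map_sum, map_mul, map_pow, map_natCast, PowerSeries.substAlgHom_X] at h3
  rw [PowerSeries.coe_substAlgHom] at h3
  rw [h3]
  exact Ideal.mul_mem_right _ _ (pow_mem_Jd _ _ hG)

/-- the truncated law -/
abbrev FD (N h D : ℕ) : MvPolynomial (Fin 2) ℤ := truncTotal D (FZ p N h)

/-- the universal polynomial -/
def UP (N h i : ℕ) : MvPolynomial (Fin 2) ℤ :=
  ∑ j ∈ Finset.range (i + 1), (p : MvPolynomial (Fin 2) ℤ) ^ (i - j) *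
    ((FD p N h ((p ^ h) ^ (i + 1))) ^ (p ^ h) ^ j - MvPolynomial.X 0 ^ (p ^ h) ^ j -
      MvPolynomial.X 1 ^ (p ^ h) ^ j)

theorem sub_truncTotal_mem {σ R : Type*} [Finite σ] [CommRing R] (D : ℕ) (f : MvPowerSeries σ R) :
    f - (truncTotal D f : MvPolynomial σ R) ∈ Jd σ R D := by
  intro d hd
  rw [map_sub, MvPolynomial.coeff_coe, coeff_truncTotal_eq_ite, if_pos hd, sub_self]

theorem pow_sub_pow_mem {A : Type*} [CommRing A] (I : Ideal A) {a b : A} (h : a - b ∈ I) (m : ℕ) :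
    a ^ m - b ^ m ∈ I := by
  obtain ⟨c, hc⟩ := sub_dvd_pow_sub_pow a b m
  rw [hc]
  exact I.mul_mem_right _ h

theorem coeff_UP (N h : ℕ) (h1 : 1 ≤ h) (hN : h ≤ N) (i : ℕ) (d : Fin 2 →₀ ℕ)
    (hd : d.degree < (p ^ h) ^ (i + 1)) : MvPolynomial.coeff d (UP p N h i) = 0 := by
  set D := (p ^ h) ^ (i + 1) with hD
  set J := Jd (Fin 2) ℚ D
  let Fq : MvPowerSeries (Fin 2) ℚ := (hz p N (sp h : ℕ → ℚ)).toPowerSeries
  have hF0 : constantCoeff Fq = 0 := (hz p N (sp h : ℕ → ℚ)).zero_constantCoeff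
  let Gq : MvPowerSeries (Fin 2) ℚ :=
    MvPowerSeries.map (Int.castRingHom ℚ) (FD p N h D : MvPowerSeries (Fin 2) ℤ)
  have hG : Fq - Gq ∈ J := by
    have h2 := sub_truncTotal_mem D (FZ p N h)
    intro e he
    have h3 := h2 e he
    have h4 : Fq - Gq = MvPowerSeries.map (Int.castRingHom ℚ)
        (FZ p N h - (FD p N h D : MvPowerSeries (Fin 2) ℤ)) := by
      rw [map_sub, FZ_map]
    rw [h4, coeff_map, h3, map_zero]
  -- the universal series
  have key : ∑ j ∈ Finset.range (i + 1), (p : MvPowerSeries (Fin 2) ℚ) ^ (i - j) *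
      (Gq ^ (p ^ h) ^ j - X 0 ^ (p ^ h) ^ j - X 1 ^ (p ^ h) ^ j) ∈ J := by
    have e1 := log_subst_mem p N h h1 hN i Fq hF0
    have e2 := log_subst_mem p N h h1 hN i (X 0) (by simp)
    have e3 := log_subst_mem p N h h1 hN i (X 1) (by simp)
    have e4 : PowerSeries.subst Fq (logAt p N (sp h : ℕ → ℚ)) = _ := log_hz p N (sp h : ℕ → ℚ)
    have e5 : ∑ j ∈ Finset.range (i + 1), (p : MvPowerSeries (Fin 2) ℚ) ^ (i - j) *
        (Fq ^ (p ^ h) ^ j - Gq ^ (p ^ h) ^ j) ∈ J :=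
      Ideal.sum_mem _ fun j _ => Ideal.mul_mem_left _ _ (pow_sub_pow_mem J hG _)
    have e6 : ∑ j ∈ Finset.range (i + 1), (p : MvPowerSeries (Fin 2) ℚ) ^ (i - j) *
      (Gq ^ (p ^ h) ^ j - X 0 ^ (p ^ h) ^ j - X 1 ^ (p ^ h) ^ j) =
        ((p : MvPowerSeries (Fin 2) ℚ) ^ i * PowerSeries.subst (X 0) (logAt p N (sp h : ℕ → ℚ)) -
          ∑ j ∈ Finset.range (i + 1), (p : MvPowerSeries (Fin 2) ℚ) ^ (i - j) *
            X 0 ^ (p ^ h) ^ j) +
        ((p : MvPowerSeries (Fin 2) ℚ) ^ i * PowerSeries.subst (X 1) (logAt p N (sp h : ℕ → ℚ)) -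
          ∑ j ∈ Finset.range (i + 1), (p : MvPowerSeries (Fin 2) ℚ) ^ (i - j) *
            X 1 ^ (p ^ h) ^ j) -
        ((p : MvPowerSeries (Fin 2) ℚ) ^ i * PowerSeries.subst Fq (logAt p N (sp h : ℕ → ℚ)) -
          ∑ j ∈ Finset.range (i + 1), (p : MvPowerSeries (Fin 2) ℚ) ^ (i - j) *
            Fq ^ (p ^ h) ^ j) -
        ∑ j ∈ Finset.range (i + 1), (p : MvPowerSeries (Fin 2) ℚ) ^ (i - j) *
          (Fq ^ (p ^ h) ^ j - Gq ^ (p ^ h) ^ j) := by
      rw [e4]
      simp only [mul_sub, Finset.sum_sub_distrib]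
      ring
    rw [e6]
    exact J.sub_mem (J.sub_mem (J.add_mem e2 e3) e1) e5
  have h5 := key d hd
  have h6 : ∑ j ∈ Finset.range (i + 1), (p : MvPowerSeries (Fin 2) ℚ) ^ (i - j) *
      (Gq ^ (p ^ h) ^ j - X 0 ^ (p ^ h) ^ j - X 1 ^ (p ^ h) ^ j) =
      MvPowerSeries.map (Int.castRingHom ℚ) ((UP p N h i : MvPolynomial (Fin 2) ℤ) :
        MvPowerSeries (Fin 2) ℤ) := by
    rw [UP, ← MvPolynomial.coeToMvPowerSeries.ringHom_apply, map_sum, map_sum]
    refine Finset.sum_congr rfl fun j _ => ?_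
    simp only [map_mul, map_pow, map_sub, map_natCast]
    simp only [MvPolynomial.coeToMvPowerSeries.ringHom_apply, MvPolynomial.coe_X, map_X]
    rfl
  rw [h6, coeff_map, MvPolynomial.coeff_coe] at h5
  simpa using h5

end Crest.Agent.R227
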