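import Crest.Agent.R227.WittQ
import Mathlib

/-!
# R227 / WittP : the series `Lp n z = ∑_{i ≥ 0} p^i [z^{q^{-i}}]`, `q = p^n`
-/

set_option autoImplicit false

noncomputable section

namespace Crest.Agent.R227

open WittVector

variable (p : ℕ) [Fact p.Prime] {O : Type*} [CommRing O] [CharP O p] [PerfectRing O p]

/-- the `p^k`-th root -/
abbrev proot (k : ℕ) (z : O) : O := (iterateFrobeniusEquiv O p k).symm z

namespace WittPAux

theorem proot_pow_self (k : ℕ) (z : O) : proot p k z ^ p ^ k = z := by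
  have := (iterateFrobeniusEquiv O p k).apply_symm_apply z
  rwa [iterateFrobeniusEquiv_def] at this

theorem proot_eq (k : ℕ) {y z : O} (h : y ^ p ^ k = z) : proot p k z = y := by
  rw [proot, RingEquiv.symm_apply_eq, iterateFrobeniusEquiv_def, h]

theorem pow_inj (k : ℕ) {x y : O} (h : x ^ p ^ k = y ^ p ^ k) : x = y := by
  rw [← proot_eq p k (rfl : x ^ p ^ k = _), ← proot_eq p k (rfl : y ^ p ^ k = _), h]

theorem symm_pow (k : ℕ) (z : O) : (((_root_.frobeniusEquiv O p).symm ^ k) z) ^ p ^ k = z := by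
  induction k generalizing z with
  | zero => simp
  | succ k ih =>
    rw [pow_succ, pow_succ p, pow_mul]
    have h1 : ((_root_.frobeniusEquiv O p).symm ^ k * (_root_.frobeniusEquiv O p).symm) z =
      ((_root_.frobeniusEquiv O p).symm ^ k) ((_root_.frobeniusEquiv O p).symm z) := rfl
    rw [h1, ih]
    exact _root_.frobeniusEquiv_symm_pow_p O p z

end WittPAux

open WittPAux

/-- `∑_{i ≥ 0} p^i [z^{q^{-i}}]` -/
def Lp (n : ℕ) (z : O) : WittVector p O := WittVector.mk p fun i => proot p ((n - 1) * i) z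

/-- partial sums -/
theorem Lp_sub_sum (n : ℕ) (hn : 1 ≤ n) (z : O) (k : ℕ) :
    (p : WittVector p O) ^ (k + 1) ∣
      Lp p n z - ∑ i ∈ Finset.range (k + 1),
        (p : WittVector p O) ^ i * teichmuller p (proot p (n * i) z) := by
  have h := WittVector.dvd_sub_sum_teichmuller_iterateFrobeniusEquiv_coeff (Lp p n z) k
  rw [Nat.range_succ_eq_Iic]
  convert h using 3 with i hi
  rw [mul_comm]
  congr 2
  apply proot_eq
  have h2 := symm_pow p i ((Lp p n z).coeff i)
  have h3 : n * i = i + (n - 1) * i := by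
    obtain ⟨m, rfl⟩ := Nat.exists_eq_add_of_le hn
    rw [Nat.add_sub_cancel_left]; ring
  rw [h3, pow_add, pow_mul, h2, Lp, WittVector.coeff_mk, proot_pow_self]

theorem Lp_pow (n : ℕ) (hn : 1 ≤ n) (z : O) :
    Lp p n (z ^ p ^ n) = p * Lp p n z + teichmuller p (z ^ p ^ n) := by
  ext i
  rw [coeff_add_of_disjoint]
  · rcases i with _ | i
    · rw [mul_comm, WittVector.mul_charP_coeff_zero, zero_add, teichmuller_coeff_zero, Lp,
        WittVector.coeff_mk]
      apply proot_eq
      rw [mul_zero, pow_zero, pow_one]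
    · rw [mul_comm, WittVector.mul_charP_coeff_succ, teichmuller_coeff_pos p _ _ (Nat.succ_pos i),
        add_zero, Lp, Lp, WittVector.coeff_mk, WittVector.coeff_mk]
      apply proot_eq
      have h3 : (n - 1) * (i + 1) + 1 = (n - 1) * i + n := by
        obtain ⟨m, rfl⟩ := Nat.exists_eq_add_of_le hn
        rw [Nat.add_sub_cancel_left]; ring
      rw [← pow_mul, ← pow_succ', h3, pow_add, pow_mul, proot_pow_self]
  · intro i
    rcases i with _ | i
    · left; rw [mul_comm, WittVector.mul_charP_coeff_zero]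
    · right; exact teichmuller_coeff_pos p _ _ (Nat.succ_pos i)

theorem Lp_smul (n : ℕ) (hn : 1 ≤ n) (c z : O) (hc : c ^ p ^ n = c) :
    Lp p n (c * z) = teichmuller p c * Lp p n z := by
  ext i
  rw [teichmuller_mul_coeff, Lp, Lp, WittVector.coeff_mk, WittVector.coeff_mk]
  apply proot_eq
  rw [mul_pow, proot_pow_self, ← pow_mul, ← pow_add]
  congr 1
  have h3 : i + (n - 1) * i = n * i := by
    obtain ⟨m, rfl⟩ := Nat.exists_eq_add_of_le hn
    rw [Nat.add_sub_cancel_left]; ring
  rw [h3]
  clear h3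
  induction i with
  | zero => simp
  | succ i ih => rw [Nat.mul_succ, pow_add, pow_mul, ih, hc]

theorem frobenius_Lp (n : ℕ) (z : O) :
    WittVector.frobenius (Lp p n z) = Lp p n (z ^ p) := by
  ext i
  rw [coeff_frobenius_charP, Lp, Lp, WittVector.coeff_mk, WittVector.coeff_mk, proot, proot,
    map_pow]

end Crest.Agent.R227
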