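import Crest.Agent.R227.FPt
import Crest.Agent.R227.FE
import Crest.Agent.R227.WittRW
import Crest.Agent.R227.WittId

/-!
# R227 / WittL : additivity of `L_h` with respect to the Honda law
-/

set_option autoImplicit false
set_option linter.unusedSectionVars false
set_option linter.unusedVariables false

noncomputable section

namespace Crest.Agent.R227

open Crest.LubinTate MvPowerSeries Topology WittVector

variable (p : ℕ) [Fact p.Prime] {K : Type*} [NormedField K] [IsUltrametricDist K]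
  [CharP K p] [PerfectRing K p]

theorem norm_coe_Ob (a : Ob K) : ‖(a : K)‖ = ‖a‖ := rfl

theorem mk_teich_of_dvd (w z : Ob K) (h : w ∣ z) :
    Ideal.Quotient.mk (Iw p w) (teichmuller p z) = 0 := by
  rw [Ideal.Quotient.eq_zero_iff_mem, Iw, Ideal.mem_span_singleton]
  obtain ⟨c, rfl⟩ := h
  exact ⟨teichmuller p c, by rw [map_mul]⟩

theorem aeval_eq_zero_of_coeff (w a b : Ob K) (hw : w ≠ 0) (r : ℝ) (har : ‖a‖ ≤ r) (hbr : ‖b‖ ≤ r)
    (hr1 : r ≤ 1) (D : ℕ) (hr : r ^ D ≤ ‖w‖) (P : MvPolynomial (Fin 2) ℤ)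
    (hP : ∀ d : Fin 2 →₀ ℕ, d.degree < D → MvPolynomial.coeff d P = 0) :
    MvPolynomial.aeval ![Ideal.Quotient.mk (Iw p w) (teichmuller p a),
      Ideal.Quotient.mk (Iw p w) (teichmuller p b)] P = 0 := by
  have hr0 : 0 ≤ r := (norm_nonneg a).trans har
  rw [MvPolynomial.aeval_def, MvPolynomial.eval₂_eq']
  refine Finset.sum_eq_zero fun d hd => ?_
  have hdD : D ≤ d.degree := by
    by_contra hlt
    exact (MvPolynomial.mem_support_iff.1 hd) (hP d (by omega))
  have hdeg : d.degree = d 0 + d 1 := by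
    rw [Finsupp.degree_eq_sum, Fin.sum_univ_two]
  rw [Fin.prod_univ_two]
  simp only [Matrix.cons_val_zero, Matrix.cons_val_one]
  rw [← map_pow, ← map_pow, ← map_pow, ← map_pow, ← map_mul, ← map_mul, mk_teich_of_dvd, mul_zero]
  rw [Ob_dvd_iff _ _ hw, Ob_norm_mul, Ob_norm_pow, Ob_norm_pow]
  calc ‖a‖ ^ d 0 * ‖b‖ ^ d 1 ≤ r ^ d 0 * r ^ d 1 := by gcongr
    _ = r ^ d.degree := by rw [hdeg, pow_add]
    _ ≤ r ^ D := pow_le_pow_of_le_one hr0 hr1 hdD
    _ ≤ ‖w‖ := hr

theorem proot_pow_self {O : Type*} [CommRing O] [CharP O p] [PerfectRing O p] (k : ℕ) (z : O) :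
    proot p k z ^ p ^ k = z := by
  have := (iterateFrobeniusEquiv O p k).apply_symm_apply z
  rwa [iterateFrobeniusEquiv_def] at this

theorem proot_of_pow_eq {O : Type*} [CommRing O] [CharP O p] [PerfectRing O p] (k : ℕ) {y z : O}
    (h : y ^ p ^ k = z) : proot p k z = y := by
  rw [proot, RingEquiv.symm_apply_eq, iterateFrobeniusEquiv_def, h]

theorem norm_proot_pow (k : ℕ) (z : Ob K) : ‖proot p k z‖ ^ p ^ k = ‖z‖ := by
  rw [← Ob_norm_pow, proot_pow_self]

theorem norm_proot_lt_one (k : ℕ) (z : Ob K) (hz : ‖z‖ < 1) : ‖proot p k z‖ < 1 := by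
  have h := norm_proot_pow p k z
  by_contra hlt
  have h2 : 1 ≤ ‖proot p k z‖ ^ p ^ k := one_le_pow₀ (not_lt.1 hlt)
  rw [h] at h2
  exact absurd hz (not_lt.2 h2)

variable [CompleteSpace K]

theorem FPt.norm_lt_one {F : FormalGroup (Ob K)} (z : FPt F) : ‖z.val‖ < 1 :=
  (Ob_tn_iff _).1 z.tn

omit [CompleteSpace K] [IsUltrametricDist K] [PerfectRing K p] [NormedField K] [CharP K p] in
theorem hz_sp_frob (N h : ℕ) {R : Type*} [CommRing R] [CharP R p] (k : ℕ) :
    (hz p N (sp h : ℕ → R)).map (iterateFrobenius R p k) = hz p N (sp h : ℕ → R) := by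
  rw [hz_map]
  congr 1
  ext1 i
  simp only [sp]
  split_ifs <;> simp

/-- the Frobenius endomorphism on points -/
def frobPt (N h k : ℕ) : FPt (hz p N (sp h : ℕ → Ob K)) →+ FPt (hz p N (sp h : ℕ → Ob K)) :=
  FPt.frob p k (hz_sp_frob p N h k)

theorem frobPt_val (N h k : ℕ) (z : FPt (hz p N (sp h : ℕ → Ob K))) :
    (frobPt p N h k z).val = z.val ^ p ^ k := rfl

/-- root of a point -/
def rootPt (N h k : ℕ) (z : FPt (hz p N (sp h : ℕ → Ob K))) : FPt (hz p N (sp h : ℕ → Ob K)) :=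
  ⟨proot p k z.val, (Ob_tn_iff _).2 (norm_proot_lt_one p k _ (FPt.norm_lt_one z))⟩

theorem rootPt_val (N h k : ℕ) (z : FPt (hz p N (sp h : ℕ → Ob K))) :
    (rootPt p N h k z).val = proot p k z.val := rfl

theorem frobPt_rootPt (N h k : ℕ) (z : FPt (hz p N (sp h : ℕ → Ob K))) :
    frobPt p N h k (rootPt p N h k z) = z := by
  apply FPt.ext
  rw [frobPt_val, rootPt_val, proot_pow_self]

theorem rootPt_add (N h k : ℕ) (z z' : FPt (hz p N (sp h : ℕ → Ob K))) :
    proot p k (z + z').val = (rootPt p N h k z + rootPt p N h k z').val := by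
  apply proot_of_pow_eq
  rw [← frobPt_val, map_add, frobPt_rootPt, frobPt_rootPt]

/-- congruence modulo `p` of the Teichmüller lift of a formal sum -/
theorem teich_congr (N h : ℕ) (w : Ob K) (hw : w ≠ 0) (z z' : FPt (hz p N (sp h : ℕ → Ob K)))
    (r : ℝ) (hz : ‖z.val‖ ≤ r) (hz' : ‖z'.val‖ ≤ r) (D : ℕ) (hr : r ^ D ≤ ‖w‖) :
    (p : RQ p w) ∣ Ideal.Quotient.mk (Iw p w) (teichmuller p (z + z').val) -
      MvPolynomial.aeval ![Ideal.Quotient.mk (Iw p w) (teichmuller p z.val),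
        Ideal.Quotient.mk (Iw p w) (teichmuller p z'.val)] (FD p N h D) := by
  have hr0 : 0 ≤ r := (norm_nonneg _).trans hz
  -- the difference in `O`
  have h1 : w ∣ (z + z').val - MvPolynomial.aeval ![z.val, z'.val] (FD p N h D) := by
    rw [Ob_dvd_iff _ _ hw]
    refine le_trans ?_ hr
    have hlt : ∀ i, ‖(![z.val, z'.val] : Fin 2 → Ob K) i‖ < 1 := by
      intro i
      fin_cases i
      · exact FPt.norm_lt_one z
      · exact FPt.norm_lt_one z'
    have htn : ∀ i, IsTopologicallyNilpotent ((![z.val, z'.val] : Fin 2 → Ob K) i) :=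
      fun i => (Ob_tn_iff _).2 (hlt i)
    have hle : ∀ i, ‖(![z.val, z'.val] : Fin 2 → Ob K) i‖ ≤ r := by
      intro i
      fin_cases i
      · exact hz
      · exact hz'
    have h2 : MvPolynomial.aeval ![z.val, z'.val] (FD p N h D) =
        ev ![z.val, z'.val] (MvPowerSeries.map (Int.castRingHom (Ob K))
          (FD p N h D : MvPowerSeries (Fin 2) ℤ)) := by
      have h3 : MvPowerSeries.map (Int.castRingHom (Ob K))
          (FD p N h D : MvPowerSeries (Fin 2) ℤ) =
          ((MvPolynomial.map (Int.castRingHom (Ob K)) (FD p N h D) : MvPolynomial (Fin 2) (Ob K)) :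
            MvPowerSeries (Fin 2) (Ob K)) := by
        ext d
        rw [coeff_map, MvPolynomial.coeff_coe, MvPolynomial.coeff_coe, MvPolynomial.coeff_map]
      rw [h3, ev_coe htn, MvPolynomial.eval_map, MvPolynomial.aeval_def]
      rfl
    rw [FPt.val_add, h2, ← ev_sub htn]
    refine norm_ev_le_pow hlt r hr0 hle D _ ?_
    intro d hd
    rw [← FZ_map, ← map_sub, coeff_map, sub_truncTotal_mem D (FZ p N h) d hd, map_zero]
  obtain ⟨b, hb⟩ := h1
  -- lift to `W(O)`
  set A : WittVector p (Ob K) := teichmuller p (z + z').val -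
    MvPolynomial.aeval ![teichmuller p z.val, teichmuller p z'.val] (FD p N h D) with hA
  have h4 : WittVector.constantCoeff A = w * b := by
    have h50 : WittVector.constantCoeff (teichmuller p (z + z').val) = (z + z').val :=
      teichmuller_coeff_zero p _
    have h51 : WittVector.constantCoeff (MvPolynomial.aeval
        ![teichmuller p z.val, teichmuller p z'.val] (FD p N h D)) =
        MvPolynomial.aeval ![z.val, z'.val] (FD p N h D) := by
      have h5 := MvPolynomial.comp_aeval_apply (R := ℤ) (φ := (WittVector.constantCoeff :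
        WittVector p (Ob K) →+* Ob K).toIntAlgHom) (f := ![teichmuller p z.val,
          teichmuller p z'.val]) (FD p N h D)
      have h6 : (fun i => (WittVector.constantCoeff : WittVector p (Ob K) →+* Ob K).toIntAlgHom
          ((![teichmuller p z.val, teichmuller p z'.val] : Fin 2 → WittVector p (Ob K)) i)) =
          ![z.val, z'.val] := by
        funext i
        fin_cases i <;> simp [WittVector.constantCoeff]
      rw [h6] at h5
      exact h5
    rw [← hb, hA, map_sub, h50, h51]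
  have h7 : (p : WittVector p (Ob K)) ∣ A - teichmuller p w * teichmuller p b := by
    rw [p_dvd_iff_coeff_zero]
    have h8 : (A - teichmuller p w * teichmuller p b).coeff 0 =
      WittVector.constantCoeff (A - teichmuller p w * teichmuller p b) := rfl
    rw [h8, map_sub, map_mul, h4]
    simp [WittVector.constantCoeff]
  have h9 : Ideal.Quotient.mk (Iw p w) (teichmuller p (z + z').val) -
      MvPolynomial.aeval ![Ideal.Quotient.mk (Iw p w) (teichmuller p z.val),
        Ideal.Quotient.mk (Iw p w) (teichmuller p z'.val)] (FD p N h D) =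
        Ideal.Quotient.mk (Iw p w) (A - teichmuller p w * teichmuller p b) := by
    rw [map_sub, map_mul, mk_teich_of_dvd p w w dvd_rfl, zero_mul, sub_zero, hA, map_sub]
    congr 1
    have h5 := MvPolynomial.comp_aeval_apply (R := ℤ) (φ := (Ideal.Quotient.mk (Iw p w) :
        WittVector p (Ob K) →+* RQ p w).toIntAlgHom) (f := ![teichmuller p z.val,
          teichmuller p z'.val]) (FD p N h D)
    have h6 : (fun i => (Ideal.Quotient.mk (Iw p w) : WittVector p (Ob K) →+* RQ p w).toIntAlgHom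
          ((![teichmuller p z.val, teichmuller p z'.val] : Fin 2 → WittVector p (Ob K)) i)) =
          ![Ideal.Quotient.mk (Iw p w) (teichmuller p z.val),
        Ideal.Quotient.mk (Iw p w) (teichmuller p z'.val)] := by
      funext i
      fin_cases i <;> simp
    rw [h6] at h5
    exact h5.symm
  rw [h9]
  have h10 := map_dvd (Ideal.Quotient.mk (Iw p w)) h7
  rwa [map_natCast] at h10

theorem proot_mul_sub {O : Type*} [CommRing O] [CharP O p] [PerfectRing O p] (h i j : ℕ)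
    (hj : j ≤ i) (z : O) : proot p (h * j) z = proot p (h * i) z ^ (p ^ h) ^ (i - j) := by
  apply proot_of_pow_eq
  rw [← pow_mul, ← pow_mul, ← pow_add]
  have : h * (i - j) + h * j = h * i := by
    rw [← mul_add]; congr 1; omega
  rw [this, proot_pow_self]

/-- the partial sums of `Lp` in `RQ` -/
theorem mk_Lp_sub_mem (h : ℕ) (h1 : 1 ≤ h) (w z : Ob K) (i : ℕ) :
    (p : RQ p w) ^ (i + 1) ∣ Ideal.Quotient.mk (Iw p w) (Lp p h z) -
      ∑ j ∈ Finset.range (i + 1), (p : RQ p w) ^ (i - j) *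
        (Ideal.Quotient.mk (Iw p w) (teichmuller p (proot p (h * i) z))) ^ (p ^ h) ^ j := by
  have h2 := map_dvd (Ideal.Quotient.mk (Iw p w)) (Lp_sub_sum p h h1 z i)
  rw [map_pow, map_natCast, map_sub, map_sum] at h2
  convert h2 using 2
  rw [← Finset.sum_range_reflect]
  refine Finset.sum_congr rfl fun j hj => ?_
  have hj' : j ≤ i := Nat.lt_succ_iff.1 (Finset.mem_range.1 hj)
  have e1 : i - (i + 1 - 1 - j) = j := by omega
  have e2 : i + 1 - 1 - j = i - j := by omega
  rw [e1, e2, map_mul, map_pow, map_natCast, proot_mul_sub p h i j hj', map_pow, map_pow]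

theorem mk_Lp_add (N h : ℕ) (h1 : 1 ≤ h) (hN : h ≤ N) (w : Ob K) (hw : w ≠ 0)
    (z z' : FPt (hz p N (sp h : ℕ → Ob K))) (hz : w ∣ z.val ^ p ^ h) (hz' : w ∣ z'.val ^ p ^ h) :
    Ideal.Quotient.mk (Iw p w) (Lp p h (z + z').val - Lp p h z.val - Lp p h z'.val) = 0 := by
  have hp : p.Prime := Fact.out
  apply quot_teich_p_separated
  intro k
  rcases k with _ | i
  · rw [pow_zero]; exact one_dvd _
  set D := (p ^ h) ^ (i + 1) with hD
  set zi := rootPt p N h (h * i) z with hzi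
  set zi' := rootPt p N h (h * i) z' with hzi'
  have hc : proot p (h * i) (z + z').val = (zi + zi').val := rootPt_add p N h (h * i) z z'
  -- norms
  have hn : ∀ y : FPt (R227.hz p N (sp h : ℕ → Ob K)), w ∣ y.val ^ p ^ h →
      ‖(rootPt p N h (h * i) y).val‖ ^ D ≤ ‖w‖ := by
    intro y hy
    have h3 : (rootPt p N h (h * i) y).val ^ D = y.val ^ p ^ h := by
      rw [rootPt_val, hD, pow_succ, pow_mul, ← pow_mul p, proot_pow_self]
    rw [← Ob_norm_pow, h3]
    exact (Ob_dvd_iff _ _ hw).1 hy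
  set r := max ‖zi.val‖ ‖zi'.val‖ with hr
  have hrD : r ^ D ≤ ‖w‖ := by
    rcases max_choice ‖zi.val‖ ‖zi'.val‖ with h4 | h4
    · rw [hr, h4]; exact hn z hz
    · rw [hr, h4]; exact hn z' hz'
  have hr1 : r ≤ 1 := max_le (FPt.norm_lt_one zi).le (FPt.norm_lt_one zi').le
  have har : ‖zi.val‖ ≤ r := le_max_left _ _
  have hbr : ‖zi'.val‖ ≤ r := le_max_right _ _
  -- vanishing of the universal polynomial
  have hU := aeval_eq_zero_of_coeff p w zi.val zi'.val hw r har hbr hr1 D hrD (UP p N h i)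
    (coeff_UP p N h h1 hN i)
  have hC := teich_congr p N h w hw zi zi' r har hbr D hrD
  set mk := Ideal.Quotient.mk (Iw p w) with hmk
  set x := mk (teichmuller p zi.val) with hx
  set y := mk (teichmuller p zi'.val) with hy
  set f := mk (teichmuller p (zi + zi').val) with hf
  set G := MvPolynomial.aeval ![x, y] (FD p N h D) with hG
  have hU' : ∑ j ∈ Finset.range (i + 1), (p : RQ p w) ^ (i - j) *
      (G ^ (p ^ h) ^ j - x ^ (p ^ h) ^ j - y ^ (p ^ h) ^ j) = 0 := by
    rw [UP, map_sum] at hU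
    rw [← hU]
    refine Finset.sum_congr rfl fun j _ => ?_
    simp only [map_mul, map_pow, map_sub, map_natCast, MvPolynomial.aeval_X,
      Matrix.cons_val_zero, Matrix.cons_val_one]
    rfl
  have hS1 := mk_Lp_sub_mem p h h1 w (z + z').val i
  have hS2 := mk_Lp_sub_mem p h h1 w z.val i
  have hS3 := mk_Lp_sub_mem p h h1 w z'.val i
  rw [hc] at hS1
  have hS4 : (p : RQ p w) ^ (i + 1) ∣ ∑ j ∈ Finset.range (i + 1), (p : RQ p w) ^ (i - j) *
      (f ^ (p ^ h) ^ j - G ^ (p ^ h) ^ j) := by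
    refine Finset.dvd_sum fun j hj => ?_
    have hj' : j ≤ i := Nat.lt_succ_iff.1 (Finset.mem_range.1 hj)
    have h5 := dvd_sub_pow_of_dvd_sub hC (h * j)
    have h6 : (p : RQ p w) ^ (j + 1) ∣ f ^ (p ^ h) ^ j - G ^ (p ^ h) ^ j := by
      rw [← pow_mul]
      exact (pow_dvd_pow _ (by nlinarith)).trans h5
    have h7 : i + 1 = (i - j) + (j + 1) := by omega
    rw [h7, pow_add]
    exact mul_dvd_mul_left _ h6
  have hfin : mk (Lp p h (z + z').val - Lp p h z.val - Lp p h z'.val) =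
      (mk (Lp p h (z + z').val) - ∑ j ∈ Finset.range (i + 1), (p : RQ p w) ^ (i - j) *
        f ^ (p ^ h) ^ j) -
      (mk (Lp p h z.val) - ∑ j ∈ Finset.range (i + 1), (p : RQ p w) ^ (i - j) *
        x ^ (p ^ h) ^ j) -
      (mk (Lp p h z'.val) - ∑ j ∈ Finset.range (i + 1), (p : RQ p w) ^ (i - j) *
        y ^ (p ^ h) ^ j) +
      ∑ j ∈ Finset.range (i + 1), (p : RQ p w) ^ (i - j) *
        (f ^ (p ^ h) ^ j - G ^ (p ^ h) ^ j) +
      ∑ j ∈ Finset.range (i + 1), (p : RQ p w) ^ (i - j) *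
        (G ^ (p ^ h) ^ j - x ^ (p ^ h) ^ j - y ^ (p ^ h) ^ j) := by
    simp only [mul_sub, Finset.sum_sub_distrib, map_sub]
    ring
  rw [hfin, hU', add_zero]
  exact dvd_add (dvd_sub (dvd_sub hS1 hS2) hS3) hS4

theorem toRW_Lp_add (N h : ℕ) (h1 : 1 ≤ h) (hN : h ≤ N) (w : Ob K) (hw : w ≠ 0)
    (z z' : FPt (hz p N (sp h : ℕ → Ob K))) (hz : w ∣ z.val ^ p ^ h) (hz' : w ∣ z'.val ^ p ^ h) :
    toRW p w (Lp p h (z + z').val) = toRW p w (Lp p h z.val) + toRW p w (Lp p h z'.val) := by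
  have h2 := mk_Lp_add p N h h1 hN w hw z z' hz hz'
  have h3 : toRW p w (Lp p h (z + z').val - Lp p h z.val - Lp p h z'.val) = 0 := by
    rw [toRW, RingHom.comp_apply, h2, map_zero]
  rw [map_sub, map_sub, sub_sub, sub_eq_zero] at h3
  exact h3

/-- additivity, for the law `hz p N (sp h)` (logarithm `∑ p^{-i} X^{p^{hi}}`), `1 ≤ h ≤ N`. -/
theorem Lw_add (N h : ℕ) (h1 : 1 ≤ h) (hN : h ≤ N) (w : Ob K) (hw : w ≠ 0)
    (z z' : FPt (hz p N (sp h : ℕ → Ob K))) :
    Lw p h w (z + z').val = Lw p h w z.val + Lw p h w z'.val := by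
  obtain ⟨B1, hB1⟩ := exists_dvd_pow p h h1 w z.val hw (FPt.norm_lt_one z)
  obtain ⟨B2, hB2⟩ := exists_dvd_pow p h h1 w z'.val hw (FPt.norm_lt_one z')
  obtain ⟨B3, hB3⟩ := exists_dvd_pow p h h1 w (z + z').val hw (FPt.norm_lt_one (z + z'))
  set B := max B1 (max B2 B3) with hB
  have hb1 := dvd_pow_mono p h w z.val (show B1 + 1 ≤ B + 1 by omega) hB1
  have hb2 := dvd_pow_mono p h w z'.val (show B2 + 1 ≤ B + 1 by omega) hB2
  have hb3 := dvd_pow_mono p h w (z + z').val (show B3 + 1 ≤ B + 1 by omega) hB3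
  rw [Lw_eq p h h1 w _ B hb1, Lw_eq p h h1 w _ B hb2, Lw_eq p h h1 w _ B hb3, ← mul_add]
  congr 1
  have e : ∀ y : FPt (hz p N (sp h : ℕ → Ob K)), y.val ^ (p ^ h) ^ B =
      (frobPt p N h (h * B) y).val := by
    intro y
    rw [frobPt_val, pow_mul]
  rw [e, e, e, map_add]
  apply toRW_Lp_add p N h h1 hN w hw
  · rw [← e, ← pow_mul, ← pow_succ]; exact hb1
  · rw [← e, ← pow_mul, ← pow_succ]; exact hb2

/-- `L_h` as a homomorphism on points of the Honda law -/
def LwHom (N h : ℕ) (h1 : 1 ≤ h) (hN : h ≤ N) (w : Ob K) (hw : w ≠ 0) :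
    FPt (hz p N (sp h : ℕ → Ob K)) →+ RW p w :=
  AddMonoidHom.mk' (fun z => Lw p h w z.val) (Lw_add p N h h1 hN w hw)

theorem LwHom_apply (N h : ℕ) (h1 : 1 ≤ h) (hN : h ≤ N) (w : Ob K) (hw : w ≠ 0)
    (z : FPt (hz p N (sp h : ℕ → Ob K))) :
    LwHom p N h h1 hN w hw z = Lw p h w z.val := rfl

theorem Lw_neg (N h : ℕ) (h1 : 1 ≤ h) (hN : h ≤ N) (w : Ob K) (hw : w ≠ 0)
    (z : FPt (hz p N (sp h : ℕ → Ob K))) :
    Lw p h w (-z).val = -Lw p h w z.val := by
  simp only [← LwHom_apply p N h h1 hN w hw, map_neg]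

theorem Lw_zsmul (N h : ℕ) (h1 : 1 ≤ h) (hN : h ≤ N) (w : Ob K) (hw : w ≠ 0) (m : ℤ)
    (z : FPt (hz p N (sp h : ℕ → Ob K))) :
    Lw p h w (m • z).val = m * Lw p h w z.val := by
  rw [← LwHom_apply p N h h1 hN w hw, ← LwHom_apply p N h h1 hN w hw, map_zsmul, zsmul_eq_mul]

theorem Lw_sum (N h : ℕ) (h1 : 1 ≤ h) (hN : h ≤ N) (w : Ob K) (hw : w ≠ 0) {ι : Type*}
    (s : Finset ι) (z : ι → FPt (hz p N (sp h : ℕ → Ob K))) :
    Lw p h w (∑ i ∈ s, z i).val = ∑ i ∈ s, Lw p h w (z i).val := by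
  simp only [← LwHom_apply p N h h1 hN w hw, map_sum]

end Crest.Agent.R227
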